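import Vale.Agent.P269.Deg.Cur
import Vale.Agent.P269.Fock.Split
import Vale.Agent.P269.Inv.Full
import Vale.Agent.P269.Inv.Group

/-! The interface of the degeneration steps: cohomological data, series of invariants, the
geometric inputs `G1`, `G2`, `G3`, and the statements of the two steps. -/

namespace Vale.Agent.P269.Deg

open Fock Finset LinearMap

/-- A cohomology space with its parity and Poincare pairing. -/
structure Coh where
  H : Type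
  [acg : AddCommGroup H]
  [mod : Module ℂ H]
  [fd : FiniteDimensional ℂ H]
  p : Par ℂ H
  ι : Type
  [fi : Fintype ι]
  fr : Frame p ι

attribute [instance] Coh.acg Coh.mod Coh.fd Coh.fi

/-- A divisor; `c` is the product with the first Chern class of its normal bundle in the left
pieces. -/
structure Dv extends Coh where
  c : Module.End ℂ H
  hc : IsEv p p c

/-- A piece containing the divisor: `ε = 1` on the left, `ε = -1` on the right. -/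
structure Pz (D : Dv) (ε : ℂ) extends Coh where
  res : H →ₗ[ℂ] D.H
  gys : D.H →ₗ[ℂ] H
  hres : IsEv p D.p res
  hgys : IsEv D.p p gys
  adj : ∀ x t, fr.η (gys x) t = D.fr.η x (res t)
  res_gys : ∀ x, res (gys x) = ε • D.c x
  res_one : res fr.one = D.fr.one

/-- A cap: the restriction to the divisor is split, its kernel is parametrised by `Z` (classes
pushed forward from the far section). -/
structure Cz (D : Dv) (ε : ℂ) extends Pz D ε where
  Z : Type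
  [acgZ : AddCommGroup Z]
  [modZ : Module ℂ Z]
  pz : Par ℂ Z
  sec : D.H →ₗ[ℂ] H
  nul : Z →ₗ[ℂ] H
  prj : H →ₗ[ℂ] Z
  hsec : IsEv D.p p sec
  hnul : IsEv pz p nul
  hprj : IsEv p pz prj
  res_sec : ∀ u, res (sec u) = u
  res_nul : ∀ z, res (nul z) = 0
  split : ∀ t, sec (res t) + nul (prj t) = t

attribute [instance] Cz.acgZ Cz.modZ

/-- A smoothing of the union of two pieces: `H` is the cohomology of the general fibre, `W` that of
the total space. -/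
structure Sm {D : Dv} (Y1 : Pz D 1) (Y2 : Pz D (-1)) extends Coh where
  W : Type
  [acgW : AddCommGroup W]
  [modW : Module ℂ W]
  pw : Par ℂ W
  θ1 : W →ₗ[ℂ] Y1.H
  θ2 : W →ₗ[ℂ] Y2.H
  sp : W →ₗ[ℂ] H
  h1 : IsEv pw Y1.p θ1
  h2 : IsEv pw Y2.p θ2
  hsp : IsEv pw p sp
  mat : ∀ w, Y1.res (θ1 w) = Y2.res (θ2 w)
  mv : ∀ t1 t2, Y1.res t1 = Y2.res t2 → ∃ w, θ1 w = t1 ∧ θ2 w = t2
  int : ∀ w w', fr.η (sp w) (sp w') = Y1.fr.η (θ1 w) (θ1 w') + Y2.fr.η (θ2 w) (θ2 w')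
  one : ∃ w, θ1 w = Y1.fr.one ∧ θ2 w = Y2.fr.one ∧ sp w = fr.one

attribute [instance] Sm.acgW Sm.modW

/-- The insertions of labelled nodes: `single (m, n) 1` is a node with `ψ^m`, `ψ^n` at its two
branches. -/
abbrev NN : Type := ℕ × ℕ →₀ ℂ

/-- Descendant insertions and nodes. -/
noncomputable abbrev pT {H : Type} [AddCommGroup H] [Module ℂ H] (p : Par ℂ H) : Par ℂ (VV H × NN) :=
  (p.fs ℕ).prod (Par.triv ℂ NN)

/-- Descendant insertions, nodes and relative insertions: `single m a` in the last factor is a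
relative point of contact order `m + 1` with the class `a`. -/
noncomputable abbrev pR {H : Type} [AddCommGroup H] [Module ℂ H] (p : Par ℂ H) (D : Dv) :
    Par ℂ ((VV H × NN) × VV D.H) := (pT p).prod (D.p.fs ℕ)

section lin

variable {H H' : Type} [AddCommGroup H] [Module ℂ H] [AddCommGroup H'] [Module ℂ H']
  {p : Par ℂ H} {p' : Par ℂ H'}

/-- A linear map applied to the coefficients. -/
noncomputable abbrev vv (f : H →ₗ[ℂ] H') : VV H →ₗ[ℂ] VV H' := Finsupp.mapRange.linearMap f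

lemma isEv_vv {f : H →ₗ[ℂ] H'} (hf : IsEv p p' f) : IsEv (p.fs ℕ) (p'.fs ℕ) (vv f) := fun v => by
  ext m; simp [hf _]

/-- A linear map applied to the descendant insertions. -/
noncomputable abbrev lp (f : H →ₗ[ℂ] H') : VV H × NN →ₗ[ℂ] VV H' × NN := (vv f).prodMap .id

lemma isEv_lp {f : H →ₗ[ℂ] H'} (hf : IsEv p p' f) : IsEv (pT p) (pT p') (lp f) := fun v =>
  Prod.ext (isEv_vv hf v.1) rfl

variable (H) in
/-- The contact order. -/
noncomputable def enO : Module.End ℂ (VV H) :=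
  Finsupp.lsum ℂ fun m => ((m : ℂ) + 1) • Finsupp.lsingle m

/-- The tensor product of two functionals. -/
noncomputable def tp (F : S p →ₗ[ℂ] ℂ) (G : S p' →ₗ[ℂ] ℂ) : S (p.prod p') →ₗ[ℂ] ℂ :=
  (Fn.pull _ (isEv_fst p p') (Fn.of (SPar.triv ℂ ℂ) F) * Fn.pull _ (isEv_snd p p') (Fn.of _ G)).ap

/-- The defining property of the tensor product. -/
lemma tp_apply {F : S p →ₗ[ℂ] ℂ} (hF : ∀ x, F (par p x) = F x) {G : S p' →ₗ[ℂ] ℂ}
    (hG : ∀ y, G (par p' y) = G y) (x : S p) (y : S p') :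
    tp F G (Fock.map _ (isEv_inl p p') x * Fock.map _ (isEv_inr p p') y) = F x * G y := by
  have e1 : Fn.τ (Fn.of (SPar.triv ℂ ℂ) F) = Fn.of _ F := Fn.ext hF
  induction y using (parS p').induction with
  | hev y hy =>
    rw [← comm_ev (by rw [par_map]; exact congrArg _ hy)]
    exact (Fn.prod_ap (Fn.of (SPar.triv ℂ ℂ) F) (Fn.of _ G) x y).1 e1
  | hod y hy =>
    have h0 : G y = 0 := eq_zero_of_eq_neg (K := ℂ) (by rw [← map_neg, ← hy]; exact (hG y).symm)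
    have := (Fn.prod_ap (Fn.of (SPar.triv ℂ ℂ) F) (Fn.of _ G) (par p x) y).1 e1
    rw [comm_od (by rw [par_map, show par p' y = -y from hy, map_neg]), par_map, par_par] at this
    rw [h0, mul_zero]
    exact this.trans (by simp [h0])
  | hadd y z hy hz => simp only [map_add, mul_add, hy, hz]

end lin

/-- Invariants: `Z β j` for the curve class `β` and `j = g - 1` (possibly disconnected domains,
`g - 1 = - χ(O_C)`). -/
abbrev Ser (Γ : Type) {V : Type} [AddCommGroup V] [Module ℂ V] (p : Par ℂ V) : Type :=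
  Γ → ℤ → S p →ₗ[ℂ] ℂ

/-- The degree against an ample class, and the degree against the divisor on the right pieces. -/
structure Grd (Γ : Type) [AddCommGroup Γ] where
  deg : Γ →+ ℤ
  ξ : Γ →+ ℤ

variable {Γ : Type} [AddCommGroup Γ] (g : Grd Γ) {D : Dv}

/-- Basic properties of a series. -/
structure Ser.Ok {V : Type} [AddCommGroup V] [Module ℂ V] {p : Par ℂ V} (Z : Ser Γ p) : Prop where
  ev : ∀ β j x, Z β j (par p x) = Z β j x
  low : ∀ β x, ∃ J, ∀ j < J, Z β j x = 0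
  pos : ∀ β, Z β ≠ 0 → 0 ≤ g.deg β

/-- The invariants of a general fibre. -/
structure Ser.Abs {X : Coh} (Z : Ser Γ (pT X.p)) : Prop extends Z.Ok g where
  xi : ∀ β, Z β ≠ 0 → g.ξ β = 0
  fin : ∀ n, {β | g.deg β = n ∧ Z β ≠ 0}.Finite

/-- The splitting of a node. -/
def Ser.Node {X : Coh} (Z : Ser Γ (pT X.p)) : Prop :=
  ∀ β j m n x, Z β j (ι _ (0, Finsupp.single (m, n) 1) * x) = ∑ a, Z β (j - 1)
    (ι _ (Finsupp.single m (X.fr.e a), 0) * ι _ (Finsupp.single n (X.fr.f a), 0) * x)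

/-- The relative invariants of a left piece. -/
structure Ser.RelL {X : Coh} (F : Ser Γ (pR X.p D)) : Prop extends F.Ok g where
  en : ∀ β j x, F β j (dv _ ((0 : Module.End ℂ _).prodMap (enO D.H)) x) = -g.ξ β * F β j x
  fin : ∀ n e, {β | g.deg β = n ∧ g.ξ β = e ∧ F β ≠ 0}.Finite

/-- The relative invariants of a right piece. -/
structure Ser.RelR {X : Coh} (F : Ser Γ (pR X.p D)) : Prop extends F.Ok g where
  en : ∀ β j x, F β j (dv _ ((0 : Module.End ℂ _).prodMap (enO D.H)) x) = g.ξ β * F β j x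
  fin : ∀ n, {β | g.deg β = n ∧ F β ≠ 0}.Finite

section glue

variable {H1 H2 : Type} [AddCommGroup H1] [Module ℂ H1] [AddCommGroup H2] [Module ℂ H2]
  (p1 : Par ℂ H1) (p2 : Par ℂ H2) (D)

/-- One node on the divisor, of contact order `m + 1`. -/
noncomputable def gam (m : ℕ) : S ((pR p1 D).prod (pR p2 D)) :=
  ((m : ℂ) + 1) • ∑ a, ι _ ((0, Finsupp.single m (D.fr.e a)), 0) *
    ι _ (0, (0, Finsupp.single m (D.fr.f a)))

/-- `l` nodes on the divisor with total contact order `e`. -/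
noncomputable def Gam (l e : ℕ) : S ((pR p1 D).prod (pR p2 D)) :=
  (l.factorial : ℂ)⁻¹ • ∑ μ ∈ Fintype.piFinset fun _ : Fin l => range e with ∑ i, (μ i + 1) = e,
    (List.ofFn fun i => gam D p1 p2 (μ i)).prod

lemma isEv_ins : IsEv ((pT p1).prod (pT p2)) ((pR p1 D).prod (pR p2 D))
    ((inl ℂ _ _).prodMap (inl ℂ _ _)) := fun v => by simp

variable {D p1 p2}

/-- The right hand side of the degeneration formula. -/
noncomputable def glue (F : Ser Γ (pR p1 D)) (G : Ser Γ (pR p2 D)) (β : Γ) (j : ℤ)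
    (x : S ((pT p1).prod (pT p2))) : ℂ :=
  ∑ᶠ q : Γ × ℤ × ℕ, tp (F (β - q.1) (j - q.2.1 - q.2.2)) (G q.1 q.2.1)
    (Fock.map _ (isEv_ins D p1 p2) x * Gam D p1 p2 q.2.2 (g.ξ q.1).toNat)

end glue

section sm

variable {Y1 : Pz D 1} {Y2 : Pz D (-1)} (X : Sm Y1 Y2)

lemma Sm.isEv_θ : IsEv (pT X.pw) ((pT Y1.p).prod (pT Y2.p)) ((lp X.θ1).prod (lp X.θ2)) :=
  isEv_prod (isEv_lp X.h1) (isEv_lp X.h2)

lemma Sm.isEv_θ0 : IsEv (X.pw.fs ℕ) ((pT Y1.p).prod (pT Y2.p))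
    ((inl ℂ _ _ ∘ₗ vv X.θ1).prod (inl ℂ _ _ ∘ₗ vv X.θ2)) :=
  isEv_prod (isEv_comp (isEv_inl _ _) (isEv_vv X.h1)) (isEv_comp (isEv_inl _ _) (isEv_vv X.h2))

/-- **G1**, the degeneration formula. -/
def Sm.G1 (F : Ser Γ (pR Y1.p D)) (G : Ser Γ (pR Y2.p D)) (Z : Ser Γ (pT X.p)) : Prop :=
  ∀ β j x, g.ξ β = 0 →
    Z β j (Fock.map _ (isEv_lp X.hsp) x) = glue g F G β j (Fock.map _ X.isEv_θ x)

/-- The operators `A1`, `A2` specialise to `A` on the classes in `U`. -/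
def Sm.Rel (U : Submodule ℂ X.W) (A1 : Module.End ℂ Y1.H) (A2 : Module.End ℂ Y2.H)
    (A : Module.End ℂ X.H) : Prop :=
  ∀ w ∈ U, ∃ w', X.θ1 w' = A1 (X.θ1 w) ∧ X.θ2 w' = A2 (X.θ2 w) ∧ X.sp w' = A (X.sp w)

end sm

/-- **G2**. `F1` is the coefficient of the equivariant parameter in the relative invariants of the
left cap `P'`, for the torus that scales the fibres, the classes being lifted by `sec` and `nul`;
the push-forward of `a` is the lift of `gys a` plus `t λ` times the lift of `sec a`. -/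
def G2 {P' : Cz D 1} {P : Pz D (-1)} (X : Sm P'.toPz P) (F0 F1 : Ser Γ (pR P'.p D))
    (G : Ser Γ (pR P.p D)) (t : ℂ) : Prop :=
  ∀ β j m a x, g.ξ β = 0 →
    glue g F1 G β j (ι _ ((Finsupp.single m (P'.gys a), 0), (Finsupp.single m (-P.gys a), 0)) *
        Fock.map _ X.isEv_θ0 x) +
      t * glue g F0 G β j (ι _ ((Finsupp.single m (P'.sec a), 0), 0) * Fock.map _ X.isEv_θ0 x) = 0

lemma Cz.isEv_far {ε : ℂ} (P : Cz D ε) : IsEv ((P.pz.fs ℕ).prod (D.p.fs ℕ)) (pR P.p D)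
    ((inl ℂ _ _ ∘ₗ vv P.nul).prodMap .id) := fun v =>
  Prod.ext (Prod.ext (isEv_vv P.hnul v.1) rfl) rfl

lemma isEv_diag {V : Type} [AddCommGroup V] [Module ℂ V] (p : Par ℂ V) :
    IsEv p (p.prod p) (LinearMap.prod .id .id) := fun _ => rfl

/-- **G3**. `en` is the contact order (`-ξ` on the left, `ξ` on the right), `φ` the class of a line
in a fibre, `s` its degree, `C e` the connected invariants in the class `e φ` with insertions from
the far section. -/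
structure G3 {ε : ℂ} (P : Cz D ε) (F : Ser Γ (pR P.p D)) (en : Γ →+ ℤ) (s : ℕ) where
  φ : Γ
  en_φ : en φ = 1
  deg_φ : g.deg φ = s
  le : ∀ β, F β ≠ 0 → s * en β ≤ g.deg β
  eq : ∀ β, F β ≠ 0 → s * en β = g.deg β → β = en β • φ
  C : ℕ → ℤ → S ((P.pz.fs ℕ).prod (D.p.fs ℕ)) →ₗ[ℂ] ℂ
  C_ev : ∀ e j x, C e j (par _ x) = C e j x
  C_low : ∀ e j, j < -1 → C e j = 0
  C_en : ∀ e j x, C e j (dv _ ((0 : Module.End ℂ _).prodMap (enO D.H)) x) = e * C e j x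
  prod : ∀ (e : ℕ) j v x, F (e • φ) j (Fock.map _ P.isEv_far (ι _ v * x)) =
    ∑ q ∈ antidiagonal e, ∑ᶠ i : ℤ,
      tp (C q.1 i) (F (q.2 • φ) (j - i) ∘ₗ (Fock.map _ P.isEv_far).toLinearMap)
        (ι _ (v, 0) * Fock.map _ (isEv_diag _) x)
  norm : ∀ j ≤ 0, F 0 j 1 = if j = 0 then 1 else 0
  nd : ∀ y : VV D.H, (∀ x, (y.sum fun m a => C (m + 1) (-1)
    (ι _ (x, 0) * ι _ (0, Finsupp.single m a))) = 0) → y = 0

/-- The Virasoro constraints for the sums of the invariants over the classes of given degree. -/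
def VirD {X : Coh} (d : VD X.fr) (Z : Ser Γ (pT X.p)) : Prop :=
  ∀ n : ℤ, d.VirC fun j =>
    (∑ᶠ (β) (_ : g.deg β = n), Z β j) ∘ₗ (Fock.map _ (isEv_inl _ (Par.triv ℂ NN))).toLinearMap

/-- The grading and the logarithmic first Chern class of a piece are compatible with those of the
divisor. -/
structure Pz.Cmp {ε : ℂ} (Y : Pz D ε) (d : VD Y.fr) (dD : VD D.fr) : Prop where
  μ : ∀ t, Y.res (d.μ t) = dD.μ (Y.res t) - (1 / 2 : ℂ) • Y.res t
  ρ : ∀ t, Y.res (d.ρ t) = dD.ρ (Y.res t)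

/-- A smoothing with its invariants. -/
structure Smo {Y1 : Pz D 1} {Y2 : Pz D (-1)} (F : Ser Γ (pR Y1.p D)) (G : Ser Γ (pR Y2.p D)) where
  X : Sm Y1 Y2
  Z : Ser Γ (pT X.p)
  abs : Z.Abs g
  g1 : X.G1 g F G Z

/-- The Virasoro data of the pieces specialise to those of the general fibre. -/
structure Sm.RelD {Y1 : Pz D 1} {Y2 : Pz D (-1)} (X : Sm Y1 Y2) (d1 : VD Y1.fr) (d2 : VD Y2.fr)
    (d : VD X.fr) : Prop where
  μ : X.Rel ⊤ d1.μ d2.μ d.μ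
  ρ : X.Rel ⊤ d1.ρ d2.ρ d.ρ

variable (D) in
/-- The two caps of a divisor. -/
structure CapIn where
  P' : Cz D 1
  P : Cz D (-1)
  F' : Ser Γ (pR P'.p D)
  F : Ser Γ (pR P.p D)
  relL : F'.RelL g
  relR : F.RelR g
  g3L : G3 g P' F' (-g.ξ) 1
  g3R : G3 g P F g.ξ 1
  sm : Smo g F' F
  surj : Function.Surjective sm.X.sp

/-- Virasoro data on the caps. -/
structure CapIn.Vir (c : CapIn g D) (dD : VD D.fr) where
  d' : VD c.P'.fr
  d : VD c.P.fr
  dX : VD c.sm.X.fr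
  cmp' : c.P'.Cmp d' dD
  cmp : c.P.Cmp d dD
  rel : c.sm.X.RelD d' d dX
  vir : VirD g dX c.sm.Z

variable (D) in
/-- The input of the blow-up step: `D` is the exceptional divisor, `B` the blow-up, `Q` the
projective completion of the normal bundle of the centre. -/
structure BlIn where
  c : CapIn g D
  dD : VD D.fr
  v : c.Vir g dD
  B : Pz D 1
  FB : Ser Γ (pR B.p D)
  relB : FB.RelL g
  dB : VD B.fr
  cmpB : B.Cmp dB dD
  Q : Cz D (-1)
  FQ : Ser Γ (pR Q.p D)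
  relQ : FQ.RelR g
  dQ : VD Q.fr
  cmpQ : Q.Cmp dQ dD
  s : ℕ
  hs : 0 < s
  g3Q : G3 g Q FQ g.ξ s
  /- `Q ⇝ P' ∪ Q` -/
  sQ : Smo g c.F' FQ
  surjQ : Function.Surjective sQ.X.sp
  dQX : VD sQ.X.fr
  relQX : sQ.X.RelD v.d' dQ dQX
  virQ : VirD g dQX sQ.Z
  /- `X ⇝ B ∪ Q` -/
  sX : Smo g FB FQ
  surjX : Function.Surjective sX.X.sp
  dX : VD sX.X.fr
  relX : sX.X.RelD dB dQ dX
  virX : VirD g dX sX.Z
  /- `B ⇝ B ∪ P` -/
  sB : Smo g FB c.F
  surjB : Function.Surjective sB.X.sp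
  dBX : VD sB.X.fr
  relBX : sB.X.RelD dB v.d dBX

/-- The statement of the blow-up step. -/
def StepBl : Prop :=
  ∀ {Γ : Type} [AddCommGroup Γ] (g : Grd Γ) (D : Dv) (b : BlIn g D), VirD g b.dBX b.sB.Z

/-- `H = A ⊕ V`, `V` is of pure parity `ε` and killed by `ρ`; `μ` has the eigenvalues `l` on `V`. -/
structure Prim (X : Coh) (d : VD X.fr) (ε : ℂ) where
  A : Submodule ℂ X.H
  V : Submodule ℂ X.H
  form : Inv.IsForm X.fr.η V ε
  orth : ∀ a ∈ A, ∀ v ∈ V, X.fr.η a v = 0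
  sup : A ⊔ V = ⊤
  σA : ∀ a ∈ A, X.p.σ a = a
  σV : ∀ v ∈ V, X.p.σ v = ε • v
  one : X.fr.one ∈ A
  ρV : ∀ v ∈ V, d.ρ v = 0
  κ : Type
  [fκ : Fintype κ]
  e : κ → X.H
  f : κ → X.H
  l : κ → ℝ
  fr : Inv.Frame X.fr.η V e f
  dual : ∀ b, X.fr.η (e b) (f b) = 1
  eig : ∀ b, d.μ (e b) = (l b : ℂ) • e b
  μA : ∀ a ∈ A, d.μ a ∈ A

attribute [instance] Prim.fκ

variable (D) in
/-- The input of the double point step `X ⇝ Y1 ∪ Y2`. -/
structure DPIn where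
  c : CapIn g D
  nodeP : c.sm.Z.Node
  F1' : Ser Γ (pR c.P'.p D)
  rel1' : F1'.RelL g
  t : ℂ
  ht : t ≠ 0
  g2 : G2 g c.sm.X c.F' F1' c.F t
  ε : ℂ
  dD : VD D.fr
  prD : Prim D.toCoh dD (-ε)
  /- the constraints for the caps, for all conjugates of the grading of the divisor -/
  v : ∀ (d : VD D.fr), d.ρ = dD.ρ →
    (∃ h h', Inv.Isom D.fr.η prD.V h ∧ h * h' = 1 ∧ d.μ = h * dD.μ * h') → c.Vir g d
  /- the pieces -/
  Y1 : Pz D 1
  F1 : Ser Γ (pR Y1.p D)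
  rel1 : F1.RelL g
  d1 : VD Y1.fr
  cmp1 : Y1.Cmp d1 dD
  Y2 : Pz D (-1)
  F2 : Ser Γ (pR Y2.p D)
  rel2 : F2.RelR g
  d2 : VD Y2.fr
  cmp2 : Y2.Cmp d2 dD
  res1 : LinearMap.range Y1.res = prD.A
  res2 : LinearMap.range Y2.res ≤ prD.A
  /- `Y1 ⇝ Y1 ∪ P` -/
  s1 : Smo g F1 c.F
  node1 : s1.Z.Node
  surj1 : Function.Surjective s1.X.sp
  d1X : VD s1.X.fr
  rel1X : ∀ d h h', s1.X.RelD d1 (v d h h').d d1X
  vir1 : VirD g d1X s1.Z
  /- `Y2 ⇝ P' ∪ Y2` -/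
  s2 : Smo g c.F' F2
  node2 : s2.Z.Node
  surj2 : Function.Surjective s2.X.sp
  d2X : VD s2.X.fr
  rel2X : ∀ d h h', s2.X.RelD (v d h h').d' d2 d2X
  vir2 : VirD g d2X s2.Z
  /- `X ⇝ Y1 ∪ Y2` -/
  s : Smo g F1 F2
  node : s.Z.Node
  d : VD s.X.fr
  pr : Prim s.X.toCoh d ε
  amb : pr.A ≤ LinearMap.range s.X.sp
  relρ : s.X.Rel ⊤ d1.ρ d2.ρ d.ρ
  relμ : s.X.Rel (pr.A.comap s.X.sp) d1.μ d2.μ d.μ
  /- Hodge numbers -/
  hodge : ∀ k : ℕ, s.X.fr.str (d.μ ^ k) = Y1.fr.str (d1.μ ^ k) + Y2.fr.str (d2.μ ^ k) -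
    D.fr.str ((dD.μ - (1 / 2 : ℂ) • 1) ^ k) - D.fr.str ((dD.μ + (1 / 2 : ℂ) • 1) ^ k)
  lW : Multiset ℝ
  hlW : ∀ k : ℕ, ∑ b, pr.l b ^ k =
    (lW.map (· ^ k)).sum + ∑ b, ((prD.l b - 1 / 2) ^ k + (prD.l b + 1 / 2) ^ k)
  cases : (prD.V = ⊥ ∧ s.X.Rel ⊤ d1.μ d2.μ d.μ) ∨
    ((∃ x ∈ lW, x ≠ 0) ∧ ((ε = -1 ∧ ∀ b, pr.l b = 1 / 2 ∨ pr.l b = -1 / 2) ∨
      (5 ≤ Fintype.card pr.κ ∧
        ((∃ x ∈ lW, Fintype.card prD.κ * x ^ 2 ≠ ∑ b, (prD.l b ^ 2 + 1 / 4)) ∨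
          ∃ x ∈ lW, ∃ y ∈ lW, x ^ 2 ≠ y ^ 2)))) ∨
    (ε = -1 ∧ Fintype.card prD.κ = 1 ∧ lW = 0) ∨
    (ε = 1 ∧ Fintype.card prD.κ = 2 ∧ (∀ b, prD.l b = 1 / 2 ∨ prD.l b = -1 / 2) ∧
      (∀ x ∈ lW, x = 0) ∧ 5 ≤ Fintype.card pr.κ)
  /- monodromy -/
  inv : (∃ b, pr.l b ≠ 0) → ∀ h, Inv.Isom s.X.fr.η pr.V h → ∀ (he : IsEv s.X.p s.X.p h) β j x,
    s.Z β j (Fock.map _ (isEv_inl _ _) (Fock.map _ (isEv_vv he) x)) =
      s.Z β j (Fock.map _ (isEv_inl _ _) x)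

/-- The statement of the double point step. -/
def StepDP : Prop :=
  ∀ {Γ : Type} [AddCommGroup Γ] (g : Grd Γ) (D : Dv) (b : DPIn g D), VirD g b.d b.s.Z

end Vale.Agent.P269.Deg
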