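import Vale.Agent.P269.Deg.InA

/-! The product of a row and a column is the right hand side of the degeneration formula. -/

namespace Vale.Agent.P269.Deg

open Fock Finset LinearMap TensorProduct Fn

namespace InB

section gen

variable {V W : Type} [AddCommGroup V] [Module ℂ V] [AddCommGroup W] [Module ℂ W]
  (p : Par ℂ V) (q : Par ℂ W)

/-- The first inclusion. -/
noncomputable abbrev L : S p →ₐ[ℂ] S (p.prod q) := Fock.map _ (isEv_inl p q)

/-- The second inclusion. -/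
noncomputable abbrev R : S q →ₐ[ℂ] S (p.prod q) := Fock.map _ (isEv_inr p q)

variable {p q}

lemma R_L_ev {x : S p} (h : par p x = x) (y : S q) : R p q y * L p q x = L p q x * R p q y :=
  (comm_ev (by rw [par_map, h]) _).symm

lemma R_L_od {x : S p} (h : par p x = -x) (y : S q) :
    R p q y * L p q x = L p q x * R p q (par q y) := by
  rw [comm_od (y := L p q x) (by rw [par_map, h, map_neg]), par_map, par_par]

/-- The products span. -/
lemma ind {P : S (p.prod q) → Prop} (h : ∀ x y, P (L p q x * R p q y))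
    (hadd : ∀ a b, P a → P b → P (a + b)) (z : S (p.prod q)) : P z := by
  have key : z ∈ AddSubmonoid.closure {z | ∃ x y, z = L p q x * R p q y} := by
    have m : ∀ x y, L p q x * R p q y ∈ AddSubmonoid.closure {z | ∃ x y, z = L p q x * R p q y} :=
      fun x y => AddSubmonoid.subset_closure ⟨x, y, rfl⟩
    induction z using Fock.induction with
    | h1 => simpa using m 1 1
    | hι v z hz =>
      induction hz using AddSubmonoid.closure_induction with
      | mem z hz =>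
        obtain ⟨x, y, rfl⟩ := hz
        have e : Fock.ι (p.prod q) v = L p q (Fock.ι p v.1) + R p q (Fock.ι q v.2) := by
          simp [← map_add]
        rw [e, add_mul, ← mul_assoc, ← map_mul, ← mul_assoc]
        refine add_mem (m _ _) ?_
        induction x using (parS p).induction with
        | hev x hx => rw [R_L_ev hx, mul_assoc, ← map_mul]; exact m _ _
        | hod x hx => rw [R_L_od hx, mul_assoc, ← map_mul]; exact m _ _
        | hadd x x' hx hx' => rw [map_add, mul_add, add_mul]; exact add_mem hx hx'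
      | zero => rw [mul_zero]; exact zero_mem _
      | add a b _ _ ha hb => rw [mul_add]; exact add_mem ha hb
    | hadd x y hx hy => exact add_mem hx hy
    | hsmul c z hz =>
      induction hz using AddSubmonoid.closure_induction with
      | mem z hz =>
        obtain ⟨x, y, rfl⟩ := hz
        rw [← smul_mul_assoc, ← map_smul]
        exact m _ _
      | zero => rw [smul_zero]; exact zero_mem _
      | add a b _ _ ha hb => rw [smul_add]; exact add_mem ha hb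
  induction key using AddSubmonoid.closure_induction with
  | mem z hz => obtain ⟨x, y, rfl⟩ := hz; exact h x y
  | zero => simpa using h 0 0
  | add a b _ _ ha hb => exact hadd a b ha hb

lemma ind' {P : S (p.prod q) → Prop} (h : ∀ x y, P (R p q y * L p q x))
    (hadd : ∀ a b, P a → P b → P (a + b)) (z : S (p.prod q)) : P z := by
  refine ind (fun x y => ?_) hadd z
  induction x using (parS p).induction with
  | hev x hx => rw [← R_L_ev hx]; exact h _ _
  | hod x hx =>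
    have := h x (par q y)
    rwa [R_L_od hx, par_par] at this
  | hadd x x' hx hx' => rw [map_add, add_mul]; exact hadd _ _ hx hx'

lemma bx_ap {B : Type} [Ring B] [Algebra ℂ B] (T : S p →ₗ[ℂ] B) (U : S q →ₗ[ℂ] B) (x : S p)
    (y : S q) :
    (bx (Fn.of (SPar.triv ℂ B) T) (Fn.of _ U)).ap (L p q x * R p q y) = T x * U y := by
  rw [← cur_ap_ap, map_mul, cur_pull_fst, cur_pull_snd, mul_cst_ap, mapc_ap,
    AlgHom.toLinearMap_apply, cst_mul_ap (s := SPar.triv ℂ B) rfl]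
  rfl

lemma tp_ap (T : S p →ₗ[ℂ] ℂ) (U : S q →ₗ[ℂ] ℂ) (x : S p) (y : S q) :
    tp T U (L p q x * R p q y) = T x * U y := bx_ap T U x y

lemma tp_zero {T : S p →ₗ[ℂ] ℂ} {U : S q →ₗ[ℂ] ℂ} (h : T = 0 ∨ U = 0) (z : S (p.prod q)) :
    tp T U z = 0 := by
  induction z using ind with
  | h x y => rcases h with rfl | rfl <;> simp [tp_ap]
  | hadd a b ha hb => rw [map_add, ha, hb, add_zero]

/-- The tensor product of two functionals with values in Laurent series. -/
noncomputable def tK (T : S p →ₗ[ℂ] KK) (U : S q →ₗ[ℂ] KK) : S (p.prod q) →ₗ[ℂ] KK :=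
  (bx (Fn.of (SPar.triv ℂ KK) T) (Fn.of _ U)).ap

lemma tK_ap (T : S p →ₗ[ℂ] KK) (U : S q →ₗ[ℂ] KK) (x : S p) (y : S q) :
    tK T U (L p q x * R p q y) = T x * U y := bx_ap T U x y

lemma tK_mid {T : S p →ₗ[ℂ] KK} (hT : ∀ x, T (par p x) = T x) (U : S q →ₗ[ℂ] KK) (a b : S q)
    (x : S p) : tK T U (R p q a * L p q x * R p q b) = T x * U (a * b) := by
  induction x using (parS p).induction with
  | hev x hx => rw [R_L_ev hx, mul_assoc, ← map_mul, tK_ap]
  | hod x hx =>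
    have h0 : T x = 0 := eq_zero_of_eq_neg (K := ℂ) (by rw [← map_neg, ← hx]; exact (hT x).symm)
    rw [R_L_od hx, mul_assoc, ← map_mul, tK_ap, h0, zero_mul, zero_mul]
  | hadd x x' hx hx' => simp only [map_add, mul_add, add_mul, hx, hx']

variable {Z : ℤ → S p →ₗ[ℂ] ℂ} {Z' : ℤ → S q →ₗ[ℂ] ℂ}

lemma tp_fin (h : ∀ x, ∃ J, ∀ j < J, Z j x = 0) (h' : ∀ x, ∃ J, ∀ j < J, Z' j x = 0) (j : ℤ)
    (z : S (p.prod q)) : (Function.support fun i => tp (Z (j - i)) (Z' i) z).Finite := by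
  induction z using ind with
  | h x y =>
    obtain ⟨J, hJ⟩ := h x
    obtain ⟨J', hJ'⟩ := h' y
    refine (Set.finite_Icc J' (j - J)).subset fun i hi => ?_
    rw [Function.mem_support, tp_ap, mul_ne_zero_iff] at hi
    exact ⟨not_lt.1 fun k => hi.2 (hJ' i k), not_lt.1 fun k => hi.1 (hJ _ (by omega))⟩
  | hadd a b ha hb =>
    simp only [map_add]
    exact (ha.union hb).subset (Function.support_add _ _)

lemma tK_co (h : ∀ x, ∃ J, ∀ j < J, Z j x = 0) (h' : ∀ x, ∃ J, ∀ j < J, Z' j x = 0) (j : ℤ)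
    (z : S (p.prod q)) : (tK (lau Z h) (lau Z' h') z).co j = ∑ᶠ i, tp (Z (j - i)) (Z' i) z := by
  induction z using ind with
  | h x y =>
    rw [tK_ap, mul_comm]
    exact finsum_congr fun i => by rw [tp_ap, mul_comm]; rfl
  | hadd a b ha hb =>
    simp only [map_add]
    rw [finsum_add_distrib (tp_fin h h' j a) (tp_fin h h' j b), Hat.co_add, ha, hb]

lemma dv_map {a : Module.End ℂ V} {a' : Module.End ℂ W} (ha : IsEv p p a) (ha' : IsEv q q a')
    {f : V →ₗ[ℂ] W} (hf : IsEv p q f) (e : ∀ v, a' (f v) = f (a v)) (x : S p) :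
    dv q a' (Fock.map f hf x) = Fock.map f hf (dv p a x) := by
  induction x using Fock.induction with
  | h1 => simp
  | hι v x hx => simp [dv_mul ha, dv_mul ha', hx, e]
  | hadd x y hx hy => simp only [map_add, hx, hy]
  | hsmul c x hx => simp only [map_smul, hx]

lemma dv_LR {a : Module.End ℂ W} (ha : IsEv q q a) (x : S p) (y : S q) :
    dv _ ((0 : Module.End ℂ V).prodMap a) (L p q x * R p q y) = L p q x * R p q (dv q a y) := by
  have h : IsEv (p.prod q) (p.prod q) ((0 : Module.End ℂ V).prodMap a) := fun v => by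
    simp [ha v.2]
  rw [dv_mul h, dv_map (a := 0) (fun v => by simp) h _ (fun v => by simp),
    dv_map ha h _ fun v => by simp]
  simp

lemma co_hb (l : ℕ) (x : KK) (j : ℤ) : ((hb : KK) ^ l * x).co j = x.co (j - l) := by
  have : (hb : KK) ^ l = Hat.single ℂ l 1 := by
    induction l with
    | zero => rfl
    | succ l ih =>
      rw [pow_succ, ih]
      exact (Hat.single_mul _ _ _ _).trans (by simp)
  rw [this, Hat.co_single_mul, one_mul]

lemma finsum_pairs {Γ : Type} [AddCommGroup Γ] (c : Γ → Prop) (ψ : Γ → Γ → ℂ) (U : Finset (Γ × Γ))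
    (h1 : ∀ u ∈ U, c (u.1 + u.2)) (h2 : ∀ a b, c (a + b) → ψ a b ≠ 0 → (a, b) ∈ U) :
    ∑ᶠ (β) (_ : c β), ∑ᶠ b, ψ (β - b) b = ∑ u ∈ U, ψ u.1 u.2 := by
  classical
  let e : Γ × Γ ≃ Γ × Γ :=
    ⟨fun u => (u.1 + u.2, u.2), fun w => (w.1 - w.2, w.2), fun u => by simp, fun w => by simp⟩
  let f : Γ × Γ → ℂ := fun w => if c w.1 then ψ (w.1 - w.2) w.2 else 0
  have hs : Function.support (fun u => f (e u)) ⊆ U := fun u hu => by
    have hu : (if c (u.1 + u.2) then ψ (u.1 + u.2 - u.2) u.2 else 0) ≠ 0 := hu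
    rw [add_sub_cancel_right] at hu
    split_ifs at hu with hc
    · exact h2 _ _ hc hu
    · exact absurd rfl hu
  have hf : (Function.support f).Finite := by
    refine ((U.finite_toSet.subset hs).image e).subset fun w hw => ⟨e.symm w, ?_, by simp⟩
    simpa using hw
  have e1 : ∑ᶠ (β) (_ : c β), ∑ᶠ b, ψ (β - b) b = ∑ᶠ (β) (b), f (β, b) :=
    finsum_congr fun β => by by_cases hc : c β <;> simp [f, hc]
  rw [e1, ← finsum_curry f hf, ← finsum_comp_equiv e, finsum_eq_sum_of_support_subset _ hs]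
  refine sum_congr rfl fun u hu => ?_
  change (if c (u.1 + u.2) then ψ (u.1 + u.2 - u.2) u.2 else 0) = _
  rw [if_pos (h1 u hu), add_sub_cancel_right]

end gen

section ser

variable {Γ : Type} [AddCommGroup Γ] {g : Grd Γ} {D : Dv} {V W : Type} [AddCommGroup V]
  [Module ℂ V] [AddCommGroup W] [Module ℂ W] {p : Par ℂ V} {q : Par ℂ W}

lemma tot_co (Z : Ser Γ p) (h : Z.Ok g) (hf : Z.LF g) (n : ℕ) (x : S p) (j : ℤ) :
    (Z.tot h hf n x).co j = ∑ᶠ (β) (_ : g.deg β = n), Z β j x := rfl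

lemma slc_ap (T : S (p.prod q) →ₗ[ℂ] KK) (x : S p) (y : S q) :
    slc T x y = T (L p q x * R p q y) := rfl

lemma tot_eq (Z : Ser Γ p) (h : Z.Ok g) (hf : Z.LF g) (n : ℕ) (x : S p) (s : Finset Γ)
    (H : ∀ β j, Z β j x ≠ 0 → (g.deg β = n ↔ β ∈ s)) :
    Z.tot h hf n x = ∑ β ∈ s, lau (Z β) (h.low β) x := by
  ext j
  rw [tot_co, Hat.co_sum]
  exact finsum_cond_eq_sum_of_cond_iff _ fun hβ => H _ j hβ

lemma tot_par (Z : Ser Γ p) (h : Z.Ok g) (hf : Z.LF g) (n : ℕ) (x : S p) :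
    Z.tot h hf n (par p x) = Z.tot h hf n x := by
  ext j
  simp only [tot_co, h.ev]

lemma lau_par (Z : Ser Γ p) (h : Z.Ok g) (β : Γ) (x : S p) :
    lau (Z β) (h.low β) (par p x) = lau (Z β) (h.low β) x := by
  ext j
  simp only [lau_co, h.ev]

lemma en_eq {T : S (p.prod (D.p.fs ℕ)) →ₗ[ℂ] ℂ} {c : ℤ}
    (h : ∀ x, T (dv _ ((0 : Module.End ℂ V).prodMap (enO D.H)) x) = c * T x) {e : ℕ} {x : S p}
    {y : S (D.p.fs ℕ)} (hy : y ∈ En D.p e) (h0 : T (L _ _ x * R _ _ y) ≠ 0) : c = e := by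
  have := h (L _ _ x * R _ _ y)
  rw [dv_LR PairP.isEv_enO, PairP.mem_En.1 hy, map_smul, mul_smul_comm, map_smul,
    smul_eq_mul] at this
  exact_mod_cast (mul_right_cancel₀ h0 this).symm

lemma prE_sum {α : Type} (s : Finset α) (e : ℕ) {A B : S (D.p.fs ℕ) →ₗ[ℂ] KK}
    {a b : α → S (D.p.fs ℕ) →ₗ[ℂ] KK}
    (h : ∀ x ∈ En D.p e, ∀ y ∈ En D.p e, A x * B y = ∑ i ∈ s, a i x * b i y) :
    prE D.fr (hb : KK) e A B = ∑ i ∈ s, prE D.fr (hb : KK) e (a i) (b i) := by
  simp only [PairP.prE_eq]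
  rw [sum_comm]
  refine sum_congr rfl fun l _ => ?_
  rw [← mul_sum, PairP.ext_W D.fr (L := (PairP.B A B).ap) (L' := ∑ i ∈ s, (PairP.B (a i) (b i)).ap)
    (fun x hx y hy => by simp only [LinearMap.sum_apply, PairP.B_ap, h x hx y hy]) l,
    LinearMap.sum_apply]

variable {H1 H2 : Type} [AddCommGroup H1] [Module ℂ H1] [AddCommGroup H2] [Module ℂ H2]
  {p1 : Par ℂ H1} {p2 : Par ℂ H2}

/-- The part of energy `e` of the gluing. -/
noncomputable def pe (e : ℕ) (T : S (pR p1 D) →ₗ[ℂ] KK) (U : S (pR p2 D) →ₗ[ℂ] KK) :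
    S ((pT p1).prod (pT p2)) →ₗ[ℂ] KK :=
  ∑ l ∈ range (e + 1), (hb : KK) ^ l • (tK T U ∘ₗ mulRight ℂ (Gam D p1 p2 l e) ∘ₗ
    (Fock.map _ (isEv_ins D p1 p2)).toLinearMap)

lemma pe_ap (e : ℕ) (T : S (pR p1 D) →ₗ[ℂ] KK) (U : S (pR p2 D) →ₗ[ℂ] KK) (x) :
    pe e T U x = ∑ l ∈ range (e + 1), (hb : KK) ^ l *
      tK T U (Fock.map _ (isEv_ins D p1 p2) x * Gam D p1 p2 l e) := LinearMap.sum_apply _ _ _

variable (D p1 p2) in
lemma isEv_rel : IsEv ((D.p.fs ℕ).prod (D.p.fs ℕ)) ((pR p1 D).prod (pR p2 D))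
    ((inr ℂ _ _).prodMap (inr ℂ _ _)) := fun v => by simp

lemma map_map' {U : Type} [AddCommGroup U] [Module ℂ U] {r : Par ℂ U} {U' : Type} [AddCommGroup U']
    [Module ℂ U'] {r' : Par ℂ U'} {f : V →ₗ[ℂ] W} (hf : IsEv p q f) {k : W →ₗ[ℂ] U}
    (hk : IsEv q r k) {f' : V →ₗ[ℂ] U'} (hf' : IsEv p r' f') {k' : U' →ₗ[ℂ] U} (hk' : IsEv r' r k')
    (e : ∀ v, k (f v) = k' (f' v)) (x : S p) :
    Fock.map k hk (Fock.map f hf x) = Fock.map k' hk' (Fock.map f' hf' x) :=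
  DFunLike.congr_fun (hom_ext (f := (Fock.map k hk).comp (Fock.map f hf))
    (g := (Fock.map k' hk').comp (Fock.map f' hf')) fun v => by simp [e]) x

lemma pe_eq (e : ℕ) {T : S (pR p1 D) →ₗ[ℂ] KK} (hT : ∀ x, T (par _ x) = T x)
    (U : S (pR p2 D) →ₗ[ℂ] KK) (x1 : S (pT p1)) (x2 : S (pT p2)) :
    pe e T U (R _ _ x2 * L _ _ x1) = prE D.fr (hb : KK) e (slc T x1) (slc U x2) := by
  rw [pe_ap, PairP.prE_eq]
  refine sum_congr rfl fun l _ => congrArg _ ?_
  rw [Gam_eq p1 p2 (isEv_rel _ _ _)]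
  refine PairP.ext_W D.fr (L := tK T U ∘ₗ mulLeft ℂ (Fock.map _ (isEv_ins D p1 p2)
    (R _ _ x2 * L _ _ x1)) ∘ₗ (Fock.map _ (isEv_rel D p1 p2)).toLinearMap)
    (fun y1 _ y2 _ => ?_) l
  rw [PairP.B_ap, slc_ap, slc_ap, ← tK_mid hT]
  simp only [comp_apply, AlgHom.toLinearMap_apply, mulLeft_apply, map_mul, mul_assoc]
  rw [map_map' (isEv_inr _ _) (isEv_ins D p1 p2) (isEv_inl _ _) (isEv_inr _ _) fun v => by simp,
    map_map' (isEv_inl _ _) (isEv_ins D p1 p2) (isEv_inl _ _) (isEv_inl _ _) fun v => by simp,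
    map_map' (isEv_inl _ _) (isEv_rel D p1 p2) (isEv_inr _ _) (isEv_inl _ _) fun v => by simp,
    map_map' (isEv_inr _ _) (isEv_rel D p1 p2) (isEv_inr _ _) (isEv_inr _ _) fun v => by simp]

lemma pe_co (e : ℕ) {Z : ℤ → S (pR p1 D) →ₗ[ℂ] ℂ} {Z' : ℤ → S (pR p2 D) →ₗ[ℂ] ℂ}
    (h : ∀ x, ∃ J, ∀ j < J, Z j x = 0) (h' : ∀ x, ∃ J, ∀ j < J, Z' j x = 0) (x) (j : ℤ) :
    (pe e (lau Z h) (lau Z' h') x).co j = ∑ᶠ (i : ℤ) (l : ℕ),
      tp (Z (j - i - l)) (Z' i) (Fock.map _ (isEv_ins D p1 p2) x * Gam D p1 p2 l e) := by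
  rw [pe_ap, Hat.co_sum]
  simp only [co_hb, tK_co]
  rw [sum_finsum_comm _ _ fun l _ => tp_fin h h' _ _]
  refine finsum_congr fun i => ?_
  rw [finsum_eq_sum_of_support_subset (s := range (e + 1))]
  · exact sum_congr rfl fun l _ => by rw [sub_right_comm]
  · intro l hl
    by_contra hn
    exact Function.mem_support.1 hl (by
      rw [Gam_eq p1 p2 (isEv_rel _ _ _), Gam0_of_lt _ (by simpa using hn), map_zero, mul_zero, map_zero])

variable {X X' : Coh} {F : Ser Γ (pR X.p D)} {G : Ser Γ (pR X'.p D)}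

lemma fin_R (hG : G.RelR g) (n : ℤ) : {β | g.deg β ≤ n ∧ G β ≠ 0}.Finite :=
  ((Set.finite_Icc 0 n).biUnion fun m _ => hG.fin m).subset fun β hβ =>
    Set.mem_biUnion (x := g.deg β) ⟨hG.pos β hβ.2, hβ.1⟩ ⟨rfl, hβ.2⟩

lemma fin_U (hF : F.RelL g) (hG : G.RelR g) (n : ℤ) : {u : Γ × Γ |
    (g.deg (u.1 + u.2) = n ∧ g.ξ (u.1 + u.2) = 0) ∧ F u.1 ≠ 0 ∧ G u.2 ≠ 0}.Finite := by
  refine ((fin_R hG n).biUnion fun b _ =>
    (hF.fin (n - g.deg b) (-g.ξ b)).prod (Set.finite_singleton b)).subset ?_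
  rintro ⟨a, b⟩ ⟨⟨h1, h2⟩, h3, h4⟩
  have := hF.pos a h3
  rw [map_add] at h1 h2
  exact Set.mem_biUnion (x := b) ⟨by simp only at h1; omega, h4⟩
    ⟨⟨by simp only at h1 ⊢; omega, by simp only at h2 ⊢; omega, h3⟩, rfl⟩

/-- The contribution of a pair of classes. -/
noncomputable def φ (hF : F.RelL g) (hG : G.RelR g) (a b : Γ) :
    S ((pT X.p).prod (pT X'.p)) →ₗ[ℂ] KK :=
  pe (g.ξ b).toNat (lau (F a) (hF.low a)) (lau (G b) (hG.low b))

lemma glue_eq (hF : F.RelL g) (hG : G.RelR g) (β : Γ) (j : ℤ) (x) :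
    glue g F G β j x = ∑ᶠ b, (φ hF hG (β - b) b x).co j := by
  simp only [φ, pe_co]
  refine finsum_curry₃ _ (((fin_R hG (g.deg β)).biUnion fun b _ =>
    (Set.finite_Iic (g.ξ b).toNat).biUnion fun l _ => (tp_fin (hF.low (β - b)) (hG.low b) (j - l)
      (Fock.map _ (isEv_ins D X.p X'.p) x * Gam D X.p X'.p l (g.ξ b).toNat)).image
        fun i => (b, i, l)).subset ?_)
  rintro ⟨b, i, l⟩ h
  rw [Function.mem_support] at h
  simp only at h
  have h1 : F (β - b) ≠ 0 := fun h0 => h (tp_zero (Or.inl (by rw [h0]; rfl)) _)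
  have h2 : G b ≠ 0 := fun h0 => h (tp_zero (Or.inr (by rw [h0]; rfl)) _)
  have h3 := hF.pos _ h1
  rw [map_sub] at h3
  refine Set.mem_biUnion (x := b) ⟨by omega, h2⟩ (Set.mem_biUnion (x := l) ?_ ⟨i, ?_, rfl⟩)
  · by_contra hn
    exact h (by
      rw [Gam_eq _ _ (isEv_rel _ _ _), Gam0_of_lt _ (by simpa using hn), map_zero, mul_zero, map_zero])
  · rwa [Function.mem_support, sub_right_comm]

lemma sum_glue (hF : F.RelL g) (hG : G.RelR g) (n j : ℤ) (x) :
    ∑ᶠ (β) (_ : g.deg β = n ∧ g.ξ β = 0), glue g F G β j x =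
      (∑ u ∈ (fin_U hF hG n).toFinset, φ hF hG u.1 u.2 x).co j := by
  simp only [glue_eq hF hG, Hat.co_sum]
  refine finsum_pairs _ (fun a b => (φ hF hG a b x).co j) _
    (fun u hu => ((fin_U hF hG n).mem_toFinset.1 hu).1) fun a b hc h =>
      (fin_U hF hG n).mem_toFinset.2 ⟨hc, fun h0 => h ?_, fun h0 => h ?_⟩
  · rw [φ, pe_co]
    simp only [show F a = 0 from h0, Pi.zero_apply, tp_zero (Or.inl rfl), finsum_zero]
  · rw [φ, pe_co]
    simp only [show G b = 0 from h0, Pi.zero_apply, tp_zero (Or.inr rfl), finsum_zero]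

lemma lau_ne {Z : ℤ → V →ₗ[ℂ] ℂ} {h : ∀ x, ∃ J, ∀ j < J, Z j x = 0} {x : V} (h0 : lau Z h x ≠ 0) :
    ∃ j, Z j x ≠ 0 := by
  by_contra hn
  exact h0 (Hat.ext (funext fun j => not_not.1 fun k => hn ⟨j, k⟩))

lemma enL (hF : F.RelL g) {β : Γ} {j : ℤ} {e : ℕ} {x : S (pT X.p)} {y : S (D.p.fs ℕ)}
    (hy : y ∈ En D.p e) (h0 : F β j (L _ _ x * R _ _ y) ≠ 0) : -g.ξ β = e :=
  en_eq (fun x => by simpa using hF.en β j x) hy h0

lemma enR (hG : G.RelR g) {β : Γ} {j : ℤ} {e : ℕ} {x : S (pT X'.p)} {y : S (D.p.fs ℕ)}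
    (hy : y ∈ En D.p e) (h0 : G β j (L _ _ x * R _ _ y) ≠ 0) : g.ξ β = e :=
  en_eq (hG.en β j) hy h0

omit [AddCommGroup Γ] in
lemma ne_of_ap {Z : Ser Γ p} {β : Γ} {j : ℤ} {x : S p} (h : Z β j x ≠ 0) : Z β ≠ 0 :=
  fun h0 => h (by rw [h0]; rfl)

open Classical in
lemma prE_tot (hF : F.RelL g) (hG : G.RelR g) {n : ℕ} {r : ℕ × ℕ} (hr : r.1 + r.2 = n) (e : ℕ)
    (x1 : S (pT X.p)) (x2 : S (pT X'.p)) :
    prE D.fr (hb : KK) e (slc (F.tot hF.toOk hF.lf r.1) x1) (slc (G.tot hG.toOk hG.lf r.2) x2) =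
      ∑ u ∈ (fin_U hF hG n).toFinset with ((g.deg u.1).toNat, (g.deg u.2).toNat) = r,
        prE D.fr (hb : KK) e (slc (lau (F u.1) (hF.low _)) x1) (slc (lau (G u.2) (hG.low _)) x2) := by
  refine prE_sum _ e fun y1 h1 y2 h2 => ?_
  simp only [slc_ap]
  rw [tot_eq F _ _ _ _ (hF.fin r.1 (-e)).toFinset fun β j h => ?_,
    tot_eq G _ _ _ _ ((hG.fin r.2).toFinset.filter fun β => g.ξ β = e) fun β j h => ?_,
    sum_mul_sum, ← sum_product']
  · refine sum_subset (fun u hu => ?_) fun u hu hn => ?_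
    · simp only [mem_product, mem_filter, Set.Finite.mem_toFinset, Set.mem_ofPred_eq, map_add,
        Prod.ext_iff] at hu ⊢
      exact ⟨⟨by omega, hu.1.2.2, hu.2.1.2⟩, by omega⟩
    · by_contra h0
      obtain ⟨j, hj⟩ := lau_ne (left_ne_zero_of_mul h0)
      obtain ⟨j', hj'⟩ := lau_ne (right_ne_zero_of_mul h0)
      have e1 := enL hF h1 hj
      have e2 := enR hG h2 hj'
      have e3 := hF.pos _ (ne_of_ap hj)
      have e4 := hG.pos _ (ne_of_ap hj')
      simp only [mem_product, mem_filter, Set.Finite.mem_toFinset, Set.mem_ofPred_eq, map_add,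
        Prod.ext_iff] at hu hn
      exact hn ⟨⟨by omega, by omega, hu.1.2.1⟩, ⟨by omega, hu.1.2.2⟩, e2⟩
  · simp only [mem_filter, Set.Finite.mem_toFinset, Set.mem_ofPred_eq]
    exact ⟨fun k => ⟨⟨k, ne_of_ap h⟩, enR hG h2 h⟩, fun k => k.1.1⟩
  · have := enL hF h1 h
    simp only [Set.Finite.mem_toFinset, Set.mem_ofPred_eq]
    exact ⟨fun k => ⟨k, by omega, ne_of_ap h⟩, fun k => k.1⟩

lemma bx_eq (y : Sys D) (hF : F.RelL g) (hG : G.RelR g) (x) :
    (bx (y.row F hF) (y.col G hG)).ap x =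
      cor _ fun n : ℕ => ∑ u ∈ (fin_U hF hG n).toFinset, φ hF hG u.1 u.2 x := by
  classical
  induction x using ind' with
  | hadd a b ha hb =>
    rw [map_add, ha, hb, ← map_add]
    exact congrArg _ (funext fun n => by simp only [Pi.add_apply, map_add, sum_add_distrib])
  | h x1 x2 =>
    obtain ⟨c, hc, hc'⟩ := y.col_ap G hG x2
    rw [(prod_ap _ _ x1 x2).1 (y.row_ev F hF), y.row_ap, hc, row_mul_col]
    refine congrArg _ (funext fun n => ?_)
    have hN : ∀ b, g.deg b ≤ n → G b ≠ 0 →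
        (g.ξ b).toNat < (fin_R hG n).toFinset.sup (fun b => (g.ξ b).toNat) + 1 := fun b h1 h2 =>
      Nat.lt_succ_of_le (le_sup (f := fun b => (g.ξ b).toNat)
        ((fin_R hG n).mem_toFinset.2 ⟨h1, h2⟩))
    rw [← sum_fiberwise_of_maps_to (t := antidiagonal n)
      (g := fun u : Γ × Γ => ((g.deg u.1).toNat, (g.deg u.2).toNat)) fun u hu => ?_]
    · refine sum_congr rfl fun r hr => ?_
      have hr := mem_antidiagonal.1 hr
      rw [y.pr_eq _ _ ((fin_R hG n).toFinset.sup (fun b => (g.ξ b).toNat) + 1) fun e he z hz => ?_,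
        hc']
      · simp only [prE_tot hF hG hr]
        rw [sum_comm]
        refine sum_congr rfl fun u hu => ?_
        have hu := (fin_U hF hG n).mem_toFinset.1 (mem_filter.1 hu).1
        rw [φ, pe_eq _ (lau_par F hF.toOk _), sum_eq_single_of_mem (g.ξ u.2).toNat]
        · have := hF.pos _ hu.2.1
          have h1 := hu.1.1
          rw [map_add] at h1
          exact mem_range.2 (hN _ (by omega) hu.2.2)
        · refine fun e _ he => PairP.prE_zero _ _ _ fun _ _ z hz => mul_eq_zero_of_right _ ?_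
          by_contra h0
          obtain ⟨j, hj⟩ := lau_ne h0
          have := enR hG hz hj
          omega
      · rw [hc', slc_ap, tot_eq G _ _ _ _ ∅ fun β j h => ⟨fun k => ?_, fun k => by simp at k⟩,
          sum_empty]
        have := hN β (by omega) (ne_of_ap h)
        have := enR hG hz h
        omega
    · have hu := (fin_U hF hG n).mem_toFinset.1 hu
      have := hF.pos _ hu.2.1
      have := hG.pos _ hu.2.2
      have h1 := hu.1.1
      rw [map_add] at h1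
      exact mem_antidiagonal.2 (by simp only; omega)

end ser

end InB

open InB

variable {Γ : Type} [AddCommGroup Γ] {g : Grd Γ} {D : Dv} {X : Coh} (y : Sys D)

theorem Sys.glue {X' : Coh} (F : Ser Γ (pR X.p D)) (hF : F.RelL g) (G : Ser Γ (pR X'.p D))
    (hG : G.RelR g) (x) : ∃ c : ℕ → KK, (bx (y.row F hF) (y.col G hG)).ap x = cor _ c ∧
      (∀ n j, (c n).co j = ∑ᶠ (β) (_ : g.deg β = n ∧ g.ξ β = 0), glue g F G β j x) :=
  ⟨_, bx_eq y hF hG x, fun n j => (sum_glue hF hG n j x).symm⟩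

theorem Sys.g1 {Y1 : Pz D 1} {Y2 : Pz D (-1)} (X : Sm Y1 Y2) {F : Ser Γ (pR Y1.p D)}
    {G : Ser Γ (pR Y2.p D)} {Z : Ser Γ (pT X.p)} (hF : F.RelL g) (hG : G.RelR g)
    (hZ : Z.Abs g) (h : X.G1 g F G Z) :
    pull _ (isEv_lp X.hsp) (y.ab Z hZ) = pull _ X.isEv_θ (bx (y.row F hF) (y.col G hG)) := by
  ext x : 1
  obtain ⟨c, hc, hc'⟩ := y.glue F hF G hG (Fock.map _ X.isEv_θ x)
  rw [pull_ap, pull_ap, hc, y.ab_ap]
  refine congrArg _ (funext fun n => Hat.ext (funext fun j => ?_))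
  rw [hc', tot_co]
  refine finsum_congr fun β => ?_
  by_cases h0 : g.ξ β = 0
  · simp only [h0, and_true, h β j x h0]
  · have : Z β = 0 := not_not.1 fun k => h0 (hZ.xi β k)
    simp [h0, this]

theorem Sys.g2 {P' : Cz D 1} {P : Pz D (-1)} (X : Sm P'.toPz P) {F0 F1 : Ser Γ (pR P'.p D)}
    {G : Ser Γ (pR P.p D)} (h0 : F0.RelL g) (h1 : F1.RelL g) (hG : G.RelR g) {t : ℂ}
    (h : G2 g X F0 F1 G t) (v : VV D.H) :
    pull _ X.isEv_θ0 (Fn.D ((vv P'.gys v, 0), (-vv P.gys v, 0)) (bx (y.row F1 h1) (y.col G hG)) +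
      t • Fn.D ((vv P'.sec v, 0), 0) (bx (y.row F0 h0) (y.col G hG))) = 0 := by
  ext x : 1
  rw [pull_ap, add_ap, smul_ap, D_ap, D_ap, zero_ap]
  induction v using Finsupp.induction_linear with
  | zero => simp [Prod.mk_zero_zero]
  | add a b ha hb =>
    have e1 : ((vv P'.gys (a + b), (0 : NN)), (-vv P.gys (a + b), (0 : NN))) =
        ((vv P'.gys a, 0), (-vv P.gys a, 0)) + ((vv P'.gys b, 0), (-vv P.gys b, 0)) := by
      simp only [map_add, neg_add, Prod.mk_add_mk, add_zero]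
    have e2 : ((vv P'.sec (a + b), (0 : NN)), (0 : VV P.H × NN)) =
        ((vv P'.sec a, 0), 0) + ((vv P'.sec b, 0), 0) := by
      simp only [map_add, Prod.mk_add_mk, add_zero]
    rw [e1, e2, map_add, map_add, add_mul, add_mul, map_add, map_add, smul_add,
      add_add_add_comm, ha, hb, add_zero]
  | single m a =>
    obtain ⟨c, hc, hc'⟩ := y.glue F1 h1 G hG (Fock.ι _ ((Finsupp.single m (P'.gys a), 0),
      (Finsupp.single m (-P.gys a), 0)) * Fock.map _ X.isEv_θ0 x)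
    obtain ⟨d, hd, hd'⟩ := y.glue F0 h0 G hG (Fock.ι _ ((Finsupp.single m (P'.sec a), 0), 0) *
      Fock.map _ X.isEv_θ0 x)
    simp only [Finsupp.mapRange.linearMap_apply, Finsupp.mapRange_single, ← Finsupp.single_neg]
    rw [hc, hd, ← LinearMap.map_smul_of_tower, ← map_add, ← map_zero (cor y.F)]
    refine congrArg _ (funext fun n => Hat.ext (funext fun j => ?_))
    rw [Pi.add_apply, Hat.co_add, Pi.smul_apply, Hat.co_smul, hc', hd', smul_eq_mul, mul_finsum,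
      add_eq_zero_iff_eq_neg.2 ?_]
    · rfl
    rw [← finsum_neg_distrib]
    refine finsum_congr fun β => ?_
    by_cases k : g.deg β = n ∧ g.ξ β = 0
    · simpa [k, add_eq_zero_iff_eq_neg] using h β j m a x k.2
    · simp [k]

end Vale.Agent.P269.Deg
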