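import Vale.Agent.P269.Fock.Der

/-! Formal functions on a super vector space with values in a noncommutative superalgebra. -/

namespace Vale.Agent.P269.Deg

open Fock

/-- A parity automorphism of an algebra. -/
structure SPar (K B : Type*) [CommRing K] [Ring B] [Algebra K B] where
  σ : B →ₐ[K] B
  inv : ∀ b, σ (σ b) = b

variable {K : Type*} [CommRing K] {V W : Type*} [AddCommGroup V] [Module K V]
  [AddCommGroup W] [Module K W] {B B' : Type*} [Ring B] [Algebra K B] [Ring B'] [Algebra K B']

/-- Coinductive construction of functionals on `S p`. -/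
theorem exists_unfold {p : Par K V} {G N : Type*} [AddCommGroup G] [Module K G] [AddCommGroup N]
    [Module K N] (d : V →ₗ[K] Module.End K G) (hd : SC p d) (ε : G →ₗ[K] N) :
    ∃ Φ : G →ₗ[K] S p →ₗ[K] N, (∀ g, Φ g 1 = ε g) ∧ ∀ g v x, Φ g (ι p v * x) = Φ (d v g) x := by
  let α : V →ₗ[K] Module.End K (G →ₗ[K] N) :=
    { toFun := fun v => LinearMap.lcomp K N (d v)
      map_add' := fun v w => by ext F g; simp
      map_smul' := fun c v => by ext F g; simp }
  have hα : ∀ v F g, α v F g = F (d v g) := fun _ _ _ => rfl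
  have hs : SC p α := by
    constructor
    · intro v w h
      ext F g
      simp only [Module.End.mul_apply, hα]
      rw [← Module.End.mul_apply, ← hd.ev v w h, Module.End.mul_apply]
    · intro v w hv hw
      ext F g
      simp only [Module.End.mul_apply, hα, LinearMap.neg_apply]
      rw [← Module.End.mul_apply, hd.od w v hw hv, LinearMap.neg_apply, map_neg,
        Module.End.mul_apply]
  refine ⟨(LinearMap.applyₗ ε ∘ₗ (lift α hs).toLinearMap).flip, fun g => by simp, fun g v x => ?_⟩
  simp [hα]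

/-- Formal functions on the super vector space `(V, p)` with values in `(B, s)`. -/
def Fn (p : Par K V) (_s : SPar K B) : Type _ := S p →ₗ[K] B

variable {p : Par K V} {q : Par K W} {s : SPar K B} {s' : SPar K B'}

noncomputable instance : AddCommGroup (Fn p s) := inferInstanceAs (AddCommGroup (S p →ₗ[K] B))

noncomputable instance : Module K (Fn p s) := inferInstanceAs (Module K (S p →ₗ[K] B))

namespace Fn

/-- The underlying functional. -/
def ap (F : Fn p s) : S p →ₗ[K] B := F

/-- A functional as a formal function. -/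
def of (s : SPar K B) (F : S p →ₗ[K] B) : Fn p s := F

@[simp] lemma ap_of (F : S p →ₗ[K] B) : (of s F).ap = F := rfl

@[ext] lemma ext {F G : Fn p s} (h : ∀ x, F.ap x = G.ap x) : F = G := LinearMap.ext h

@[simp] lemma add_ap (F G : Fn p s) (x : S p) : (F + G).ap x = F.ap x + G.ap x := rfl
@[simp] lemma sub_ap (F G : Fn p s) (x : S p) : (F - G).ap x = F.ap x - G.ap x := rfl
@[simp] lemma neg_ap (F : Fn p s) (x : S p) : (-F).ap x = -F.ap x := rfl
@[simp] lemma zero_ap (x : S p) : (0 : Fn p s).ap x = 0 := rfl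
@[simp] lemma smul_ap (c : K) (F : Fn p s) (x : S p) : (c • F).ap x = c • F.ap x := rfl

lemma sum_ap {α : Type*} (t : Finset α) (F : α → Fn p s) (x : S p) :
    (∑ i ∈ t, F i).ap x = ∑ i ∈ t, (F i).ap x := LinearMap.sum_apply t F x

/-- Precomposition with an endomorphism of `S p`. -/
noncomputable def pre (X : Module.End K (S p)) : Module.End K (Fn p s) := LinearMap.lcomp K B X

@[simp] lemma pre_ap (X : Module.End K (S p)) (F : Fn p s) (x : S p) :
    (pre X F).ap x = F.ap (X x) := rfl

/-- The derivative along an element of `S p`. -/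
noncomputable def Dx : S p →ₗ[K] Module.End K (Fn p s) where
  toFun y := pre (LinearMap.mulLeft K y)
  map_add' y z := by ext F x; simp [add_mul]
  map_smul' c y := by ext F x; simp

@[simp] lemma Dx_ap (y : S p) (F : Fn p s) (x : S p) : (Dx y F).ap x = F.ap (y * x) := rfl

lemma Dx_mul (y z : S p) (F : Fn p s) : Dx (y * z) F = Dx z (Dx y F) := by
  ext x; simp [mul_assoc]

@[simp] lemma Dx_one (F : Fn p s) : Dx 1 F = F := by ext x; simp

/-- The derivative in the direction `v`. -/
noncomputable def D : V →ₗ[K] Module.End K (Fn p s) := Dx ∘ₗ ι p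

@[simp] lemma D_ap (v : V) (F : Fn p s) (x : S p) : (D v F).ap x = F.ap (ι p v * x) := rfl

lemma Dx_ι (v : V) (F : Fn p s) : Dx (ι p v) F = D v F := rfl

lemma Dx_ι_mul (v : V) (y : S p) (F : Fn p s) : Dx (ι p v * y) F = Dx y (D v F) := Dx_mul _ _ _

lemma D_comm_ev (v : V) {w : V} (h : p.σ w = w) (F : Fn p s) : D v (D w F) = D w (D v F) := by
  ext x
  simp only [D_ap]
  rw [← mul_assoc, ← mul_assoc, (sc_ι p).ev v w h]

lemma D_comm_od {v w : V} (hv : p.σ v = -v) (hw : p.σ w = -w) (F : Fn p s) :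
    D v (D w F) = -D w (D v F) := by
  ext x
  simp only [D_ap, neg_ap]
  rw [← mul_assoc, ← mul_assoc, (sc_ι p).od w v hw hv, neg_mul, map_neg]

/-- The total parity. -/
noncomputable def τL : Module.End K (Fn p s) where
  toFun F := of s (s.σ.toLinearMap ∘ₗ F.ap ∘ₗ (par p).toLinearMap)
  map_add' F G := by ext x; simp
  map_smul' c F := by ext x; simp

lemma τL_ap (F : Fn p s) (x : S p) : (τL F).ap x = s.σ (F.ap (par p x)) := rfl

lemma τL_τL (F : Fn p s) : τL (τL F) = F := by ext x; simp [τL_ap, s.inv, par_par]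

lemma τL_D (v : V) (F : Fn p s) : τL (D v F) = D (p.σ v) (τL F) := by
  ext x; simp [τL_ap, par_ι, p.inv]

variable [Algebra ℚ K]

open TensorProduct in
theorem exists_mul : ∃ m : Fn p s →ₗ[K] Fn p s →ₗ[K] Fn p s,
    (∀ F G, (m F G).ap 1 = F.ap 1 * G.ap 1) ∧ ∀ F G v, D v (m F G) =
      m (D v F) G + m F (D (p.ev v) G) + m (τL F) (D (p.od v) G) := by
  let d : V →ₗ[K] Module.End K (Fn p s ⊗[K] Fn p s) :=
    { toFun := fun v => TensorProduct.map (D v) LinearMap.id +
        TensorProduct.map LinearMap.id (D (p.ev v)) + TensorProduct.map τL (D (p.od v))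
      map_add' := fun v w => by
        ext F G
        simp [add_tmul, tmul_add]; abel
      map_smul' := fun c v => by
        ext F G
        simp [smul_tmul] }
  have hd : ∀ v F G, d v (F ⊗ₜ G) = D v F ⊗ₜ G + F ⊗ₜ D (p.ev v) G + τL F ⊗ₜ D (p.od v) G :=
    fun v F G => by simp [d]
  have hs : SC p d := by
    constructor
    · intro v w h
      ext F G
      simp only [AlgebraTensorModule.curry_apply, LinearMap.restrictScalars_self, curry_apply,
        Module.End.mul_apply, hd, map_add, Par.ev_of_ev h, Par.od_of_ev h, map_zero,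
        LinearMap.zero_apply, tmul_zero, add_zero, τL_D, h, D_comm_ev _ h]
      abel
    · intro v w hv hw
      ext F G
      simp only [AlgebraTensorModule.curry_apply, LinearMap.restrictScalars_self, curry_apply,
        Module.End.mul_apply, hd, map_add, Par.ev_of_od hv, Par.od_of_od hv, Par.ev_of_od hw,
        Par.od_of_od hw, map_zero, LinearMap.zero_apply, tmul_zero, add_zero, τL_D, hv, hw,
        map_neg, LinearMap.neg_apply, τL_τL, neg_tmul]
      rw [D_comm_od hv hw F, D_comm_od hv hw G, neg_tmul, tmul_neg]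
      abel
  let e : Fn p s →ₗ[K] B := LinearMap.applyₗ (1 : S p)
  obtain ⟨Φ, h1, h2⟩ := exists_unfold d hs
    (TensorProduct.lift (LinearMap.mul K B) ∘ₗ TensorProduct.map e e)
  refine ⟨curry Φ, fun F G => h1 _, fun F G v => ?_⟩
  ext x
  have := h2 (F ⊗ₜ G) v x
  rw [hd, map_add, map_add] at this
  exact this

/-- The product as a bilinear map. -/
noncomputable def mulL : Fn p s →ₗ[K] Fn p s →ₗ[K] Fn p s := Classical.choose exists_mul

omit [Algebra ℚ K] in
/-- Constant functions. -/
noncomputable def cstL : B →ₗ[K] Fn p s where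
  toFun b := of s ((aug p).toLinearMap.smulRight b)
  map_add' a b := by ext x; simp
  map_smul' c a := by ext x; simp [smul_comm c]

noncomputable instance : Mul (Fn p s) := ⟨fun F G => mulL F G⟩

noncomputable instance : One (Fn p s) := ⟨cstL 1⟩

lemma mul_def (F G : Fn p s) : F * G = mulL F G := rfl

@[simp] lemma mul_ap_one (F G : Fn p s) : (F * G).ap 1 = F.ap 1 * G.ap 1 :=
  (Classical.choose_spec (exists_mul (p := p) (s := s))).1 F G

lemma D_mul (v : V) (F G : Fn p s) :
    D v (F * G) = D v F * G + F * D (p.ev v) G + τL F * D (p.od v) G :=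
  (Classical.choose_spec (exists_mul (p := p) (s := s))).2 F G v

lemma D_mul_ev' {v : V} (h : p.σ v = v) (F G : Fn p s) : D v (F * G) = D v F * G + F * D v G := by
  rw [D_mul, Par.ev_of_ev h, Par.od_of_ev h, map_zero, LinearMap.zero_apply, mul_def _ 0, map_zero,
    add_zero]

lemma D_mul_od' {v : V} (h : p.σ v = -v) (F G : Fn p s) :
    D v (F * G) = D v F * G + τL F * D v G := by
  rw [D_mul, Par.ev_of_od h, Par.od_of_od h, map_zero, LinearMap.zero_apply, mul_def _ 0, map_zero,
    add_zero]

omit [Algebra ℚ K] in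
lemma cstL_ap (b : B) (x : S p) : (cstL b : Fn p s).ap x = aug p x • b := rfl

omit [Algebra ℚ K] in
lemma D_cstL (v : V) (b : B) : D v (cstL b : Fn p s) = 0 := by
  ext x; simp [cstL_ap]

omit [Algebra ℚ K] in
lemma τL_cstL (b : B) : τL (cstL b : Fn p s) = cstL (s.σ b) := by
  ext x; simp [cstL_ap, τL_ap]

/-- Coinduction: a family closed under homogeneous derivatives that vanishes at `1` vanishes. -/
theorem coind (P : Fn p s → Prop) (h1 : ∀ F, P F → F.ap 1 = 0)
    (hD : ∀ F v, P F → p.σ v = v ∨ p.σ v = -v → D v F ∈ Submodule.span K {G | P G}) {F : Fn p s}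
    (hF : P F) : F = 0 := by
  have key : ∀ x, ∀ G ∈ Submodule.span K {G | P G}, G.ap x = 0 := by
    intro x
    have sp : ∀ y, (∀ G, P G → G.ap y = 0) → ∀ G ∈ Submodule.span K {G | P G}, G.ap y = 0 := by
      intro y hy G hG
      induction hG using Submodule.span_induction with
      | mem G hG => exact hy G hG
      | zero => rfl
      | add a b _ _ ha hb => rw [add_ap, ha, hb, add_zero]
      | smul c a _ ha => rw [smul_ap, ha, smul_zero]
    induction x using induction' with
    | h1 => exact sp _ h1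
    | hev v x hv hx => exact sp _ fun G hG => hx _ (hD G v hG (Or.inl hv))
    | hod v x hv hx => exact sp _ fun G hG => hx _ (hD G v hG (Or.inr hv))
    | hadd x y hx hy => exact fun G hG => by rw [map_add, hx G hG, hy G hG, add_zero]
    | hsmul c x hx => exact fun G hG => by rw [map_smul, hx G hG, smul_zero]
  ext x
  exact key x F (Submodule.subset_span hF)

lemma τL_mul (F G : Fn p s) : τL (F * G) = τL F * τL G := by
  ext x
  induction x using induction' generalizing F G with
  | h1 => simp [τL_ap]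
  | hev v x hv hx =>
    have h : ∀ H : Fn p s, D v (τL H) = τL (D v H) := fun H => by rw [τL_D, hv]
    rw [← D_ap, ← D_ap, D_mul_ev' hv, h, h, h, D_mul_ev' hv, map_add, add_ap, add_ap, hx, hx]
  | hod v x hv hx =>
    have h : ∀ H : Fn p s, D v (τL H) = -τL (D v H) := fun H => by
      rw [τL_D, hv, map_neg, LinearMap.neg_apply, neg_neg]
    rw [← D_ap, ← D_ap, D_mul_od' hv, h, h, h, D_mul_od' hv, map_add]
    simp only [mul_def, map_neg, LinearMap.neg_apply, neg_ap, add_ap]
    rw [← mul_def, ← mul_def, hx, hx, neg_add]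
    rfl
  | hadd x y hx hy => simp only [map_add, hx, hy]
  | hsmul c x hx => simp only [map_smul, hx]

lemma mul_assoc' (F G H : Fn p s) : F * G * H = F * (G * H) := by
  ext x
  induction x using induction' generalizing F G H with
  | h1 => simp [mul_assoc]
  | hev v x hv hx =>
    rw [← D_ap, ← D_ap]
    simp only [D_mul_ev' hv]
    rw [mul_def (_ + _), mul_def _ (_ + _), map_add, map_add, LinearMap.add_apply]
    simp only [← mul_def, add_ap, hx, add_assoc]
  | hod v x hv hx =>
    rw [← D_ap, ← D_ap]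
    simp only [D_mul_od' hv, τL_mul]
    rw [mul_def (_ + _), mul_def _ (_ + _), map_add, map_add, LinearMap.add_apply]
    simp only [← mul_def, add_ap, hx, add_assoc]
  | hadd x y hx hy => simp only [map_add, hx, hy]
  | hsmul c x hx => simp only [map_smul, hx]

lemma mul_cstL_ap (F : Fn p s) (b : B) (x : S p) : (F * cstL b).ap x = F.ap x * b := by
  induction x using induction generalizing F with
  | h1 => simp [cstL_ap]
  | hι v x hx =>
    rw [← D_ap, D_mul, D_cstL, D_cstL, mul_def _ 0, mul_def _ 0, map_zero, map_zero, add_zero,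
      add_zero, hx, D_ap]
  | hadd x y hx hy => simp only [map_add, hx, hy, add_mul]
  | hsmul c x hx => simp only [map_smul, hx, smul_mul_assoc]

lemma cstL_mul_ap {b : B} (hb : s.σ b = b) (F : Fn p s) (x : S p) :
    (cstL b * F).ap x = b * F.ap x := by
  induction x using induction generalizing F with
  | h1 => simp [cstL_ap]
  | hι v x hx =>
    rw [← D_ap, D_mul, D_cstL, τL_cstL, hb, mul_def 0, map_zero, LinearMap.zero_apply, zero_add,
      add_ap, hx, hx, ← mul_add, ← add_ap, ← LinearMap.add_apply, ← map_add, p.ev_add_od, D_ap]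
  | hadd x y hx hy => simp only [map_add, hx, hy, mul_add]
  | hsmul c x hx => simp only [map_smul, hx, mul_smul_comm]

noncomputable instance : Ring (Fn p s) :=
  { (inferInstance : AddCommGroup (Fn p s)) with
    mul := (· * ·)
    one := 1
    mul_assoc := mul_assoc'
    one_mul := fun F => ext fun x => by
      change (cstL 1 * F).ap x = _
      rw [cstL_mul_ap (map_one _), one_mul]
    mul_one := fun F => ext fun x => by
      change (F * cstL 1).ap x = _
      rw [mul_cstL_ap, mul_one]
    zero_mul := fun F => by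
      change mulL 0 F = 0
      rw [map_zero, LinearMap.zero_apply]
    mul_zero := fun F => map_zero (mulL F)
    left_distrib := fun F G H => map_add (mulL F) G H
    right_distrib := fun F G H => by
      change mulL (F + G) H = mulL F H + mulL G H
      rw [map_add, LinearMap.add_apply] }

noncomputable instance : Algebra K (Fn p s) :=
  Algebra.ofModule (fun c F G => by
      change mulL (c • F) G = c • mulL F G
      rw [map_smul, LinearMap.smul_apply])
    fun c F G => map_smul (mulL F) c G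

/-- Constant functions. -/
noncomputable def cst : B →ₐ[K] Fn p s :=
  AlgHom.ofLinearMap cstL rfl fun a b => by
    ext x
    rw [mul_cstL_ap, cstL_ap, cstL_ap, smul_mul_assoc]

lemma cst_ap (b : B) (x : S p) : (cst b : Fn p s).ap x = aug p x • b := rfl

@[simp] lemma cst_ap_one (b : B) : (cst b : Fn p s).ap 1 = b := by simp [cst_ap]

@[simp] lemma one_ap_one : (1 : Fn p s).ap 1 = 1 := by
  rw [← map_one (cst (p := p) (s := s)), cst_ap_one]

@[simp] lemma D_cst (v : V) (b : B) : D v (cst b : Fn p s) = 0 := D_cstL v b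

@[simp] lemma D_one (v : V) : D v (1 : Fn p s) = 0 := D_cstL v 1

lemma mul_cst_ap (F : Fn p s) (b : B) (x : S p) : (F * cst b).ap x = F.ap x * b :=
  mul_cstL_ap F b x

lemma cst_mul_ap {b : B} (hb : s.σ b = b) (F : Fn p s) (x : S p) :
    (cst b * F).ap x = b * F.ap x := cstL_mul_ap hb F x

/-- The total parity. -/
noncomputable def τ : Fn p s →ₐ[K] Fn p s :=
  AlgHom.ofLinearMap τL ((τL_cstL 1).trans (by rw [map_one]; rfl)) τL_mul

lemma τ_ap (F : Fn p s) (x : S p) : (τ F).ap x = s.σ (F.ap (par p x)) := rfl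

@[simp] lemma τ_ap_one (F : Fn p s) : (τ F).ap 1 = s.σ (F.ap 1) := by simp [τ_ap]

@[simp] lemma τ_τ (F : Fn p s) : τ (τ F) = F := τL_τL F

lemma τ_D (v : V) (F : Fn p s) : τ (D v F) = D (p.σ v) (τ F) := τL_D v F

lemma τ_Dx (y : S p) (F : Fn p s) : τ (Dx y F) = Dx (par p y) (τ F) := by
  ext x; simp [τ_ap, par_par]

lemma D_τ (v : V) (F : Fn p s) : D v (τ F) = τ (D (p.σ v) F) := by rw [τ_D, p.inv]

lemma D_τ_ev {v : V} (h : p.σ v = v) (F : Fn p s) : D v (τ F) = τ (D v F) := by rw [D_τ, h]

lemma D_τ_od {v : V} (h : p.σ v = -v) (F : Fn p s) : D v (τ F) = -τ (D v F) := by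
  rw [D_τ, h, map_neg, LinearMap.neg_apply, map_neg]

@[simp] lemma τ_cst (b : B) : τ (cst b : Fn p s) = cst (s.σ b) := τL_cstL b

lemma D_mul' (v : V) (F G : Fn p s) :
    D v (F * G) = D v F * G + F * D (p.ev v) G + τ F * D (p.od v) G := D_mul v F G

lemma D_mul_ev {v : V} (h : p.σ v = v) (F G : Fn p s) : D v (F * G) = D v F * G + F * D v G :=
  D_mul_ev' h F G

lemma D_mul_od {v : V} (h : p.σ v = -v) (F G : Fn p s) : D v (F * G) = D v F * G + τ F * D v G :=
  D_mul_od' h F G

lemma D_mul_of_ev {F : Fn p s} (h : τ F = F) (v : V) (G : Fn p s) :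
    D v (F * G) = D v F * G + F * D v G := by
  rw [D_mul', h, add_assoc, ← mul_add, ← LinearMap.add_apply, ← map_add, p.ev_add_od]

variable (p s) in
/-- The parity automorphism of the algebra of formal functions. -/
noncomputable def spar : SPar K (Fn p s) := ⟨τ, τ_τ⟩

@[simp] lemma spar_σ (F : Fn p s) : (spar p s).σ F = τ F := rfl

/-- Pull-back along an even linear map. -/
noncomputable def pullL (f : V →ₗ[K] W) (hf : IsEv p q f) : Fn q s →ₗ[K] Fn p s :=
  LinearMap.lcomp K B (Fock.map f hf).toLinearMap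

lemma pullL_ap (f : V →ₗ[K] W) (hf : IsEv p q f) (F : Fn q s) (x : S p) :
    (pullL f hf F).ap x = F.ap (Fock.map f hf x) := rfl

lemma D_pullL (f : V →ₗ[K] W) (hf : IsEv p q f) (v : V) (F : Fn q s) :
    D v (pullL f hf F) = pullL f hf (D (f v) F) := by
  ext x; simp [pullL_ap]

lemma τ_pullL (f : V →ₗ[K] W) (hf : IsEv p q f) (F : Fn q s) :
    τ (pullL f hf F) = pullL f hf (τ F) := by
  ext x; simp [pullL_ap, τ_ap, par_map]

lemma pullL_mul (f : V →ₗ[K] W) (hf : IsEv p q f) (F G : Fn q s) :
    pullL f hf (F * G) = pullL f hf F * pullL f hf G := by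
  ext x
  induction x using induction' generalizing F G with
  | h1 => simp [pullL_ap]
  | hev v x hv hx =>
    have hw : q.σ (f v) = f v := by rw [hf, hv]
    rw [← D_ap, ← D_ap, D_mul_ev hv, D_pullL, D_pullL, D_pullL, D_mul_ev hw, map_add, add_ap,
      add_ap, hx, hx]
  | hod v x hv hx =>
    have hw : q.σ (f v) = -f v := by rw [hf, hv, map_neg]
    rw [← D_ap, ← D_ap, D_mul_od hv, D_pullL, D_pullL, D_pullL, D_mul_od hw, map_add, add_ap,
      add_ap, hx, hx, τ_pullL]
  | hadd x y hx hy => simp only [map_add, hx, hy]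
  | hsmul c x hx => simp only [map_smul, hx]

omit [Algebra ℚ K] in
lemma aug_map (f : V →ₗ[K] W) (hf : IsEv p q f) (x : S p) : aug q (Fock.map f hf x) = aug p x := by
  have : (aug q).comp (Fock.map f hf) = aug p := hom_ext fun v => by simp
  exact DFunLike.congr_fun this x

/-- Pull-back along an even linear map. -/
noncomputable def pull (f : V →ₗ[K] W) (hf : IsEv p q f) : Fn q s →ₐ[K] Fn p s :=
  AlgHom.ofLinearMap (pullL f hf) (by
    ext x
    change (cst 1 : Fn q s).ap (Fock.map f hf x) = (cst 1 : Fn p s).ap x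
    rw [cst_ap, cst_ap, aug_map]) (pullL_mul f hf)

lemma pull_ap (f : V →ₗ[K] W) (hf : IsEv p q f) (F : Fn q s) (x : S p) :
    (pull f hf F).ap x = F.ap (Fock.map f hf x) := rfl

@[simp] lemma pull_ap_one (f : V →ₗ[K] W) (hf : IsEv p q f) (F : Fn q s) :
    (pull f hf F).ap 1 = F.ap 1 := by simp [pull_ap]

lemma D_pull (f : V →ₗ[K] W) (hf : IsEv p q f) (v : V) (F : Fn q s) :
    D v (pull f hf F) = pull f hf (D (f v) F) := D_pullL f hf v F

lemma Dx_pull (f : V →ₗ[K] W) (hf : IsEv p q f) (y : S p) (F : Fn q s) :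
    Dx y (pull f hf F) = pull f hf (Dx (Fock.map f hf y) F) := by
  ext x; simp [pull_ap]

lemma τ_pull (f : V →ₗ[K] W) (hf : IsEv p q f) (F : Fn q s) :
    τ (pull f hf F) = pull f hf (τ F) := τ_pullL f hf F

@[simp] lemma pull_cst (f : V →ₗ[K] W) (hf : IsEv p q f) (b : B) :
    pull f hf (cst b : Fn q s) = cst b := by
  ext x; rw [pull_ap, cst_ap, cst_ap, aug_map]

lemma pull_pull {U : Type*} [AddCommGroup U] [Module K U] {r : Par K U} (f : V →ₗ[K] W)
    (hf : IsEv p q f) (g : W →ₗ[K] U) (hg : IsEv q r g) (h : V →ₗ[K] U) (hh : IsEv p r h)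
    (e : ∀ v, g (f v) = h v) (F : Fn r s) : pull f hf (pull g hg F) = pull h hh F := by
  have : (Fock.map g hg).comp (Fock.map f hf) = Fock.map h hh := hom_ext fun v => by simp [e]
  ext x
  rw [pull_ap, pull_ap, pull_ap, ← this]
  rfl

lemma pull_id (f : V →ₗ[K] V) (hf : IsEv p p f) (e : ∀ v, f v = v) (F : Fn p s) :
    pull f hf F = F := by
  have : Fock.map f hf = AlgHom.id K _ := hom_ext fun v => by simp [e]
  ext x
  rw [pull_ap, this]
  rfl

lemma pull_zero (f : V →ₗ[K] W) (hf : IsEv p q f) (e : ∀ v, f v = 0) (F : Fn q s) :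
    pull f hf F = cst (F.ap 1) := by
  ext x
  induction x using induction with
  | h1 => simp
  | hι v x _ => rw [← D_ap, ← D_ap, D_pull, e]; simp
  | hadd x y hx hy => simp only [map_add, hx, hy]
  | hsmul c x hx => simp only [map_smul, hx]

/-- Change of coefficients. -/
noncomputable def mapc (s' : SPar K B') (φ : B →ₗ[K] B') : Fn p s →ₗ[K] Fn p s' :=
  LinearMap.llcomp K _ _ _ φ

@[simp] lemma mapc_ap (φ : B →ₗ[K] B') (F : Fn p s) (x : S p) :
    (mapc s' φ F).ap x = φ (F.ap x) := rfl

lemma D_mapc (φ : B →ₗ[K] B') (v : V) (F : Fn p s) : D v (mapc s' φ F) = mapc s' φ (D v F) := rfl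

lemma Dx_mapc (φ : B →ₗ[K] B') (y : S p) (F : Fn p s) :
    Dx y (mapc s' φ F) = mapc s' φ (Dx y F) := rfl

lemma pre_mapc (φ : B →ₗ[K] B') (X : Module.End K (S p)) (F : Fn p s) :
    pre X (mapc s' φ F) = mapc s' φ (pre X F) := rfl

lemma pull_mapc (φ : B →ₗ[K] B') (f : V →ₗ[K] W) (hf : IsEv p q f) (F : Fn q s) :
    pull f hf (mapc s' φ F) = mapc s' φ (pull f hf F) := rfl

lemma τ_mapc {φ : B →ₗ[K] B'} (h : ∀ b, s'.σ (φ b) = φ (s.σ b)) (F : Fn p s) :
    τ (mapc s' φ F) = mapc s' φ (τ F) := by
  ext x; simp [τ_ap, h]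

lemma mapc_cst (φ : B →ₗ[K] B') (b : B) : mapc s' φ (cst b : Fn p s) = cst (φ b) := by
  ext x; simp [cst_ap]

lemma mapc_mul {φ : B →ₗ[K] B'} (h : ∀ b, s'.σ (φ b) = φ (s.σ b))
    (hm : ∀ a b, φ (a * b) = φ a * φ b) (F G : Fn p s) :
    mapc s' φ (F * G) = mapc s' φ F * mapc s' φ G := by
  ext x
  induction x using induction' generalizing F G with
  | h1 => simp [hm]
  | hev v x hv hx =>
    rw [← D_ap, ← D_ap, D_mul_ev hv, D_mapc, D_mapc, D_mapc, D_mul_ev hv, map_add, add_ap,
      add_ap, hx, hx]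
  | hod v x hv hx =>
    rw [← D_ap, ← D_ap, D_mul_od hv, D_mapc, D_mapc, D_mapc, D_mul_od hv, map_add, add_ap,
      add_ap, hx, hx, τ_mapc h]
  | hadd x y hx hy => simp only [map_add, hx, hy]
  | hsmul c x hx => simp only [map_smul, hx]

/-- Products preserve multiplicative conditions on the values. -/
lemma mul_ap_mem {L M N : Submodule K B} (hL : ∀ b ∈ L, s.σ b ∈ L)
    (h : ∀ a ∈ L, ∀ b ∈ M, a * b ∈ N) {F G : Fn p s} (hF : ∀ x, F.ap x ∈ L) (hG : ∀ x, G.ap x ∈ M)
    (x : S p) : (F * G).ap x ∈ N := by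
  induction x using induction generalizing F G with
  | h1 => rw [mul_ap_one]; exact h _ (hF _) _ (hG _)
  | hι v x hx =>
    rw [← D_ap, D_mul', add_ap, add_ap]
    exact add_mem (add_mem (hx (fun _ => hF _) hG) (hx hF fun _ => hG _))
      (hx (fun _ => hL _ (hF _)) fun _ => hG _)
  | hadd x y hx hy => rw [map_add]; exact add_mem (hx hF hG) (hy hF hG)
  | hsmul c x hx => rw [map_smul]; exact N.smul_mem c (hx hF hG)

end Fn

end Vale.Agent.P269.Deg
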