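import Vale.Agent.P269.Deg.Df

/-! The insertions at the far section of a cap span all functionals of bounded energy. -/

namespace Vale.Agent.P269.Deg

open Fock Finset LinearMap TensorProduct Fn

namespace G3a

variable {V W : Type} [AddCommGroup V] [Module ℂ V] [AddCommGroup W] [Module ℂ W] {p : Par ℂ V}
  {q : Par ℂ W}

/-- Functions with values in an even algebra. -/
abbrev Fe (p : Par ℂ V) (B : Type) [Ring B] [Algebra ℂ B] : Type := Fn p (SPar.triv ℂ B)

/-- The coproduct. -/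
theorem cop (x : S p) : ∃ t : S p ⊗[ℂ] S p, ∀ (B : Type) [Ring B] [Algebra ℂ B] (F G : Fe p B),
    (F * G).ap x = bil F.ap G.ap t := by
  induction x using induction' with
  | h1 => exact ⟨1 ⊗ₜ 1, fun B _ _ F G => by simp⟩
  | hev v x hv hx =>
    obtain ⟨t, ht⟩ := hx
    refine ⟨TensorProduct.map (mulLeft ℂ (ι p v)) .id t +
      TensorProduct.map .id (mulLeft ℂ (ι p v)) t, fun B _ _ F G => ?_⟩
    rw [← D_ap, D_mul_ev hv, add_ap, ht, ht, map_add, bil_map, bil_map]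
    rfl
  | hod v x hv hx =>
    obtain ⟨t, ht⟩ := hx
    refine ⟨TensorProduct.map (mulLeft ℂ (ι p v)) .id t +
      TensorProduct.map (par p).toLinearMap (mulLeft ℂ (ι p v)) t, fun B _ _ F G => ?_⟩
    rw [← D_ap, D_mul_od hv, add_ap, ht, ht, map_add, bil_map, bil_map]
    rfl
  | hadd x y hx hy =>
    obtain ⟨t, ht⟩ := hx
    obtain ⟨u, hu⟩ := hy
    exact ⟨t + u, fun B _ _ F G => by rw [map_add, map_add, ht, hu]⟩
  | hsmul c x hx =>
    obtain ⟨t, ht⟩ := hx
    exact ⟨c • t, fun B _ _ F G => by rw [map_smul, map_smul, ht]⟩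

section comm

variable {B : Type} [CommRing B] [Algebra ℂ B]

lemma nmul (F G : Fe p B) : -F * G = -(F * G) := neg_mul F G

lemma comm_aux (x : S p) : ∀ F G : Fe p B, (τ F = F → (F * G).ap x = (G * F).ap x) ∧
    (τ F = -F → (F * G).ap x = (τ G * F).ap x) := by
  induction x using induction' with
  | h1 =>
    refine fun f F => ⟨fun _ => by simp [mul_comm], fun h => ?_⟩
    have h1 : f.ap 1 = -f.ap 1 := by
      have := congrArg (fun G => Fn.ap G 1) h
      simp only [τ_ap_one] at this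
      exact this
    simp [eq_zero_of_eq_neg (K := ℂ) h1]
  | hev v x hv hx =>
    refine fun f F => ⟨fun h => ?_, fun h => ?_⟩
    · rw [← D_ap, ← D_ap, D_mul_ev hv, D_mul_ev hv, add_ap, add_ap, (hx f _).1 h,
        (hx (D v f) _).1 (by rw [← D_τ_ev hv, h]), add_comm]
    · rw [← D_ap, ← D_ap, D_mul_ev hv, D_mul_ev hv, add_ap, add_ap, (hx f _).2 h,
        (hx (D v f) _).2 (by rw [← D_τ_ev hv, h, map_neg]), add_comm, D_τ_ev hv]
  | hod v x hv hx =>
    refine fun f F => ⟨fun h => ?_, fun h => ?_⟩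
    · rw [← D_ap, ← D_ap, D_mul_od hv, D_mul_od hv, add_ap, add_ap, h, (hx f _).1 h,
        (hx (D v f) _).2 (by rw [τ_D, hv, h, map_neg, LinearMap.neg_apply]), add_comm]
    · rw [← D_ap, ← D_ap, D_mul_od hv, D_mul_od hv, add_ap, add_ap, h, nmul,
        neg_ap, (hx f _).2 h, (hx (D v f) _).1 (by
          rw [τ_D, hv, h, map_neg, map_neg, LinearMap.neg_apply, neg_neg]), add_comm, D_τ_od hv,
        τ_τ, nmul, neg_ap]
  | hadd x y hx hy =>
    exact fun f F => ⟨fun h => by simp only [map_add, (hx f F).1 h, (hy f F).1 h],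
      fun h => by simp only [map_add, (hx f F).2 h, (hy f F).2 h]⟩
  | hsmul c x hx =>
    exact fun f F => ⟨fun h => by simp only [map_smul, (hx f F).1 h],
      fun h => by simp only [map_smul, (hx f F).2 h]⟩

lemma comm_ev {F : Fe p B} (h : τ F = F) (G : Fe p B) : F * G = G * F :=
  Fn.ext fun x => (comm_aux x F G).1 h

/-- The pairing of a tensor with a function. -/
noncomputable def pr (t : B ⊗[ℂ] S p) (F : Fe p B) : B := bil LinearMap.id F.ap t

lemma pr_add (t : B ⊗[ℂ] S p) (F G : Fe p B) : pr t (F + G) = pr t F + pr t G := by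
  unfold pr
  induction t with
  | zero => simp
  | tmul x y => simp [mul_add]
  | add x y hx hy => simp only [map_add, hx, hy]; abel

lemma pr_cst (t : B ⊗[ℂ] S p) (c : B) (F : Fe p B) : pr t (Fn.cst c * F) = c * pr t F :=
  (map_bil (mulLeft ℂ c) (fun v w => by
    rw [cst_mul_ap (s := SPar.triv ℂ B) rfl]; exact mul_left_comm _ _ _) t).symm

lemma pr_smul {t : B ⊗[ℂ] S p} (c : ℂ) {F : Fe p B} (h : pr t F = 0) : pr t (c • F) = 0 := by
  rw [pr, ← map_bil (c • LinearMap.id) (X := .id) (Y := F.ap) (fun v w => by simp) t, ← pr, h,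
    map_zero]

lemma exists_tr (a : Fe p B) (t : B ⊗[ℂ] S p) : ∃ u, ∀ F, pr t (a * F) = pr u F := by
  unfold pr
  induction t with
  | zero => exact ⟨0, fun F => by simp⟩
  | tmul k y =>
    obtain ⟨s, hs⟩ := cop y
    refine ⟨TensorProduct.map (mulLeft ℂ k ∘ₗ a.ap) .id s, fun F => ?_⟩
    rw [bil_tmul, hs, bil_map]
    exact map_bil (mulLeft ℂ k) (fun v w => by simp [mul_assoc]) s
  | add x y hx hy =>
    obtain ⟨u, hu⟩ := hx
    obtain ⟨w, hw⟩ := hy
    exact ⟨u + w, fun F => by rw [map_add, map_add, hu, hw]⟩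

lemma exists_van (t : B ⊗[ℂ] S p) : ∃ n, ∀ F ∈ Van p _ n, pr t F = 0 := by
  unfold pr
  induction t with
  | zero => exact ⟨0, fun F _ => by simp⟩
  | tmul k y =>
    obtain ⟨n, hn⟩ := exists_Fil y
    exact ⟨n, fun F hF => by rw [bil_tmul, hF y hn, mul_zero]⟩
  | add x y hx hy =>
    obtain ⟨n, hn⟩ := hx
    obtain ⟨m, hm⟩ := hy
    exact ⟨max n m, fun F hF => by
      rw [map_add, hn F (van_anti (le_max_left _ _) hF), hm F (van_anti (le_max_right _ _) hF),
        add_zero]⟩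

/-- Cancellation of a function with nonzero constant term. -/
lemma pr_cancel [NoZeroDivisors B] {a : Fe p B} (ha : a.ap 1 ≠ 0) {t : B ⊗[ℂ] S p}
    (h : ∀ F, pr t (a * F) = 0) (F : Fe p B) : pr t F = 0 := by
  obtain ⟨n, hn⟩ := exists_van t
  induction n with
  | zero => exact hn F (van_zero F)
  | succ n ih =>
    refine ih fun G hG => (mul_eq_zero.1 ?_).resolve_left ha
    have h1 := hn _ (van_mul (n + 1) (by omega)
      (van_one.2 (by simp : (Fn.cst (a.ap 1) - a : Fe p B).ap 1 = 0)) hG)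
    rw [← pr_cst, ← sub_add_cancel (Fn.cst (a.ap 1)) a, add_mul, pr_add, h1, h, add_zero]

end comm

/-- The underlying functional as a linear map. -/
def apL : Sc p →ₗ[ℂ] S p →ₗ[ℂ] ℂ where
  toFun := ap
  map_add' _ _ := rfl
  map_smul' _ _ := rfl

@[simp] lemma apL_apply (F : Sc p) : apL F = F.ap := rfl

lemma ins_rep (y : S p) : ∃ t : V ⊗[ℂ] S p, ∀ X : V →ₗ[ℂ] Sc p,
    (ins X).ap y = TensorProduct.lift (apL ∘ₗ X) t := by
  have key : ∀ (v : V) (f : V →ₗ[ℂ] V) (X : V →ₗ[ℂ] Sc p) (t : V ⊗[ℂ] S p),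
      TensorProduct.lift (apL ∘ₗ (D v ∘ₗ X ∘ₗ f)) t =
        TensorProduct.lift (apL ∘ₗ X) (TensorProduct.map f (mulLeft ℂ (ι p v)) t) := by
    intro v f X t
    induction t with
    | zero => simp
    | tmul x y => simp
    | add x y hx hy => simp only [map_add, hx, hy]
  induction y using induction' with
  | h1 => exact ⟨0, fun X => by simp⟩
  | hev v x hv hx =>
    obtain ⟨t, ht⟩ := hx
    refine ⟨v ⊗ₜ x + TensorProduct.map .id (mulLeft ℂ (ι p v)) t, fun X => ?_⟩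
    rw [← D_ap, D_ins_ev hv, add_ap, ht, map_add, ← key]
    rfl
  | hod v x hv hx =>
    obtain ⟨t, ht⟩ := hx
    refine ⟨v ⊗ₜ x + TensorProduct.map p.σ (mulLeft ℂ (ι p v)) t, fun X => ?_⟩
    rw [← D_ap, D_ins_od hv, add_ap, ht, map_add, ← key]
    rfl
  | hadd x y hx hy =>
    obtain ⟨t, ht⟩ := hx
    obtain ⟨u, hu⟩ := hy
    exact ⟨t + u, fun X => by rw [map_add, map_add, ht, hu]⟩
  | hsmul c x hx =>
    obtain ⟨t, ht⟩ := hx
    exact ⟨c • t, fun X => by rw [map_smul, map_smul, ht]⟩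

lemma ins_eq {α : Type} {φ : α → Module.Dual ℂ V} (hφ : ∀ v, (∀ a, φ a v = 0) → v = 0) {y : S p}
    {N : Set (Sc p)} (h : ∀ a, ∀ R ∈ N, (lin (φ a) * R).ap y = 0) {X : V →ₗ[ℂ] Sc p}
    (hX : ∀ v, X v ∈ N) : (ins X).ap y = 0 := by
  obtain ⟨t, ht⟩ := ins_rep y
  let b := Module.Basis.ofVectorSpace ℂ V
  obtain ⟨c, rfl⟩ := TensorProduct.eq_repr_basis_left b t
  simp only [Finsupp.sum, map_sum, lift.tmul, LinearMap.comp_apply, apL_apply] at ht
  rw [ht]
  refine sum_eq_zero fun i hi => linearIndependent_iff'.1 b.linearIndependent c.support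
    (fun j => (X (b i)).ap (c j)) (hφ _ fun a => ?_) i hi
  have h1 := h a _ (hX (b i))
  rw [show lin (φ a) = ins ((Fn.cst (p := p) (s := SPar.triv ℂ ℂ)).toLinearMap ∘ₗ φ a) from rfl,
    ins_mul, ht] at h1
  rw [← h1, map_sum]
  refine sum_congr rfl fun j _ => ?_
  rw [map_smul, smul_eq_mul, mul_comm]
  exact (cst_mul_ap rfl _ _).symm

/-- A space of functions that is stable under enough multiplications separates points. -/
theorem sep {α : Type} {l : α → Sc p} (hl : ∀ v, (∀ a, (l a).ap (ι p v) = 0) → v = 0)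
    {T : Submodule ℂ (Sc p)} (h1 : 1 ∈ T) (hT : ∀ a, ∀ Q ∈ T, l a * Q ∈ T) {y : S p}
    (hy : ∀ Q ∈ T, Q.ap y = 0) : y = 0 := by
  have hc : ∀ (c : ℂ) (Q : Sc p), Fn.cst c * Q = c • Q := fun c Q => Fn.ext (cst_mul_ap rfl Q)
  suffices h : ∀ n y, (∀ Q ∈ Van p (SPar.triv ℂ ℂ) n, Q.ap y = 0) → (∀ Q ∈ T, Q.ap y = 0) →
      ∀ Q : Sc p, Q.ap y = 0 by
    obtain ⟨n, hn⟩ := exists_Fil y
    exact (Module.forall_dual_apply_eq_zero_iff ℂ y).1 fun f =>
      h n y (fun Q hQ => hQ y hn) hy (of _ f)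
  intro n
  induction n with
  | zero => exact fun y h _ Q => h Q (van_zero Q)
  | succ n ih =>
    intro y h hy
    refine ih y (fun Q hQ => ?_) hy
    rcases n with _ | n
    · have h2 := h _ (van_one.2 (by simp : (Q - Fn.cst (Q.ap 1) * 1 : Sc p).ap 1 = 0))
      rwa [sub_ap, hc, hy _ (T.smul_mem _ h1), sub_zero] at h2
    have h2 : ∀ a R, ((l a - Fn.cst ((l a).ap 1)) * R).ap y = 0 := by
      intro a
      obtain ⟨s, hs⟩ := cop y
      have h3 : ∀ R : Sc p, ((l a - Fn.cst ((l a).ap 1)) * R).ap y = R.ap (TensorProduct.lid ℂ _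
          (TensorProduct.map (l a - Fn.cst ((l a).ap 1)).ap .id s)) := fun R => by
        rw [hs]
        clear hs
        induction s with
        | zero => simp
        | tmul x y => simp
        | add x y hx hy => simp only [map_add, hx, hy]
      intro R
      rw [h3]
      refine ih _ (fun Q hQ => ?_) (fun Q hQ => ?_) R <;> rw [← h3]
      · exact h _ (van_mul _ (by omega) (van_one.2 (by simp)) hQ)
      · rw [sub_mul, hc]
        exact hy _ (sub_mem (hT a Q hQ) (T.smul_mem _ hQ))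
    have h3 : (Vf 1 Q).ap y = 0 := by
      rw [Vf_def]
      refine ins_eq (φ := fun a => (l a).ap ∘ₗ ι p) hl (N := Van p (SPar.triv ℂ ℂ) n)
        (fun a R hR => ?_) fun v => van_D hQ v
      have h4 : l a - Fn.cst ((l a).ap 1) - lin ((l a).ap ∘ₗ ι p) ∈ Van p _ 2 :=
        van_succ.2 ⟨by simp, fun v => van_one.2 (by simp [D_lin])⟩
      have h5 := h _ (van_mul _ (by omega) h4 hR)
      rwa [sub_mul, sub_ap, h2, zero_sub, neg_eq_zero] at h5
    have h4 := h _ (van_Vf_id _ hQ)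
    rw [sub_ap, h3, zero_sub, neg_eq_zero, smul_ap, smul_eq_zero] at h4
    exact h4.resolve_left (Nat.cast_ne_zero.2 (Nat.succ_ne_zero n))

/-- The leading order in the Planck constant. -/
lemma lead {t : Hat ℂ ℂ ⊗[ℂ] S p} {T : Set (Fe p (Hat ℂ ℂ))}
    (h0 : ∀ R ∈ T, ∀ y, R.ap y ∈ Hat.Lo ℂ ℂ 0) (ht : ∀ R ∈ T, pr t R = 0)
    (hs : ∀ w, (∀ R ∈ T, (R.ap w).co 0 = 0) → w = 0) : t = 0 := by
  let b := Module.Basis.ofVectorSpace ℂ (S p)
  obtain ⟨c, rfl⟩ := TensorProduct.eq_repr_basis_right b t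
  have h1 : ∀ m, (∀ i ∈ c.support, c i ∈ Hat.Lo ℂ ℂ m) →
      ∀ i ∈ c.support, c i ∈ Hat.Lo ℂ ℂ (m + 1) := by
    intro m hm i hi n hn
    rcases (Int.lt_add_one_iff.1 hn).lt_or_eq with hn | rfl
    · exact hm i hi n hn
    refine linearIndependent_iff'.1 b.linearIndependent c.support (fun j => (c j).co n)
      (hs _ fun R hR => ?_) i hi
    have h2 := congrArg (·.co n) (ht R hR)
    simp only [pr, Finsupp.sum, map_sum, bil_tmul, Hat.co_sum, id_apply, Hat.co_zero] at h2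
    rw [map_sum, Hat.co_sum, ← h2]
    refine sum_congr rfl fun j hj => ?_
    rw [Hat.mul_def, Hat.co_cv _ (hm j hj) (h0 R hR _)]
    simp
  obtain ⟨L, hL⟩ : ∃ L, ∀ i ∈ c.support, c i ∈ Hat.Lo ℂ ℂ L := by
    choose f hf using fun i => (c i).exists_Lo
    obtain ⟨L, hL⟩ := (c.support.image f).finite_toSet.bddBelow
    exact ⟨L, fun i hi => Hat.Lo_mono (hL (mem_image_of_mem f hi)) (hf i)⟩
  have h2 : ∀ k : ℕ, ∀ i ∈ c.support, c i ∈ Hat.Lo ℂ ℂ (L + k) := fun k => by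
    induction k with
    | zero => simpa using hL
    | succ k ih => exact fun i hi => Hat.Lo_mono (by push_cast; omega) (h1 _ ih i hi)
  refine sum_eq_zero fun i hi => ?_
  rw [Hat.eq_zero_of_Lo fun n => Hat.Lo_mono (by omega) (h2 (n - L).toNat i hi)]
  exact zero_tmul _ _

/-- A coefficient of a function with values in Laurent series. -/
noncomputable def co (j : ℤ) : Fe p (Hat ℂ ℂ) →ₗ[ℂ] Sc p := mapc _ (Hat.coL ℂ j)

lemma co_D (j : ℤ) (v : V) (F : Fe p (Hat ℂ ℂ)) : co j (D v F) = D v (co j F) := rfl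

lemma co_mul (F G : Fe p (Hat ℂ ℂ)) (x : S p) (j : ℤ) :
    ((F * G).ap x).co j = ∑ᶠ i, (co i F * co (j - i) G).ap x := by
  obtain ⟨t, ht⟩ := cop x
  simp only [ht]
  clear ht
  suffices h : (Function.support fun i => bil (co i F).ap (co (j - i) G).ap t).Finite ∧
      (bil F.ap G.ap t).co j = ∑ᶠ i, bil (co i F).ap (co (j - i) G).ap t from h.2
  induction t with
  | zero => simp
  | tmul a b =>
    obtain ⟨A, hA⟩ := (F.ap a).bdd
    obtain ⟨B, hB⟩ := (G.ap b).bdd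
    refine ⟨(Set.finite_Icc A (j - B)).subset fun i hi => ?_, rfl⟩
    have h1 := mul_ne_zero_iff.1 hi
    exact ⟨not_lt.1 fun h => h1.1 (hA i h), not_lt.1 fun h => h1.2 (hB _ (by omega))⟩
  | add a b ha hb =>
    simp only [map_add]
    exact ⟨(ha.1.union hb.1).subset (Function.support_add _ _), by
      rw [finsum_add_distrib ha.1 hb.1, Hat.co_add, ha.2, hb.2]⟩

/-- Functions with values in power series. -/
def Pw (F : Fe p (Hat ℂ ℂ)) : Prop := ∀ j < 0, co j F = 0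

lemma Pw.mul {F G : Fe p (Hat ℂ ℂ)} (hF : Pw F) (hG : Pw G) :
    Pw (F * G) ∧ co 0 (F * G) = co 0 F * co 0 G := by
  have h : ∀ j ≤ 0, ∀ i, i ≠ 0 ∨ j ≠ 0 → co i F * co (j - i) G = 0 := fun j hj i hi => by
    rcases lt_or_ge i 0 with h | h
    · rw [hF i h, zero_mul]
    · rw [hG _ (by omega), mul_zero]
  refine ⟨fun j hj => Fn.ext fun x => (co_mul F G x j).trans
    (finsum_eq_zero_of_forall_eq_zero fun i => ?_), Fn.ext fun x => (co_mul F G x 0).trans ?_⟩
  · rw [h j hj.le i (Or.inr hj.ne), zero_ap]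
  · rw [finsum_eq_single _ 0 fun i hi => by rw [h 0 le_rfl i (Or.inl hi), zero_ap], sub_zero]

lemma co_hb (j : ℤ) (F : Fe p (Hat ℂ ℂ)) : co j (Fn.cst (Hat.single ℂ 1 1) * F) = co (j - 1) F :=
  Fn.ext fun x => by
    show ((Fn.cst (Hat.single ℂ 1 1) * F).ap x).co j = (F.ap x).co (j - 1)
    rw [cst_mul_ap (s := SPar.triv ℂ _) rfl, Hat.co_single_mul, one_mul]

/-- The statement without the energy. -/
theorem core {A C : Fe (p.prod q) (Hat ℂ ℂ)} (hA : τ A = A) (h1 : A.ap 1 ≠ 0)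
    (hD : ∀ x, D (x, 0) A = D (x, 0) C * A) (hC : ∀ j < -1, co j C = 0)
    (nd : ∀ y, (∀ x, (C.ap (ι _ (x, 0) * ι _ (0, y))).co (-1) = 0) → y = 0)
    {t : Hat ℂ ℂ ⊗[ℂ] S q} (ht : ∀ z, pr t ((cur A).ap z) = 0) (F : Fe q (Hat ℂ ℂ)) :
    pr t F = 0 := by
  let r : Fe (p.prod q) (Hat ℂ ℂ) →ₐ[ℂ] Fe q (Hat ℂ ℂ) := pull _ (isEv_inr p q)
  let ħ : Hat ℂ ℂ := Hat.single ℂ 1 1
  obtain ⟨u, hu⟩ := exists_tr (r A) t
  refine pr_cancel (a := r A) (by rwa [pull_ap_one]) (fun G => ?_) F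
  let Z : Submodule ℂ (Fe (p.prod q) (Hat ℂ ℂ)) :=
    { carrier := {P | Pw P ∧ ∀ z, pr t ((cur (A * P)).ap z) = 0}
      add_mem' := fun ha hb => ⟨fun j hj => by rw [map_add, ha.1 j hj, hb.1 j hj, add_zero],
        fun z => by rw [mul_add, map_add, add_ap, pr_add, ha.2, hb.2, add_zero]⟩
      zero_mem' := ⟨fun j _ => map_zero _, fun z => by
        rw [mul_zero, map_zero, zero_ap, ← zero_mul 0, ← map_zero Fn.cst, pr_cst, zero_mul]⟩
      smul_mem' := fun c P hP => ⟨fun j hj => by rw [map_smul, hP.1 j hj, smul_zero], fun z => by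
        rw [show A * c • P = c • (A * P) from map_smul (mulL A) c P, map_smul, smul_ap]
        exact pr_smul c (hP.2 z)⟩ }
  have hl : ∀ x, Pw (Fn.cst ħ * D (x, 0) C) := fun x j hj => by
    rw [co_hb, co_D, hC _ (by omega), map_zero]
  have hZ : ∀ x, ∀ P ∈ Z, Fn.cst ħ * D (x, 0) C * P + Fn.cst ħ * D (x, 0) P ∈ Z := by
    refine fun x P hP => ⟨fun j hj => ?_, fun z => ?_⟩
    · rw [map_add, ((hl x).mul hP.1).1 j hj, co_hb, co_D, hP.1 _ (by omega),
        map_zero, add_zero]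
    · have e : A * (Fn.cst ħ * D (x, 0) C * P + Fn.cst ħ * D (x, 0) P) =
          Fn.cst ħ * D (x, 0) (A * P) := by
        rw [mul_assoc, ← mul_add, ← mul_assoc, ← comm_ev (τ_cst ħ), mul_assoc, D_mul_of_ev hA, hD,
          ← comm_ev hA, mul_add, mul_assoc]
      have e2 : (cur (Fn.cst ħ * D (x, 0) (A * P))).ap z =
          Fn.cst ħ * (cur (A * P)).ap (ι p x * z) := by
        rw [← D_ap, D_cur]
        ext y
        rw [cst_mul_ap (s := SPar.triv ℂ _) rfl, cur_ap_ap, cur_ap_ap,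
          cst_mul_ap (s := SPar.triv ℂ _) rfl]
      rw [e, e2, pr_cst, hP.2, mul_zero]
  rw [hu, lead (t := u) (T := r '' Z) ?_ ?_ fun w hw => ?_]
  · exact map_zero _
  · rintro _ ⟨P, hP, rfl⟩ y j hj
    exact congrArg (fun Q => Fn.ap Q (Fock.map _ (isEv_inr p q) y)) (hP.1 j hj)
  · rintro _ ⟨P, hP, rfl⟩
    rw [← hu, ← map_mul, ← cur_ap_one]
    exact hP.2 1
  · let r0 : Sc (p.prod q) →ₐ[ℂ] Sc q := pull _ (isEv_inr p q)
    refine sep (l := fun x => r0 (co 0 (Fn.cst ħ * D (x, 0) C))) (fun v hv => nd v fun x => ?_)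
      (T := Z.map (r0.toLinearMap ∘ₗ co 0)) ⟨1, ⟨fun j hj => ?_, fun z => ?_⟩, ?_⟩ ?_ ?_
    · have := hv x
      rw [co_hb, pull_ap, map_ι] at this
      exact this
    · ext x
      show (aug _ x • (1 : Hat ℂ ℂ)).co j = 0
      rw [Hat.co_smul, Hat.one_Lo j hj, smul_zero]
    · rw [mul_one]
      exact ht z
    · rw [← map_one r0]
      refine congrArg r0 (Fn.ext fun x => ?_)
      show (aug _ x • (1 : Hat ℂ ℂ)).co 0 = aug _ x • (1 : ℂ)
      rw [Hat.co_smul, Hat.one_def, Hat.co_single_same]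
    · rintro x _ ⟨P, hP, rfl⟩
      refine ⟨_, hZ x P hP, ?_⟩
      show r0 (co 0 _) = _ * r0 (co 0 P)
      rw [map_add, ((hl x).mul hP.1).2, co_hb _ (D _ P), co_D, hP.1 (0 - 1) (by omega),
        map_zero, add_zero, map_mul]
    · rintro _ ⟨P, hP, rfl⟩
      exact hw _ ⟨P, hP, rfl⟩

lemma dv_map {a : Module.End ℂ V} {b : Module.End ℂ W} (ha : IsEv p p a) (hb : IsEv q q b)
    {f : V →ₗ[ℂ] W} (hf : IsEv p q f) (h : ∀ v, b (f v) = f (a v)) (x : S p) :
    dv q b (Fock.map f hf x) = Fock.map f hf (dv p a x) := by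
  induction x using induction with
  | h1 => simp
  | hι v x hx => simp [dv_ι_mul ha, dv_ι_mul hb, hx, h]
  | hadd x y hx hy => simp only [map_add, hx, hy]
  | hsmul c x hx => simp only [map_smul, hx]

/-- Induction over monomials in eigenvectors. -/
lemma iSup_eq_top {U : ℕ → Submodule ℂ V} (hU : ⨆ d, U d = ⊤) {E : ℕ → Submodule ℂ (S p)}
    (h1 : 1 ∈ E 0) (h : ∀ d e, ∀ v ∈ U d, ∀ x ∈ E e, ι p v * x ∈ E (d + e)) : ⨆ e, E e = ⊤ := by
  refine eq_top_iff.2 fun x _ => ?_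
  induction x using induction with
  | h1 => exact Submodule.mem_iSup_of_mem 0 h1
  | hι v x hx =>
    refine Submodule.iSup_induction (motive := fun y => ι p v * y ∈ ⨆ e, E e) E (hx trivial)
      (fun e y hy => ?_) (by simp) fun y z hy hz => by rw [mul_add]; exact add_mem hy hz
    exact Submodule.iSup_induction (motive := fun w => ι p w * y ∈ ⨆ e, E e) U
      (hU ▸ Submodule.mem_top (x := v)) (fun d w hw => Submodule.mem_iSup_of_mem _ (h d e w hw y hy))
      (by simp) fun y z hy hz => by rw [map_add, add_mul]; exact add_mem hy hz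
  | hadd x y hx hy => exact add_mem (hx trivial) (hy trivial)
  | hsmul c x hx => exact Submodule.smul_mem _ c (hx trivial)

lemma eig_mul {a : Module.End ℂ V} (ha : IsEv p p a) {d e : ℕ} {v : V} {x : S p}
    (hv : a v = (d : ℂ) • v) (hx : x ∈ (dv p a).eigenspace e) :
    ι p v * x ∈ (dv p a).eigenspace ((d + e : ℕ) : ℂ) := by
  rw [Module.End.mem_eigenspace_iff] at hx ⊢
  rw [dv_ι_mul ha, hv, hx, map_smul, smul_mul_assoc, mul_smul_comm, Nat.cast_add, add_smul]

lemma enO_single (m : ℕ) (a : V) :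
    enO V (Finsupp.single m a) = ((m + 1 : ℕ) : ℂ) • Finsupp.single m a := by simp [enO]

lemma isEv_enO : IsEv (p.fs ℕ) (p.fs ℕ) (enO V) := fun v => by
  induction v using Finsupp.induction_linear with
  | zero => simp
  | add x y hx hy => simp only [map_add, hx, hy]
  | single m a => simp only [enO_single, map_smul, Par.fs_σ_single]

lemma exists_fin [FiniteDimensional ℂ V] (N : ℕ) : ∃ s : Finset (S (p.fs ℕ)), ∀ e < N, ∀ y,
    dv _ (enO V) y = (e : ℂ) • y → y ∈ Submodule.span ℂ (s : Set (S (p.fs ℕ))) := by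
  let U : ℕ → Submodule ℂ (S (p.fs ℕ)) := fun n =>
    1 ⊔ ⨆ m ∈ range n, LinearMap.range (ι _ ∘ₗ Finsupp.lsingle m)
  have hU : ∀ {m n}, m ≤ n → U m ^ m ≤ U n ^ n := fun h => pow_le_pow
    (sup_le_sup_left (biSup_mono fun _ hi => range_mono h hi) _) le_sup_left h
  have hE : (fun e : ℕ => (dv (p.fs ℕ) (enO V)).eigenspace e ⊓ U e ^ e) =
      fun e : ℕ => (dv (p.fs ℕ) (enO V)).eigenspace e := by
    refine (((dv _ (enO V)).eigenspaces_iSupIndep.comp Nat.cast_injective).le_iff_eq_of_iSup_eq_top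
      (iSup_eq_top (U := fun d => ⨆ m, ⨆ _ : m + 1 = d, LinearMap.range (Finsupp.lsingle m)) ?_
        (Submodule.mem_inf.2 ⟨by simp, Submodule.one_le.1 (pow_zero _).ge⟩) fun d e v hv x hx => ?_)).1 fun _ => inf_le_left
    · rw [iSup_comm]
      simpa using Finsupp.iSup_lsingle_range
    · rcases d with _ | d
      · simp only [Nat.succ_ne_zero, iSup_false, iSup_bot, Submodule.mem_bot] at hv
        simp [hv]
      simp only [Nat.add_right_cancel_iff, iSup_iSup_eq_left] at hv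
      obtain ⟨a, rfl⟩ := hv
      refine ⟨eig_mul isEv_enO (enO_single d a) hx.1, ?_⟩
      have h1 : U e ^ e ≤ U (d + 1 + e) ^ (d + e) := pow_le_pow (sup_le_sup_left
        (biSup_mono fun _ hi => range_mono (by omega) hi) _) le_sup_left (by omega)
      rw [show d + 1 + e = d + e + 1 by omega] at h1 ⊢
      rw [pow_succ']
      exact Submodule.mul_mem_mul (Submodule.mem_sup_right (Submodule.mem_iSup_of_mem d
        (Submodule.mem_iSup_of_mem (mem_range.2 (by omega)) ⟨a, rfl⟩))) (h1 hx.2)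
  obtain ⟨s, hs⟩ : (U N ^ N).FG := (Submodule.FG.sup ⟨{1}, by simp [Submodule.one_eq_span]⟩
    (Submodule.fg_biSup _ _ fun m _ => Submodule.fg_range _)).pow N
  exact ⟨s, fun e he y hy => hs ▸ hU he.le
    ((congrFun hE e).ge (Module.End.mem_eigenspace_iff.2 hy)).2⟩

section tot

open Polynomial

variable {B : Type} [CommRing B] [Algebra ℂ B] {n : Module.End ℂ V} {A : ℕ → Fe p B}

lemma ap_eq_zero (hA : ∀ e x, (A e).ap (dv p n x) = (e : ℂ) • (A e).ap x) {d e : ℕ} (h : e ≠ d)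
    {x : S p} (hx : dv p n x = (d : ℂ) • x) : (A e).ap x = 0 := by
  have h1 := hA e x
  rw [hx, map_smul, ← sub_eq_zero, ← sub_smul, smul_eq_zero, sub_eq_zero, Nat.cast_inj] at h1
  exact h1.resolve_left h.symm

lemma exists_tot (hn : IsEv p p n) (hV : ⨆ d : ℕ, n.eigenspace d = ⊤)
    (hA : ∀ e x, (A e).ap (dv p n x) = (e : ℂ) • (A e).ap x) :
    ∃ F : Fe p B[X], ∀ e x, (F.ap x).coeff e = (A e).ap x := by
  have h : ∀ x, ∃ f : B[X], ∀ e, f.coeff e = (A e).ap x := fun x => by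
    refine Submodule.iSup_induction (motive := fun x => ∃ f : B[X], ∀ e,
      f.coeff e = (A e).ap x) (fun e : ℕ => (dv p n).eigenspace e) (x := x) ?_ (fun d y hy => ?_)
      ⟨0, by simp⟩ fun y z ⟨f, hf⟩ ⟨g, hg⟩ => ⟨f + g, fun e => by rw [coeff_add, map_add, hf, hg]⟩
    · exact (iSup_eq_top (E := fun e : ℕ => (dv p n).eigenspace e) hV (by simp)
        fun d e v hv x hx => eig_mul hn (Module.End.mem_eigenspace_iff.1 hv) hx).ge trivial
    · refine ⟨monomial d ((A d).ap y), fun e => ?_⟩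
      rw [coeff_monomial]
      split_ifs with h
      · rw [h]
      · exact (ap_eq_zero hA (Ne.symm h) (Module.End.mem_eigenspace_iff.1 hy)).symm
  choose f hf using h
  exact ⟨of _ ⟨⟨f, fun x y => Polynomial.ext fun e => by rw [coeff_add, hf, hf, hf, map_add]⟩,
    fun c x => Polynomial.ext fun e => by simp [hf]⟩, fun e x => hf x e⟩

lemma coeff_mul_ap {A C : ℕ → Fe p B} {F G : Fe p B[X]}
    (hF : ∀ e x, (F.ap x).coeff e = (C e).ap x) (hG : ∀ e x, (G.ap x).coeff e = (A e).ap x)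
    (e : ℕ) (x : S p) : ((F * G).ap x).coeff e = ∑ q ∈ antidiagonal e, (C q.1 * A q.2).ap x := by
  obtain ⟨t, ht⟩ := cop x
  simp only [ht]
  clear ht
  induction t with
  | zero => simp
  | tmul a b => simp only [bil_tmul, coeff_mul, hF, hG]
  | add a b ha hb => simp only [map_add, coeff_add, ha, hb, sum_add_distrib]

/-- The sum over all energies. -/
noncomputable def ev1 : Fe p B[X] →ₗ[ℂ] Fe p B :=
  mapc _ ((aeval (1 : B)).toLinearMap.restrictScalars ℂ)

lemma ev1_ap (F : Fe p B[X]) (x : S p) : (ev1 F).ap x = (F.ap x).eval 1 := by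
  rw [← coe_aeval_eq_eval]
  rfl

lemma ev1_mul (F G : Fe p B[X]) : ev1 (F * G) = ev1 F * ev1 G :=
  mapc_mul (fun _ => rfl) (fun a b => map_mul (aeval (1 : B)) a b) F G

lemma ev1_eig (hA : ∀ e x, (A e).ap (dv p n x) = (e : ℂ) • (A e).ap x) {F : Fe p B[X]}
    (hF : ∀ e x, (F.ap x).coeff e = (A e).ap x) {d : ℕ} {x : S p} (hx : dv p n x = (d : ℂ) • x) :
    (ev1 F).ap x = (A d).ap x := by
  have : F.ap x = monomial d ((A d).ap x) := Polynomial.ext fun e => by
    rw [hF, coeff_monomial]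
    split_ifs with h
    · rw [h]
    · exact ap_eq_zero hA (Ne.symm h) hx
  rw [ev1_ap, this, eval_monomial, one_pow, mul_one]

end tot

lemma tp_diag (F G : S p →ₗ[ℂ] ℂ) (v : V) (x : S p) :
    tp F G (ι _ (v, 0) * Fock.map _ (isEv_diag p) x) =
      (D v (of (SPar.triv ℂ ℂ) F) * of (SPar.triv ℂ ℂ) G).ap x := by
  have h0 : ∀ w : V × V, w.2 = 0 → D w (pull _ (isEv_snd p p) (of (SPar.triv ℂ ℂ) G)) = 0 :=
    fun w hw => by rw [D_pull, snd_apply, hw, map_zero, LinearMap.zero_apply, map_zero]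
  rw [tp, ← D_ap, ← pull_ap, D_mul', h0 _ (by simp [Par.ev_apply]), h0 _ (by simp [Par.od_apply]),
    mul_zero, mul_zero, add_zero, add_zero, D_pull, map_mul, pull_pull_id _ _ _ _ fun _ => rfl,
    pull_pull_id _ _ _ _ fun _ => rfl]
  rfl

end G3a

open G3a in
theorem span_of_g3 {X Y : Type} [AddCommGroup X] [Module ℂ X] [AddCommGroup Y] [Module ℂ Y]
    [FiniteDimensional ℂ Y] {pX : Par ℂ X} {pY : Par ℂ Y}
    (A C : ℕ → ℤ → S (pX.prod (pY.fs ℕ)) →ₗ[ℂ] ℂ)
    (A_ev : ∀ e j x, A e j (par _ x) = A e j x) (C_ev : ∀ e j x, C e j (par _ x) = C e j x)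
    (A_low : ∀ e x, ∃ J, ∀ j < J, A e j x = 0) (C_low : ∀ e j, j < -1 → C e j = 0)
    (A_en : ∀ e j x, A e j (dv _ ((0 : Module.End ℂ _).prodMap (enO Y)) x) = e * A e j x)
    (C_en : ∀ e j x, C e j (dv _ ((0 : Module.End ℂ _).prodMap (enO Y)) x) = e * C e j x)
    (prod : ∀ (e : ℕ) j v x, A e j (ι _ v * x) = ∑ q ∈ antidiagonal e, ∑ᶠ i : ℤ,
      tp (C q.1 i) (A q.2 (j - i)) (ι _ (v, 0) * Fock.map _ (isEv_diag _) x))
    (norm : ∀ j ≤ 0, A 0 j 1 = if j = 0 then 1 else 0)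
    (nd : ∀ y : VV Y, (∀ x, (y.sum fun m a => C (m + 1) (-1)
      (ι _ (x, 0) * ι _ (0, Finsupp.single m a))) = 0) → y = 0)
    (N : ℕ) (G : S (pY.fs ℕ) →ₗ[ℂ] Hat ℂ ℂ) :
    ∃ (t : Finset (S pX)) (c : S pX → Hat ℂ ℂ), ∀ e < N, ∀ y, dv _ (enO Y) y = (e : ℂ) • y →
      G y = ∑ z ∈ t, c z * lau (A e) (A_low e)
        (Fock.map _ (isEv_inl _ _) z * Fock.map _ (isEv_inr _ _) y) := by
  have hn : IsEv (pX.prod (pY.fs ℕ)) (pX.prod (pY.fs ℕ)) ((0 : Module.End ℂ _).prodMap (enO Y)) :=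
    fun v => Prod.ext (map_zero pX.σ) (isEv_enO v.2)
  have hV : ⨆ d : ℕ, Module.End.eigenspace ((0 : Module.End ℂ X).prodMap (enO Y)) d = ⊤ := by
    refine eq_top_iff.2 fun ⟨x, y⟩ _ => ?_
    induction y using Finsupp.induction_linear generalizing x with
    | zero => exact Submodule.mem_iSup_of_mem 0 (by simp)
    | add y z hy hz => simpa using add_mem (hy x trivial) (hz 0 trivial)
    | single m a =>
      rw [← Prod.fst_add_snd (x, Finsupp.single m a)]
      exact add_mem (Submodule.mem_iSup_of_mem 0 (by simp))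
        (Submodule.mem_iSup_of_mem (m + 1) (by simp [enO_single]))
  have he : ∀ (e : ℕ) y, dv _ (enO Y) y = (e : ℂ) • y → ∀ z,
      dv _ ((0 : Module.End ℂ _).prodMap (enO Y))
        (Fock.map _ (isEv_inl pX (pY.fs ℕ)) z * Fock.map _ (isEv_inr _ _) y) =
      (e : ℂ) • (Fock.map _ (isEv_inl _ _) z * Fock.map _ (isEv_inr _ _) y) := fun e y hy z => by
    rw [dv_mul hn, dv_map (a := 0) (fun _ => map_zero _) hn _ fun _ => by simp,
      dv_map isEv_enO hn _ fun _ => by simp, hy]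
    simp
  let A' : ℕ → Fe _ (Hat ℂ ℂ) := fun e => of _ (lau (A e) (A_low e))
  let C' : ℕ → Fe _ (Hat ℂ ℂ) := fun e =>
    of _ (lau (C e) fun x => ⟨-1, fun j hj => by rw [C_low e j hj]; rfl⟩)
  have hA : ∀ e x, (A' e).ap (dv _ _ x) = (e : ℂ) • (A' e).ap x :=
    fun e x => Hat.ext (funext fun j => A_en e j x)
  have hC : ∀ e x, (C' e).ap (dv _ _ x) = (e : ℂ) • (C' e).ap x :=
    fun e x => Hat.ext (funext fun j => C_en e j x)
  obtain ⟨𝒜, h𝒜⟩ := exists_tot hn hV hA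
  obtain ⟨𝒞, h𝒞⟩ := exists_tot hn hV hC
  have key : ∀ t, (∀ z, pr t ((cur (ev1 𝒜)).ap z) = 0) → ∀ F, pr t F = 0 := by
    refine fun t => core (C := ev1 𝒞) (Fn.ext fun x => ?_) ?_ (fun x => ?_)
      (fun j hj => Fn.ext fun x => ?_) fun y hy => nd y fun x => ?_
    · refine congrArg (Polynomial.aeval (1 : Hat ℂ ℂ)) (Polynomial.ext fun e => ?_)
      exact (h𝒜 e _).trans ((Hat.ext (funext fun j => A_ev e j x)).trans (h𝒜 e x).symm)
    · rw [ev1_eig hA h𝒜 (d := 0) (by simp)]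
      exact fun h => one_ne_zero ((norm 0 le_rfl).symm.trans (congrArg (·.co 0) h))
    · refine (congrArg ev1 (Fn.ext fun y => Polynomial.ext fun e => ?_ : D (x, 0) 𝒜 = _)).trans
        (ev1_mul (D (x, 0) 𝒞) 𝒜)
      rw [coeff_mul_ap (C := fun e => D (x, 0) (C' e)) (fun e y => h𝒞 e _) h𝒜]
      refine (h𝒜 e _).trans (Hat.ext (funext fun j => (prod e j _ y).trans ?_))
      rw [Hat.co_sum]
      exact sum_congr rfl fun q _ => by simp only [co_mul, tp_diag]; rfl
    · show ((ev1 𝒞).ap x).co j = 0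
      rw [ev1_ap, Polynomial.eval_eq_sum_range, Hat.co_sum]
      refine sum_eq_zero fun e _ => ?_
      rw [one_pow, mul_one, h𝒞]
      exact LinearMap.congr_fun (C_low e j hj) x
    · rw [← hy x]
      clear hy
      induction y using Finsupp.induction_linear with
      | zero => simp [← Prod.zero_eq_mk]
      | add y z hy hz =>
        rw [Finsupp.sum_add_index' (fun _ => by simp [← Prod.zero_eq_mk]) fun m a b => by
          rw [Finsupp.single_add, ← map_add, ← mul_add, ← map_add, Prod.mk_add_mk, add_zero], hy, hz,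
          ← Hat.co_add, ← map_add, ← mul_add, ← map_add, Prod.mk_add_mk, add_zero]
      | single m a =>
        have := he (m + 1) (ι _ (Finsupp.single m a)) (by rw [dv_ι, enO_single, map_smul]) (ι _ x)
        rw [map_ι, map_ι] at this
        rw [Finsupp.sum_single_index (by simp [← Prod.zero_eq_mk])]
        exact (congrArg (·.co (-1)) (ev1_eig hC h𝒞 this)).symm
  classical
  obtain ⟨s, hs⟩ := exists_fin (p := pY) N
  let r : (S (pY.fs ℕ) →ₗ[ℂ] Hat ℂ ℂ) → s → Hat ℂ ℂ := fun F i => F i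
  have h1 : r G ∈ Submodule.span (Hat ℂ ℂ) (Set.range fun z => r ((cur (ev1 𝒜)).ap z).ap) := by
    refine (Subspace.forall_mem_dualAnnihilator_apply_eq_zero_iff _ _).1 fun φ hφ => ?_
    have h2 : ∀ F, φ (r F) = pr (∑ i : s, φ (fun j => if i = j then 1 else 0) ⊗ₜ i.1) (of _ F) :=
      fun F => by
        rw [LinearMap.pi_apply_eq_sum_univ, pr, map_sum]
        exact sum_congr rfl fun i _ => mul_comm _ _
    rw [h2]
    refine key _ (fun z => (h2 _).symm.trans ?_) _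
    exact (Submodule.mem_dualAnnihilator φ).1 hφ _ (Submodule.subset_span ⟨z, rfl⟩)
  obtain ⟨c, hc⟩ := Finsupp.mem_span_range_iff_exists_finsupp.1 h1
  refine ⟨c.support, c, fun e heN y hy => ?_⟩
  have h2 : G y = (∑ z ∈ c.support, mulLeft ℂ (c z) ∘ₗ ((cur (ev1 𝒜)).ap z).ap) y :=
    LinearMap.eqOn_span (fun i hi => by
      rw [LinearMap.sum_apply]
      exact (congrFun hc ⟨i, hi⟩).symm.trans (Finset.sum_apply _ _ _)) (hs e heN y hy)
  rw [h2, LinearMap.sum_apply]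
  exact sum_congr rfl fun z _ => congrArg (c z * ·) (ev1_eig hA h𝒜 (he e y hy z))

end Vale.Agent.P269.Deg
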