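import Vale.Agent.P269.Deg.Van

/-! Currying, the transfer lemma and the cancellation lemmas for formal functions. -/

namespace Vale.Agent.P269.Deg

open Fock LinearMap

section
variable {K : Type*} [CommRing K] {V W U : Type*} [AddCommGroup V] [Module K V]
  [AddCommGroup W] [Module K W] [AddCommGroup U] [Module K U] (p : Par K V) (q : Par K W)

lemma isEv_inl : IsEv p (p.prod q) (inl K V W) := fun v => by simp
lemma isEv_inr : IsEv q (p.prod q) (inr K V W) := fun v => by simp
lemma isEv_fst : IsEv (p.prod q) p (fst K V W) := fun _ => rfl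
lemma isEv_snd : IsEv (p.prod q) q (snd K V W) := fun _ => rfl
lemma isEv_id : IsEv p p LinearMap.id := fun _ => rfl

variable {p q}

lemma isEv_prodMap {r : Par K U} {g : W →ₗ[K] U} (hg : IsEv q r g) :
    IsEv (p.prod q) (p.prod r) (LinearMap.id.prodMap g) := fun v => by simp [hg v.2]

lemma isEv_comp {r : Par K U} {f : V →ₗ[K] W} {g : W →ₗ[K] U} (hg : IsEv q r g)
    (hf : IsEv p q f) : IsEv p r (g ∘ₗ f) := fun v => by simp [hg _, hf v]

lemma isEv_prod {r : Par K U} {f : V →ₗ[K] W} {g : V →ₗ[K] U} (hf : IsEv p q f)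
    (hg : IsEv p r g) : IsEv p (q.prod r) (f.prod g) := fun v => by simp [hg v, hf v]

/-- The underlying linear parity. -/
def SPar.par {B : Type*} [Ring B] [Algebra K B] (s : SPar K B) : Par K B := ⟨s.σ.toLinearMap, s.inv⟩

end

variable {K : Type*} [CommRing K] [Algebra ℚ K] {V W U : Type*} [AddCommGroup V] [Module K V]
  [AddCommGroup W] [Module K W] [AddCommGroup U] [Module K U] {A B : Type*} [Ring A] [Algebra K A]
  [Ring B] [Algebra K B] {p : Par K V} {q : Par K W} {r : Par K U} {s : SPar K B} {sA : SPar K A}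

namespace Fn

lemma pull_pull_zero (f : V →ₗ[K] W) (hf : IsEv p q f) (g : W →ₗ[K] U) (hg : IsEv q r g)
    (e : ∀ v, g (f v) = 0) (F : Fn r s) : pull f hf (pull g hg F) = cst (F.ap 1) := by
  rw [pull_pull _ _ _ _ _ (isEv_comp hg hf) (fun _ => rfl), pull_zero _ _ e]

lemma pull_pull_id (f : V →ₗ[K] W) (hf : IsEv p q f) (g : W →ₗ[K] V) (hg : IsEv q p g)
    (e : ∀ v, g (f v) = v) (F : Fn p s) : pull f hf (pull g hg F) = F := by
  rw [pull_pull _ _ _ _ _ (isEv_comp hg hf) (fun _ => rfl), pull_id _ _ e]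

/-- Currying. -/
noncomputable def curL : Fn (p.prod q) s →ₗ[K] Fn p (spar q s) where
  toFun F := of _ ((pull (inr K V W) (isEv_inr p q)).toLinearMap ∘ₗ Dx.flip F ∘ₗ
    (Fock.map (inl K V W) (isEv_inl p q)).toLinearMap)
  map_add' F G := by ext x : 1; simp
  map_smul' c F := by ext x : 1; simp

lemma curL_ap (F : Fn (p.prod q) s) (x : S p) : (curL F).ap x =
    pull (inr K V W) (isEv_inr p q) (Dx (Fock.map (inl K V W) (isEv_inl p q) x) F) := rfl

lemma D_curL (v : V) (F : Fn (p.prod q) s) : D v (curL F) = curL (D (v, 0) F) := by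
  ext x : 1
  simp [curL_ap, Dx_ι_mul]

lemma τ_curL (F : Fn (p.prod q) s) : τ (curL F) = curL (τ F) := by
  ext x : 1
  rw [τ_ap, curL_ap, curL_ap, spar_σ, τ_pull, τ_Dx, par_map, par_par]

lemma curL_mul (F G : Fn (p.prod q) s) : curL (F * G) = curL F * curL G := by
  ext x : 1
  induction x using induction' generalizing F G with
  | h1 => simp [curL_ap]
  | hev v x hv hx =>
    have hw : (p.prod q).σ (v, 0) = (v, 0) := by simp [hv]
    rw [← D_ap, ← D_ap, D_mul_ev hv, D_curL, D_curL, D_curL, D_mul_ev hw, map_add, add_ap,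
      add_ap, hx, hx]
  | hod v x hv hx =>
    have hw : (p.prod q).σ (v, 0) = -(v, 0) := by simp [hv]
    rw [← D_ap, ← D_ap, D_mul_od hv, D_curL, D_curL, D_curL, D_mul_od hw, map_add, add_ap,
      add_ap, hx, hx, τ_curL]
  | hadd x y hx hy => simp only [map_add, hx, hy]
  | hsmul c x hx => simp only [map_smul, hx]

/-- Currying. -/
noncomputable def cur : Fn (p.prod q) s →ₐ[K] Fn p (spar q s) :=
  AlgHom.ofLinearMap curL (eq_of_D (by simp [curL_ap]) fun v => by simp [D_curL]) curL_mul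

lemma cur_ap (F : Fn (p.prod q) s) (x : S p) : (cur F).ap x =
    pull (inr K V W) (isEv_inr p q) (Dx (Fock.map (inl K V W) (isEv_inl p q) x) F) := rfl

lemma cur_ap_one (F : Fn (p.prod q) s) : (cur F).ap 1 = pull (inr K V W) (isEv_inr p q) F := by
  simp [cur_ap]

lemma D_cur (v : V) (F : Fn (p.prod q) s) : D v (cur F) = cur (D (v, 0) F) := D_curL v F

lemma τ_cur (F : Fn (p.prod q) s) : τ (cur F) = cur (τ F) := τ_curL F

lemma cur_D_ev {w : W} (h : q.σ w = w) (F : Fn (p.prod q) s) (x : S p) :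
    (cur (D (0, w) F)).ap x = D w ((cur F).ap x) := by
  have hw : (p.prod q).σ (0, w) = (0, w) := by simp [h]
  rw [cur_ap, cur_ap, D_pull, ← Dx_ι_mul, ι_comm_ev hw, Dx_mul, Dx_ι, inr_apply]

lemma cur_D_od {w : W} (h : q.σ w = -w) (F : Fn (p.prod q) s) (x : S p) :
    (cur (D (0, w) F)).ap x = D w ((cur F).ap (par p x)) := by
  have hw : (p.prod q).σ (0, w) = -(0, w) := by simp [h]
  rw [cur_ap, cur_ap, D_pull, ← Dx_ι_mul, ι_comm_od hw, Dx_mul, Dx_ι, inr_apply, par_map]

lemma cur_eq_zero {F : Fn (p.prod q) s} (h : cur F = 0) : F = 0 := by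
  refine coind (fun F => cur F = 0) (fun F hF => ?_) (fun F v hF _ => ?_) h
  · have := congrArg (fun G => (Fn.ap G 1).ap 1) hF
    simpa [cur_ap_one] using this
  · have e : v = (v.1, 0) + (0, q.ev v.2) + (0, q.od v.2) := by simp [q.ev_add_od]
    rw [e, map_add, map_add, LinearMap.add_apply, LinearMap.add_apply]
    refine add_mem (add_mem (Submodule.subset_span ?_) (Submodule.subset_span ?_))
      (Submodule.subset_span ?_)
    · change cur _ = 0
      rw [← D_cur, hF, map_zero]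
    · change cur _ = 0
      ext x : 1
      rw [cur_D_ev (q.σ_ev _), hF]; simp
    · change cur _ = 0
      ext x : 1
      rw [cur_D_od (q.σ_od _), hF]; simp

lemma cur_injective : Function.Injective (cur : Fn (p.prod q) s → Fn p (spar q s)) :=
  (injective_iff_map_eq_zero cur).2 fun _ => cur_eq_zero

lemma cur_surjective : Function.Surjective (cur : Fn (p.prod q) s → Fn p (spar q s)) := by
  let d : V × W →ₗ[K] Module.End K (Fn p (spar q s)) :=
    { toFun := fun v => D v.1 + mapc _ (D (q.ev v.2)) +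
        mapc _ (D (q.od v.2)) ∘ₗ pre (par p).toLinearMap
      map_add' := fun v w => by
        ext G x : 2
        simp; abel
      map_smul' := fun c v => by
        ext G x : 2
        simp }
  have hd : ∀ v G x, (d v G).ap x = G.ap (ι p v.1 * x) + D (q.ev v.2) (G.ap x) +
      D (q.od v.2) (G.ap (par p x)) := fun _ _ _ => rfl
  have hs : SC (p.prod q) d := by
    constructor
    · intro v w h
      have h1 : p.σ w.1 = w.1 := congrArg Prod.fst h
      have h2 : q.σ w.2 = w.2 := congrArg Prod.snd h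
      ext G x : 2
      simp only [Module.End.mul_apply, hd, Par.ev_of_ev h2, Par.od_of_ev h2, map_zero,
        LinearMap.zero_apply, add_zero, map_add, map_mul, par_ι, h1, D_comm_ev _ h2]
      rw [← mul_assoc, ← mul_assoc, (sc_ι p).ev _ _ h1]
      abel
    · intro v w hv hw
      have h1 : p.σ v.1 = -v.1 := congrArg Prod.fst hv
      have h2 : q.σ v.2 = -v.2 := congrArg Prod.snd hv
      have h3 : p.σ w.1 = -w.1 := congrArg Prod.fst hw
      have h4 : q.σ w.2 = -w.2 := congrArg Prod.snd hw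
      ext G x : 2
      simp only [Module.End.mul_apply, hd, Par.ev_of_od h2, Par.od_of_od h2, Par.ev_of_od h4,
        Par.od_of_od h4, map_zero, LinearMap.zero_apply, add_zero, map_add, map_mul, par_ι, h1, h3,
        LinearMap.neg_apply, neg_ap, map_neg, neg_mul, par_par, D_comm_od h2 h4]
      rw [← mul_assoc, ← mul_assoc, (sc_ι p).od _ _ h3 h1, neg_mul, map_neg]
      abel
  let e : Fn p (spar q s) →ₗ[K] B :=
    (LinearMap.applyₗ (1 : S q) : Fn q s →ₗ[K] B) ∘ₗ LinearMap.applyₗ (1 : S p)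
  obtain ⟨Φ, h1, h2⟩ := exists_unfold d hs e
  have hD : ∀ v G, D v (of s (Φ G)) = of s (Φ (d v G)) := fun v G => ext fun x => h2 G v x
  have h0 : ∀ y G, (pull (inr K V W) (isEv_inr p q) (of s (Φ G))).ap y = (G.ap 1).ap y := by
    intro y
    induction y using induction with
    | h1 => exact fun G => by rw [pull_ap_one]; exact h1 G
    | hι w y hy =>
      intro G
      rw [← D_ap, D_pull, hD, hy, hd, ← D_ap w (G.ap 1)]
      simp only [inr_apply, map_zero, zero_mul, zero_add, map_one]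
      rw [← LinearMap.add_apply, ← map_add, q.ev_add_od]
    | hadd x y hx hy => intro G; simp only [map_add, hx, hy]
    | hsmul c x hx => intro G; simp only [map_smul, hx]
  intro G
  refine ⟨of s (Φ G), ?_⟩
  ext x : 1
  induction x using induction generalizing G with
  | h1 => rw [cur_ap_one]; exact ext fun y => h0 y G
  | hι v x hx =>
    rw [← D_ap, D_cur, hD, hx, hd]
    simp
  | hadd x y hx hy => simp only [map_add, hx, hy]
  | hsmul c x hx => simp only [map_smul, hx]

lemma cur_pull_fst (X : Fn p s) :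
    cur (pull (fst K V W) (isEv_fst p q) X) = mapc _ (cst (p := q) (s := s)).toLinearMap X := by
  ext x : 1
  induction x using induction generalizing X with
  | h1 =>
    rw [cur_ap_one, pull_pull_zero _ _ _ _ fun _ => rfl]
    rfl
  | hι v x hx => rw [← D_ap, D_cur, D_pull, hx]; rfl
  | hadd x y hx hy => simp only [map_add, hx, hy]
  | hsmul c x hx => simp only [map_smul, hx]

lemma cur_pull_snd (X : Fn q s) : cur (pull (snd K V W) (isEv_snd p q) X) = cst X :=
  eq_of_D (by
    rw [cur_ap_one, cst_ap_one, pull_pull_id _ _ _ _ fun _ => rfl]) fun v => by simp [D_cur, D_pull]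

lemma cur_pull_prodMap {g : W →ₗ[K] U} (hg : IsEv q r g) (F : Fn (p.prod r) s) :
    cur (pull _ (isEv_prodMap (p := p) hg) F) = mapc _ (pull g hg).toLinearMap (cur F) := by
  ext x : 1
  induction x using induction generalizing F with
  | h1 =>
    rw [cur_ap_one, mapc_ap, cur_ap_one, AlgHom.toLinearMap_apply,
      pull_pull _ _ _ _ _ (isEv_comp (isEv_inr p r) hg) (fun _ => by simp),
      pull_pull _ _ _ _ _ (isEv_comp (isEv_inr p r) hg) fun _ => rfl]
  | hι v x hx =>
    rw [← D_ap, ← D_ap, D_cur, D_pull, hx, D_mapc, D_cur]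
    simp
  | hadd x y hx hy => simp only [map_add, hx, hy]
  | hsmul c x hx => simp only [map_smul, hx]

lemma cur_Vf {a : Module.End K V} (h : IsEv p p a) (F : Fn (p.prod q) s) :
    cur (Vf (a.prodMap 0) F) = Vf a (cur F) := by
  have h' : IsEv (p.prod q) (p.prod q) (a.prodMap 0) := fun v => by simp [h v.1]
  ext x : 1
  induction x using induction generalizing F with
  | h1 => rw [cur_ap_one, pull_Vf_zero _ _ fun _ => by simp, Vf_ap_one]
  | hι v x hx =>
    rw [← D_ap, ← D_ap, D_cur, D_Vf_of_ev h, D_Vf_of_ev h', map_add, add_ap, add_ap, hx, D_cur,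
      D_cur]
    simp
  | hadd x y hx hy => simp only [map_add, hx, hy]
  | hsmul c x hx => simp only [map_smul, hx]

lemma cur_ap_ap (F : Fn (p.prod q) s) (x : S p) (y : S q) : ((cur F).ap x).ap y =
    F.ap (Fock.map (inl K V W) (isEv_inl p q) x * Fock.map (inr K V W) (isEv_inr p q) y) := rfl

/-- The Euler operator in the first variable, perturbed by a multiplication operator. -/
theorem euler_inj' {L F : Fn (p.prod q) s} (hL : pull _ (isEv_inr p q) L = 0)
    (h1 : pull _ (isEv_inr p q) F = 0) (h : Vf ((1 : Module.End K V).prodMap 0) F + L * F = 0) :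
    F = 0 := by
  refine cur_eq_zero (euler_inj (L := cur L) (by rwa [cur_ap_one]) (by rwa [cur_ap_one]) ?_)
  rw [← cur_Vf (a := 1) (isEv_id p), ← map_mul, ← map_add]
  exact (congrArg cur h).trans (map_zero _)

theorem euler_surj' {L G : Fn (p.prod q) s} (hL : pull _ (isEv_inr p q) L = 0)
    (h1 : pull _ (isEv_inr p q) G = 0) : ∃ F : Fn (p.prod q) s, pull _ (isEv_inr p q) F = 0 ∧
      Vf ((1 : Module.End K V).prodMap 0) F + L * F = G := by
  obtain ⟨F, h, h'⟩ := euler_surj (L := cur L) (G := cur G) (by rwa [cur_ap_one])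
    (by rwa [cur_ap_one])
  obtain ⟨F, rfl⟩ := cur_surjective F
  refine ⟨F, by rwa [cur_ap_one] at h, cur_injective ?_⟩
  rw [map_add, map_mul, ← h']
  exact congrArg (· + _) (cur_Vf (isEv_id p) F)

lemma cst_mul_ap_od {b : B} (hb : s.σ b = -b) (F : Fn p s) (x : S p) :
    (cst b * F).ap x = b * F.ap (par p x) := by
  induction x using induction' generalizing F b with
  | h1 => simp
  | hev v x hv hx => rw [← D_ap, D_mul_ev hv, D_cst, zero_mul, zero_add, hx hb]; simp [par_ι, hv]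
  | hod v x hv hx =>
    rw [← D_ap, D_mul_od hv, D_cst, zero_mul, zero_add, τ_cst, hb,
      hx (by rw [map_neg, hb])]
    simp [par_ι, hv]
  | hadd x y hx hy => simp only [map_add, hx hb, hy hb, mul_add]
  | hsmul c x hx => simp only [map_smul, hx hb, mul_smul_comm]

lemma σ_ap_of_ev {F : Fn p s} (h : τ F = F) (x : S p) : s.σ (F.ap x) = F.ap (par p x) := by
  conv_rhs => rw [← h, τ_ap, par_par]

lemma σ_ap_of_od {F : Fn p s} (h : τ F = -F) (x : S p) : s.σ (F.ap x) = -F.ap (par p x) := by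
  rw [← neg_ap, ← h, τ_ap, par_par]

lemma mul_eq_zero_of_cst_mul {c : B} {G : Fn p s} (hG : τ G = G) (h : cst c * G = 0) (z : S p) :
    c * G.ap z = 0 := by
  have h1 : ∀ z, s.par.ev c * G.ap z + s.par.od c * G.ap (par p z) = 0 := fun z => by
    rw [← cst_mul_ap (s.par.σ_ev c), ← cst_mul_ap_od (s.par.σ_od c), ← add_ap, ← add_mul,
      ← map_add, Par.ev_add_od, h, zero_ap]
  rw [← (parS p).ev_add_od z, map_add, mul_add]
  have a := h1 ((parS p).ev z)
  have b := congrArg s.σ (h1 ((parS p).od z))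
  have e1 : par p ((parS p).ev z) = (parS p).ev z := (parS p).σ_ev z
  have e2 : par p ((parS p).od z) = -(parS p).od z := (parS p).σ_od z
  have e3 : s.σ (s.par.ev c) = s.par.ev c := s.par.σ_ev c
  have e4 : s.σ (s.par.od c) = -s.par.od c := s.par.σ_od c
  rw [e1, ← add_mul, Par.ev_add_od] at a
  rw [map_add, map_mul, map_mul, σ_ap_of_ev hG, σ_ap_of_ev hG, par_par, e2, e3, e4, map_neg,
    mul_neg, neg_mul, ← neg_add, ← add_mul, Par.ev_add_od, map_zero, neg_eq_zero] at b
  rw [a, b, add_zero]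

/-- Cancellation of a right factor. -/
theorem cancel_right {N : Submodule K B} {b : Fn (p.prod q) s} (hb : τ b = b)
    (hN : ∀ y ∈ N, (∀ z, y * (pull _ (isEv_inr p q) b).ap z = 0) → y = 0) {Y : Fn p s}
    (hY : ∀ x, Y.ap x ∈ N) (h : pull _ (isEv_fst p q) Y * b = 0) : Y = 0 := by
  have h' := congrArg cur h
  rw [map_mul, cur_pull_fst, map_zero] at h'
  refine eq_zero_of_van_succ fun n hn x hx => hN _ (hY x) ?_
  have := mul_ap_of_van (van_mapc (s' := spar q s) cst.toLinearMap hn) (cur b) hx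
  rw [h', cur_ap_one] at this
  exact mul_eq_zero_of_cst_mul (by rw [τ_pull, hb]) this.symm

/-- Cancellation of a left factor. -/
theorem cancel_left {N : Submodule K B} {a : Fn (p.prod q) s} (ha : τ a = a)
    (hN : ∀ y ∈ N, (∀ z, (pull _ (isEv_inr p q) a).ap z * y = 0) → y = 0) {Y : Fn p s}
    (hY : ∀ x, Y.ap x ∈ N) (h : a * pull _ (isEv_fst p q) Y = 0) : Y = 0 := by
  have h' := congrArg cur h
  rw [map_mul, cur_pull_fst, map_zero] at h'
  refine eq_zero_of_van_succ fun n hn x hx => hN _ (hY x) fun z => ?_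
  have := mul_ap_of_van' (F := cur a) (by rw [τ_cur, ha])
    (van_mapc (s' := spar q s) cst.toLinearMap hn) hx
  rw [h', cur_ap_one] at this
  rw [← mul_cst_ap]
  exact (congrArg (fun G => Fn.ap G z) this).symm

lemma prod_ap (F : Fn p s) (G : Fn q s) (x : S p) (y : S q) :
    (τ F = F → (pull _ (isEv_fst p q) F * pull _ (isEv_snd p q) G).ap
      (Fock.map _ (isEv_inr p q) y * Fock.map _ (isEv_inl p q) x) = F.ap x * G.ap y) ∧
    (τ F = -F → (pull _ (isEv_fst p q) F * pull _ (isEv_snd p q) G).ap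
      (Fock.map _ (isEv_inr p q) y * Fock.map _ (isEv_inl p q) x) = F.ap x * G.ap (par q y)) := by
  induction y using induction' generalizing F G with
  | h1 =>
    have : (pull _ (isEv_fst p q) F * pull _ (isEv_snd p q) G).ap (Fock.map _ (isEv_inl p q) x) =
        F.ap x * G.ap 1 := by
      rw [← pull_ap, map_mul, pull_pull_id _ _ _ _ fun _ => rfl,
        pull_pull_zero _ _ _ _ fun _ => rfl, mul_cst_ap]
    simp [this]
  | hev w y hw hy =>
    have h' : (p.prod q).σ (0, w) = (0, w) := by simp [hw]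
    simp only [map_mul, map_ι, mul_assoc, ← D_ap, inr_apply, D_mul_ev h', D_pull, fst_apply,
      snd_apply, map_zero, LinearMap.zero_apply, zero_mul, zero_add, par_ι, hw]
    exact hy F _
  | hod w y hw hy =>
    have h' : (p.prod q).σ (0, w) = -(0, w) := by simp [hw]
    simp only [map_mul, map_ι, mul_assoc, ← D_ap, inr_apply, D_mul_od h', D_pull, fst_apply,
      snd_apply, map_zero, LinearMap.zero_apply, zero_mul, zero_add, par_ι, hw, τ_pull]
    refine ⟨fun h => by rw [h]; exact (hy F _).1 h, fun h => ?_⟩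
    rw [h, map_neg, neg_mul, neg_ap, (hy F _).2 h]
    simp
  | hadd y z hy hz =>
    exact ⟨fun h => by simp only [map_add, add_mul, mul_add, (hy F G).1 h, (hz F G).1 h],
      fun h => by simp only [map_add, add_mul, mul_add, (hy F G).2 h, (hz F G).2 h]⟩
  | hsmul c y hy =>
    exact ⟨fun h => by simp only [map_smul, smul_mul_assoc, mul_smul_comm, (hy F G).1 h],
      fun h => by simp only [map_smul, smul_mul_assoc, mul_smul_comm, (hy F G).2 h]⟩

/-- The transfer lemma without parameters. -/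
theorem transfer0 {φ : A →ₗ[K] B} (hφ : ∀ x, s.σ (φ x) = φ (sA.σ x)) {L R : Submodule K B}
    (hL : ∀ y ∈ L, s.σ y ∈ L) (hR : ∀ y ∈ R, s.σ y ∈ R) {a : Fn p s} {b : Fn q s} (ha : τ a = a)
    (hb : τ b = b) (hinj : ∀ X : A, (∀ x, a.ap x * φ X = 0) → X = 0)
    (h0 : ∀ (E : S p →ₗ[K] B) (M : S q →ₗ[K] B), (∀ x, E x ∈ L) → (∀ y, M y ∈ R) →
      (∀ x y, E x * b.ap y = a.ap x * M y) →
        ∃ X : A, (∀ x, E x = a.ap x * φ X) ∧ ∀ y, M y = φ X * b.ap y)
    {E : Fn p s} {M : Fn q s} (hE : ∀ x, E.ap x ∈ L) (hM : ∀ y, M.ap y ∈ R)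
    (h : pull _ (isEv_fst p q) E * pull _ (isEv_snd p q) b =
      pull _ (isEv_fst p q) a * pull _ (isEv_snd p q) M) :
    ∃ X : A, E = a * cst (φ X) ∧ M = cst (φ X) * b := by
  have h' := congrArg τ h
  rw [map_mul, map_mul, τ_pull, τ_pull, τ_pull, τ_pull, ha, hb] at h'
  have hτE : ∀ x, (τ E).ap x ∈ L := fun x => hL _ (hE _)
  have hτM : ∀ x, (τ M).ap x ∈ R := fun x => hR _ (hM _)
  obtain ⟨X, hX, hX'⟩ := h0 ((spar p s).par.ev E).ap ((spar q s).par.ev M).ap
    (fun x => L.smul_mem _ (add_mem (hE x) (hτE x))) (fun x => R.smul_mem _ (add_mem (hM x) (hτM x)))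
    fun x y => by
      rw [← (prod_ap _ b x y).1 ((spar p s).par.σ_ev E), ← (prod_ap a _ x y).1 ha]
      simp only [Par.ev_apply, map_smul, map_add, smul_mul_assoc, mul_smul_comm, add_mul, mul_add]
      exact congrArg (fun G => Fn.ap (hf K • G) _) (congrArg₂ (· + ·) h h')
  obtain ⟨Y, hY, hY'⟩ := h0 ((spar p s).par.od E).ap
    (((spar q s).par.od M).ap ∘ₗ (par q).toLinearMap)
    (fun x => L.smul_mem _ (sub_mem (hE x) (hτE x)))
    (fun x => R.smul_mem _ (sub_mem (hM _) (hτM _))) fun x y => by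
      have := (prod_ap _ b x (par q y)).2 ((spar p s).par.σ_od E)
      rw [par_par] at this
      rw [← this, LinearMap.comp_apply, AlgHom.toLinearMap_apply, ← (prod_ap a _ x _).1 ha]
      simp only [Par.od_apply, map_smul, map_sub, smul_mul_assoc, mul_smul_comm, sub_mul, mul_sub]
      exact congrArg (fun G => Fn.ap (hf K • G) _) (congrArg₂ (· - ·) h h')
  have eX : sA.σ X = X := by
    rw [← sub_eq_zero]
    refine hinj _ fun x => ?_
    have := congrArg s.σ (hX (par p x))
    rw [σ_ap_of_ev ((spar p s).par.σ_ev E), map_mul, σ_ap_of_ev ha, par_par, hφ, hX] at this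
    rw [map_sub, mul_sub, this, sub_self]
  have eY : sA.σ Y = -Y := by
    rw [← add_eq_zero_iff_eq_neg]
    refine hinj _ fun x => ?_
    have := congrArg s.σ (hY (par p x))
    rw [σ_ap_of_od ((spar p s).par.σ_od E), map_mul, σ_ap_of_ev ha, par_par, hφ, hY] at this
    rw [map_add, mul_add, ← this, neg_add_cancel]
  refine ⟨X + Y, ext fun x => ?_, ext fun y => ?_⟩
  · rw [mul_cst_ap, map_add, mul_add, ← hX, ← hY, ← add_ap, Par.ev_add_od]
  · rw [map_add, map_add, add_mul, add_ap, cst_mul_ap (by rw [hφ, eX]),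
      cst_mul_ap_od (by rw [hφ, eY, map_neg]), ← hX', ← hY']
    simp only [LinearMap.comp_apply, AlgHom.toLinearMap_apply, par_par]
    rw [← add_ap, Par.ev_add_od]

end Fn

section field

variable {K : Type*} [Field K] [Algebra ℚ K] {V W U : Type*} [AddCommGroup V] [Module K V]
  [AddCommGroup W] [Module K W] [AddCommGroup U] [Module K U] {A B : Type*} [Ring A] [Algebra K A]
  [Ring B] [Algebra K B] {p : Par K V} {q : Par K W} {r : Par K U} {s : SPar K B} {sA : SPar K A}

omit [Algebra ℚ K] in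
lemma exists_inner (f : V →ₗ[K] W) : ∃ g : W →ₗ[K] V, ∀ v, f (g (f v)) = f v := by
  obtain ⟨g, hg⟩ := f.rangeRestrict.exists_rightInverse_of_surjective f.range_rangeRestrict
  obtain ⟨g', hg'⟩ := g.exists_extend
  refine ⟨g', fun v => ?_⟩
  have h1 := LinearMap.congr_fun hg' ⟨f v, v, rfl⟩
  have h2 := congrArg Subtype.val (LinearMap.congr_fun hg ⟨f v, v, rfl⟩)
  simp only [LinearMap.comp_apply, Submodule.subtype_apply] at h1 h2
  rw [h1]
  exact h2

namespace Fn

theorem transfer1 {φ : A →ₗ[K] B} {L R : Submodule K B} {a b : Fn p s} (ha : τ a = a)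
    (hL : ∀ (X : Fn p sA) x, (a * mapc s φ X).ap x ∈ L)
    (hR : ∀ (X : Fn p sA) x, (mapc s φ X * b).ap x ∈ R)
    (h0 : ∀ E ∈ L, ∀ M ∈ R, E * b.ap 1 = a.ap 1 * M → ∃ X : A, E = a.ap 1 * φ X ∧ M = φ X * b.ap 1)
    {E M : Fn p s} (hE : ∀ x, E.ap x ∈ L) (hM : ∀ y, M.ap y ∈ R) (h : E * b = a * M) :
    ∃ X : Fn p sA, E = a * mapc s φ X ∧ M = mapc s φ X * b := by
  let Ψ : A →ₗ[K] B × B := (mulLeft K (a.ap 1) ∘ₗ φ).prod (mulRight K (b.ap 1) ∘ₗ φ)
  obtain ⟨ξ, hξ⟩ := exists_inner Ψ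
  obtain ⟨X, hX⟩ := exists_approx (fun n (X : Fn p sA) =>
    E - a * mapc s φ X ∈ Van p s n ∧ M - mapc s φ X * b ∈ Van p s n) ⟨0, van_zero _, van_zero _⟩ (by
      rintro n X ⟨h1, h2⟩
      let Y : Fn p sA := of _ (ξ ∘ₗ (E - a * mapc s φ X).ap.prod (M - mapc s φ X * b).ap)
      have hY : ∀ x, Y.ap x = ξ ((E - a * mapc s φ X).ap x, (M - mapc s φ X * b).ap x) :=
        fun _ => rfl
      have hv : Y ∈ Van p sA n := fun x hx => by
        rw [hY, h1 x hx, h2 x hx]; exact map_zero ξ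
      have key : ∀ x ∈ Fil p (n + 1), Ψ (Y.ap x) =
          ((E - a * mapc s φ X).ap x, (M - mapc s φ X * b).ap x) := by
        intro x hx
        obtain ⟨Z, e1, e2⟩ := h0 _ (sub_mem (hE x) (hL X x)) _ (sub_mem (hM x) (hR X x)) (by
          rw [← sub_ap, ← sub_ap, ← mul_ap_of_van h1 b hx, ← mul_ap_of_van' ha h2 hx, sub_mul,
            mul_sub, h, mul_assoc])
        have : ((E - a * mapc s φ X).ap x, (M - mapc s φ X * b).ap x) = Ψ Z := Prod.ext e1 e2
        rw [hY, this, hξ]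
      refine ⟨X + Y, ⟨fun x hx => ?_, fun x hx => ?_⟩, by rwa [add_sub_cancel_left]⟩
      · rw [map_add, mul_add, ← sub_sub, sub_ap, mul_ap_of_van' ha (van_mapc φ hv) hx, sub_eq_zero]
        exact (congrArg Prod.fst (key x hx)).symm
      · rw [map_add, add_mul, ← sub_sub, sub_ap, mul_ap_of_van (van_mapc φ hv) b hx, sub_eq_zero]
        exact (congrArg Prod.snd (key x hx)).symm)
  refine ⟨X, sub_eq_zero.1 (eq_zero_of_van fun n => ?_), sub_eq_zero.1 (eq_zero_of_van fun n => ?_)⟩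
  · obtain ⟨Y, h1, h2⟩ := hX n
    have := sub_mem h1.1 (van_mul_right a (van_mapc (s' := s) φ h2))
    rwa [map_sub, mul_sub, sub_sub, add_sub_cancel] at this
  · obtain ⟨Y, h1, h2⟩ := hX n
    have := sub_mem h1.2 (van_mul_left (van_mapc (s' := s) φ h2) b)
    rwa [map_sub, sub_mul, sub_sub, add_sub_cancel] at this

variable (q s) in
/-- Functions with values in a submodule. -/
def valIn (L : Submodule K B) : Submodule K (Fn q s) where
  carrier := {F | ∀ x, F.ap x ∈ L}
  add_mem' := fun ha hb x => add_mem (ha x) (hb x)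
  zero_mem' := fun _ => zero_mem L
  smul_mem' := fun c _ ha x => L.smul_mem c (ha x)

variable (p q r) in
omit [Algebra ℚ K] in
lemma isEv_j1 : IsEv (p.prod (q.prod r)) (p.prod q) (LinearMap.id.prodMap (fst K W U)) :=
  isEv_prodMap (isEv_fst q r)

variable (p q r) in
omit [Algebra ℚ K] in
lemma isEv_j2 : IsEv (p.prod (q.prod r)) (p.prod r) (LinearMap.id.prodMap (snd K W U)) :=
  isEv_prodMap (isEv_snd q r)

/-- The transfer lemma. -/
theorem transfer {φ : A →ₗ[K] B} (hφ : ∀ x, s.σ (φ x) = φ (sA.σ x)) {L R : Submodule K B}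
    (hL : ∀ y ∈ L, s.σ y ∈ L) (hR : ∀ y ∈ R, s.σ y ∈ R) (hLm : ∀ y ∈ L, ∀ x, y * φ x ∈ L)
    (hRm : ∀ y ∈ R, ∀ x, φ x * y ∈ R) {a : Fn (p.prod q) s} {b : Fn (p.prod r) s} (ha : τ a = a)
    (hb : τ b = b) (haL : ∀ x, a.ap x ∈ L) (hbR : ∀ x, b.ap x ∈ R)
    (hinj : ∀ X : A, (∀ x, (pull _ (isEv_inr p q) a).ap x * φ X = 0) → X = 0)
    (h0 : ∀ (E : S q →ₗ[K] B) (M : S r →ₗ[K] B), (∀ x, E x ∈ L) → (∀ y, M y ∈ R) →
      (∀ x y, E x * (pull _ (isEv_inr p r) b).ap y = (pull _ (isEv_inr p q) a).ap x * M y) →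
        ∃ X : A, (∀ x, E x = (pull _ (isEv_inr p q) a).ap x * φ X) ∧
          ∀ y, M y = φ X * (pull _ (isEv_inr p r) b).ap y)
    {E : Fn (p.prod q) s} {M : Fn (p.prod r) s} (hE : ∀ x, E.ap x ∈ L) (hM : ∀ y, M.ap y ∈ R)
    (h : pull _ (isEv_j1 p q r) E * pull _ (isEv_j2 p q r) b =
      pull _ (isEv_j1 p q r) a * pull _ (isEv_j2 p q r) M) :
    ∃ X : Fn p sA, E = a * pull _ (isEv_fst p q) (mapc s φ X) ∧
      M = pull _ (isEv_fst p r) (mapc s φ X) * b := by
  let f1 : Fn q s →ₐ[K] Fn (q.prod r) s := pull _ (isEv_fst q r)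
  let f2 : Fn r s →ₐ[K] Fn (q.prod r) s := pull _ (isEv_snd q r)
  have m1 : ∀ F G : Fn p (spar q s), mapc (spar (q.prod r) s) f1.toLinearMap (F * G) =
      mapc _ f1.toLinearMap F * mapc _ f1.toLinearMap G :=
    mapc_mul (fun b => τ_pull _ _ b) (map_mul f1)
  have m2 : ∀ F G : Fn p (spar r s), mapc (spar (q.prod r) s) f2.toLinearMap (F * G) =
      mapc _ f2.toLinearMap F * mapc _ f2.toLinearMap G :=
    mapc_mul (fun b => τ_pull _ _ b) (map_mul f2)
  have c1 : ∀ X : Fn p sA, mapc (spar (q.prod r) s) (cst.toLinearMap ∘ₗ φ) X =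
      mapc _ f1.toLinearMap (cur (pull _ (isEv_fst p q) (mapc s φ X))) := fun X => by
    rw [cur_pull_fst]
    exact ext fun x => (pull_cst _ _ _).symm
  have c2 : ∀ X : Fn p sA, mapc (spar (q.prod r) s) (cst.toLinearMap ∘ₗ φ) X =
      mapc _ f2.toLinearMap (cur (pull _ (isEv_fst p r) (mapc s φ X))) := fun X => by
    rw [cur_pull_fst]
    exact ext fun x => (pull_cst _ _ _).symm
  have h' := congrArg cur h
  rw [map_mul, map_mul, cur_pull_prodMap (isEv_fst q r), cur_pull_prodMap (isEv_fst q r),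
    cur_pull_prodMap (isEv_snd q r), cur_pull_prodMap (isEv_snd q r)] at h'
  have hσ : ∀ y ∈ LinearMap.range φ, s.σ y ∈ LinearMap.range φ := by
    rintro _ ⟨x, rfl⟩; exact ⟨_, (hφ x).symm⟩
  obtain ⟨X, h1, h2⟩ := transfer1 (sA := sA) (φ := cst.toLinearMap ∘ₗ φ)
    (L := (valIn q s L).map f1.toLinearMap) (R := (valIn r s R).map f2.toLinearMap)
    (by rw [τ_mapc (fun b => τ_pull _ _ b), τ_cur, ha])
    (fun X x => by
      rw [c1, ← m1, ← map_mul]
      refine ⟨_, fun y => mul_ap_mem (M := LinearMap.range φ) hL ?_ haL (fun z => ⟨_, rfl⟩) _, rfl⟩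
      rintro y hy _ ⟨x, rfl⟩
      exact hLm y hy x)
    (fun X x => by
      rw [c2, ← m2, ← map_mul]
      refine ⟨_, fun y => mul_ap_mem (L := LinearMap.range φ) hσ ?_ (fun z => ⟨_, rfl⟩) hbR _, rfl⟩
      rintro _ ⟨x, rfl⟩ y hy
      exact hRm y hy x)
    (by
      rintro _ ⟨E, hE, rfl⟩ _ ⟨M, hM, rfl⟩ h
      rw [mapc_ap, mapc_ap, cur_ap_one, cur_ap_one] at h ⊢
      obtain ⟨X, h1, h2⟩ := transfer0 hφ hL hR (by rw [τ_pull, ha]) (by rw [τ_pull, hb]) hinj h0
        hE hM h
      refine ⟨X, ?_, ?_⟩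
      · rw [h1]
        exact (map_mul f1 _ _).trans (congrArg _ (pull_cst _ _ _))
      · rw [h2]
        exact (map_mul f2 _ _).trans (congrArg (· * _) (pull_cst _ _ _)))
    (fun x => ⟨_, fun y => hE _, rfl⟩) (fun x => ⟨_, fun y => hM _, rfl⟩) h'
  refine ⟨X, cur_injective (ext fun x => ?_), cur_injective (ext fun x => ?_)⟩
  · rw [c1, ← m1, ← map_mul] at h1
    have := congrArg (fun G => pull _ (isEv_inl q r) (Fn.ap G x)) h1
    simp only [mapc_ap, AlgHom.toLinearMap_apply, f1] at this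
    rwa [pull_pull_id _ _ _ _ (fun _ => rfl), pull_pull_id _ _ _ _ (fun _ => rfl)] at this
  · rw [c2, ← m2, ← map_mul] at h2
    have := congrArg (fun G => pull _ (isEv_inr q r) (Fn.ap G x)) h2
    simp only [mapc_ap, AlgHom.toLinearMap_apply, f2] at this
    rwa [pull_pull_id _ _ _ _ (fun _ => rfl), pull_pull_id _ _ _ _ (fun _ => rfl)] at this

end Fn

end field

end Vale.Agent.P269.Deg
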