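import Vale.Agent.P269.Fock.Split

/-! Linearity and graded commutators of the three pieces of a quantisation. -/

namespace Vale.Agent.P269.Deg.An

open Fock Finset

section lin

variable {K : Type*} [CommRing K] [Algebra ℚ K] {H : Type*} [AddCommGroup H] [Module K H]
  {p : Par K H} {ι : Type*} [Fintype ι] {fr : Frame p ι} {A B : Module.End K (LL H)}

omit [Algebra ℚ K] in
lemma blk_add (A B : Module.End K (LL H)) : Frame.blk (A + B) = Frame.blk A + Frame.blk B :=
  LinearMap.ext fun v => by simp [Frame.blk]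

omit [Algebra ℚ K] in
lemma blk_smul (c : K) (A : Module.End K (LL H)) : Frame.blk (c • A) = c • Frame.blk A :=
  LinearMap.ext fun v => by simp [Frame.blk]

lemma q0_add (A B : Module.End K (LL H)) : fr.q0 (A + B) = fr.q0 A + fr.q0 B := by
  rw [Frame.q0_eq, Frame.q0_eq, Frame.q0_eq, blk_add, map_add]

lemma q0_smul (c : K) (A : Module.End K (LL H)) : fr.q0 (c • A) = c • fr.q0 A := by
  rw [Frame.q0_eq, Frame.q0_eq, blk_smul, map_smul]

lemma qm_add (hA : fr.Quad A) (hB : fr.Quad B) : fr.qm (A + B) = fr.qm A + fr.qm B := by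
  rw [(hA.add hB).qm_eq, hA.qm_eq, hB.qm_eq, ← map_add]
  congr 1
  refine Subtype.ext (LinearMap.ext fun v => ?_)
  simp [(hA.add hB).qf_val, hA.qf_val, hB.qf_val]

lemma qm_smul (hA : fr.Quad A) (c : K) : fr.qm (c • A) = c • fr.qm A := by
  rw [(hA.smul c).qm_eq, hA.qm_eq, ← map_smul]
  congr 1
  refine Subtype.ext (LinearMap.ext fun v => ?_)
  simp [(hA.smul c).qf_val, hA.qf_val]

lemma q1_add (hA : fr.Quad A) (hB : fr.Quad B) : fr.q1 (A + B) = fr.q1 A + fr.q1 B := by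
  have := hA.qz_add hB
  rw [Frame.qz_eq, Frame.qz_eq, Frame.qz_eq, q0_add, qm_add hA hB] at this
  linear_combination (norm := abel) this

lemma q1_smul (hA : fr.Quad A) (c : K) : fr.q1 (c • A) = c • fr.q1 A := by
  have := hA.qz_smul c
  rw [Frame.qz_eq, Frame.qz_eq, q0_smul, qm_smul hA, smul_add, smul_add] at this
  exact add_left_cancel this

omit [Algebra ℚ K] in
lemma adj_lie (hA : fr.Adj A (-A)) (hB : fr.Adj B (-B)) :
    fr.Adj (A * B - B * A) (-(A * B - B * A)) := by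
  intro y y'
  simpa using (hA.mul hB).sub (hB.mul hA) y y'

variable (fr) in
/-- The frame for the pairing divided by `t`. -/
noncomputable def scl (t : Kˣ) : Frame p ι where
  η := (↑t⁻¹ : K) • fr.η
  sym := (SymB p).smul_mem _ fr.sym
  e := fr.e
  f a := (t : K) • fr.f a
  π := fr.π
  he := fr.he
  hf a := by rw [map_smul, fr.hf, smul_comm]
  left v := by simpa [← mul_assoc] using fr.left v
  one := fr.one
  hone := fr.hone

omit [Algebra ℚ K] in
lemma scl_η (t : Kˣ) (v w : H) : (scl fr t).η v w = (↑t⁻¹ : K) * fr.η v w := rfl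

omit [Algebra ℚ K] in
lemma scl_Ω (t : Kˣ) (y y' : LL H) : (scl fr t).Ω y y' = (↑t⁻¹ : K) * fr.Ω y y' := by
  induction y using Finsupp.induction_linear with
  | zero => simp
  | add a b ha hb => simp [ha, hb, mul_add]
  | single i v => rw [Frame.Ω_single_left, Frame.Ω_single_left, scl_η, mul_left_comm]

omit [Algebra ℚ K] in
lemma scl_neg (t : Kˣ) (y : LL H) : (scl fr t).neg y = (↑t⁻¹ : K) • fr.neg y :=
  LinearMap.ext fun v => by rw [Frame.neg_apply, scl_Ω]; rfl

omit [Algebra ℚ K] in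
lemma quad_scl (hA : fr.Quad A) (t : Kˣ) : (scl fr t).Quad A :=
  ⟨hA.ev, fun y y' => by rw [scl_Ω, scl_Ω, hA.adj], hA.fin⟩

lemma qz_scl (hA : fr.Quad A) (t : Kˣ) :
    (scl fr t).qz A = fr.q0 A + (t : K) • fr.q1 A + (↑t⁻¹ : K) • fr.qm A := by
  have e0 : (scl fr t).q0 A = fr.q0 A := rfl
  have em : (scl fr t).qm A = (↑t⁻¹ : K) • fr.qm A := by
    rw [(quad_scl hA t).qm_eq, hA.qm_eq, ← map_smul]
    congr 1
    refine Subtype.ext (LinearMap.ext fun v => ?_)
    rw [(quad_scl hA t).qf_val, scl_neg, ← hA.qf_val]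
    rfl
  have e1 : (scl fr t).q1 A = (t : K) • fr.q1 A := by
    obtain ⟨N, hN⟩ := hA.fin
    rw [Frame.q1_eq, Frame.q1_eq, ← map_smul, Frame.cas_eq hN, Frame.cas_eq hN, smul_comm (t : K),
      Finset.smul_sum (r := (t : K))]
    congr 2
    refine sum_congr rfl fun m _ => ?_
    simp only [Frame.casT, Finset.smul_sum]
    refine sum_congr rfl fun a _ => ?_
    rw [show (scl fr t).f a = (t : K) • fr.f a from rfl, ← Finsupp.smul_single, map_smul, map_smul,
      map_smul, mul_smul_comm, smul_comm]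
    rfl
  rw [Frame.qz_eq, e0, em, e1]
  abel

/-- The Virasoro data for the rescaled frame. -/
def vdScl (d : VD fr) (t : Kˣ) : VD (scl fr t) where
  μ := d.μ
  ρ := d.ρ
  evμ := d.evμ
  evρ := d.evρ
  adjμ v w := by rw [scl_η, scl_η, d.adjμ, mul_neg]
  adjρ v w := by rw [scl_η, scl_η, d.adjρ]
  comm := d.comm

lemma c0_scl (d : VD fr) (t : Kˣ) : (vdScl d t).c0 = d.c0 := by
  rw [VD.c0, VD.c0, Frame.str_apply, Frame.str_apply]
  congr 1
  refine sum_congr rfl fun a _ => ?_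
  rw [scl_η, show (scl fr t).f a = (t : K) • fr.f a from rfl, map_smul, map_smul, smul_eq_mul,
    ← mul_assoc, Units.inv_mul, one_mul]
  rfl

end lin

section coef

lemma coef5 {N : Type*} [AddCommGroup N] [Module ℂ N] {e0 e1 e2 e3 e4 : N}
    (h : ∀ a b : ℂ, a * b = 1 → (b * b) • e0 + b • e1 + e2 + a • e3 + (a * a) • e4 = 0) :
    e0 = 0 ∧ e1 = 0 ∧ e2 = 0 ∧ e3 = 0 ∧ e4 = 0 := by
  have h1 := h 1 1 (by norm_num)
  have h2 := h (-1) (-1) (by norm_num)
  have h3 := h 2 (1 / 2) (by norm_num)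
  have h4 := h (-2) (-1 / 2) (by norm_num)
  have h5 := h (1 / 2) 2 (by norm_num)
  have h6 := h (-1 / 2) (-2) (by norm_num)
  have a4 : e4 = 0 := by
    linear_combination (norm := module) (2 / 45 : ℂ) • ((4 : ℂ) • (h3 + h4) + (h5 + h6) -
      (5 : ℂ) • (h1 + h2))
  have a0 : e0 = 0 := by
    linear_combination (norm := module) (2 / 45 : ℂ) • ((4 : ℂ) • (h5 + h6) + (h3 + h4) -
      (5 : ℂ) • (h1 + h2))
  have a3 : e3 = 0 := by
    linear_combination (norm := module) (1 / 3 : ℂ) • (h3 - h4) - (1 / 6 : ℂ) • (h1 - h2)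
  have a1 : e1 = 0 := by
    linear_combination (norm := module) (1 / 3 : ℂ) • (h5 - h6) - (1 / 6 : ℂ) • (h1 - h2)
  refine ⟨a0, a1, ?_, a3, a4⟩
  simpa [a0, a1, a3, a4] using h1

variable {E : Type*} [AddCommGroup E] [Module ℂ E] {𝕂 : Type*} [CommRing 𝕂] [Algebra ℂ 𝕂]
  {M : Type*} [AddCommGroup M] [Module ℂ M] [Module 𝕂 M] [IsScalarTower ℂ 𝕂 M] {Z : E →ₗ[ℂ] M}

lemma key {a0 a1 am b0 b1 bm c0 c1 cm : Module.End ℂ E} {g0 g1 g2 g3 g4 : ℂ}
    (h : ∀ a b : ℂ, a * b = 1 →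
      (a0 + a • a1 + b • am) * (b0 + a • b1 + b • bm) -
        (b0 + a • b1 + b • bm) * (a0 + a • a1 + b • am) = c0 + a • c1 + b • cm +
          (b * b * g0 + b * g1 + g2 + a * g3 + a * a * g4) • 1)
    {u v κ κ' : 𝕂} (huv : u * v = 1)
    (ha : ∀ x, Z (a0 x) + u • Z (a1 x) + v • Z (am x) = κ • Z x)
    (hb : ∀ x, Z (b0 x) + u • Z (b1 x) + v • Z (bm x) = κ' • Z x) (x : E) :
    Z (c0 x) + u • Z (c1 x) + v • Z (cm x) = (-(v * v * algebraMap ℂ 𝕂 g0 + v * algebraMap ℂ 𝕂 g1 +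
      algebraMap ℂ 𝕂 g2 + u * algebraMap ℂ 𝕂 g3 + u * u * algebraMap ℂ 𝕂 g4)) • Z x := by
  obtain ⟨e0, e1, e2, e3, e4⟩ := coef5 (e0 := am * bm - bm * am - g0 • 1)
    (e1 := a0 * bm + am * b0 - b0 * am - bm * a0 - cm - g1 • 1)
    (e2 := a0 * b0 + a1 * bm + am * b1 - b0 * a0 - b1 * am - bm * a1 - c0 - g2 • 1)
    (e3 := a0 * b1 + a1 * b0 - b0 * a1 - b1 * a0 - c1 - g3 • 1)
    (e4 := a1 * b1 - b1 * a1 - g4 • 1) fun a b hab => by
      have := h a b hab
      simp only [mul_add, add_mul, smul_mul_assoc, mul_smul_comm, smul_add, smul_smul, hab,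
        mul_comm b a, one_smul] at this
      linear_combination (norm := module) this
  have f : ∀ {X : Module.End ℂ E}, X = 0 → Z (X x) = 0 := fun h => by simp [h]
  have f0 := f e0
  have f1 := f e1
  have f2 := f e2
  have f3 := f e3
  have f4 := f e4
  simp only [LinearMap.sub_apply, LinearMap.add_apply, Module.End.mul_apply, map_sub, map_add,
    LinearMap.smul_apply, Module.End.one_apply, map_smul, ← algebraMap_smul 𝕂 g0,
    ← algebraMap_smul 𝕂 g1, ← algebraMap_smul 𝕂 g2, ← algebraMap_smul 𝕂 g3,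
    ← algebraMap_smul 𝕂 g4] at f0 f1 f2 f3 f4
  have w : ∀ y : M, (u * v) • y = y := fun y => by rw [huv, one_smul]
  linear_combination (norm := module) ha (b0 x) + u • ha (b1 x) + v • ha (bm x) - hb (a0 x) -
    u • hb (a1 x) - v • hb (am x) + κ • hb x - κ' • ha x - (v * v) • f0 - v • f1 - f2 - u • f3 -
    (u * u) • f4 - w (Z (a1 (bm x))) - w (Z (am (b1 x))) + w (Z (b1 (am x))) + w (Z (bm (a1 x)))

end coef

section nat

variable {K : Type*} [CommRing K] [Algebra ℚ K] {V W : Type*} [AddCommGroup V] [Module K V]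
  [AddCommGroup W] [Module K W] {p : Par K V} {q : Par K W} {f : V →ₗ[K] W} (hf : IsEv p q f)

lemma map_dv {a : Module.End K V} {b : Module.End K W} (ha : IsEv p p a) (hb : IsEv q q b)
    (h : ∀ v, f (a v) = b (f v)) (x : S p) : Fock.map f hf (dv p a x) = dv q b (Fock.map f hf x) := by
  induction x using induction with
  | h1 => simp
  | hι v x hx => simp [dv_ι_mul ha, dv_ι_mul hb, hx, h]
  | hadd x y hx hy => simp [hx, hy]
  | hsmul c x hx => simp [hx]

lemma map_con (ψ : Module.Dual K W) (x : S p) :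
    Fock.map f hf (con p (ψ ∘ₗ f) x) = con q ψ (Fock.map f hf x) := by
  induction x using induction' generalizing ψ with
  | h1 => simp
  | hev v x hv hx =>
    rw [map_mul (Fock.map f hf), map_ι, con_ι_mul_ev _ hv, con_ι_mul_ev _ (by rw [hf, hv]), ← hx]
    simp
  | hod v x hv hx =>
    have e : (ψ ∘ₗ f) ∘ₗ p.σ = (ψ ∘ₗ q.σ) ∘ₗ f := LinearMap.ext fun v => by simp [hf v]
    rw [map_mul (Fock.map f hf), map_ι, con_ι_mul_od _ hv,
      con_ι_mul_od _ (by rw [hf, hv, map_neg]), ← hx, e]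
    simp
  | hadd x y hx hy => simp [hx, hy]
  | hsmul c x hx => simp [hx]

lemma map_con2 {Q : SymB p} {Q' : SymB q} (h : ∀ v, Q.1 v = Q'.1 (f v) ∘ₗ f) (x : S p) :
    Fock.map f hf (con2 p Q x) = con2 q Q' (Fock.map f hf x) := by
  induction x using induction with
  | h1 => simp
  | hι v x hx => simp [con2_ι_mul, hx, h, map_con]
  | hadd x y hx hy => simp [hx, hy]
  | hsmul c x hx => simp [hx]

end nat

end Vale.Agent.P269.Deg.An
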