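import Vale.Agent.P269.Deg.Sd
import Vale.Agent.P269.Deg.AnnA

/-! The annihilator of a functional with a Planck constant. -/

namespace Vale.Agent.P269.Deg

open Fock Finset LinearMap TensorProduct Fn

variable {H : Type} [AddCommGroup H] [Module ℂ H] {p : Par ℂ H} {ι : Type} [Fintype ι]
  {fr : Frame p ι} {𝕂 : Type} [CommRing 𝕂] [Algebra ℂ 𝕂] {ħ : 𝕂ˣ} {M : Type} [AddCommGroup M]
  [Module ℂ M] [Module 𝕂 M] [IsScalarTower ℂ 𝕂 M] {Z : S (p.fs ℕ) →ₗ[ℂ] M}
  {A B : Module.End ℂ (LL H)} {κ κ' : 𝕂}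

omit [Algebra ℂ 𝕂] [IsScalarTower ℂ 𝕂 M] in
theorem Cns.add (hA : fr.Quad A) (hB : fr.Quad B) (h : Cns fr ħ Z A κ) (h' : Cns fr ħ Z B κ') :
    Cns fr ħ Z (A + B) (κ + κ') := fun x => by
  rw [An.q0_add, An.q1_add hA hB, An.qm_add hA hB]
  simp only [LinearMap.add_apply, map_add]
  linear_combination (norm := module) h x + h' x

theorem Cns.smul (hA : fr.Quad A) (h : Cns fr ħ Z A κ) (c : ℂ) : Cns fr ħ Z (c • A) (c • κ) :=
  fun x => by
  rw [An.q0_smul, An.q1_smul hA, An.qm_smul hA]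
  simp only [LinearMap.smul_apply, map_smul, ← algebraMap_smul 𝕂 c, smul_eq_mul]
  linear_combination (norm := module) algebraMap ℂ 𝕂 c • h x

lemma An.qd_add (hA : Qd fr A) (hB : Qd fr B) : Qd fr (A + B) := by
  obtain ⟨n, hn⟩ := hA.up
  obtain ⟨m, hm⟩ := hB.up
  exact ⟨(hA.quad.add hB.quad).ev, (hA.quad.add hB.quad).adj, max n m,
    (hn.mono (le_max_left _ _)).add (hm.mono (le_max_right _ _))⟩

lemma An.qd_smul (hA : Qd fr A) (c : ℂ) : Qd fr (c • A) :=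
  ⟨(hA.quad.smul c).ev, (hA.quad.smul c).adj, hA.up.imp fun _ hn => hn.smul c⟩

lemma An.qd_zero : Qd fr 0 := ⟨IsEv.zero, Frame.Quad.zero.adj, 0, Up.zero⟩

lemma An.qd_lie (hA : Qd fr A) (hB : Qd fr B) : Qd fr (A * B - B * A) := by
  obtain ⟨n, hn⟩ := hA.up
  obtain ⟨m, hm⟩ := hB.up
  exact ⟨(hA.ev.mul hB.ev).sub (hB.ev.mul hA.ev), An.adj_lie hA.adj hB.adj, n + m,
    (hn.mul hm).sub ((hm.mul hn).mono (add_comm m n).le)⟩

variable (fr ħ Z) in
/-- The operators whose quantisation has `Z` as an eigenfunction. -/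
def ann : Submodule ℂ (Module.End ℂ (LL H)) where
  carrier := {A | Qd fr A ∧ ∃ κ, Cns fr ħ Z A κ}
  add_mem' := fun ⟨hA, _, h⟩ ⟨hB, _, h'⟩ => ⟨An.qd_add hA hB, _, h.add hA.quad hB.quad h'⟩
  zero_mem' := ⟨An.qd_zero, 0, fun x => by
    have e : (0 : Module.End ℂ (LL H)) = (0 : ℂ) • 0 := by simp
    rw [e, An.q0_smul, An.q1_smul Frame.Quad.zero, An.qm_smul Frame.Quad.zero]
    simp⟩
  smul_mem' := fun c _ ⟨hA, _, h⟩ => ⟨An.qd_smul hA c, _, h.smul hA.quad c⟩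

theorem ann_lie (hA : A ∈ ann fr ħ Z) (hB : B ∈ ann fr ħ Z) : A * B - B * A ∈ ann fr ħ Z := by
  obtain ⟨hA, κ, h⟩ := hA
  obtain ⟨hB, κ', h'⟩ := hB
  let γ : Module.End ℂ (S (p.fs ℕ)) → ℂ := fun X => aug _ (X 1)
  refine ⟨An.qd_lie hA hB, _, An.key (g0 := γ (fr.qm A * fr.qm B - fr.qm B * fr.qm A))
    (g1 := γ (fr.q0 A * fr.qm B + fr.qm A * fr.q0 B - fr.q0 B * fr.qm A - fr.qm B * fr.q0 A))
    (g2 := γ (fr.q0 A * fr.q0 B + fr.q1 A * fr.qm B + fr.qm A * fr.q1 B - fr.q0 B * fr.q0 A -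
      fr.q1 B * fr.qm A - fr.qm B * fr.q1 A))
    (g3 := γ (fr.q0 A * fr.q1 B + fr.q1 A * fr.q0 B - fr.q0 B * fr.q1 A - fr.q1 B * fr.q0 A))
    (g4 := γ (fr.q1 A * fr.q1 B - fr.q1 B * fr.q1 A)) (fun a b hab => ?_) ħ.mul_inv h h'⟩
  let t : ℂˣ := ⟨a, b, hab, by rw [mul_comm, hab]⟩
  have e := (An.quad_scl (An.qd_lie hA hB).quad t).eq_qz
    ((An.quad_scl hA.quad t).isQ.lie (An.quad_scl hB.quad t).isQ)
  rw [An.qz_scl hA.quad, An.qz_scl hB.quad, An.qz_scl (An.qd_lie hA hB).quad] at e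
  refine e.trans ?_
  congr 2
  simp only [t, γ, Units.inv_mk, LinearMap.sub_apply, LinearMap.add_apply, Module.End.mul_apply,
    LinearMap.smul_apply, map_add, map_sub, map_smul, smul_eq_mul]
  linear_combination (aug _ (fr.q1 A (fr.qm B 1)) + aug _ (fr.qm A (fr.q1 B 1)) -
    aug _ (fr.q1 B (fr.qm A 1)) - aug _ (fr.qm B (fr.q1 A 1))) * hab

theorem cns_ell (d : VD fr) (h : ∀ k, d.ell k ∈ ann fr ħ Z) (k : ℕ) :
    Cns fr ħ Z (d.ell k) (algebraMap ℂ 𝕂 (if k = 1 then -d.c0 else 0)) := by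
  obtain ⟨-, κ, h0⟩ := h 0
  obtain ⟨-, κ', h1⟩ := h (k + 1)
  have hk : (k : ℂ) + 1 ≠ 0 := by exact_mod_cast k.succ_ne_zero
  intro x
  have := An.key (c0 := ((k : ℂ) + 1) • fr.q0 (d.ell k)) (c1 := ((k : ℂ) + 1) • fr.q1 (d.ell k))
    (cm := ((k : ℂ) + 1) • fr.qm (d.ell k)) (g0 := 0) (g1 := 0) (g3 := 0) (g4 := 0)
    (g2 := ((k : ℂ) + 1) * if k = 1 then d.c0 else 0) (fun a b hab => by
      let t : ℂˣ := ⟨a, b, hab, by rw [mul_comm, hab]⟩
      have e := (An.vdScl d t).qz_lie k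
      rw [VD.L, An.c0_scl] at e
      have e' : ∀ k, (An.scl fr t).qz ((An.vdScl d t).ell k) =
          fr.q0 (d.ell k) + a • fr.q1 (d.ell k) + b • fr.qm (d.ell k) := fun k =>
        An.qz_scl (d.quad_ell k) t
      rw [e', e', e'] at e
      rw [e]
      module) ħ.mul_inv h0 h1 x
  simp only [LinearMap.smul_apply, map_smul, map_zero, mul_zero, zero_add, add_zero, map_mul,
    ← algebraMap_smul 𝕂 ((k : ℂ) + 1)] at this
  have e : algebraMap ℂ 𝕂 ((k : ℂ) + 1)⁻¹ * algebraMap ℂ 𝕂 ((k : ℂ) + 1) = 1 := by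
    rw [← map_mul, inv_mul_cancel₀ hk, map_one]
  have e2 : algebraMap ℂ 𝕂 (if k = 1 then -d.c0 else 0) =
      -algebraMap ℂ 𝕂 (if k = 1 then d.c0 else 0) := by split_ifs <;> simp
  rw [e2, ← one_smul 𝕂 (_ + _ + _ : M), ← one_smul 𝕂 (_ • Z x), ← e, mul_smul, mul_smul]
  congr 1
  linear_combination (norm := module) this

omit [Algebra ℂ 𝕂] [IsScalarTower ℂ 𝕂 M] in
theorem cns_cst {a : Module.End ℂ H} (he : IsEv p p a) (ha : ∀ v w, fr.η (a v) w = -fr.η v (a w))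
    (h1 : a fr.one = 0) :
    Qd fr (Fock.cst a) ∧ (Cns fr ħ Z (Fock.cst a) κ ↔ ∀ x, Z (dv _ (vv a) x) = κ • Z x) := by
  have hq : Qd fr (Fock.cst a) := ⟨he.cst, by
    simpa using Frame.adj_cst (fr := fr) (a := a) (b := -a) fun v w => by simp [ha], 0, up_cst a⟩
  have hu : ∀ v, Fock.cst a (up ℂ H v) = up ℂ H (vv a v) := fun v => by
    induction v using Finsupp.induction_linear with
    | zero => simp
    | add a b ha hb => simp only [map_add, ha, hb]
    | single m v => simp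
  have hb : Frame.blk (Fock.cst a) = vv a := LinearMap.ext fun v => by simp [Frame.blk, hu]
  have e0 : fr.q0 (Fock.cst a) = dv _ (vv a) := by
    rw [Frame.q0, hb, Frame.dil]
    simp [h1]
  have e1 : fr.q1 (Fock.cst a) = 0 := by
    rw [Frame.q1, Frame.cas_eq (N := 0) fun m _ v => (up_cst a).fin m (by simp) v]
    simp
  have em : fr.qm (Fock.cst a) = 0 := by
    have : fr.qf (Fock.cst a) = 0 :=
      Subtype.ext (LinearMap.ext fun v => by rw [hq.quad.qf_val, hu, Frame.neg_up]; rfl)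
    rw [hq.quad.qm_eq, this, map_zero]
  refine ⟨hq, ?_⟩
  simp [Cns, e0, e1, em]

omit [Algebra ℂ 𝕂] [IsScalarTower ℂ 𝕂 M] in
theorem Cns.conj {H' : Type} [AddCommGroup H'] [Module ℂ H'] {p' : Par ℂ H'} {ι' : Type} [Fintype ι']
    {fr' : Frame p' ι'} (g : H' ≃ₗ[ℂ] H) (he : IsEv p' p g.toLinearMap)
    (hη : ∀ v w, fr.η (g v) (g w) = fr'.η v w) (h1 : g fr'.one = fr.one)
    {A' : Module.End ℂ (LL H')} (hA : Qd fr A) (e : ∀ y, ll g.toLinearMap (A' y) = A (ll g.toLinearMap y))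
    (h : Cns fr ħ Z A κ) :
    Qd fr' A' ∧ Cns fr' ħ (Z ∘ₗ (Fock.map _ (isEv_vv he)).toLinearMap) A' κ := by
  have hl : ∀ (y : LL H') j, ll g.toLinearMap y j = g (y j) := fun _ _ => rfl
  have hinj : Function.Injective (ll g.toLinearMap) := fun y y' h => by
    ext j
    exact g.injective (DFunLike.congr_fun h j)
  have hσ : IsEv (p'.fs ℤ) (p.fs ℤ) (ll g.toLinearMap) := fun y => by
    ext j
    exact he _
  have hΩ : ∀ y y', fr.Ω (ll g.toLinearMap y) (ll g.toLinearMap y') = fr'.Ω y y' := fun y y' => by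
    induction y using Finsupp.induction_linear with
    | zero => simp
    | add a b ha hb => simp only [map_add, LinearMap.add_apply, ha, hb]
    | single i v =>
      rw [Finsupp.mapRange.linearMap_apply, Finsupp.mapRange_single, Frame.Ω_single_left,
        Frame.Ω_single_left, ← hη]
      rfl
  have hq : Qd fr' A' := by
    refine ⟨fun y => hinj ?_, fun y y' => ?_, hA.up.imp fun n hn i y hy j hj => g.injective ?_⟩
    · rw [← hσ, e, e, hA.ev, hσ]
    · rw [← hΩ, ← hΩ, e, hA.adj, LinearMap.neg_apply, LinearMap.neg_apply, map_neg, map_neg,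
        map_neg, e]
    · rw [← hl, e, map_zero]
      exact hn i _ (fun j hj => by rw [hl, hy j hj, map_zero]) j hj
  have hu : ∀ v, ll g.toLinearMap (up ℂ H' v) = up ℂ H (vv g.toLinearMap v) := fun v => by
    induction v using Finsupp.induction_linear with
    | zero => simp
    | add a b ha hb => simp only [map_add, ha, hb]
    | single m v => simp
  have hp : ∀ y, vv g.toLinearMap (pos ℂ H' y) = pos ℂ H (ll g.toLinearMap y) := fun y => by
    ext m
    rfl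
  have hn : ∀ y, fr'.neg y = fr.neg (ll g.toLinearMap y) ∘ₗ vv g.toLinearMap := fun y =>
    LinearMap.ext fun v => by
      rw [LinearMap.comp_apply, Frame.neg_apply, Frame.neg_apply, ← hu, hΩ]
  have hd : vv g.toLinearMap fr'.dil = fr.dil := by simp [Frame.dil, h1]
  have hb : ∀ v, vv g.toLinearMap (Frame.blk A' v) = Frame.blk A (vv g.toLinearMap v) := fun v => by
    simp only [Frame.blk, LinearMap.comp_apply]
    rw [hp, e, hu]
  have e0 : ∀ x, Fock.map _ (isEv_vv he) (fr'.q0 A' x) = fr.q0 A (Fock.map _ (isEv_vv he) x) :=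
    fun x => by
    rw [Frame.q0_eq, Frame.q0_eq, Q0_apply, Q0_apply, map_sub, map_mul, map_ι, hb, hd,
      An.map_dv _ hq.quad.isEv_blk hA.quad.isEv_blk hb]
  have em : ∀ x, Fock.map _ (isEv_vv he) (fr'.qm A' x) = fr.qm A (Fock.map _ (isEv_vv he) x) :=
    fun x => by
    have : ∀ v, (fr'.qf A').1 v = (fr.qf A).1 (vv g.toLinearMap v) ∘ₗ vv g.toLinearMap := fun v => by
      rw [hq.quad.qf_val, hA.quad.qf_val, hn, e, hu]
    rw [hq.quad.qm_eq, hA.quad.qm_eq, Qm_apply, Qm_apply, map_sub, An.map_con2 _ this, this,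
      An.map_con, hd]
  have ec : Fock.map _ (isEv_vv he) (fr'.cas A') = fr.cas A := by
    have := fr.sep.eq_algebraMap (x := Fock.map _ (isEv_vv he) (fr'.cas A') - fr.cas A) (by
      rintro _ ⟨y, hy, rfl⟩
      obtain ⟨y', rfl⟩ : ∃ y', ll g.toLinearMap y' = y := ⟨ll g.symm.toLinearMap y, by ext j; simp⟩
      have hy' : pos ℂ H' y' = 0 := by
        ext m
        exact g.injective ((DFunLike.congr_fun hy m).trans (map_zero g).symm)
      rw [map_sub, ← An.map_con, ← hn, hq.quad.con_cas hy', hA.quad.con_cas hy, map_neg, map_ι,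
        hp, e, sub_self])
    rwa [map_sub, Fock.aug_map, hq.quad.aug_cas, hA.quad.aug_cas, sub_self, map_zero,
      sub_eq_zero] at this
  refine ⟨hq, fun x => ?_⟩
  have := h (Fock.map _ (isEv_vv he) x)
  simp only [LinearMap.comp_apply, AlgHom.toLinearMap_apply, e0, em, Frame.q1,
    LinearMap.mulLeft_apply, map_mul, ec] at this ⊢
  exact this

theorem virC_iff (d : VD fr) (Zj : ℤ → S (p.fs ℕ) →ₗ[ℂ] ℂ) (h : ∀ x, ∃ J, ∀ j < J, Zj j x = 0) :
    d.VirC Zj ↔ ∀ k, Cns fr hb (lau Zj h) (d.ell k)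
      (algebraMap ℂ _ (if k = 1 then -d.c0 else 0)) := by
  have e : ∀ k x j, (lau Zj h (fr.q0 (d.ell k) x) + (hb : Hat ℂ ℂ) • lau Zj h (fr.q1 (d.ell k) x) +
      (↑hb⁻¹ : Hat ℂ ℂ) • lau Zj h (fr.qm (d.ell k) x) -
      algebraMap ℂ (Hat ℂ ℂ) (if k = 1 then -d.c0 else 0) • lau Zj h x).co j =
      Zj j (fr.q0 (d.ell k) x + (if k = 1 then d.c0 else 0) • x) +
        Zj (j + 1) (fr.qm (d.ell k) x) + Zj (j - 1) (fr.q1 (d.ell k) x) := fun k x j => by
    rw [Hat.algebraMap_co, Hat.C_smul, show (hb : Hat ℂ ℂ) = Hat.single ℂ 1 1 from rfl,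
      show (↑hb⁻¹ : Hat ℂ ℂ) = Hat.single ℂ (-1) 1 from rfl]
    simp only [Hat.co_sub, Hat.co_add, Hat.co_single_mul, Hat.co_smul, lau_co, map_add, map_smul,
      one_mul, sub_neg_eq_add, smul_eq_mul, Algebra.algebraMap_self, RingHom.id_apply]
    split_ifs <;> ring
  constructor
  · intro H k x
    rw [← sub_eq_zero]
    ext j
    rw [e, H k j x]
    rfl
  · intro H k j x
    rw [← e, H k x, sub_self]
    rfl

end Vale.Agent.P269.Deg
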