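import Vale.Agent.P269.Inv.Group
import Vale.Agent.P269.Inv.Red

/-!
# Standard bases of a form, averaging over isometries
-/

namespace Vale.Agent.P269.Deg

open Finset Function

variable {H : Type} [AddCommGroup H] [Module ℂ H] [FiniteDimensional ℂ H]
  {B : H →ₗ[ℂ] H →ₗ[ℂ] ℂ} {V : Submodule ℂ H} {ε : ℂ} {κ : Type} [Fintype κ] {e f : κ → H}

namespace AvgP

open _root_.Vale.Agent.P269.Inv

theorem finrank_perp (V : Submodule ℂ H) (φ : H →ₗ[ℂ] ℂ) :
    Module.finrank ℂ V ≤ Module.finrank ℂ (V ⊓ LinearMap.ker φ : Submodule ℂ H) + 1 := by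
  have h1 := Submodule.finrank_sup_add_finrank_inf_eq V (LinearMap.ker φ)
  have h2 := φ.finrank_range_add_finrank_ker
  have h3 := (LinearMap.range φ).finrank_le
  have h4 := (V ⊔ LinearMap.ker φ).finrank_le
  rw [Module.finrank_self] at h3
  omega

omit [FiniteDimensional ℂ H] in
theorem ne_bot {n : ℕ} (h : n + 1 ≤ Module.finrank ℂ V) : V ≠ ⊥ := by
  rintro rfl
  simp at h

omit [FiniteDimensional ℂ H] in
theorem exists_sq (h : IsForm B V 1) (hV : V ≠ ⊥) (c : ℂ) : ∃ v ∈ V, B v v = c := by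
  obtain ⟨v, hv, h0⟩ := h.exists_ne hV
  obtain ⟨r, hr⟩ := IsAlgClosed.exists_eq_mul_self (c / B v v)
  refine ⟨r • v, V.smul_mem _ hv, ?_⟩
  simp only [map_smul, LinearMap.smul_apply, smul_eq_mul]
  rw [← mul_assoc, ← hr, div_mul_cancel₀ _ h0]

theorem exists_hyp (h : IsForm B V ε) (hV : 2 ≤ Module.finrank ℂ V) (c : ℂ) :
    ∃ u ∈ V, ∃ v ∈ V, B u u = 0 ∧ B v v = 0 ∧ B u v = c := by
  rcases mul_self_eq_one_iff.1 h.sq with rfl | rfl
  · obtain ⟨x, hx, h1⟩ := exists_sq h (ne_bot (n := 1) hV) 1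
    have h2 := finrank_perp V (B.flip x)
    obtain ⟨y, hy, h3⟩ := exists_sq (h.perp hx (by simp [h1])) (ne_bot (n := 0) (by omega)) 1
    have h4 : B y x = 0 := hy.2
    have h5 : B x y = 0 := by rw [h.comm hx hy.1, h4]
    refine ⟨x + Complex.I • y, V.add_mem hx (V.smul_mem _ hy.1),
      (c / 2) • (x - Complex.I • y), V.smul_mem _ (V.sub_mem hx (V.smul_mem _ hy.1)), ?_, ?_, ?_⟩ <;>
      simp only [map_add, map_sub, map_smul, LinearMap.add_apply, LinearMap.sub_apply,
        LinearMap.smul_apply, smul_eq_mul, h1, h3, h4, h5]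
    · linear_combination Complex.I_mul_I
    · linear_combination (c / 2) ^ 2 * Complex.I_mul_I
    · linear_combination (-c / 2) * Complex.I_mul_I
  · obtain ⟨v, hv, h0⟩ := Submodule.exists_mem_ne_zero_of_ne_bot (ne_bot (n := 1) hV)
    obtain ⟨u, hu, h1⟩ : ∃ u ∈ V, B u v ≠ 0 := by
      by_contra hc
      push Not at hc
      exact h0 (h.nondeg v hv hc)
    refine ⟨u, hu, (c / B u v) • v, V.smul_mem _ hv, h.self_eq_zero hu,
      h.self_eq_zero (V.smul_mem _ hv), ?_⟩
    rw [map_smul, smul_eq_mul, div_mul_cancel₀ _ h1]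

omit [FiniteDimensional ℂ H] in
theorem perp_hyp (h : IsForm B V ε) {u v : H} (hu : u ∈ V) (hv : v ∈ V) (h1 : B u u = 0)
    (h2 : B v v = 0) (h3 : B u v ≠ 0) :
    IsForm B (V ⊓ LinearMap.ker (B.flip u) ⊓ LinearMap.ker (B.flip v)) ε := by
  have h4 : B v u ≠ 0 := fun h0 => h3 (by rw [h.symm u hu v hv, h0, mul_zero])
  refine ⟨h.sq, fun x hx y hy => h.symm x hx.1.1 y hy.1.1, fun x hx h5 => ?_⟩
  refine h.nondeg x hx.1.1 fun y hy => ?_
  have h6 := h5 (y - (B y v / B u v) • u - (B y u / B v u) • v)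
    ⟨⟨V.sub_mem (V.sub_mem hy (V.smul_mem _ hu)) (V.smul_mem _ hv),
      by simp [h1, div_mul_cancel₀ _ h4]⟩, by simp [h2, div_mul_cancel₀ _ h3]⟩
  have h7 : B x u = 0 := hx.1.2
  have h8 : B x v = 0 := hx.2
  simpa [h.symm u hu x hx.1.1, h.symm v hv x hx.1.1, h7, h8] using h6

section Std

variable [DecidableEq κ] {σ : κ → κ} {s : κ → ℂ}

omit [Fintype κ] in
theorem exists_on (hσ : Involutive σ) (hs : ∀ a, s a ≠ 0) (hε : ∀ a, s (σ a) = ε * s a)
    (S : Finset κ) : ∀ V : Submodule ℂ H, IsForm B V ε → (∀ a ∈ S, σ a ∈ S) →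
      S.card ≤ Module.finrank ℂ V → ∃ e : κ → H, (∀ a ∈ S, e a ∈ V) ∧
        ∀ a ∈ S, ∀ b ∈ S, B (e a) (e b) = if b = σ a then s a else 0 := by
  induction S using Finset.strongInduction with
  | H S ih =>
    intro V h hS hd
    rcases S.eq_empty_or_nonempty with rfl | ⟨a, ha⟩
    · exact ⟨0, by simp, by simp⟩
    have hcd := card_erase_add_one ha
    by_cases h1 : σ a = a
    · obtain rfl : ε = 1 := by
        have := hε a
        rw [h1] at this
        exact (mul_eq_right₀ (hs a)).1 this.symm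
      obtain ⟨x, hx, h2⟩ := exists_sq h (ne_bot (n := (S.erase a).card) (by omega)) (s a)
      have h3 := finrank_perp V (B.flip x)
      obtain ⟨e, h4, h5⟩ := ih _ (erase_ssubset ha) _ (h.perp hx (h2 ▸ hs a))
        (fun b hb => mem_erase.2 ⟨fun h0 => (mem_erase.1 hb).1 (hσ.injective (h0.trans h1.symm)),
          hS b (mem_erase.1 hb).2⟩) (by omega)
      refine ⟨update e a x, fun b hb => ?_, fun b hb c hc => ?_⟩
      · by_cases h6 : b = a
        · rw [h6, update_self]; exact hx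
        · rw [update_of_ne h6]; exact (h4 b (mem_erase.2 ⟨h6, hb⟩)).1
      · by_cases h6 : b = a <;> by_cases h7 : c = a
        · rw [h6, h7, update_self, h2, if_pos h1.symm]
        · have h8 := h4 c (mem_erase.2 ⟨h7, hc⟩)
          rw [h6, update_self, update_of_ne h7, h1, if_neg h7, h.comm hx h8.1]
          exact h8.2
        · rw [h7, update_self, update_of_ne h6,
            if_neg fun h0 => h6 (hσ.injective (h0.symm.trans h1.symm))]
          exact (h4 b (mem_erase.2 ⟨h6, hb⟩)).2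
        · rw [update_of_ne h6, update_of_ne h7]
          exact h5 b (mem_erase.2 ⟨h6, hb⟩) c (mem_erase.2 ⟨h7, hc⟩)
    · have hc' := card_erase_add_one (mem_erase.2 ⟨h1, hS a ha⟩)
      obtain ⟨u, hu, v, hv, h2, h3, h4⟩ := exists_hyp h (by omega) (s a)
      have h5 := finrank_perp V (B.flip u)
      have h6 := finrank_perp (V ⊓ LinearMap.ker (B.flip u)) (B.flip v)
      have hm : ∀ b, b ∈ (S.erase a).erase (σ a) ↔ b ≠ σ a ∧ b ≠ a ∧ b ∈ S := fun b => by
        rw [mem_erase, mem_erase]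
      obtain ⟨e, h7, h8⟩ := ih _ ((erase_subset _ _).trans_ssubset (erase_ssubset ha)) _
        (perp_hyp h hu hv h2 h3 (h4 ▸ hs a))
        (fun b hb => (hm _).2 ⟨fun h0 => ((hm b).1 hb).2.1 (hσ.injective h0),
          fun h0 => ((hm b).1 hb).1 (by rw [← h0, hσ b]), hS b ((hm b).1 hb).2.2⟩) (by omega)
      let e' : κ → H := fun b => if b = a then u else if b = σ a then v else e b
      have k1 : e' a = u := if_pos rfl
      have k2 : e' (σ a) = v := (if_neg h1).trans (if_pos rfl)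
      have k3 : ∀ b, b ≠ a → b ≠ σ a → e' b = e b := fun b k k' => (if_neg k).trans (if_neg k')
      have k4 : ∀ b ∈ S, b ≠ a → b ≠ σ a → e b ∈ V ∧ B (e b) u = 0 ∧ B (e b) v = 0 :=
        fun b hb k k' => ⟨(h7 b ((hm b).2 ⟨k', k, hb⟩)).1.1, (h7 b ((hm b).2 ⟨k', k, hb⟩)).1.2,
          (h7 b ((hm b).2 ⟨k', k, hb⟩)).2⟩
      have k5 : ∀ b, b = a ∨ b = σ a ∨ (b ≠ a ∧ b ≠ σ a) := fun b => by tauto
      refine ⟨e', fun b hb => ?_, fun b hb c hc => ?_⟩
      · rcases k5 b with rfl | rfl | ⟨k, k'⟩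
        · rwa [k1]
        · rwa [k2]
        · rw [k3 b k k']; exact (k4 b hb k k').1
      · rcases k5 b with k | k | ⟨k, k'⟩ <;> rcases k5 c with l | l | ⟨l, l'⟩
        · rw [k, l, k1, h2, if_neg (Ne.symm h1)]
        · rw [k, l, k1, k2, h4, if_pos rfl]
        · rw [k, k1, k3 c l l', if_neg l', h.symm _ hu _ (k4 c hc l l').1, (k4 c hc l l').2.1,
            mul_zero]
        · rw [k, l, k1, k2, hσ a, if_pos rfl, h.symm _ hv _ hu, h4, hε]
        · rw [k, l, k2, h3, hσ a, if_neg h1]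
        · rw [k, k2, k3 c l l', hσ a, if_neg l, h.symm _ hv _ (k4 c hc l l').1,
            (k4 c hc l l').2.2, mul_zero]
        · rw [l, k1, k3 b k k', (k4 b hb k k').2.1, if_neg fun h0 => k' (by rw [h0, hσ b])]
        · rw [l, k2, k3 b k k', (k4 b hb k k').2.2, if_neg fun h0 => k (hσ.injective h0).symm]
        · rw [k3 b k k', k3 c l l']
          exact h8 b ((hm b).2 ⟨k', k, hb⟩) c ((hm c).2 ⟨l', l, hc⟩)

theorem frame_of_dual (he : ∀ a, e a ∈ V) (hf : ∀ a, f a ∈ V)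
    (hd : ∀ a b, B (e a) (f b) = if b = a then 1 else 0)
    (hn : Fintype.card κ = Module.finrank ℂ V) : Frame B V e f := by
  have h1 : ∀ (c : κ → ℂ) b, B (∑ a, c a • e a) (f b) = c b := fun c b => by
    simp [LinearMap.sum_apply, hd]
  have h2 : LinearIndependent ℂ e := Fintype.linearIndependent_iff.2 fun c hc b => by
    rw [← h1 c b, hc, map_zero, LinearMap.zero_apply]
  have h3 : Submodule.span ℂ (Set.range e) = V :=
    Submodule.eq_of_le_of_finrank_eq (Submodule.span_le.2 (Set.range_subset_iff.2 he))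
      (by rw [finrank_span_eq_card h2, hn])
  refine ⟨he, hf, fun x hx => ?_⟩
  rw [← h3] at hx
  obtain ⟨c, rfl⟩ := (Submodule.mem_span_range_iff_exists_fun ℂ).1 hx
  simp only [h1]

variable (B V σ s) in
/-- A basis of `V` whose Gram matrix is monomial. -/
structure Std (e : κ → H) : Prop where
  inv : Involutive σ
  ne : ∀ a, s a ≠ 0
  card : Fintype.card κ = Module.finrank ℂ V
  mem : ∀ a, e a ∈ V
  gram : ∀ a b, B (e a) (e b) = if b = σ a then s a else 0

theorem exists_std (h : IsForm B V ε) (hσ : Involutive σ) (hs : ∀ a, s a ≠ 0)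
    (hε : ∀ a, s (σ a) = ε * s a) (hn : Fintype.card κ = Module.finrank ℂ V) :
    ∃ e : κ → H, Std B V σ s e := by
  obtain ⟨e, h1, h2⟩ := exists_on hσ hs hε univ V h (fun _ _ => mem_univ _) hn.le
  exact ⟨e, hσ, hs, hn, fun a => h1 a (mem_univ _), fun a b => h2 a (mem_univ _) b (mem_univ _)⟩

variable (σ s) in
/-- The dual basis. -/
noncomputable def du (e : κ → H) (a : κ) : H := (s a)⁻¹ • e (σ a)

omit [FiniteDimensional ℂ H] in
theorem Std.dual (h : Std B V σ s e) (a b : κ) :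
    B (e a) (du σ s e b) = if b = a then 1 else 0 := by
  rw [du, map_smul, h.gram, smul_eq_mul]
  by_cases h1 : b = a
  · rw [h1, if_pos rfl, if_pos rfl, inv_mul_cancel₀ (h.ne a)]
  · rw [if_neg h1, if_neg fun h0 => h1 (h.inv.injective h0), mul_zero]

theorem Std.frame (h : Std B V σ s e) : Frame B V e (du σ s e) :=
  frame_of_dual h.mem (fun _ => V.smul_mem _ (h.mem _)) h.dual h.card

end Std

theorem even_finrank (h : IsForm B V (-1)) : Even (Module.finrank ℂ V) := by
  let B' : LinearMap.BilinForm ℂ V := LinearMap.BilinForm.restrict B V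
  have hn : B'.Nondegenerate := by
    refine ⟨fun x hx => Subtype.ext (h.nondeg x x.2 fun v hv => ?_),
      fun x hx => Subtype.ext (h.nondeg x x.2 fun v hv => hx ⟨v, hv⟩)⟩
    rw [h.symm v hv x x.2]
    exact mul_eq_zero_of_right _ (hx ⟨v, hv⟩)
  let b := Module.finBasis ℂ V
  have h1 := (LinearMap.BilinForm.nondegenerate_iff_det_ne_zero b).1 hn
  have h2 : (LinearMap.BilinForm.toMatrix b B').transpose = -LinearMap.BilinForm.toMatrix b B' := by
    ext i j
    rw [Matrix.transpose_apply, Matrix.neg_apply, LinearMap.BilinForm.toMatrix_apply,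
      LinearMap.BilinForm.toMatrix_apply]
    exact (h.symm _ (b j).2 _ (b i).2).trans (neg_one_mul _)
  have h3 := congrArg Matrix.det h2
  rw [Matrix.det_transpose, Matrix.det_neg, Fintype.card_fin] at h3
  by_contra h4
  rw [(Nat.not_even_iff_odd.1 h4).neg_one_pow] at h3
  exact h1 (by linear_combination h3 / 2)

theorem exists_data (h : IsForm B V ε) (hV : V ≠ ⊥) :
    ∃ (G : Type) (_ : Fintype G) (_ : DecidableEq G) (_ : AddCommGroup G) (m : G) (s : G → ℂ),
      m + m = 0 ∧ (∀ a, s a ≠ 0) ∧ (∀ a, s (a + m) = ε * s a) ∧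
        Fintype.card G = Module.finrank ℂ V := by
  have h0 : Module.finrank ℂ V ≠ 0 := fun h0 => hV (Submodule.finrank_eq_zero.1 h0)
  rcases mul_self_eq_one_iff.1 h.sq with rfl | rfl
  · have : NeZero (Module.finrank ℂ V) := ⟨h0⟩
    exact ⟨ZMod (Module.finrank ℂ V), inferInstance, inferInstance, inferInstance, 0, fun _ => 1,
      add_zero _, fun _ => one_ne_zero, fun _ => (one_mul _).symm, ZMod.card _⟩
  · obtain ⟨k, hk⟩ := even_finrank h
    have : NeZero k := ⟨by omega⟩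
    refine ⟨ZMod k × ZMod 2, inferInstance, inferInstance, inferInstance, (0, 1),
      fun p => if p.2 = 0 then 1 else -1, Prod.ext (add_zero _) rfl, fun p => ?_, fun p => ?_, ?_⟩
    · dsimp only
      split_ifs <;> simp
    · dsimp only
      have : ∀ b : ZMod 2, (b = 0 ∧ b + 1 ≠ 0) ∨ (b ≠ 0 ∧ b + 1 = 0) := by decide
      rcases this p.2 with ⟨a, b⟩ | ⟨a, b⟩
      · rw [if_pos a, if_neg (by exact b), mul_one]
      · rw [if_neg a, if_pos (by exact b), neg_mul_neg, mul_one]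
    · rw [Fintype.card_prod, ZMod.card, ZMod.card]
      omega

theorem exists_inv (h : IsForm B V ε) {g : Module.End ℂ H} (hg : Isom B V g) :
    ∃ g', g * g' = 1 ∧ g' * g = 1 := by
  have h1 : Injective g := by
    rw [injective_iff_map_eq_zero]
    intro x hx
    have h2 : x ∈ V := by
      have := hg.mem x
      rwa [hx, zero_sub, V.neg_mem_iff] at this
    exact h.nondeg x h2 fun v _ => by rw [← hg.isom v x h2, hx, map_zero]
  obtain ⟨u, rfl⟩ := (LinearMap.isUnit_iff_ker_eq_bot g).2 (LinearMap.ker_eq_bot.2 h1)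
  exact ⟨↑u⁻¹, u.mul_inv, u.inv_mul⟩

omit [FiniteDimensional ℂ H] in
theorem conj_rk {g g' : Module.End ℂ H} (hg : Isom B V g) (h1 : g * g' = 1) {u : H} (hu : u ∈ V)
    (v : H) : g * rk B u v * g' = rk B (g u) (g v) := by
  ext x
  have h2 : g (g' x) = x := congrArg (fun k : Module.End ℂ H => k x) h1
  simp only [Module.End.mul_apply, rk_apply, map_smul]
  rw [← hg.isom _ _ hu, h2]

omit [FiniteDimensional ℂ H] in
theorem gram_sum {H' : Type} [AddCommGroup H'] [Module ℂ H'] {B' : H' →ₗ[ℂ] H' →ₗ[ℂ] ℂ}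
    {e' : κ → H'} (h : ∀ a b, B' (e' a) (e' b) = B (e a) (e b)) (c d : κ → ℂ) :
    B' (∑ a, c a • e' a) (∑ a, d a • e' a) = B (∑ a, c a • e a) (∑ a, d a • e a) := by
  simp [LinearMap.sum_apply, h]

omit [FiniteDimensional ℂ H] in
theorem exists_map [DecidableEq κ] (h : IsForm B V ε) (hF : Frame B V e f)
    (hd : ∀ a b, B (e a) (f b) = if b = a then 1 else 0) {e' : κ → H} (he : ∀ a, e' a ∈ V)
    (hg : ∀ a b, B (e' a) (e' b) = B (e a) (e b)) : ∃ g, Isom B V g ∧ ∀ a, g (e a) = e' a := by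
  let g : Module.End ℂ H := 1 - proj B e f + ∑ a, rk B (f a) (e' a)
  have h1 : ∀ x, g x = x - proj B e f x + ∑ a, B x (f a) • e' a := fun x => by
    simp [g, LinearMap.sum_apply]
  have h2 : ∀ x, ∑ a, B x (f a) • e' a ∈ V := fun x => V.sum_mem fun a _ => V.smul_mem _ (he a)
  have h3 : ∀ x ∈ V, g x = ∑ a, B x (f a) • e' a := fun x hx => by
    rw [h1, hF.proj_of_mem hx, sub_self, zero_add]
  refine ⟨g, ⟨fun x => ?_, fun x v hv => ?_⟩, fun a => ?_⟩
  · have : g x - x = ∑ a, B x (f a) • e' a - proj B e f x := by rw [h1]; abel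
    rw [this]
    exact V.sub_mem (h2 x) (hF.proj_mem x)
  · rw [h3 v hv, h1, map_add, map_sub, LinearMap.add_apply, LinearMap.sub_apply,
      hF.pair_proj h x (h2 v), sub_self, zero_add, gram_sum hg, ← proj_apply, hF.expand v hv,
      hF.pair_proj h x hv]
  · rw [h3 _ (hF.e_mem a)]
    simp [hd]

variable (B V) in
/-- Affine combinations of conjugations by isometries. -/
def Av (Φ : Module.End ℂ H →ₗ[ℂ] Module.End ℂ H) : Prop :=
  ∃ (I : Type) (_ : Fintype I) (w : I → ℂ) (g g' : I → Module.End ℂ H),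
    (∀ i, Isom B V (g i) ∧ g i * g' i = 1 ∧ g' i * g i = 1) ∧ ∑ i, w i = 1 ∧
      ∀ x, Φ x = ∑ i, w i • (g i * x * g' i)

omit [FiniteDimensional ℂ H] in
theorem Av.id : Av B V LinearMap.id :=
  ⟨Unit, inferInstance, 1, 1, 1, fun _ => ⟨Isom.one, mul_one _, mul_one _⟩, by simp,
    fun x => by simp⟩

omit [FiniteDimensional ℂ H] in
theorem Av.comp {Φ Ψ : Module.End ℂ H →ₗ[ℂ] Module.End ℂ H} (hΦ : Av B V Φ) (hΨ : Av B V Ψ) :
    Av B V (Φ ∘ₗ Ψ) := by
  obtain ⟨I, _, w, g, g', h1, h2, h3⟩ := hΦ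
  obtain ⟨J, _, v, k, k', l1, l2, l3⟩ := hΨ
  refine ⟨I × J, inferInstance, fun p => w p.1 * v p.2, fun p => g p.1 * k p.2,
    fun p => k' p.2 * g' p.1, fun p => ⟨(h1 _).1.mul (l1 _).1, ?_, ?_⟩, ?_, fun x => ?_⟩
  · rw [mul_assoc, ← mul_assoc (k _), (l1 _).2.1, one_mul, (h1 _).2.1]
  · rw [mul_assoc, ← mul_assoc (g' _), (h1 _).2.2, one_mul, (l1 _).2.2]
  · rw [Fintype.sum_prod_type, ← sum_mul_sum, h2, l2, one_mul]
  · rw [LinearMap.comp_apply, h3, l3, Fintype.sum_prod_type]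
    refine sum_congr rfl fun i _ => ?_
    rw [mul_sum, sum_mul, smul_sum]
    refine sum_congr rfl fun j _ => ?_
    simp only [mul_smul_comm, smul_mul_assoc, smul_smul, mul_assoc]

omit [FiniteDimensional ℂ H] in
theorem Av.two {g g' : Module.End ℂ H} (hg : Isom B V g) (h1 : g * g' = 1) (h2 : g' * g = 1)
    {l : ℂ} (hl : l ≠ 1) :
    Av B V ((1 - l)⁻¹ • (LinearMap.mulLeftRight ℂ (g, g') - l • LinearMap.id)) := by
  refine ⟨Bool, inferInstance, fun b => if b then (1 - l)⁻¹ else -l * (1 - l)⁻¹,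
    fun b => if b then g else 1, fun b => if b then g' else 1, ?_, ?_, fun x => ?_⟩
  · rintro (_ | _)
    exacts [⟨Isom.one, mul_one _, mul_one _⟩, ⟨hg, h1, h2⟩]
  · have := sub_ne_zero.2 hl.symm
    simp only [Fintype.sum_bool, if_true, Bool.false_eq_true, if_false]
    field_simp
    ring
  · simp only [Fintype.sum_bool, if_true, Bool.false_eq_true, if_false, LinearMap.smul_apply,
      LinearMap.sub_apply, LinearMap.mulLeftRight_apply, LinearMap.id_apply, one_mul, mul_one]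
    module

section Mono

variable [DecidableEq κ] {σ : κ → κ} {s : κ → ℂ}

theorem Std.mono (hs : Std B V σ s e) (h : IsForm B V ε) {π : κ → κ} (hπ : Injective π)
    (hc : ∀ a, π (σ a) = σ (π a)) {t : κ → ℂ} (ht : ∀ a, t a * t (σ a) * s (π a) = s a) :
    ∃ g g', Isom B V g ∧ g * g' = 1 ∧ g' * g = 1 ∧ ∀ a b,
      g * rk B (du σ s e a) (e b) * g' = (t b / t a) • rk B (du σ s e (π a)) (e (π b)) := by
  obtain ⟨g, h1, h2⟩ := exists_map h hs.frame hs.dual (e' := fun a => t a • e (π a))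
    (fun a => V.smul_mem _ (hs.mem _)) fun a b => by
      simp only [map_smul, LinearMap.smul_apply, smul_eq_mul, hs.gram, ← hc, hπ.eq_iff]
      split_ifs with h0
      · rw [h0, ← ht a]; ring
      · simp
  obtain ⟨g', h3, h4⟩ := exists_inv h h1
  refine ⟨g, g', h1, h3, h4, fun a b => ?_⟩
  have h5 : t a ≠ 0 := fun h0 => hs.ne a (by rw [← ht a, h0, zero_mul, zero_mul])
  have h6 : (s a)⁻¹ * t (σ a) = (t a)⁻¹ * (s (π a))⁻¹ := by
    have := hs.ne a
    have := hs.ne (π a)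
    field_simp
    linear_combination ht a
  rw [conj_rk h1 h3 (hs.frame.f_mem a), du, du, map_smul, h2, h2, smul_smul, h6, ← smul_smul, hc,
    rk_smul_left, rk_smul_right, smul_smul, div_eq_inv_mul]

theorem Std.diag (hs : Std B V σ s e) (h : IsForm B V ε) (S : Finset (κ × κ))
    (hS : ∀ p ∈ S, p.1 ≠ p.2) : ∃ Φ, Av B V Φ ∧
      (∀ a b, ∃ c : ℂ, Φ (rk B (du σ s e a) (e b)) = c • rk B (du σ s e a) (e b)) ∧
      (∀ a, Φ (rk B (du σ s e a) (e a)) = rk B (du σ s e a) (e a)) ∧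
      ∀ p ∈ S, Φ (rk B (du σ s e p.1) (e p.2)) = 0 := by
  induction S using Finset.induction_on with
  | empty => exact ⟨_, Av.id, fun a b => ⟨1, by simp⟩, fun _ => rfl, by simp⟩
  | insert p S _ ih =>
    obtain ⟨Φ, h1, h2, h3, h4⟩ := ih fun q hq => hS q (mem_insert_of_mem hq)
    have hp := hS p (mem_insert_self _ _)
    let t : κ → ℂ := fun c => if c = p.1 then (if σ p.1 = p.1 then -1 else 2)
      else if c = σ p.1 then 1 / 2 else 1
    have t1 : ∀ c, t c * t (σ c) = 1 := by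
      intro c
      by_cases k1 : c = p.1
      · by_cases k2 : σ p.1 = p.1
        · simp [t, k1, k2]
        · simp [t, k1, k2]
      · by_cases k2 : c = σ p.1
        · have k3 : ¬ σ p.1 = p.1 := k2 ▸ k1
          simp [t, k2, k3, hs.inv p.1]
        · have k3 : ¬ σ c = p.1 := fun k => k2 (by rw [← k, hs.inv c])
          simp [t, k1, k2, k3, hs.inv.injective.eq_iff]
    have t2 : ∀ c, t c ≠ 0 := fun c => left_ne_zero_of_mul_eq_one (t1 c)
    have t3 : t p.2 / t p.1 ≠ 1 := by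
      rw [Ne, div_eq_one_iff_eq (t2 _)]
      simp only [t, if_neg hp.symm, if_true]
      split_ifs <;> norm_num
    obtain ⟨g, g', k1, k2, k3, k4⟩ := hs.mono h (π := id) injective_id (fun _ => rfl) (t := t)
      fun a => by rw [t1, one_mul, id]
    have k5 : ∀ a b, ((1 - t p.2 / t p.1)⁻¹ • (LinearMap.mulLeftRight ℂ (g, g') -
        (t p.2 / t p.1) • LinearMap.id) : _ →ₗ[ℂ] _) (rk B (du σ s e a) (e b)) =
        ((1 - t p.2 / t p.1)⁻¹ * (t b / t a - t p.2 / t p.1)) • rk B (du σ s e a) (e b) := by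
      intro a b
      simp only [LinearMap.smul_apply, LinearMap.sub_apply, LinearMap.mulLeftRight_apply,
        LinearMap.id_apply, k4, id]
      module
    refine ⟨_, (Av.two k1 k2 k3 t3).comp h1, fun a b => ?_, fun a => ?_, fun q hq => ?_⟩
    · obtain ⟨c, hc⟩ := h2 a b
      exact ⟨_, by rw [LinearMap.comp_apply, hc, map_smul, k5, smul_smul]⟩
    · rw [LinearMap.comp_apply, h3, k5, div_self (t2 a), inv_mul_cancel₀ (sub_ne_zero.2 t3.symm),
        one_smul]
    · rcases mem_insert.1 hq with rfl | hq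
      · obtain ⟨c, hc⟩ := h2 q.1 q.2
        rw [LinearMap.comp_apply, hc, map_smul, k5, sub_self, mul_zero, zero_smul, smul_zero]
      · rw [LinearMap.comp_apply, h4 q hq, map_zero]

end Mono

theorem exists_av (h : IsForm B V ε) (hF : Frame B V e f) : ∃ Φ, Av B V Φ ∧
    ∀ x x', Adj B V x x' → Φ x = (tr B e f x / Module.finrank ℂ V) • proj B e f := by
  by_cases hV : V = ⊥
  · subst hV
    refine ⟨_, Av.id, fun x x' hx => ?_⟩
    rw [finrank_bot, Nat.cast_zero, div_zero, zero_smul]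
    exact LinearMap.ext fun y => (Submodule.mem_bot ℂ).1 (hx.mem y)
  obtain ⟨G, _, _, _, m, s, h1, h2, h3, h4⟩ := exists_data h hV
  obtain ⟨b, hb⟩ := exists_std h (σ := (· + m)) (fun a => by simp [add_assoc, h1]) h2 h3 h4
  obtain ⟨Φ, k1, -, k2, k3⟩ := hb.diag h (univ.filter fun p => p.1 ≠ p.2) fun p hp =>
    (mem_filter.1 hp).2
  choose ρ hρ using fun z : ℂ => IsAlgClosed.exists_eq_mul_self z
  have k4 : ∀ c : G, _ := fun c => hb.mono h (π := (· + c)) (add_left_injective c)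
    (fun a => add_right_comm _ _ _) (t := fun a => ρ (s a / s (a + c))) fun a => by
      have : s (a + m) / s (a + m + c) = s a / s (a + c) := by
        rw [add_right_comm, h3, h3, mul_div_mul_left _ _ h.ne_zero]
      rw [this, ← hρ, div_mul_cancel₀ _ (h2 _)]
  choose g g' l1 l2 l3 l4 using k4
  have hn : (Fintype.card G : ℂ) ≠ 0 := Nat.cast_ne_zero.2 Fintype.card_ne_zero
  let Ψ : Module.End ℂ H →ₗ[ℂ] Module.End ℂ H :=
    ∑ c, (Fintype.card G : ℂ)⁻¹ • LinearMap.mulLeftRight ℂ (g c, g' c)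
  have l5 : ∀ x, Ψ x = ∑ c, (Fintype.card G : ℂ)⁻¹ • (g c * x * g' c) := fun x => by
    simp [Ψ, LinearMap.sum_apply]
  have l6 : Av B V Ψ := ⟨G, inferInstance, _, g, g', fun c => ⟨l1 c, l2 c, l3 c⟩, by
    rw [sum_const, card_univ, nsmul_eq_mul, mul_inv_cancel₀ hn], l5⟩
  have l7 : ∀ a, Ψ (rk B (du (· + m) s b a) (b a)) = (Fintype.card G : ℂ)⁻¹ • proj B e f := by
    intro a
    rw [l5, ← smul_sum, ← (hF.adj_proj h).proj_mul hb.frame,
      (hb.frame.adj_proj h).mul_proj h hF, proj]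
    congr 1
    refine Eq.trans ?_ (Equiv.sum_comp (Equiv.addLeft a) _)
    refine sum_congr rfl fun c _ => ?_
    rw [l4, div_self, one_smul]
    · rfl
    · exact fun h0 => div_ne_zero (h2 a) (h2 (a + c)) (by rw [hρ (_ / _), h0, mul_zero])
  refine ⟨_, l6.comp k1, fun x x' hx => ?_⟩
  rw [hx.tr_eq_trace h hF, ← hx.tr_eq_trace h hb.frame, tr, ← h4, div_eq_mul_inv, sum_mul, sum_smul]
  conv_lhs => rw [hx.eq_sum h hb.frame]
  rw [map_sum]
  refine sum_congr rfl fun a _ => ?_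
  have l8 : rk B (du (· + m) s b a) (x (b a)) =
      ∑ c, B (x (b a)) (du (· + m) s b c) • rk B (du (· + m) s b a) (b c) := by
    conv_lhs => rw [← hb.frame.expand _ (hx.mem (b a))]
    ext y
    simp [LinearMap.sum_apply, smul_sum, smul_smul, mul_comm]
  rw [l8, map_sum, sum_eq_single a, map_smul, LinearMap.comp_apply, k2, l7, smul_smul]
  · intro c _ hc
    rw [map_smul, LinearMap.comp_apply, k3 (a, c) (mem_filter.2 ⟨mem_univ _, hc.symm⟩), map_zero,
      smul_zero]
  · exact fun h0 => absurd (mem_univ a) h0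

end AvgP

open AvgP

theorem exists_avg (h : Inv.IsForm B V ε) (hF : Inv.Frame B V e f) :
    ∃ (n : ℕ) (w : Fin n → ℂ) (g g' : Fin n → Module.End ℂ H),
      (∀ i, Inv.Isom B V (g i) ∧ g i * g' i = 1 ∧ g' i * g i = 1) ∧ ∑ i, w i = 1 ∧
      ∀ x x', Inv.Adj B V x x' → ∑ i, w i • (g i * x * g' i) =
        (Inv.tr B e f x / Module.finrank ℂ V) • Inv.proj B e f := by
  obtain ⟨Φ, ⟨I, _, w, g, g', h1, h2, h3⟩, h4⟩ := exists_av h hF
  let k := (Fintype.equivFin I).symm
  refine ⟨_, w ∘ k, g ∘ k, g' ∘ k, fun i => h1 _, (k.sum_comp w).trans h2, fun x x' hx => ?_⟩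
  rw [← h4 x x' hx, h3]
  exact k.sum_comp fun i => w i • (g i * x * g' i)

theorem exists_isom {H' : Type} [AddCommGroup H'] [Module ℂ H'] [FiniteDimensional ℂ H']
    {B' : H' →ₗ[ℂ] H' →ₗ[ℂ] ℂ} {V' : Submodule ℂ H'} (h : Inv.IsForm B V ε)
    (h' : Inv.IsForm B' V' ε) (hd : Module.finrank ℂ V = Module.finrank ℂ V') :
    ∃ j : H →ₗ[ℂ] H', V.map j = V' ∧ ∀ x ∈ V, ∀ y ∈ V, B' (j x) (j y) = B x y := by
  by_cases hV : V = ⊥
  · subst hV
    rw [finrank_bot, eq_comm, Submodule.finrank_eq_zero] at hd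
    refine ⟨0, by simp [hd], fun x hx y _ => ?_⟩
    simp [(Submodule.mem_bot ℂ).1 hx]
  obtain ⟨G, _, _, _, m, s, h1, h2, h3, h4⟩ := exists_data h hV
  have hσ : Involutive (· + m) := fun a => by simp [add_assoc, h1]
  obtain ⟨b, hb⟩ := exists_std h hσ h2 h3 h4
  obtain ⟨b', hb'⟩ := exists_std h' hσ h2 h3 (h4.trans hd)
  let j : H →ₗ[ℂ] H' := ∑ a, (B.flip (du (· + m) s b a)).smulRight (b' a)
  have hj : ∀ x, j x = ∑ a, B x (du (· + m) s b a) • b' a := fun x => by
    simp [j, LinearMap.sum_apply]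
  refine ⟨j, le_antisymm ?_ fun y hy => ?_, fun x hx y hy => ?_⟩
  · rintro _ ⟨x, -, rfl⟩
    rw [hj]
    exact V'.sum_mem fun a _ => V'.smul_mem _ (hb'.mem a)
  · rw [← hb'.frame.expand y hy]
    refine Submodule.sum_mem _ fun a _ => Submodule.smul_mem _ _ ⟨b a, hb.mem a, ?_⟩
    simp [hj, hb.dual]
  · rw [hj, hj, gram_sum (B := B) (e := b) fun a c => by rw [hb.gram, hb'.gram],
      hb.frame.expand x hx, hb.frame.expand y hy]

theorem exists_adm (h : Inv.IsForm B V ε) (l : Multiset ℝ) (h1 : l.map (fun x => -x) = l)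
    (h2 : l.card = Module.finrank ℂ V) (h3 : ε = -1 → (0 : ℝ) ∉ l) :
    ∃ (μ : Module.End ℂ H) (n : ℕ) (e f : Fin n → H) (a : Fin n → ℝ), Inv.Skew B V μ ∧
      Inv.Frame B V e f ∧ (∀ b, B (e b) (f b) = 1) ∧ (∀ b, μ (e b) = (a b : ℂ) • e b) ∧
      Multiset.map a univ.val = l := by
  classical
  have hc : ∀ x, l.count x = l.count (-x) := fun x => by
    conv_rhs => rw [← h1]
    exact (Multiset.count_map_eq_count' _ _ neg_injective x).symm
  let k : Fin (Fintype.card l) ≃ l := (Fintype.equivFin l).symm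
  let τ : l → l := fun p => l.mkToType (-p.1) (Fin.cast (hc p.1) p.2)
  have hτ : Involutive τ := fun p => by
    refine Sigma.ext (neg_neg _) ((Fin.heq_ext_iff ?_).2 rfl)
    exact congrArg (l.count ·) (neg_neg _)
  let a : Fin (Fintype.card l) → ℝ := fun i => (k i).1
  let σ : Fin (Fintype.card l) → Fin (Fintype.card l) := fun i => k.symm (τ (k i))
  have hσ : Involutive σ := fun i => by simp only [σ, k.apply_symm_apply, hτ _, k.symm_apply_apply]
  have ha : ∀ i, a (σ i) = -a i := fun i => by simp only [σ, a, k.apply_symm_apply]; rfl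
  let s : Fin (Fintype.card l) → ℂ := fun i => if a i < 0 then ε else 1
  have hs : ∀ i, s i ≠ 0 := fun i => by
    simp only [s]
    split_ifs
    exacts [h.ne_zero, one_ne_zero]
  have hε : ∀ i, s (σ i) = ε * s i := fun i => by
    simp only [s, ha]
    rcases lt_trichotomy (a i) 0 with k1 | k1 | k1
    · rw [if_pos k1, if_neg (by linarith), h.sq]
    · rw [if_neg (by linarith), if_neg (by linarith), mul_one]
      refine ((mul_self_eq_one_iff.1 h.sq).resolve_right fun k2 => h3 k2 ?_).symm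
      exact k1 ▸ Multiset.coe_mem (x := k i)
    · rw [if_pos (by linarith), if_neg (by linarith), mul_one]
  obtain ⟨b, hb⟩ := exists_std h hσ hs hε (by rw [Fintype.card_fin, Multiset.card_coe, h2])
  let μ : Module.End ℂ H := ∑ i, (a i : ℂ) • Inv.rk B (du σ s b i) (b i)
  have hμ : ∀ x, μ x = ∑ i, ((a i : ℂ) * B x (du σ s b i)) • b i := fun x => by
    simp only [μ, LinearMap.sum_apply, LinearMap.smul_apply, Inv.rk_apply, smul_smul]
  refine ⟨μ, _, b, du σ s b, a, ⟨fun x => ?_, fun x v hv => ?_⟩, hb.frame,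
    fun i => by rw [hb.dual, if_pos rfl], fun i => by simp [hμ, hb.dual], ?_⟩
  · rw [hμ]
    exact V.sum_mem fun i _ => V.smul_mem _ (hb.mem i)
  · rw [hμ, hμ, map_sum, map_sum, LinearMap.sum_apply,
      ← Equiv.sum_comp hσ.toPerm fun i => B x (((a i : ℂ) * B v (du σ s b i)) • b i),
      ← sum_add_distrib]
    refine sum_eq_zero fun i _ => ?_
    have := hs i
    have := h.ne_zero
    simp only [map_smul, LinearMap.smul_apply, smul_eq_mul, du, Involutive.coe_toPerm, hσ i, ha,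
      hε, h.symm v hv _ (hb.mem i)]
    push_cast
    field_simp
    ring
  · refine Eq.trans ?_ (Multiset.map_univ_coe l)
    rw [← Multiset.map_univ_val_equiv k, Multiset.map_map]
    rfl

end Vale.Agent.P269.Deg
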