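import Vale.Agent.P269.Deg.Sd
import Vale.Agent.P269.Fock.BC

/-! The first fundamental theorem for functionals on the Fock space. -/

namespace Vale.Agent.P269.Deg

open Fock Finset LinearMap TensorProduct Fn

namespace Fft

section mono

variable {W W' : Type} [AddCommGroup W] [Module ℂ W] [AddCommGroup W'] [Module ℂ W']
  {q : Par ℂ W} {q' : Par ℂ W'} {n : ℕ}

variable (q n) in
/-- Monomials. -/
noncomputable def mon : MultilinearMap ℂ (fun _ : Fin n => W) (S q) :=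
  (MultilinearMap.mkPiAlgebraFin ℂ n (S q)).compLinearMap fun _ => Fock.ι q

lemma mon_zero (x : Fin 0 → W) : mon q 0 x = 1 := by simp [mon]

lemma mon_succ (x : Fin (n + 1) → W) :
    mon q (n + 1) x = Fock.ι q (x 0) * mon q n fun i => x i.succ := by
  simp [mon, List.ofFn_succ]

lemma map_mon {f : W →ₗ[ℂ] W'} (hf : IsEv q q' f) (x : Fin n → W) :
    Fock.map f hf (mon q n x) = mon q' n fun i => f (x i) := by
  induction n with
  | zero => rw [mon_zero, mon_zero, map_one]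
  | succ n ih => rw [mon_succ, mon_succ, map_mul, map_ι, ih]

lemma par_mon (x : Fin n → W) : par q (mon q n x) = mon q n fun i => q.σ (x i) :=
  map_mon (f := q.σ) (fun _ => rfl) x

lemma dv_mon {a : Module.End ℂ W} (ha : IsEv q q a) (x : Fin n → W) :
    dv q a (mon q n x) = ∑ i, mon q n (Function.update x i (a (x i))) := by
  induction n with
  | zero => simp [mon_zero]
  | succ n ih =>
    rw [mon_succ, dv_ι_mul ha, ih, Fin.sum_univ_succ, mon_succ, mul_sum]
    refine congrArg₂ _ (by simp) (sum_congr rfl fun i _ => ?_)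
    rw [mon_succ, Function.update_of_ne (Fin.succ_ne_zero i).symm]
    refine congrArg _ (congrArg _ (funext fun k => ?_))
    simp [Function.update_apply]

lemma mon_succAbove (ε : ℂ) (i : Fin (n + 1)) : ∃ s : ℂ, ∀ x : Fin (n + 1) → W,
    (∀ k l, Fock.ι q (x k) * Fock.ι q (x l) = ε • (Fock.ι q (x l) * Fock.ι q (x k))) →
      mon q (n + 1) x = s • (Fock.ι q (x i) * mon q n fun k => x (i.succAbove k)) := by
  induction n with
  | zero => exact ⟨1, fun x _ => by rw [mon_succ, mon_zero, mon_zero, one_smul, Fin.eq_zero i]⟩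
  | succ n ih =>
    induction i using Fin.cases with
    | zero => exact ⟨1, fun x _ => by rw [mon_succ, one_smul]; rfl⟩
    | succ i =>
      obtain ⟨s, hs⟩ := ih i
      refine ⟨s * ε, fun x hx => ?_⟩
      rw [mon_succ, hs _ fun k l => hx _ _, mon_succ (fun k => x (i.succ.succAbove k)),
        mul_smul_comm, ← mul_assoc, hx 0, ← mul_assoc, smul_mul_assoc, mul_smul]
      simp only [Fin.succ_succAbove_zero, Fin.succ_succAbove_succ]

/-- Elements of degree at most `n`. -/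
inductive Dg (q : Par ℂ W) : ℕ → S q → Prop
  | one (n : ℕ) : Dg q n 1
  | mul {n : ℕ} (v : W) {x : S q} : Dg q n x → Dg q (n + 1) (Fock.ι q v * x)
  | add {n : ℕ} {x y : S q} : Dg q n x → Dg q n y → Dg q n (x + y)
  | smul {n : ℕ} (c : ℂ) {x : S q} : Dg q n x → Dg q n (c • x)

lemma Dg.succ {x : S q} (h : Dg q n x) : Dg q (n + 1) x := by
  induction h with
  | one n => exact .one _
  | mul v _ ih => exact .mul v ih
  | add _ _ h1 h2 => exact .add h1 h2
  | smul c _ ih => exact .smul c ih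

lemma Dg.mono {x : S q} (h : Dg q n x) {m : ℕ} (e : n ≤ m) : Dg q m x := by
  induction e with
  | refl => exact h
  | step _ ih => exact ih.succ

lemma exists_dg (x : S q) : ∃ n, Dg q n x := by
  induction x using Fock.induction with
  | h1 => exact ⟨0, .one 0⟩
  | hι v x hx => exact hx.elim fun _ h => ⟨_, h.mul v⟩
  | hadd x y hx hy =>
    obtain ⟨n, hn⟩ := hx
    obtain ⟨m, hm⟩ := hy
    exact ⟨_, (hn.mono (le_max_left n m)).add (hm.mono (le_max_right n m))⟩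
  | hsmul c x hx => exact hx.elim fun _ h => ⟨_, h.smul c⟩

lemma Dg.dv {a : Module.End ℂ W} (ha : IsEv q q a) {x : S q} (h : Dg q n x) :
    Dg q n (dv q a x) := by
  induction h with
  | one n => simpa using (Dg.one (q := q) n).smul 0
  | mul v h ih => rw [dv_ι_mul ha]; exact (h.mul _).add (ih.mul v)
  | add _ _ h1 h2 => rw [map_add]; exact h1.add h2
  | smul c _ ih => rw [map_smul]; exact ih.smul c

lemma Dg.pow {f : Module.End ℂ W} (hf : IsEv q q f) (h3 : f * f = 0) {x : S q} (h : Dg q n x) :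
    (Fock.dv q f ^ (n + 1)) x = 0 := by
  have key : ∀ v (k : ℕ) y, (Fock.dv q f ^ (k + 1)) (Fock.ι q v * y) =
      Fock.ι q v * (Fock.dv q f ^ (k + 1)) y +
        ((k : ℂ) + 1) • (Fock.ι q (f v) * (Fock.dv q f ^ k) y) := fun v k y => by
    induction k with
    | zero => simp [dv_ι_mul hf, add_comm]
    | succ k ih =>
      have e : f (f v) = 0 := LinearMap.congr_fun h3 v
      rw [pow_succ', Module.End.mul_apply, ih, map_add, map_smul, dv_ι_mul hf, dv_ι_mul hf, e,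
        map_zero, zero_mul, zero_add, ← Module.End.mul_apply _ _ y, ← pow_succ',
        ← Module.End.mul_apply _ _ y, ← pow_succ']
      push_cast
      module
  induction h with
  | one n => simp [pow_succ]
  | mul v _ ih => rw [key, ih, pow_succ', Module.End.mul_apply, ih]; simp
  | add _ _ h1 h2 => rw [map_add, h1, h2, add_zero]
  | smul c _ ih => rw [map_smul, ih, smul_zero]

lemma con_ι_mul (φ : Module.Dual ℂ W) (v : W) (x : S q) : con q φ (Fock.ι q v * x) =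
    Fock.ι q (q.ev v) * con q φ x + Fock.ι q (q.od v) * con q (φ ∘ₗ q.σ) x + φ v • x := by
  rw [con_def, der_ι_mul, cj_alg_comp, Algebra.smul_def]
  rfl

lemma bcS_eq_map {f : W →ₗ[ℂ] W'} (hf : IsEv q q' f) (hs : IsEvS q q' f) (x : S q) :
    bcS f hs x = Fock.map f hf x := by
  induction x using Fock.induction with
  | h1 => simp
  | hι v x hx => rw [map_mul, map_mul, hx, bcS_ι, map_ι]
  | hadd x y hx hy => rw [map_add, map_add, hx, hy]
  | hsmul c x hx => rw [bcS_smul, map_smul, hx, RingHom.id_apply]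

end mono

end Fft

open Fft

theorem sl2_kill {M : Type} [AddCommGroup M] [Module ℂ M] {V : Type} [AddCommGroup V] [Module ℂ V]
    {p : Par ℂ V} {e f h : Module.End ℂ V}
    (he : IsEv p p e) (hf : IsEv p p f) (hh : IsEv p p h) (h1 : e * f - f * e = h)
    (h2 : h * f - f * h = (-2 : ℂ) • f) (h3 : f * f = 0) {Z : S p →ₗ[ℂ] M}
    (k1 : ∀ x, Z (dv p e x) = 0) (k2 : ∀ x, Z (dv p h x) = 0) (x) : Z (dv p f x) = 0 := by
  have a1 : ∀ (n : ℕ) y, Z ((dv p f ^ n) (dv p h y)) = (2 * n : ℂ) • Z ((dv p f ^ n) y) := by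
    intro n
    induction n with
    | zero => simpa using k2
    | succ n ih =>
      intro y
      have e1 := dv_dv hh hf y
      rw [h2, map_smul, LinearMap.smul_apply, ← sub_eq_iff_eq_add] at e1
      simp only [pow_succ, Module.End.mul_apply, ← e1, map_sub, map_smul, ih]
      push_cast
      module
  have a2 : ∀ (n : ℕ) y, Z ((dv p f ^ (n + 1)) (dv p e y)) =
      -((n * (n + 1) : ℕ) : ℂ) • Z ((dv p f ^ n) y) := by
    intro n
    induction n with
    | zero =>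
      intro y
      have e1 := dv_dv he hf y
      rw [h1, ← sub_eq_iff_eq_add] at e1
      simp [← e1, k1, k2]
    | succ n ih =>
      intro y
      have e1 := dv_dv he hf y
      rw [h1, ← sub_eq_iff_eq_add] at e1
      rw [pow_succ _ (n + 1), Module.End.mul_apply, ← e1, map_sub, map_sub, ih, a1,
        ← Module.End.mul_apply _ _ y, ← pow_succ]
      push_cast
      module
  obtain ⟨d, hd⟩ := exists_dg x
  have a3 : ∀ k ≤ d, ∀ y, Dg p d y → Z ((dv p f ^ (k + 1)) y) = 0 := by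
    intro k hk
    induction hk using Nat.decreasingInduction with
    | self => intro y hy; rw [hy.pow hf h3, map_zero]
    | of_succ k _ ih =>
      intro y hy
      have := a2 (k + 1) y
      rw [ih _ (hy.dv he)] at this
      exact (smul_eq_zero.1 this.symm).resolve_left
        (neg_ne_zero.2 (Nat.cast_ne_zero.2 (by positivity)))
  simpa using a3 0 d.zero_le x hd

namespace Fft

section frame

variable {H : Type} [AddCommGroup H] [Module ℂ H] {p : Par ℂ H} {κ : Type} [Fintype κ]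
  (fr : Frame p κ) {N : Type} [AddCommGroup N] [Module ℂ N] {n : ℕ}

lemma sum_adj (B : H →ₗ[ℂ] H →ₗ[ℂ] N) {a a' : Module.End ℂ H}
    (h : ∀ y x, fr.η (a' y) x = fr.η y (a x)) :
    ∑ i, B (a (fr.e i)) (fr.f i) = ∑ i, B (fr.e i) (a' (fr.f i)) := by
  have h1 : ∀ i, B (a (fr.e i)) (fr.f i) =
      ∑ j, fr.η (fr.f j) (a (fr.e i)) • B (fr.e j) (fr.f i) := fun i => by
    conv_lhs => rw [← fr.left (a (fr.e i))]
    simp [LinearMap.sum_apply]
  simp only [h1]
  rw [sum_comm]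
  refine sum_congr rfl fun j _ => ?_
  conv_rhs => rw [← fr.right (a' (fr.f j))]
  simp [h]

lemma sum_isom (B : H →ₗ[ℂ] H →ₗ[ℂ] N) {g : Module.End ℂ H} (hg : Function.Surjective g)
    (h : ∀ x y, fr.η (g x) (g y) = fr.η x y) :
    ∑ i, B (g (fr.e i)) (g (fr.f i)) = ∑ i, B (fr.e i) (fr.f i) := by
  have h1 : ∀ i, B (g (fr.e i)) (g (fr.f i)) =
      ∑ j, fr.η (fr.f j) (g (fr.e i)) • B (fr.e j) (g (fr.f i)) := fun i => by
    conv_lhs => rw [← fr.left (g (fr.e i))]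
    simp [LinearMap.sum_apply]
  simp only [h1]
  rw [sum_comm]
  refine sum_congr rfl fun j _ => ?_
  obtain ⟨y, hy⟩ := hg (fr.f j)
  conv_rhs => rw [← hy, ← fr.right y]
  simp [← hy, h]

lemma sum_proj (B : H →ₗ[ℂ] H →ₗ[ℂ] N) {π : Module.End ℂ H} (h1 : ∀ x, π (π x) = π x)
    (h : ∀ y x, fr.η (π y) x = fr.η y (π x)) :
    ∑ i, B (fr.e i) (fr.f i) = ∑ i, B (π (fr.e i)) (π (fr.f i)) +
      ∑ i, B (fr.e i - π (fr.e i)) (fr.f i - π (fr.f i)) := by
  have e1 := sum_adj fr B h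
  have e2 := sum_adj fr (B.compl₂ π) h
  simp only [compl₂_apply, h1] at e2
  simp only [map_sub, LinearMap.sub_apply, sum_sub_distrib, e1, e2]
  abel

/-- The multilinear form of a functional. -/
noncomputable def frm (ψ : S (p.fs ℕ) →ₗ[ℂ] ℂ) (m : Fin n → ℕ) : Inv.MF (Fin n) H :=
  ψ.compMultilinearMap ((mon _ n).compLinearMap fun i => Finsupp.lsingle (m i))

lemma frm_apply (ψ : S (p.fs ℕ) →ₗ[ℂ] ℂ) (m : Fin n → ℕ) (x : Fin n → H) :
    frm ψ m x = ψ (mon _ n fun i => Finsupp.single (m i) (x i)) := rfl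

lemma frm_map {g : Module.End ℂ H} (hg : IsEv p p g) (ψ : S (p.fs ℕ) →ₗ[ℂ] ℂ) (m : Fin n → ℕ)
    (x : Fin n → H) : frm ψ m (fun i => g (x i)) =
      ψ (Fock.map _ (isEv_vv hg) (mon _ n fun i => Finsupp.single (m i) (x i))) := by
  rw [map_mon, frm_apply]
  simp

lemma frm_dv {a : Module.End ℂ H} (ha : IsEv p p a) (ψ : S (p.fs ℕ) →ₗ[ℂ] ℂ) (m : Fin n → ℕ)
    (x : Fin n → H) : ∑ i, frm ψ m (Function.update x i (a (x i))) =
      ψ (dv _ (vv a) (mon _ n fun i => Finsupp.single (m i) (x i))) := by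
  rw [dv_mon (isEv_vv ha), map_sum]
  refine sum_congr rfl fun i _ => congrArg ψ (congrArg (mon _ n) (funext fun k => ?_))
  by_cases h : k = i
  · subst h; simp
  · simp [Function.update_of_ne h]

lemma mem_span_of {G : Set (S (p.fs ℕ))} (h1 : 1 ∈ G)
    (h : ∀ k u, ∀ y ∈ G, Fock.ι _ (Finsupp.single k u) * y ∈ Submodule.span ℂ G) (x : S (p.fs ℕ)) :
    x ∈ Submodule.span ℂ G := by
  induction x using Fock.induction with
  | h1 => exact Submodule.subset_span h1
  | hι v x hx =>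
    induction v using Finsupp.induction_linear with
    | zero => simp
    | add v w hv hw => rw [map_add, add_mul]; exact add_mem hv hw
    | single k u =>
      induction hx using Submodule.span_induction with
      | mem y hy => exact h k u y hy
      | zero => simp
      | add y z _ _ hy hz => rw [mul_add]; exact add_mem hy hz
      | smul c y _ hy => rw [mul_smul_comm]; exact Submodule.smul_mem _ _ hy
  | hadd x y hx hy => exact add_mem hx hy
  | hsmul c x hx => exact Submodule.smul_mem _ _ hx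

lemma mon_cons (k : ℕ) (u : H) (m : Fin n → ℕ) (x : Fin n → H) :
    Fock.ι _ (Finsupp.single k u) * mon (p.fs ℕ) n (fun i => Finsupp.single (m i) (x i)) =
      mon _ (n + 1) fun i => Finsupp.single (Fin.cons (α := fun _ => ℕ) k m i)
        (Fin.cons (α := fun _ => H) u x i) := by
  rw [mon_succ]
  rfl

lemma ext_mon {Z : S (p.fs ℕ) →ₗ[ℂ] N} (h : ∀ (φ : Module.Dual ℂ N) (n : ℕ) (m : Fin n → ℕ)
    (x : Fin n → H), φ (Z (mon _ n fun i => Finsupp.single (m i) (x i))) = 0) (y : S (p.fs ℕ)) :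
    Z y = 0 := by
  refine (Submodule.span_le (p := ker Z)).2 ?_ (mem_span_of (G := {y | ∃ (n : ℕ) (m : Fin n → ℕ)
    (x : Fin n → H), y = mon _ n fun i => Finsupp.single (m i) (x i)})
    ⟨0, Fin.elim0, Fin.elim0, (mon_zero _).symm⟩ ?_ y)
  · rintro _ ⟨n, m, x, rfl⟩
    exact (Module.forall_dual_apply_eq_zero_iff ℂ _).1 fun φ => h φ n m x
  · rintro k u _ ⟨n, m, x, rfl⟩
    exact Submodule.subset_span ⟨_, _, _, mon_cons k u m x⟩

/-- The family `r ⊗ v`. -/
noncomputable def tv {α : Type} [DecidableEq α] : (α →₀ ℂ) →ₗ[ℂ] H →ₗ[ℂ] (α →₀ H) :=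
  (TensorProduct.mk ℂ _ _).compr₂ (finsuppScalarLeft ℂ H α).toLinearMap

@[simp] lemma tv_apply {α : Type} [DecidableEq α] (r : α →₀ ℂ) (v : H) (i : α) :
    tv r v i = r i • v := finsuppScalarLeft_apply_tmul_apply r v i

lemma tv_single {α : Type} [DecidableEq α] (i : α) (v : H) :
    tv (Finsupp.single i 1) v = Finsupp.single i v := by
  ext j
  by_cases h : i = j <;> simp [h]

lemma σ_tv {α : Type} [DecidableEq α] (r : α →₀ ℂ) (v : H) :
    (p.fs α).σ (tv r v) = tv r (p.σ v) := by ext; simp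

lemma tns_tv (P : Module.End ℂ (LL ℂ)) (a : Module.End ℂ H) (r : LL ℂ) (v : H) :
    tns P a (tv r v) = tv (P r) (a v) := by
  simp [tns, tv, LinearEquiv.conj_apply]

lemma up_tv (r : VV ℂ) (v : H) : up ℂ H (tv r v) = tv (up ℂ ℂ r) v := by
  ext j
  rcases lt_or_ge j 0 with hj | hj
  · simp [up_apply_neg _ hj]
  · obtain ⟨m, rfl⟩ := Int.eq_ofNat_of_zero_le hj; simp

lemma pos_tv (r : LL ℂ) (v : H) : pos ℂ H (tv r v) = tv (pos ℂ ℂ r) v := by ext; simp

lemma cst_tv (a : Module.End ℂ H) (r : LL ℂ) (v : H) : Fock.cst a (tv r v) = tv r (a v) := by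
  ext; simp

lemma tns_comm (P : Module.End ℂ (LL ℂ)) {a b : Module.End ℂ H} (h : ∀ x, a (b x) = b (a x))
    (y : LL H) : tns P a (Fock.cst b y) = Fock.cst b (tns P a y) := by
  refine LinearMap.congr_fun (LL_ext (A := tns P a * Fock.cst b) (B := Fock.cst b * tns P a)
    fun i v => ?_) y
  rw [← tv_single]
  simp only [Module.End.mul_apply, cst_tv, tns_tv, h]

lemma exists_Ω_tv (r s : LL ℂ) : ∃ c, ∀ v w, fr.Ω (tv r v) (tv s w) = c * fr.η v w := by
  induction r using Finsupp.induction_linear with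
  | zero => exact ⟨0, by simp⟩
  | add r r' hr hr' =>
    obtain ⟨c, hc⟩ := hr
    obtain ⟨c', hc'⟩ := hr'
    exact ⟨c + c', fun v w => by simp [hc, hc', add_mul]⟩
  | single i t =>
    refine ⟨t * (sg ℂ (-i - 1) * s (-i - 1)), fun v w => ?_⟩
    rw [← mul_one t, ← smul_eq_mul, ← Finsupp.smul_single, map_smul, LinearMap.smul_apply,
      tv_single, map_smul, LinearMap.smul_apply, Frame.Ω_single_left]
    simp [mul_assoc]

/-- The class of the diagonal of the image of `π`. -/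
noncomputable def dB (π : Module.End ℂ H) : VV ℂ →ₗ[ℂ] VV ℂ →ₗ[ℂ] S (p.fs ℕ) :=
  ∑ a, (LinearMap.mul ℂ _).compl₁₂ (Fock.ι _ ∘ₗ tv.flip (π (fr.e a)))
    (Fock.ι _ ∘ₗ tv.flip (π (fr.f a)))

lemma dB_apply (π : Module.End ℂ H) (r s : VV ℂ) : dB fr π r s =
    ∑ a, Fock.ι _ (tv r (π (fr.e a))) * Fock.ι _ (tv s (π (fr.f a))) := by
  simp [dB, LinearMap.sum_apply]

variable {fr} in
lemma ι_mem {U : Submodule ℂ H} {w : VV H} (hw : ∀ m, w m ∈ U) : Fock.ι _ w ∈ conS fr U := by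
  rw [← w.sum_single, Finsupp.sum, map_sum]
  exact Subalgebra.sum_mem _ fun m _ => Algebra.subset_adjoin (.inl ⟨m, _, hw m, rfl⟩)

lemma single_mem {U : Submodule ℂ H} {u : H} (hu : u ∈ U) (k m : ℕ) : Finsupp.single k u m ∈ U := by
  by_cases h : k = m <;> simp [h, hu]

variable {fr} in
lemma comm_q {g : Module.End ℂ H} (he : IsEv p p g) (hg : Function.Surjective g)
    (hη : ∀ x y, fr.η (g x) (g y) = fr.η x y) (h1 : g fr.one = fr.one)
    {A : Module.End ℂ (LL H)} (hA : fr.Quad A) (e : ∀ y, A (Fock.cst g y) = Fock.cst g (A y))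
    (x : S (p.fs ℕ)) :
    fr.q0 A (Fock.map _ (isEv_vv he) x) = Fock.map _ (isEv_vv he) (fr.q0 A x) ∧
    fr.q1 A (Fock.map _ (isEv_vv he) x) = Fock.map _ (isEv_vv he) (fr.q1 A x) ∧
    fr.qm A (Fock.map _ (isEv_vv he) x) = Fock.map _ (isEv_vv he) (fr.qm A x) := by
  have hs : IsEvS (p.fs ℕ) (p.fs ℕ) (vv g) := isEv_vv he
  have e1 : ∀ v, up ℂ H (vv g v) = Fock.cst g (up ℂ H v) := up_fsS g
  have e2 : ∀ y, pos ℂ H (Fock.cst g y) = vv g (pos ℂ H y) := fun y => by ext; simp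
  have e3 : vv g fr.dil = fr.dil := by simp [Frame.dil, h1]
  have e4 : ∀ y y', fr.Ω (Fock.cst g y) (Fock.cst g y') = fr.Ω y y' := fun y y' => by
    induction y using Finsupp.induction_linear with
    | zero => simp
    | add a b ha hb => simp [ha, hb]
    | single i v => rw [cst_single, Frame.Ω_single_left, Frame.Ω_single_left, cst_apply, hη]
  refine ⟨?_, ?_, ?_⟩
  · have := Q0_bcS (hj := hs) hA.isEv_blk hA.isEv_blk
      (fun v => by simp only [Frame.blk, comp_apply, e1, e, e2]) fr.dil x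
    rwa [e3, bcS_eq_map (isEv_vv he), bcS_eq_map (isEv_vv he)] at this
  · obtain ⟨n, hn⟩ := hA.fin
    have : Fock.map _ (isEv_vv he) (fr.cas A) = fr.cas A := by
      rw [Frame.cas_eq hn, map_smul, map_sum]
      refine congrArg _ (sum_congr rfl fun m _ => ?_)
      have := sum_isom fr (((-1 : ℂ) ^ (m + 1)) • (LinearMap.mul ℂ _).compl₁₂
        (Fock.ι (p.fs ℕ) ∘ₗ Finsupp.lsingle m)
        (Fock.ι (p.fs ℕ) ∘ₗ pos ℂ H ∘ₗ A ∘ₗ Finsupp.lsingle (-(m : ℤ) - 1))) hg hη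
      refine Eq.trans ?_ this
      rw [Frame.casT, map_sum]
      refine sum_congr rfl fun a _ => ?_
      rw [map_smul, map_mul, map_ι, map_ι, ← e2, ← e, cst_single]
      simp
    simp [Frame.q1, this]
  · have := Qm_bcS (hj := hs) (u := 1) (W := fr.qf A) (W' := fr.qf A) (fun v w => by
      rw [hA.qf_val, hA.qf_val, Frame.neg_apply, Frame.neg_apply, e1, e1, e, e4]
      simp) fr.dil x
    rwa [e3, bcS_eq_map (isEv_vv he), bcS_eq_map (isEv_vv he), one_smul, ← hA.qm_eq] at this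

end frame

end Fft

section spl

variable {X : Coh} {ε : ℂ} {U V : Submodule ℂ X.H} {π : Module.End ℂ X.H}
  {𝕂 : Type} [CommRing 𝕂] [Algebra ℂ 𝕂] {ħ : 𝕂ˣ} {M : Type} [AddCommGroup M]
  [Module ℂ M] [Module 𝕂 M] [IsScalarTower ℂ 𝕂 M] {Z Z' : S (X.p.fs ℕ) →ₗ[ℂ] M}

namespace Spl

variable (h : Spl X ε U V π)
include h

lemma orthF {a v : X.H} (ha : a ∈ U) (hv : v ∈ V) : X.fr.η v a = 0 := by
  rw [X.fr.η_symm, h.orth _ (h.σU a ha) v hv]

lemma π_of_VF {v : X.H} (hv : v ∈ V) : π v = v :=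
  (sub_eq_zero.1 (h.form.nondeg _ (V.sub_mem hv (h.πV v)) fun _ hw => h.orthF (h.πU v) hw)).symm

lemma π_of_UF {a : X.H} (ha : a ∈ U) : π a = 0 :=
  h.form.nondeg _ (h.πV a) fun _ hw => h.orthF (by simpa using U.sub_mem ha (h.πU a)) hw

lemma mem_UF {a : X.H} : a ∈ U ↔ π a = 0 := ⟨h.π_of_UF, fun e => by simpa [e] using h.πU a⟩

lemma ππF (x : X.H) : π (π x) = π x := h.π_of_VF (h.πV x)

lemma adjF (x y : X.H) : X.fr.η (π x) y = X.fr.η x (π y) := by
  have e1 := h.orthF (h.πU y) (h.πV x)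
  have e2 := h.orth _ (h.πU x) _ (h.πV y)
  simp only [map_sub, LinearMap.sub_apply, sub_eq_zero] at e1 e2
  rw [e1, e2]

lemma ev_ofF {a : Module.End ℂ X.H} (h1 : ∀ x, a x ∈ V) (h2 : ∀ u ∈ U, a u = 0) :
    IsEv X.p X.p a := fun x => by
  have e1 := h2 _ (h.σU _ (h.πU x))
  have e2 := h2 _ (h.πU x)
  rw [map_sub, map_sub, h.σV _ (h.πV x), map_smul, sub_eq_zero] at e1
  rw [map_sub, sub_eq_zero] at e2
  rw [h.σV _ (h1 x), e1, e2]

lemma ev_πF : IsEv X.p X.p π := h.ev_ofF h.πV fun _ => h.π_of_UF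

lemma surjF {g : Module.End ℂ X.H} (hg : Inv.Isom X.fr.η V g) : Function.Surjective g := by
  refine LinearMap.injective_iff_surjective.1 ((injective_iff_map_eq_zero _).2 fun x hx => ?_)
  have hxV : x ∈ V := by
    have := hg.mem x
    rwa [hx, zero_sub, V.neg_mem_iff] at this
  exact h.form.nondeg x hxV fun v _ => by rw [← hg.isom v x hxV, hx, map_zero]

lemma fixF {g : Module.End ℂ X.H} (hg : Inv.Isom X.fr.η V g) {a : X.H} (ha : a ∈ U) : g a = a := by
  refine sub_eq_zero.1 (h.form.nondeg _ (hg.mem a) fun v hv => ?_)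
  obtain ⟨x, rfl⟩ := h.surjF hg v
  have hx : x ∈ V := by simpa using V.sub_mem hv (hg.mem x)
  rw [h.form.symm _ hv _ (hg.mem a), map_sub, LinearMap.sub_apply, hg.isom _ _ hx,
    h.orth a ha _ hx, h.orth a ha _ hv, sub_zero, mul_zero]

theorem isEv {g : Module.End ℂ X.H} (hg : Inv.Isom X.fr.η V g) : IsEv X.p X.p g := by
  have := (h.ev_ofF (a := g - 1) hg.mem fun u hu => sub_eq_zero.2 (h.fixF hg hu)).add IsEv.one
  rwa [sub_add_cancel] at this

lemma isomF {g : Module.End ℂ X.H} (hg : Inv.Isom X.fr.η V g) (x y : X.H) :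
    X.fr.η (g x) (g y) = X.fr.η x y := by
  have e1 := h.orthF (h.πU y) (hg.mem x)
  have e2 := h.fixF hg (h.πU y)
  rw [map_sub X.fr.η, LinearMap.sub_apply, sub_eq_zero] at e1
  calc X.fr.η (g x) (g y) = X.fr.η (g x) (g (y - π y)) + X.fr.η (g x) (g (π y)) := by simp
    _ = X.fr.η x y := by rw [e2, e1, hg.isom _ _ (h.πV y)]; simp

lemma commF {g : Module.End ℂ X.H} (hg : Inv.Isom X.fr.η V g) (x : X.H) : π (g x) = g (π x) := by
  have e1 := h.fixF hg (h.πU x)
  have e2 := h.π_of_VF (hg.mem x)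
  rw [map_sub] at e1 e2
  linear_combination (norm := module) e2 + e1

lemma skew_evF {a : Module.End ℂ X.H} (ha : Inv.Skew X.fr.η V a) : IsEv X.p X.p a :=
  h.ev_ofF ha.mem fun u hu => h.form.nondeg _ (ha.mem u) fun v hv => by
    have := ha.skew u v hv
    rw [h.orth u hu _ (ha.mem v), add_zero] at this
    rw [h.form.symm v hv _ (ha.mem u), this, mul_zero]

theorem invS_of_lie (hL : ∀ a, Inv.Skew X.fr.η V a → ∀ x, Z (dv _ (vv a) x) = 0)
    (hr : ε = 1 → V ≠ ⊥ → ∃ δ ∈ V, X.fr.η δ δ ≠ 0 ∧ ∀ (he : IsEv X.p X.p (Inv.refl X.fr.η δ)) x,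
      Z (Fock.map _ (isEv_vv he) x) = Z x) : InvS X.fr V Z := by
  intro g hg he x
  refine sub_eq_zero.1 (ext_mon (Z := Z ∘ₗ (Fock.map _ (isEv_vv he)).toLinearMap - Z)
    (fun φ n m y => ?_) x)
  have hT : Inv.IsInv X.fr.η V ε (frm (φ ∘ₗ Z) m) := by
    refine ⟨fun u hu v hv z => ?_, fun h1 h2 => ?_⟩
    · have hs := h.form.skew_wd hu hv
      rw [frm_dv (h.skew_evF hs), comp_apply, hL _ hs, map_zero]
    · obtain ⟨δ, k1, k2, k3⟩ := hr h1 h2
      subst h1
      have k4 := h.isEv (h.form.isom_refl k1 k2)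
      exact ⟨δ, k1, k2, fun z => by rw [frm_map k4, comp_apply, k3 k4]; rfl⟩
  have := hT.fixes h.form hg y
  rw [frm_map he] at this
  exact (map_sub φ _ _).trans (sub_eq_zero.2 this)

lemma isInvF {ψ : S (X.p.fs ℕ) →ₗ[ℂ] ℂ} (hψ : InvS X.fr V ψ) {n : ℕ} (m : Fin n → ℕ) :
    Inv.IsInv X.fr.η V ε (frm ψ m) :=
  Inv.isInv_of_fixes h.form fun g hg z => by rw [frm_map (h.isEv hg), hψ g hg (h.isEv hg)]; rfl

theorem lie_of_invS (hZ : InvS X.fr V Z) {a : Module.End ℂ X.H}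
    (ha : Inv.Skew X.fr.η V a) (x) : Z (dv _ (vv a) x) = 0 := by
  refine ext_mon (Z := Z ∘ₗ dv _ (vv a)) (fun φ n m y => ?_) x
  have := (h.isInvF (ψ := φ ∘ₗ Z) (fun g hg he x => congrArg φ (hZ g hg he x)) m).lie.kills
    h.form ha y
  rwa [frm_dv (h.skew_evF ha)] at this

lemma map_conSF {g : Module.End ℂ X.H} (hg : Inv.Isom X.fr.η V g) (he : IsEv X.p X.p g)
    {c : S (X.p.fs ℕ)} (hc : c ∈ conS X.fr U) : Fock.map _ (isEv_vv he) c = c := by
  refine Algebra.adjoin_le (S := AlgHom.equalizer (Fock.map _ (isEv_vv he)) (AlgHom.id ℂ _)) ?_ hc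
  rintro _ (⟨m, u, hu, rfl⟩ | ⟨m, n, rfl⟩)
  · simp [h.fixF hg hu]
  · have := sum_isom X.fr ((LinearMap.mul ℂ _).compl₁₂ (Fock.ι (X.p.fs ℕ) ∘ₗ Finsupp.lsingle m)
      (Fock.ι (X.p.fs ℕ) ∘ₗ Finsupp.lsingle n)) (h.surjF hg) (h.isomF hg)
    simpa [dd] using this

lemma dd_eqF (m n : ℕ) : dd X.fr m n = dB X.fr π (Finsupp.single m 1) (Finsupp.single n 1) +
    ∑ a, Fock.ι _ (Finsupp.single m (X.fr.e a - π (X.fr.e a))) *
      Fock.ι _ (Finsupp.single n (X.fr.f a - π (X.fr.f a))) := by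
  rw [dB_apply]
  simp only [tv_single]
  exact sum_proj X.fr ((LinearMap.mul ℂ _).compl₁₂ (Fock.ι (X.p.fs ℕ) ∘ₗ Finsupp.lsingle m)
    (Fock.ι (X.p.fs ℕ) ∘ₗ Finsupp.lsingle n)) h.ππF h.adjF

lemma dB_memF (r s : VV ℂ) : dB X.fr π r s ∈ conS X.fr U := by
  induction r using Finsupp.induction_linear with
  | zero => simp
  | add r r' hr hr' => rw [map_add, LinearMap.add_apply]; exact add_mem hr hr'
  | single m a =>
    induction s using Finsupp.induction_linear with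
    | zero => simp
    | add r r' hr hr' => rw [map_add]; exact add_mem hr hr'
    | single n b =>
      rw [← mul_one a, ← mul_one b, ← smul_eq_mul, ← smul_eq_mul, ← Finsupp.smul_single,
        ← Finsupp.smul_single, map_smul, map_smul, LinearMap.smul_apply,
        eq_sub_of_add_eq (h.dd_eqF m n).symm]
      exact Subalgebra.smul_mem _ (Subalgebra.smul_mem _ (sub_mem
        (Algebra.subset_adjoin (.inr ⟨m, n, rfl⟩)) (Subalgebra.sum_mem _ fun a _ => mul_mem
          (ι_mem (single_mem (h.πU _) _)) (ι_mem (single_mem (h.πU _) _)))) _) _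

lemma σ_tvVF (r : VV ℂ) {v : X.H} (hv : v ∈ V) : (X.p.fs ℕ).σ (tv r v) = ε • tv r v := by
  rw [σ_tv, h.σV v hv, map_smul]

lemma par_dBF (r s : VV ℂ) : par _ (dB X.fr π r s) = dB X.fr π r s := by
  simp only [dB_apply, map_sum, map_mul, par_ι, h.σ_tvVF _ (h.πV _), map_smul, smul_mul_smul_comm,
    h.form.sq, one_smul]

lemma indF {N : Submodule ℂ (S (X.p.fs ℕ))} (h1 : 1 ∈ N)
    (hU : ∀ w : VV X.H, (∀ m, w m ∈ U) → ∀ x ∈ conS X.fr U, x ∈ N → Fock.ι _ w * x ∈ N)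
    (hB : ∀ r s, ∀ x ∈ conS X.fr U, x ∈ N → dB X.fr π r s * x ∈ N) {x : S (X.p.fs ℕ)}
    (hx : x ∈ conS X.fr U) : x ∈ N := by
  suffices key : ∀ y ∈ conS X.fr U, y ∈ N → x * y ∈ N by simpa using key 1 (one_mem _) h1
  induction hx using Algebra.adjoin_induction with
  | mem c hc =>
    intro y hy hN
    rcases hc with ⟨m, u, hu, rfl⟩ | ⟨m, n, rfl⟩
    · exact hU _ (single_mem hu _) y hy hN
    · rw [h.dd_eqF, add_mul, sum_mul]
      refine add_mem (hB _ _ y hy hN) (N.sum_mem fun a _ => ?_)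
      rw [mul_assoc]
      exact hU _ (single_mem (h.πU _) _) _ (mul_mem (ι_mem (single_mem (h.πU _) _)) hy)
        (hU _ (single_mem (h.πU _) _) y hy hN)
  | algebraMap c => intro y _ hN; rw [← Algebra.smul_def]; exact N.smul_mem c hN
  | add a b _ _ ha hb => intro y hy hN; rw [add_mul]; exact add_mem (ha y hy hN) (hb y hy hN)
  | mul a b _ hb' ha hb => intro y hy hN; rw [mul_assoc]; exact ha _ (mul_mem hb' hy) (hb y hy hN)

lemma evUF {w : VV X.H} (hw : ∀ m, w m ∈ U) (m : ℕ) : (X.p.fs ℕ).ev w m ∈ U :=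
  U.smul_mem _ (U.add_mem (hw m) (h.σU _ (hw m)))

lemma odUF {w : VV X.H} (hw : ∀ m, w m ∈ U) (m : ℕ) : (X.p.fs ℕ).od w m ∈ U :=
  U.smul_mem _ (U.sub_mem (hw m) (h.σU _ (hw m)))

lemma con_memF {φ : Module.Dual ℂ (VV X.H)} (hφ : ∀ r, ∀ v ∈ V, φ (tv r v) = 0)
    {x : S (X.p.fs ℕ)} (hx : x ∈ conS X.fr U) : con _ φ x ∈ conS X.fr U := by
  have hσ : ∀ {φ : Module.Dual ℂ (VV X.H)}, (∀ r, ∀ v ∈ V, φ (tv r v) = 0) →
      ∀ r, ∀ v ∈ V, (φ ∘ₗ (X.p.fs ℕ).σ) (tv r v) = 0 := fun hφ r v hv => by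
    rw [comp_apply, h.σ_tvVF r hv, map_smul, hφ r v hv, smul_zero]
  have := h.indF (N := ⨅ φ : {φ : Module.Dual ℂ (VV X.H) // ∀ r, ∀ v ∈ V, φ (tv r v) = 0},
    (conS X.fr U).toSubmodule.comap (con _ φ.1)) (by simp) (fun w hw x hx hN => ?_)
    (fun r s x hx hN => ?_) hx
  · exact (Submodule.mem_iInf _).1 this ⟨φ, hφ⟩
  · rw [Submodule.mem_iInf] at hN ⊢
    intro φ
    rw [Submodule.mem_comap, Subalgebra.mem_toSubmodule, con_ι_mul]
    exact add_mem (add_mem (mul_mem (ι_mem (h.evUF hw)) (hN φ))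
      (mul_mem (ι_mem (h.odUF hw)) (hN ⟨_, hσ φ.2⟩))) (Subalgebra.smul_mem _ hx _)
  · rw [Submodule.mem_iInf] at hN ⊢
    intro φ
    have e : con _ φ.1 (dB X.fr π r s) = 0 := by
      simp only [dB_apply, map_sum, con_ι_mul, con_ι, φ.2 _ _ (h.πV _), hσ φ.2 _ _ (h.πV _),
        map_zero, mul_zero, zero_smul, add_zero, sum_const_zero]
    rw [Submodule.mem_comap, Subalgebra.mem_toSubmodule, con_mul_ev _ (h.par_dBF r s), e, zero_mul, zero_add]
    exact mul_mem (h.dB_memF r s) (hN φ)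

lemma dv_memF {b : Module.End ℂ (VV X.H)} (hb : IsEv (X.p.fs ℕ) (X.p.fs ℕ) b)
    (hU : ∀ w : VV X.H, (∀ m, w m ∈ U) → ∀ m, b w m ∈ U)
    (hV : ∀ r, ∃ r', ∀ v ∈ V, b (tv r v) = tv r' v) {x : S (X.p.fs ℕ)} (hx : x ∈ conS X.fr U) :
    dv _ b x ∈ conS X.fr U := by
  refine h.indF (N := (conS X.fr U).toSubmodule.comap (dv _ b)) (by simp) (fun w hw x hx hN => ?_)
    (fun r s x hx hN => ?_) hx
  · rw [Submodule.mem_comap, Subalgebra.mem_toSubmodule, dv_ι_mul hb]
    exact add_mem (mul_mem (ι_mem (hU w hw)) hx) (mul_mem (ι_mem hw) hN)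
  · obtain ⟨r', hr⟩ := hV r
    obtain ⟨s', hs⟩ := hV s
    have e : dv _ b (dB X.fr π r s) = dB X.fr π r' s + dB X.fr π r s' := by
      simp only [dB_apply, map_sum, dv_ι_mul hb, dv_ι, hr _ (h.πV _), hs _ (h.πV _),
        sum_add_distrib]
    rw [Submodule.mem_comap, Subalgebra.mem_toSubmodule, dv_mul hb, e]
    exact add_mem (mul_mem (add_mem (h.dB_memF _ _) (h.dB_memF _ _)) hx) (mul_mem (h.dB_memF _ _) hN)

lemma con2_memF {Q : SymB (X.p.fs ℕ)}
    (hU : ∀ w : VV X.H, (∀ m, w m ∈ U) → ∀ r, ∀ v ∈ V, Q.1 w (tv r v) = 0)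
    (hV : ∀ r s, ∃ c, ∀ v ∈ V, ∀ w ∈ V, Q.1 (tv r v) (tv s w) = c * X.fr.η v w)
    {x : S (X.p.fs ℕ)} (hx : x ∈ conS X.fr U) : con2 _ Q x ∈ conS X.fr U := by
  have hσ : ∀ r, ∀ v ∈ V, Q.1 (tv r v) ∘ₗ (X.p.fs ℕ).σ = ε • Q.1 (tv r v) := fun r v hv => by
    rw [SymB.comp_σ Q.2, h.σ_tvVF r hv, map_smul]
  have aux : ∀ (E F : X.ι → X.H) (k : ℂ), (∀ a, E a ∈ V) → (∀ a, F a ∈ V) →
      (∀ v ∈ V, ∑ a, X.fr.η (F a) v • E a = k • v) → ∀ r s, ∀ x ∈ conS X.fr U,
      ∑ a, Fock.ι _ (tv r (E a)) * con _ (Q.1 (tv s (F a))) x ∈ conS X.fr U := by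
    intro E F k hE hF hk r s x hx
    have hP : ∀ a, SameP (X.p.fs ℕ) (tv r (E a)) (Q.1 (tv s (F a))) := fun a => by
      have e1 := h.σ_tvVF r (hE a)
      have e2 := hσ s _ (hF a)
      rcases mul_self_eq_one_iff.1 h.form.sq with rfl | rfl
      · exact .inl ⟨by rw [e1, one_smul], by rw [e2, one_smul]⟩
      · exact .inr ⟨by rw [e1, neg_one_smul], by rw [e2, neg_one_smul]⟩
    simp only [← dv_smulRight (hP _), ← LinearMap.sum_apply, ← map_sum]
    refine h.dv_memF (IsEv.sum _ fun a _ => (hP a).isEv) (fun w hw m => ?_) (fun t => ?_) hx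
    · have e : ∀ a, Q.1 (tv s (F a)) w = 0 := fun a => by
        rw [Q.2, hU _ (fun m => h.σU _ (hw m)) _ _ (hF a)]
      simp [LinearMap.sum_apply, e]
    · obtain ⟨c, hc⟩ := hV s t
      refine ⟨(c * k) • r, fun v hv => ?_⟩
      rw [map_smul, LinearMap.smul_apply, mul_smul, ← map_smul (tv r), ← hk v hv]
      simp only [LinearMap.sum_apply, smulRight_apply, hc _ (hF _) v hv, mul_smul, smul_sum,
        map_sum, map_smul]
  refine h.indF (N := (conS X.fr U).toSubmodule.comap (con2 _ Q)) (by simp) (fun w hw x hx hN => ?_)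
    (fun r s x hx hN => ?_) hx
  · rw [Submodule.mem_comap, Subalgebra.mem_toSubmodule, con2_ι_mul]
    exact add_mem (mul_mem (ι_mem hw) hN) (h.con_memF (hU w hw) hx)
  · have e : ∀ v ∈ V, ∀ w ∈ V, con _ (Q.1 (tv r v)) (Fock.ι _ (tv s w) * x) =
        Q.1 (tv r v) (tv s w) • x + ε • (Fock.ι _ (tv s w) * con _ (Q.1 (tv r v)) x) := by
      intro v hv w hw
      have e1 := h.σ_tvVF s hw
      rcases mul_self_eq_one_iff.1 h.form.sq with rfl | rfl
      · rw [con_ι_mul_ev _ (by rw [e1, one_smul]), one_smul]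
      · rw [con_ι_mul_od _ (by rw [e1, neg_one_smul]), hσ r v hv, map_smul, LinearMap.smul_apply,
          mul_smul_comm]
    have e' : con2 _ Q (dB X.fr π r s * x) = dB X.fr π r s * con2 _ Q x +
        ∑ a, Fock.ι _ (tv r (π (X.fr.e a))) * con _ (Q.1 (tv s (π (X.fr.f a)))) x +
        ((∑ a, Q.1 (tv r (π (X.fr.e a))) (tv s (π (X.fr.f a)))) • x +
        ε • ∑ a, Fock.ι _ (tv s (π (X.fr.f a))) * con _ (Q.1 (tv r (π (X.fr.e a)))) x) := by
      simp only [dB_apply, sum_mul, map_sum, mul_assoc, con2_ι_mul, e _ (h.πV _) _ (h.πV _),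
        mul_add, sum_add_distrib, sum_smul, smul_sum]
    rw [Submodule.mem_comap, Subalgebra.mem_toSubmodule, e']
    refine add_mem (add_mem (mul_mem (h.dB_memF _ _) hN) (aux _ _ 1 (fun _ => h.πV _)
      (fun _ => h.πV _) (fun v hv => ?_) r s x hx)) (add_mem (Subalgebra.smul_mem _ hx _)
      (Subalgebra.smul_mem _ (aux _ _ ε (fun _ => h.πV _) (fun _ => h.πV _) (fun v hv => ?_)
        s r x hx) _))
    · simp only [h.adjF, h.π_of_VF hv, ← map_smul π, ← map_sum, X.fr.left, one_smul]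
    · simp only [h.adjF, h.π_of_VF hv, ← map_smul π, ← map_sum, X.fr.η_symm _ v, X.fr.right,
        h.σV v hv]
      rw [map_smul, h.π_of_VF hv]

lemma fft_aux (n : ℕ) : ∀ ψ : S (X.p.fs ℕ) →ₗ[ℂ] ℂ, InvS X.fr V ψ → (∀ x ∈ conS X.fr U, ψ x = 0) →
    ∀ (m : Fin n → ℕ) (x : Fin n → X.H), (∀ i, x i ∈ V) → frm ψ m x = 0 := by
  have hF : Inv.Frame X.fr.η V (fun a => π (X.fr.f a)) fun a => π (X.fr.e a) :=
    ⟨fun _ => h.πV _, fun _ => h.πV _, fun x hx => by
      simp only [← h.adjF, h.π_of_VF hx, ← map_smul π, ← map_sum, X.fr.right]⟩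
  induction n using Nat.twoStepInduction with
  | zero => intro ψ _ h0 m x _; rw [frm_apply, mon_zero]; exact h0 1 (one_mem _)
  | one =>
    intro ψ hψ _ m x hx
    exact Inv.eq_zero_of_traceless h.form (h.isInvF hψ m) hF
      (fun _ _ i j hij => absurd (Subsingleton.elim _ _) hij) hx
  | more n ih _ =>
    intro ψ hψ h0 m x hx
    refine Inv.eq_zero_of_traceless h.form (h.isInvF hψ m) hF (fun v hv i j hij => ?_) hx
    obtain ⟨i, rfl⟩ := Fin.exists_succAbove_eq hij.symm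
    obtain ⟨s, hs⟩ := mon_succAbove (q := X.p.fs ℕ) ε j
    obtain ⟨s', hs'⟩ := mon_succAbove (q := X.p.fs ℕ) ε i
    have hc : ∀ k l, ∀ v ∈ V, ∀ w ∈ V,
        Fock.ι (X.p.fs ℕ) (Finsupp.single k v) * Fock.ι _ (Finsupp.single l w) =
        ε • (Fock.ι _ (Finsupp.single l w) * Fock.ι _ (Finsupp.single k v)) := by
      intro k l v hv w hw
      have e1 := h.σ_tvVF (Finsupp.single k 1) hv
      have e2 := h.σ_tvVF (Finsupp.single l 1) hw
      rw [tv_single] at e1 e2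
      rcases mul_self_eq_one_iff.1 h.form.sq with rfl | rfl
      · rw [one_smul] at e1 ⊢
        exact ι_comm_ev e1 _
      · rw [neg_one_smul] at e1 e2 ⊢
        exact (sc_ι _).od _ _ e1 e2
    have e : ∀ a ∈ V, ∀ b ∈ V,
        frm ψ m (Function.update (Function.update v (j.succAbove i) b) j a) =
        (s * s') * ψ (Fock.ι _ (Finsupp.single (m j) a) *
          Fock.ι _ (Finsupp.single (m (j.succAbove i)) b) * mon _ n fun k => Finsupp.single
            (m (j.succAbove (i.succAbove k))) (v (j.succAbove (i.succAbove k)))) := by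
      intro a ha b hb
      have hm : ∀ k, Function.update (Function.update v (j.succAbove i) b) j a k ∈ V := fun k => by
        simp only [Function.update_apply]
        split_ifs
        exacts [ha, hb, hv k]
      rw [frm_apply, hs _ fun k l => hc _ _ _ (hm _) _ (hm _),
        hs' _ fun k l => hc _ _ _ (hm _) _ (hm _)]
      simp [mul_assoc]
    simp only [e _ (h.πV _) _ (h.πV _), ← mul_sum, ← map_sum, ← sum_mul, ← tv_single _ (π _),
      ← dB_apply]
    refine mul_eq_zero_of_right _ (ih (ψ ∘ₗ mulLeft ℂ _) (fun g hg he y => ?_) (fun y hy => ?_)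
      _ _ fun k => hv _)
    · rw [comp_apply, comp_apply, mulLeft_apply, mulLeft_apply, ← hψ g hg he (_ * y),
        map_mul (Fock.map _ _), h.map_conSF hg he (h.dB_memF _ _)]
    · exact h0 _ (mul_mem (h.dB_memF _ _) hy)

theorem fft (hZ : InvS X.fr V Z) (h0 : ∀ x ∈ conS X.fr U, Z x = 0) : Z = 0 := by
  refine LinearMap.ext fun y => (Submodule.span_le (p := ker Z)).2 ?_
    (mem_span_of (G := {y | ∃ (n : ℕ) (m : Fin n → ℕ) (x : Fin n → X.H), (∀ i, x i ∈ V) ∧
      ∃ c ∈ conS X.fr U, y = (mon _ n fun i => Finsupp.single (m i) (x i)) * c})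
    ⟨0, Fin.elim0, Fin.elim0, fun i => i.elim0, 1, one_mem _, by rw [mon_zero, one_mul]⟩ ?_ y)
  · rintro _ ⟨n, m, x, hx, c, hc, rfl⟩
    refine (Module.forall_dual_apply_eq_zero_iff ℂ _).1 fun φ =>
      h.fft_aux n (φ ∘ₗ Z ∘ₗ mulRight ℂ c) (fun g hg he y => congrArg φ ?_)
        (fun y hy => ?_) m x hx
    · rw [comp_apply, comp_apply, mulRight_apply, mulRight_apply, ← hZ g hg he (y * _),
        map_mul (Fock.map _ _), h.map_conSF hg he hc]
    · simp [h0 _ (mul_mem hy hc)]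
  · rintro k u _ ⟨n, m, x, hx, c, hc, rfl⟩
    have e : Finsupp.single k u = Finsupp.single k (π u) +
        ((X.p.fs ℕ).ev (Finsupp.single k (u - π u)) + (X.p.fs ℕ).od (Finsupp.single k (u - π u))) := by
      rw [Par.ev_add_od, ← Finsupp.single_add, add_sub_cancel]
    have hu := single_mem (h.πU u) k
    rw [e, map_add, map_add, add_mul, add_mul, ← mul_assoc, ← mul_assoc, ← mul_assoc, mon_cons,
      ι_ev_comm, ι_comm_od (Par.σ_od _ _), par_mon, mul_assoc, mul_assoc]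
    refine add_mem (Submodule.subset_span ⟨_, _, _, Fin.cases (h.πV u) hx, c, hc, rfl⟩) (add_mem
      (Submodule.subset_span ⟨_, _, _, hx, _, mul_mem (ι_mem (h.evUF hu)) hc, rfl⟩)
      (Submodule.subset_span ⟨_, m, fun i => X.p.σ (x i), fun i => ?_, _,
        mul_mem (ι_mem (h.odUF hu)) hc, by simp only [Par.fs_σ_single]⟩))
    simp only [h.σV _ (hx i)]
    exact V.smul_mem _ (hx i)

theorem transfer (hZ : InvS X.fr V Z) (h0 : ∀ x ∈ conS X.fr U, Z x = Z' x)
    {A0 : Module.End ℂ (LL X.H)} (h1 : A0 * Fock.cst π = 0) (h2 : Fock.cst π * A0 = 0)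
    {P : Module.End ℂ (LL ℂ)} (hA : Qd X.fr (A0 + tns P π)) {κ : 𝕂}
    (hc : Cns X.fr ħ Z' (A0 + tns P π) κ) : Cns X.fr ħ Z (A0 + tns P π) κ := by
  have hQ := hA.quad
  set A := A0 + tns P π with hA'
  have k1 : ∀ y, A0 (Fock.cst π y) = 0 := LinearMap.congr_fun h1
  have k2 : ∀ y, Fock.cst π (A0 y) = 0 := LinearMap.congr_fun h2
  have a1 : ∀ y : LL X.H, (∀ j, y j ∈ U) → ∀ j, A y j ∈ U := fun y hy j => by
    have e : Fock.cst π y = 0 := Finsupp.ext fun j => h.π_of_UF (hy j)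
    rw [h.mem_UF, ← cst_apply, hA', LinearMap.add_apply, map_add, k2,
      ← tns_comm P fun _ => rfl, e, map_zero, add_zero, Finsupp.zero_apply]
  have a2 : ∀ r, ∀ v ∈ V, A (tv r v) = tv (P r) v := fun r v hv => by
    have := k1 (tv r v)
    rw [cst_tv, h.π_of_VF hv] at this
    rw [hA', LinearMap.add_apply, this, tns_tv, h.π_of_VF hv, zero_add]
  have a3 : ∀ w : VV X.H, (∀ m, w m ∈ U) → ∀ j, up ℂ X.H w j ∈ U := fun w hw j => by
    rcases lt_or_ge j 0 with hj | hj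
    · simp [up_apply_neg _ hj]
    · obtain ⟨m, rfl⟩ := Int.eq_ofNat_of_zero_le hj; simpa using hw m
  have a4 : ∀ w : VV X.H, (∀ m, w m ∈ U) → ∀ m, Frame.blk A w m ∈ U := fun w hw m =>
    a1 _ (a3 w hw) m
  have a5 : ∀ w : VV X.H, (∀ m, w m ∈ U) → ∀ r, ∀ v ∈ V,
      X.fr.neg (A (up ℂ X.H w)) (tv r v) = 0 := fun w hw r v hv => by
    have e : Fock.cst π (A (up ℂ X.H w)) = 0 := Finsupp.ext fun j => h.π_of_UF (a1 _ (a3 w hw) j)
    rw [Frame.neg_apply, up_tv, ← h.π_of_VF hv, ← cst_tv, ← Frame.adj_cst h.adjF, e, map_zero,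
      LinearMap.zero_apply]
  have a6 : ∀ m, X.fr.dil m ∈ U := single_mem h.one 1
  have b0 : ∀ x ∈ conS X.fr U, X.fr.q0 A x ∈ conS X.fr U := fun x hx =>
    sub_mem (h.dv_memF hQ.isEv_blk a4 (fun r => ⟨pos ℂ ℂ (P (up ℂ ℂ r)), fun v hv => by
      simp only [Frame.blk, comp_apply, up_tv, a2 _ v hv, pos_tv]⟩) hx)
      (mul_mem (ι_mem (a4 _ a6)) hx)
  have b1 : ∀ x ∈ conS X.fr U, X.fr.q1 A x ∈ conS X.fr U := fun x hx => by
    refine mul_mem ?_ hx
    obtain ⟨n, hn⟩ := hQ.fin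
    rw [Frame.cas_eq hn]
    refine Subalgebra.smul_mem _ (Subalgebra.sum_mem _ fun m _ => ?_) _
    rw [Frame.casT, ← smul_sum]
    refine Subalgebra.smul_mem _ ?_ _
    have := sum_proj X.fr ((LinearMap.mul ℂ _).compl₁₂ (Fock.ι (X.p.fs ℕ) ∘ₗ Finsupp.lsingle m)
      (Fock.ι (X.p.fs ℕ) ∘ₗ pos ℂ X.H ∘ₗ A ∘ₗ Finsupp.lsingle (-(m : ℤ) - 1))) h.ππF h.adjF
    simp only [compl₁₂_apply, comp_apply, Finsupp.lsingle_apply, mul_apply'] at this
    rw [this]
    refine add_mem ?_ (Subalgebra.sum_mem _ fun a _ => mul_mem (ι_mem (single_mem (h.πU _) _))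
      (ι_mem fun k => a1 _ (fun j => ?_) k))
    · simp only [← tv_single _ (π _), a2 _ _ (h.πV _), pos_tv, ← dB_apply]
      exact h.dB_memF _ _
    · by_cases e : -(m : ℤ) - 1 = j <;> simp [e, h.πU]
  have bm : ∀ x ∈ conS X.fr U, X.fr.qm A x ∈ conS X.fr U := fun x hx =>
    sub_mem (h.con2_memF (fun w hw => by rw [hQ.qf_val]; exact a5 w hw) (fun r s => by
      obtain ⟨c, hc⟩ := exists_Ω_tv X.fr (P (up ℂ ℂ r)) (up ℂ ℂ s)
      refine ⟨c, fun v hv w _ => ?_⟩
      rw [hQ.qf_val, Frame.neg_apply, up_tv, up_tv, a2 _ v hv, hc]) hx) (h.con_memF (a5 _ a6) hx)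
  have := h.fft (Z := Z ∘ₗ X.fr.q0 A + (ħ : 𝕂) • (Z ∘ₗ X.fr.q1 A) +
    (↑ħ⁻¹ : 𝕂) • (Z ∘ₗ X.fr.qm A) - κ • Z) (fun g hg he x => ?_) fun x hx => ?_
  · exact fun x => sub_eq_zero.1 (LinearMap.congr_fun this x)
  · obtain ⟨e0, e1, em⟩ := comm_q he (h.surjF hg) (h.isomF hg) (h.fixF hg h.one) hQ (fun y => by
      have e1 : Fock.cst g y = y + Fock.cst π (Fock.cst g y - y) :=
        Finsupp.ext fun j => by simp [-map_sub, h.π_of_VF (hg.mem _)]
      have e2 : Fock.cst g (A0 y) = A0 y := Finsupp.ext fun j =>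
        h.fixF hg (h.mem_UF.2 (DFunLike.congr_fun (k2 y) j))
      rw [hA', LinearMap.add_apply, LinearMap.add_apply, map_add, e2, tns_comm P (h.commF hg), e1,
        map_add, k1, add_zero]) x
    simp only [LinearMap.sub_apply, LinearMap.add_apply, LinearMap.smul_apply, comp_apply, e0, e1,
      em, hZ g hg he]
  · simp only [LinearMap.sub_apply, LinearMap.add_apply, LinearMap.smul_apply, comp_apply,
      h0 _ (b0 x hx), h0 _ (b1 x hx), h0 _ (bm x hx), h0 x hx, hc x, sub_self]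

end Spl

end spl

end Vale.Agent.P269.Deg
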