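import Vale.Agent.P269.Inv.Group
import Vale.Agent.P269.Inv.Red

/-!
# The skew maps and the traceless self adjoint maps are non isomorphic simple modules
-/

set_option linter.unusedSimpArgs false
set_option linter.unusedSectionVars false
set_option linter.unnecessarySeqFocus false

namespace Vale.Agent.P269.Deg

open Finset LinearMap TensorProduct

variable {H : Type} [AddCommGroup H] [Module ℂ H] [FiniteDimensional ℂ H]
  {B : H →ₗ[ℂ] H →ₗ[ℂ] ℂ} {V : Submodule ℂ H} {ε : ℂ} {κ : Type} [Fintype κ] {e f : κ → H}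

namespace IrrP

open Vale.Agent.P269.Inv

/-- holomorphic along every line -/
def Hol {W : Type} [AddCommGroup W] [Module ℂ W] (f : W → ℂ) : Prop :=
  ∀ x y, Differentiable ℂ fun t : ℂ => f (x + t • y)

theorem Hol.dom {W : Type} [AddCommGroup W] [Module ℂ W] {f g : W → ℂ} (hf : Hol f) (hg : Hol g)
    (hx : ∃ x, f x ≠ 0) (hy : ∃ y, g y ≠ 0) : ∃ z, f z * g z ≠ 0 := by
  obtain ⟨x, hx⟩ := hx
  obtain ⟨y, hy⟩ := hy
  by_contra hn
  push Not at hn
  rcases ((hf x (y - x)).differentiableOn.analyticOnNhd isOpen_univ).eq_zero_or_eq_zero_of_mul_eq_zero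
    ((hg x (y - x)).differentiableOn.analyticOnNhd isOpen_univ) (fun t _ => hn _)
    isPreconnected_univ with h | h
  · exact hx (by simpa using h 0 trivial)
  · exact hy (by simpa using h 1 trivial)

theorem Hol.mul {W : Type} [AddCommGroup W] [Module ℂ W] {f g : W → ℂ} (hf : Hol f) (hg : Hol g) :
    Hol fun x => f x * g x := fun x y => (hf x y).mul (hg x y)

omit [FiniteDimensional ℂ H] in
theorem eps (h : IsForm B V ε) : ε = 1 ∨ ε = -1 := mul_self_eq_one_iff.1 h.sq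

omit [FiniteDimensional ℂ H] in
theorem exists_pair (h : IsForm B V ε) {u : H} (hu : u ∈ V) (h0 : u ≠ 0) : ∃ x ∈ V, B x u ≠ 0 := by
  by_contra hn
  push Not at hn
  exact h0 (h.nondeg u hu hn)

omit [FiniteDimensional ℂ H] in
/-- From generic orthogonal pairs to all orthogonal pairs. -/
theorem gen (h : IsForm B V ε) (η : ℂ) (M : Submodule ℂ (Module.End ℂ H)) (c : Module.End ℂ H)
    (h0 : ∀ δ ∈ V, ∀ γ ∈ V, B γ δ = 0 → B δ δ + (1 - ε) ≠ 0 → B γ γ + (1 - ε) ≠ 0 →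
      B γ (c δ) • wd B η δ γ ∈ M) (h1 : ∃ δ ∈ V, ∃ γ ∈ V, B γ δ = 0 ∧ B γ (c δ) ≠ 0) :
    ∀ δ ∈ V, ∀ γ ∈ V, B γ δ = 0 → wd B η δ γ ∈ M := by
  intro δ hδ γ hγ h2
  refine (Subspace.forall_mem_dualAnnihilator_apply_eq_zero_iff M _).1 fun l hl => ?_
  by_contra h3
  let g : V × V × V → H := fun w => B w.2.1 w.1 • (w.2.2 : H) - B w.2.2 w.1 • (w.2.1 : H)
  have g1 : ∀ w, g w ∈ V := fun w => V.sub_mem (V.smul_mem _ w.2.2.2) (V.smul_mem _ w.2.1.2)
  have g2 : ∀ w, B (g w) w.1 = 0 := fun w => by simp [g, mul_comm]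
  have g3 : ∀ δ (hδ : δ ∈ V), δ ≠ 0 → ∀ γ ∈ V, B γ δ = 0 → ∃ s : ℂ, s ≠ 0 ∧ ∃ x,
      g (⟨δ, hδ⟩, x) = s • γ := fun δ hδ h4 γ hγ h5 => by
    obtain ⟨x, hx, h6⟩ := exists_pair h hδ h4
    exact ⟨_, h6, (⟨x, hx⟩, ⟨γ, hγ⟩), by simp [g, h5]⟩
  have a1 : Hol fun w : V × V × V => B w.1 w.1 + (1 - ε) := fun x y => by simp
  have a2 : Hol fun w => B (g w) (g w) + (1 - ε) := fun x y => by simp [g]; fun_prop
  have a3 : Hol fun w => B (g w) (c w.1) := fun x y => by simp [g]; fun_prop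
  have a4 : Hol fun w => l (wd B η w.1 (g w)) := fun x y => by
    simp [g, wd_add_left, wd_add_right, wd_smul_left, wd_smul_right, wd_sub_right]
    fun_prop
  have b3 : ∃ w, B (g w) (c w.1) ≠ 0 := by
    obtain ⟨δ, hδ, γ, hγ, h4, h5⟩ := h1
    obtain ⟨s, h6, x, h7⟩ := g3 δ hδ (fun h6 => h5 (by simp [h6])) γ hγ h4
    exact ⟨(⟨δ, hδ⟩, x), by simpa [h7, h6] using h5⟩
  have hδ0 : δ ≠ 0 := fun h6 => h3 (by simp [h6, wd, rk])
  have b4 : ∃ w, l (wd B η w.1 (g w)) ≠ 0 := by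
    obtain ⟨s, h6, x, h7⟩ := g3 δ hδ hδ0 γ hγ h2
    exact ⟨(⟨δ, hδ⟩, x), by simpa [h7, h6, wd_smul_right] using h3⟩
  have b1 : ∃ w : V × V × V, B w.1 w.1 + (1 - ε) ≠ 0 := by
    rcases eps h with rfl | rfl
    · obtain ⟨v, hv, h4⟩ := h.exists_ne fun h5 => hδ0 ((Submodule.mem_bot ℂ).1 (h5 ▸ hδ))
      exact ⟨(⟨v, hv⟩, 0), by simpa using h4⟩
    · exact ⟨0, by simp⟩
  have b2 : ∃ w, B (g w) (g w) + (1 - ε) ≠ 0 := by
    rcases eps h with rfl | rfl
    · obtain ⟨w, h4⟩ := a1.dom a3 b1 b3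
      have h5 : B w.1 w.1 ≠ 0 := by simpa using left_ne_zero_of_mul h4
      obtain ⟨v, hv, h6⟩ := (h.perp w.1.2 h5).exists_ne fun h7 => right_ne_zero_of_mul h4 (by
        rw [(Submodule.mem_bot ℂ).1 (h7 ▸ ⟨g1 w, g2 w⟩ : g w ∈ ⊥), map_zero, LinearMap.zero_apply])
      obtain ⟨s, h7, x, h8⟩ := g3 w.1 w.1.2 (fun h7 => h5 (by simp [h7])) v hv.1 hv.2
      exact ⟨(w.1, x), by simpa [h8, h7] using h6⟩
    · exact ⟨0, by simp [g]⟩
  obtain ⟨w, h4⟩ := (a1.mul a2).dom (a3.mul a4) (a1.dom a2 b1 b2) (a3.dom a4 b3 b4)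
  simp only [mul_ne_zero_iff] at h4
  simpa [h4.2.1, h4.2.2] using
    (Submodule.mem_dualAnnihilator l).1 hl _ (h0 _ w.1.2 _ (g1 w) (g2 w) h4.1.1 h4.1.2)

omit [FiniteDimensional ℂ H] in
theorem scal (h : IsForm B V ε) (hF : Frame B V e f) {c c' : Module.End ℂ H} (hc : Adj B V c c')
    (h0 : ∀ γ ∈ V, ∀ δ ∈ V, B γ δ = 0 → B γ (c δ) = 0) : ∃ s : ℂ, c = s • proj B e f := by
  suffices ∃ s : ℂ, ∀ v ∈ V, c v = s • v by
    obtain ⟨s, hs⟩ := this
    refine ⟨s, (hc.mul_proj h hF).symm.trans (LinearMap.ext fun x => hs _ (hF.proj_mem x))⟩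
  by_cases h1 : ∃ u ∈ V, ∃ v ∈ V, B u v ≠ 0
  · obtain ⟨u, hu, v, hv, h1⟩ := h1
    refine ⟨B u (c v) / B u v, fun x hx => sub_eq_zero.1 (h.nondeg _
      (V.sub_mem (hc.mem x) (V.smul_mem _ hx)) fun y hy => ?_)⟩
    have := bilin_eq_of_orth (B.compl₂ c) h0 hy hx hu hv
    simp only [compl₂_apply, smul_eq_mul] at this
    simp only [map_sub, map_smul, smul_eq_mul]
    field_simp
    linear_combination this
  · push Not at h1
    exact ⟨0, fun x _ => (h.nondeg _ (hc.mem x) fun y hy => h1 y hy _ (hc.mem x)).trans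
      (zero_smul _ _).symm⟩

omit [FiniteDimensional ℂ H] in
theorem conj_rk {c c' : Module.End ℂ H} (hc : Adj B V c c') {δ : H} (hδ : δ ∈ V) (t t' : ℂ) :
    c - (1 + t • rk B δ δ) * c * (1 + t' • rk B δ δ) =
      -(t • rk B (c' δ) δ + t' • rk B δ (c δ) + (t * t' * B (c δ) δ) • rk B δ δ) := by
  ext x
  simp only [LinearMap.sub_apply, LinearMap.add_apply, LinearMap.neg_apply, LinearMap.smul_apply,
    Module.End.mul_apply, Module.End.one_apply, rk_apply, map_add, map_smul, hc.adj x δ hδ]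
  module

omit [FiniteDimensional ℂ H] in
theorem adj_wd (h : IsForm B V ε) {u v : H} (hu : u ∈ V) (hv : v ∈ V) :
    Adj B V (wd B (-ε) u v) (wd B (-ε) u v) := by
  have := (h.adj_rk hu hv).sub ((h.adj_rk hv hu).smul (-ε))
  rwa [smul_smul, neg_mul, h.sq, neg_smul, neg_smul, one_smul, sub_neg_eq_add, sub_neg_eq_add,
    add_comm (ε • _), ← sub_neg_eq_add, ← neg_smul] at this

variable (B V) in
/-- the differences of the conjugates of `(a, b)` lie in `M` -/
def Df (M : Submodule ℂ (Module.End ℂ H × Module.End ℂ H)) (a b : Module.End ℂ H) : Prop :=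
  ∀ s s', Isom B V s → s * s' = 1 → (a - s * a * s', b - s * b * s') ∈ M

variable {M : Submodule ℂ (Module.End ℂ H × Module.End ℂ H)} {a b : Module.End ℂ H} {δ γ : H}

omit [FiniteDimensional ℂ H] in
theorem Df.tv (h : IsForm B V (-1)) (ha : Skew B V a) (hb : Adj B V b b) (d : Df B V M a b)
    (hδ : δ ∈ V) (t : ℂ) : t • (wd B (-1) δ (a δ), wd B 1 δ (b δ)) +
      (t * t * B (a δ) δ) • (rk B δ δ, 0) ∈ M := by
  have h1 := d _ (1 + (-t) • rk B δ δ) (h.isom_transvection hδ t) (by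
    ext x
    simp [h.self_eq_zero hδ])
  have h2 : B (b δ) δ = 0 := by
    linear_combination (hb.adj δ δ hδ + h.symm δ hδ _ (hb.mem δ)) / 2
  rw [conj_rk ha.adj hδ, conj_rk hb hδ, h2] at h1
  convert h1 using 1
  refine Prod.ext ?_ ?_ <;> ext x <;> simp [wd_apply] <;> module

omit [FiniteDimensional ℂ H] in
theorem Df.one (h : IsForm B V ε) (ha : Skew B V a) (hb : Adj B V b b) (d : Df B V M a b)
    (hδ : δ ∈ V) (h0 : B δ δ + (1 - ε) ≠ 0) :
    (wd B ε δ (a δ), wd B (-ε) δ (b δ - (B (b δ) δ / B δ δ) • δ)) ∈ M := by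
  rcases eps h with rfl | rfl
  · rw [sub_self, add_zero] at h0
    have h1 := d (1 + (-(2 / B δ δ)) • rk B δ δ) (1 + (-(2 / B δ δ)) • rk B δ δ)
      (by simpa only [Inv.refl, sub_eq_add_neg, neg_smul] using h.isom_refl hδ h0)
      (by simpa only [Inv.refl, sub_eq_add_neg, neg_smul] using refl_mul_self h0)
    have h2 : B (a δ) δ = 0 := by
      linear_combination (ha.skew δ δ hδ - h.symm δ hδ _ (ha.mem δ)) / 2
    rw [conj_rk ha.adj hδ, conj_rk hb hδ, h2] at h1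
    convert M.smul_mem (B δ δ / 2) h1 using 1
    refine Prod.ext ?_ ?_ <;> ext x <;> simp [wd_apply] <;> match_scalars <;> field_simp <;> ring
  · have := M.smul_mem (1 / 2 : ℂ) (M.sub_mem (d.tv h ha hb hδ 1) (d.tv h ha hb hδ (-1)))
    rw [h.self_eq_zero hδ, div_zero, zero_smul, sub_zero, neg_neg]
    convert this using 1
    module

variable (hM : ∀ a b, (a, b) ∈ M → Df B V M a b)
include hM

omit [FiniteDimensional ℂ H] in
theorem Df.two (h : IsForm B V ε) (ha : Skew B V a) (hb : Adj B V b b) (d : Df B V M a b)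
    (hδ : δ ∈ V) (hγ : γ ∈ V) (h1 : B γ δ = 0) (h2 : B δ δ + (1 - ε) ≠ 0)
    (h3 : B γ γ + (1 - ε) ≠ 0) :
    (B γ (a δ) • wd B ε δ γ, B γ (b δ) • wd B (-ε) δ γ) ∈ M := by
  have h4 := (hM _ _ (d.one h ha hb hδ h2)).one h (h.skew_wd hδ (ha.mem δ))
    (adj_wd h hδ (V.sub_mem (hb.mem δ) (V.smul_mem _ hδ))) hγ h3
  have h5 : B δ γ = 0 := by rw [h.symm δ hδ γ hγ, h1, mul_zero]
  simp only [wd_apply, h1, h5, zero_smul, zero_sub, map_smul, map_sub, smul_zero, sub_zero,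
    LinearMap.smul_apply, zero_div, ← neg_smul, wd_smul_right] at h4
  rw [wd_swap h.sq δ γ, wd_swap (by rw [neg_mul_neg, h.sq]) δ γ, smul_smul, smul_smul] at h4
  convert h4 using 3
  · linear_combination (-B γ (a δ)) * h.sq
  · linear_combination (-B γ (b δ)) * h.sq

omit [FiniteDimensional ℂ H] in
theorem sep (h : IsForm B V 1) (hδ : δ ∈ V) (hγ : γ ∈ V) (h1 : B γ δ = 0) (h2 : B δ δ ≠ 0)
    (h3 : B γ γ ≠ 0) {s t : ℂ} (h4 : (s • wd B 1 δ γ, t • wd B (-1) δ γ) ∈ M) :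
    (s • wd B 1 δ γ, 0) ∈ M := by
  obtain ⟨r, hr⟩ := IsSepClosed.exists_pow_nat_eq (B δ δ / B γ γ) 2
  rw [eq_div_iff h3] at hr
  have h5 : B δ γ = 0 := by rw [h.comm hδ hγ, h1]
  have h6 : B (δ - r • γ) (δ - r • γ) = 2 * B δ δ := by
    simp only [map_sub, map_smul, LinearMap.sub_apply, LinearMap.smul_apply, h1, h5, smul_eq_mul]
    linear_combination hr
  have h9 := h6.trans_ne (mul_ne_zero two_ne_zero h2)
  rw [← wd_smul_right, ← wd_smul_right] at h4
  have h7 := (hM _ _ h4).one h (h.skew_wd hδ (V.smul_mem _ hγ)) (adj_wd h hδ (V.smul_mem _ hγ))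
    (V.sub_mem hδ (V.smul_mem r hγ)) (by rwa [sub_self, add_zero])
  have h8 : wd B (-1) δ (t • γ) (δ - r • γ) = (-t * r * B γ γ) • (δ - r • γ) := by
    simp only [wd_apply, map_sub, map_smul, LinearMap.sub_apply, LinearMap.smul_apply, h1, h5]
    match_scalars
    · linear_combination (-t) * hr
    · ring
  rw [h8, map_smul, LinearMap.smul_apply, smul_eq_mul, mul_div_cancel_right₀ _ h9, sub_self,
    wd_zero_right] at h7
  convert M.smul_mem (2 * B δ δ)⁻¹ h7 using 1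
  refine Prod.ext ?_ (by simp)
  ext x
  simp only [wd_apply, map_sub, map_smul, LinearMap.sub_apply, LinearMap.smul_apply, h1, h5,
    Prod.smul_mk, ← hr]
  have : r ≠ 0 := fun h9 => h2 (by simp [← hr, h9])
  match_scalars <;> field_simp <;> ring

omit [FiniteDimensional ℂ H] in
theorem Df.skew (h : IsForm B V ε) (hF : Frame B V e f) (ha : Skew B V a) (hb : Adj B V b b)
    (d : Df B V M a b) (h0 : a ≠ 0) : ∀ u ∈ V, ∀ v ∈ V, (wd B ε u v, 0) ∈ M := by
  intro u hu v hv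
  rcases eps h with rfl | rfl
  · have h1 := gen h 1 (M.comap (inl ℂ _ _)) a (fun δ hδ γ hγ h1 h2 h3 =>
      sep hM h hδ hγ h1 (by simpa using h2) (by simpa using h3) (d.two hM h ha hb hδ hγ h1 h2 h3)) (by
        by_contra hn
        push Not at hn
        obtain ⟨s, rfl⟩ := scal h hF ha.adj fun γ hγ δ hδ => hn δ hδ γ hγ
        refine h0 (ha.eq_zero h fun v hv => h.nondeg _ (ha.mem v) fun w hw => ?_)
        have := ha.skew w v hv
        simp only [LinearMap.smul_apply, hF.proj_of_mem hv, hF.proj_of_mem hw, map_smul] at this ⊢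
        linear_combination this / 2)
    obtain ⟨w, hw, h2⟩ := h.exists_ne fun h2 => h0 (LinearMap.ext fun x =>
      (Submodule.mem_bot ℂ).1 (h2 ▸ ha.mem x))
    have h3 := bilin_eq_of_orth ((mk₂ ℂ (wd B 1) wd_add_left wd_smul_left wd_add_right
      wd_smul_right).compr₂ (M.comap (inl ℂ _ _)).mkQ) (fun u hu v hv h3 =>
        (Submodule.Quotient.mk_eq_zero _).2 (h1 u hu v hv ((h.comm hv hu).trans h3))) hu hv hw hw
    simpa [wd_self, h2] using h3
  · have h1 : ∀ δ ∈ V, (wd B (-1) δ δ, 0) ∈ M := fun δ hδ => by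
      refine (Subspace.forall_mem_dualAnnihilator_apply_eq_zero_iff M _).1 fun l hl => ?_
      by_contra h3
      obtain ⟨w, h4⟩ := Hol.dom (f := fun w : V => B (a w) w)
        (g := fun w : V => l (inl ℂ _ _ (wd B (-1) w w))) (fun x y => by simp)
        (fun x y => by
          simp only [Submodule.coe_add, Submodule.coe_smul, wd_add_left, wd_add_right, wd_smul_left,
            wd_smul_right, map_add, map_smul]
          fun_prop) (by
          by_contra hn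
          simp only [ne_eq, not_exists, not_not, Subtype.forall] at hn
          refine h0 (ha.eq_zero h fun v hv => h.nondeg _ (ha.mem v) fun w hw => ?_)
          have := hn _ (V.add_mem hv hw)
          simp only [map_add, LinearMap.add_apply, hn v hv, hn w hw] at this
          linear_combination (h.symm w hw _ (ha.mem v) + ha.skew w v hv - this) / 2) ⟨⟨δ, hδ⟩, h3⟩
      have h5 := (Submodule.mem_dualAnnihilator l).1 hl _
        (M.add_mem (d.tv h ha hb w.2 1) (d.tv h ha hb w.2 (-1)))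
      refine h4 (Eq.trans ?_ h5)
      rw [← smul_eq_mul, ← map_smul, wd_self_skew]
      congr 1
      refine Prod.ext ?_ ?_ <;> simp <;> module
    have := M.smul_mem (1 / 2 : ℂ)
      (M.sub_mem (M.sub_mem (h1 _ (V.add_mem hu hv)) (h1 u hu)) (h1 v hv))
    rw [wd_add_left, wd_add_right, wd_add_right, wd_swap (by ring) u v] at this
    convert this using 1
    refine Prod.ext ?_ ?_ <;> simp <;> module

end IrrP

open IrrP in
theorem irr {E : Type} [AddCommGroup E] [Module ℂ E] (h : Inv.IsForm B V ε) (hF : Inv.Frame B V e f)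
    (ψ1 ψ2 : Module.End ℂ H →ₗ[ℂ] E) (𝔞 : Submodule ℂ E) (x0 : E) {a b : Module.End ℂ H}
    (ha : Inv.Skew B V a) (hb : Inv.Adj B V b b)
    (H0 : ∀ g g', Inv.Isom B V g → g * g' = 1 → x0 + ψ1 (g * a * g') + ψ2 (g * b * g') ∈ 𝔞) :
    (a ≠ 0 → ∀ a', Inv.Skew B V a' → ψ1 a' ∈ 𝔞) ∧
      ((∀ s : ℂ, b ≠ s • Inv.proj B e f) → ∀ u ∈ V, ∀ v ∈ V, B u v = 0 →
        ψ2 (Inv.rk B u v + ε • Inv.rk B v u) ∈ 𝔞) := by
  let M : Submodule ℂ (Module.End ℂ H × Module.End ℂ H) :=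
    { carrier := {p | ∀ g g', Inv.Isom B V g → g * g' = 1 →
        ψ1 (g * p.1 * g') + ψ2 (g * p.2 * g') ∈ 𝔞}
      add_mem' := fun p q g g' c c' => by
        convert 𝔞.add_mem (p g g' c c') (q g g' c c') using 1
        simp only [Prod.fst_add, Prod.snd_add, mul_add, add_mul, map_add]
        abel
      zero_mem' := fun g g' _ _ => by simp
      smul_mem' := fun t _ p g g' c c' => by simpa using 𝔞.smul_mem t (p g g' c c') }
  have h1 : ∀ {s s' g g' : Module.End ℂ H}, s * s' = 1 → g * g' = 1 → g * s * (s' * g') = 1 :=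
    fun {s s' _ _} c c' => by rw [mul_assoc, ← mul_assoc s s', c, one_mul, c']
  have hM : ∀ a b, (a, b) ∈ M → Df B V M a b := fun a b p s s' c c' g g' d d' => by
    convert 𝔞.sub_mem (p g g' d d') (p _ _ (d.mul c) (h1 c' d')) using 1
    simp only [mul_sub, sub_mul, map_sub, mul_assoc]
    abel
  have d : Df B V M a b := fun s s' c c' g g' d d' => by
    convert 𝔞.sub_mem (H0 g g' d d') (H0 _ _ (d.mul c) (h1 c' d')) using 1
    simp only [mul_sub, sub_mul, map_sub, mul_assoc]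
    abel
  refine ⟨fun h0 a' ha' => ?_, fun h0 u hu v hv h2 => ?_⟩
  · have h2 : a' = (1 / 2 : ℂ) • ∑ i, Inv.wd B ε (f i) (a' (e i)) := by
      simp only [Inv.wd, sum_sub_distrib]
      rw [← ha'.adj.eq_sum h hF, ← ha'.adj.eq_sum' h hF]
      module
    rw [h2, map_smul, map_sum]
    exact 𝔞.smul_mem _ (𝔞.sum_mem fun i _ => by
      simpa using d.skew hM h hF ha hb h0 _ (hF.f_mem i) _ (ha'.mem (e i)) 1 1 .one (mul_one 1))
  · have h3 := gen h (-ε) (M.comap (inr ℂ _ _)) b (fun δ hδ γ hγ h1 h2 h3 => by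
      have h4 := d.two hM h ha hb hδ hγ h1 h2 h3
      by_cases h5 : a = 0
      · simpa [h5] using h4
      · simpa using M.sub_mem h4 (M.smul_mem (B γ (a δ)) (d.skew hM h hF ha hb h5 δ hδ γ hγ))) (by
        by_contra hn
        push Not at hn
        obtain ⟨s, hs⟩ := scal h hF hb fun γ hγ δ hδ => hn δ hδ γ hγ
        exact h0 s hs) u hu v hv (by rw [h.symm v hv u hu, h2, mul_zero])
    simpa [Inv.wd] using h3 1 1 .one (mul_one 1)

end Vale.Agent.P269.Deg
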