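import Vale.Agent.P269.Deg.TnsA
import Vale.Agent.P269.Deg.Fft
import Vale.Agent.P269.Deg.Avg
import Vale.Agent.P269.Deg.Irr

/-! The end of the monodromy argument: the constraints on the primitive part. -/

namespace Vale.Agent.P269.Deg

open Fock Finset LinearMap TensorProduct Fn

namespace End3

variable {X : Coh} {ε : ℂ} {U V : Submodule ℂ X.H} {π g g' a : Module.End ℂ X.H}
  {𝕂 : Type} [CommRing 𝕂] [Algebra ℂ 𝕂] {ħ : 𝕂ˣ} {M : Type} [AddCommGroup M]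
  [Module ℂ M] [Module 𝕂 M] [IsScalarTower ℂ 𝕂 M] {Z : S (X.p.fs ℕ) →ₗ[ℂ] M}

lemma orth' (h : Spl X ε U V π) {v u : X.H} (hv : v ∈ V) (hu : u ∈ U) : X.fr.η v u = 0 := by
  rw [X.fr.η_symm, h.orth _ (h.σU u hu) v hv]

lemma eq_zero (h : Spl X ε U V π) {v : X.H} (hv : v ∈ V) (h0 : ∀ w ∈ V, X.fr.η v w = 0) :
    v = 0 :=
  h.form.nondeg v hv fun w hw => by rw [h.form.symm w hw v hv, h0 w hw, mul_zero]

lemma π_of_V (h : Spl X ε U V π) {v : X.H} (hv : v ∈ V) : π v = v :=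
  (sub_eq_zero.1 (eq_zero h (V.sub_mem hv (h.πV v)) (h.orth _ (h.πU v)))).symm

lemma π_of_U (h : Spl X ε U V π) {u : X.H} (hu : u ∈ U) : π u = 0 :=
  eq_zero h (h.πV u) (h.orth _ (by simpa using U.sub_mem hu (h.πU u)))

lemma inv_sub (hg : Inv.Isom X.fr.η V g) (e : g * g' = 1) (x : X.H) : g' x - x ∈ V := by
  have := V.neg_mem (hg.mem (g' x))
  rwa [← Module.End.mul_apply, e, neg_sub] at this

lemma inv_isom (hg : Inv.Isom X.fr.η V g) (e : g * g' = 1) : Inv.Isom X.fr.η V g' :=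
  ⟨inv_sub hg e, fun x v hv => by
    rw [← hg.isom _ _ (by simpa using V.add_mem (inv_sub hg e v) hv), ← Module.End.mul_apply,
      ← Module.End.mul_apply, e]
    rfl⟩

lemma fix_U (h : Spl X ε U V π) (hg : Inv.Isom X.fr.η V g) (e : g * g' = 1) {u : X.H}
    (hu : u ∈ U) : g u = u := by
  refine sub_eq_zero.1 (eq_zero h (hg.mem u) fun w hw => ?_)
  have h1 := (inv_isom hg e).map_mem hw
  have h2 := hg.isom u _ h1
  rw [← Module.End.mul_apply g g', e, h.orth u hu _ h1] at h2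
  rw [map_sub, LinearMap.sub_apply, h.orth u hu w hw, sub_zero]
  exact h2

lemma mul_co (h : Spl X ε U V π) (hg : Inv.Isom X.fr.η V g) (e : g * g' = 1) :
    g * (1 - π) = 1 - π := LinearMap.ext fun x => fix_U h hg e (h.πU x)

lemma co_mul (h : Spl X ε U V π) (hg : Inv.Isom X.fr.η V g) : (1 - π) * g = 1 - π :=
  LinearMap.ext fun x => by
    have := π_of_V h (hg.mem x)
    rw [map_sub] at this
    change g x - π (g x) = x - π x
    rw [sub_eq_sub_iff_sub_eq_sub, this]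

lemma conj_π (h : Spl X ε U V π) (hg : Inv.Isom X.fr.η V g) (e : g * g' = 1) :
    g * π * g' = π := by
  have := (mul_co h hg e).trans (co_mul h hg).symm
  rw [mul_sub, sub_mul, mul_one, one_mul, sub_right_inj] at this
  rw [this, mul_assoc, e, mul_one]

lemma isom_all (h : Spl X ε U V π) (hg : Inv.Isom X.fr.η V g) (e : g * g' = 1) (v w : X.H) :
    X.fr.η (g v) (g w) = X.fr.η v w := by
  have h1 := orth' h (hg.mem v) (h.πU w)
  have h2 := hg.isom v _ (h.πV w)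
  have h3 := fix_U h hg e (h.πU w)
  rw [map_sub g, sub_eq_iff_eq_add] at h3
  rw [h3, map_add, h2]
  simp only [map_sub, LinearMap.sub_apply] at h1 ⊢
  linear_combination h1

lemma conj_mem (h : Spl X ε U V π) (hZ : InvS X.fr V Z) (hg : Inv.Isom X.fr.η V g)
    (e : g * g' = 1) {A : Module.End ℂ (LL X.H)} (hA : A ∈ ann X.fr ħ Z) :
    Fock.cst g * A * Fock.cst g' ∈ ann X.fr ħ Z := by
  have e' : g' * g = 1 := mul_eq_one_comm.1 e
  have hg' := inv_isom hg e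
  obtain ⟨h1, κ, h2⟩ := hA
  have h3 := Cns.conj (fr' := X.fr) (A' := Fock.cst g * A * Fock.cst g')
    (LinearEquiv.ofLinearMap g' g e' e) (h.isEv hg') (isom_all h hg' e') (fix_U h hg' e' h.one) h1
    (fun y => by
      change (Fock.cst g' * (Fock.cst g * A * Fock.cst g')) y = (A * Fock.cst g') y
      rw [← mul_assoc, ← mul_assoc, ← map_mul, e', map_one, one_mul]) h2
  refine ⟨h3.1, κ, ?_⟩
  have h4 := h3.2
  rwa [show Z ∘ₗ _ = Z from LinearMap.ext fun x => hZ g' hg' (h.isEv hg') x] at h4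

lemma skew_π (h : Spl X ε U V π) (ha : Inv.Skew X.fr.η V a) (x : X.H) : a (π x) = a x := by
  refine (sub_eq_zero.1 ?_).symm
  rw [← map_sub]
  refine eq_zero h (ha.mem _) fun w hw => ?_
  have := ha.skew (x - π x) w hw
  rwa [h.orth _ (h.πU x) _ (ha.mem w), add_zero] at this

lemma skew_U (h : Spl X ε U V π) (ha : Inv.Skew X.fr.η V a) {u : X.H} (hu : u ∈ U) : a u = 0 := by
  rw [← skew_π h ha, π_of_U h hu, map_zero]

lemma skew_ev (h : Spl X ε U V π) (ha : Inv.Skew X.fr.η V a) : IsEv X.p X.p a := fun x => by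
  have h2 := π_of_U h (h.σU _ (h.πU x))
  rw [map_sub, map_sub, h.σV _ (h.πV x), map_smul, π_of_V h (h.πV x), sub_eq_zero] at h2
  rw [h.σV _ (ha.mem x), ← skew_π h ha (X.p.σ x), h2, map_smul, skew_π h ha]

lemma skew_all (h : Spl X ε U V π) (ha : Inv.Skew X.fr.η V a) (v w : X.H) :
    X.fr.η (a v) w = -X.fr.η v (a w) := by
  have h3 := ha.skew v _ (h.πV w)
  have h4 := orth' h (ha.mem v) (h.πU w)
  rw [skew_π h ha] at h3
  rw [map_sub] at h4
  linear_combination h3 + h4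

omit [Algebra ℂ 𝕂] [IsScalarTower ℂ 𝕂 M] in
lemma skew_cns (h : Spl X ε U V π) (ha : Inv.Skew X.fr.η V a) (κ : 𝕂) : Qd X.fr (Fock.cst a) ∧
    (Cns X.fr ħ Z (Fock.cst a) κ ↔ ∀ x, Z (dv _ (vv a) x) = κ • Z x) :=
  cns_cst (skew_ev h ha) (skew_all h ha) (skew_U h ha h.one)

lemma skew_mem (h : Spl X ε U V π) (hZ : InvS X.fr V Z) (ha : Inv.Skew X.fr.η V a) :
    tns 1 a ∈ ann X.fr ħ Z := by
  have h3 := skew_cns (ħ := ħ) (Z := Z) h ha 0
  rw [tns_one]
  exact ⟨h3.1, 0, h3.2.2 fun x => by rw [h.lie_of_invS hZ ha, zero_smul]⟩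

lemma sq_eq {R : Type} [Ring R] (a z : R) : (Polynomial.C a + Polynomial.C z * Polynomial.X) ^ 2 =
    Polynomial.C (a * a) + Polynomial.C (a * z + z * a) * Polynomial.X +
      Polynomial.C (z * z) * Polynomial.X ^ 2 := by
  simp only [sq, add_mul, mul_add, map_add, map_mul, mul_assoc, Polynomial.X_mul_C,
    ← mul_assoc Polynomial.X (Polynomial.C z)]
  abel

lemma cf_one : cf 2 1 = (2 : ℂ) • (aZ + (1 / 2 : ℂ) • zp ℂ ℂ 1) := by
  rw [cf, sq_eq]
  simp only [Polynomial.coeff_add, Polynomial.coeff_C_mul, Polynomial.coeff_X_one,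
    Polynomial.coeff_X_pow, Polynomial.coeff_C_succ, mul_one, zero_add, OfNat.one_ne_ofNat,
    if_false, mul_zero, add_zero]
  rw [rel_aZ.comm]
  simp only [mul_add, ← mul_assoc, rel_aZ.inv_mul, one_mul]
  module

lemma cf_two : cf 2 2 = zp ℂ ℂ 1 := by
  rw [cf, sq_eq]
  simp only [Polynomial.coeff_add, Polynomial.coeff_C_mul, Polynomial.coeff_X,
    Polynomial.coeff_X_pow, Polynomial.coeff_C_succ, mul_one, zero_add, OfNat.one_ne_ofNat,
    if_false, if_true, mul_zero]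
  rw [← mul_assoc, rel_aZ.inv_mul, one_mul]

section
variable {H : Type} [AddCommGroup H] [Module ℂ H] {c μ ρ : Module.End ℂ H}

lemma comm_dO (h1 : c * μ = μ * c) (h2 : c * ρ = ρ * c) : Commute (Fock.cst c)
    (zp ℂ H 1 * (eu ℂ H + hf ℂ • 1 + Fock.cst μ) + Fock.cst ρ) :=
  ((cst_zp _ _).mul_right (((cst_eu _).add_right ((Commute.one_right _).smul_right _)).add_right
    (Commute.map h1 _))).add_right (Commute.map h2 _)

lemma comm_ellO (h1 : c * μ = μ * c) (h2 : c * ρ = ρ * c) (k : ℕ) :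
    Commute (Fock.cst c) (ellO μ ρ k) := (cst_zp _ _).mul_right ((comm_dO h1 h2).pow_right k)

end

end End3

open End3

variable {X : Coh} {ε : ℂ} {d : VD X.fr} (pr : Prim X d ε)
  {𝕂 : Type} [CommRing 𝕂] [Algebra ℂ 𝕂] {ħ : 𝕂ˣ} {M : Type} [AddCommGroup M]
  [Module ℂ M] [Module 𝕂 M] [IsScalarTower ℂ 𝕂 M] {Z : S (X.p.fs ℕ) →ₗ[ℂ] M}

theorem Prim.spl : Spl X ε pr.A pr.V pr.π where
  form := pr.form
  orth := pr.orth
  σU a ha := (pr.σA a ha).symm ▸ ha
  σV := pr.σV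
  one := pr.one
  πV := pr.fr.proj_mem
  πU x := by
    obtain ⟨a, ha, v, hv, rfl⟩ := Submodule.mem_sup.1 (pr.sup ▸ Submodule.mem_top (x := x))
    have : pr.π a = 0 := by
      simp [Prim.π, Inv.proj_apply, pr.orth a ha _ (pr.fr.f_mem _)]
    rw [map_add, this, Prim.π, pr.fr.proj_of_mem hv]
    simpa using ha

theorem Prim.μV {v : X.H} (hv : v ∈ pr.V) : d.μ v ∈ pr.V := by
  rw [← pr.fr.expand v hv, map_sum]
  refine Submodule.sum_mem _ fun a _ => ?_
  rw [map_smul, pr.eig]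
  exact pr.V.smul_mem _ (pr.V.smul_mem _ (pr.fr.e_mem a))

theorem Prim.π_mul_π : pr.π * pr.π = pr.π :=
  LinearMap.ext fun x => π_of_V pr.spl (pr.spl.πV x)

theorem Prim.μ_comm : d.μ * pr.π = pr.π * d.μ := LinearMap.ext fun x => by
  have h := π_of_U pr.spl (pr.μA _ (pr.spl.πU x))
  rw [map_sub, map_sub, π_of_V pr.spl (pr.μV (pr.spl.πV x)), sub_eq_zero] at h
  exact h.symm

theorem Prim.ρ_mul : d.ρ * pr.π = 0 := LinearMap.ext fun x => pr.ρV _ (pr.spl.πV x)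

theorem Prim.mul_ρ : pr.π * d.ρ = 0 := LinearMap.ext fun x =>
  eq_zero pr.spl (pr.spl.πV _) fun w hw => by
    rw [Module.End.mul_apply, Prim.π, pr.fr.pair_proj pr.form _ hw, d.adjρ, pr.ρV w hw, map_zero]

theorem Prim.skew_μ : Inv.Skew X.fr.η pr.V (d.μ * pr.π) :=
  ⟨fun x => pr.μV (pr.spl.πV x), fun x v hv => by
    rw [Module.End.mul_apply, Module.End.mul_apply, π_of_V pr.spl hv, d.adjμ, Prim.π,
      pr.fr.pair_proj pr.form _ (pr.μV hv), neg_add_cancel]⟩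

theorem Prim.comm_ell (k : ℕ) : Commute (Fock.cst (1 - pr.π)) (d.ell k) :=
  comm_ellO (by rw [sub_mul, mul_sub, pr.μ_comm, one_mul, mul_one])
    (by rw [sub_mul, mul_sub, pr.ρ_mul, pr.mul_ρ, one_mul, mul_one]) k

theorem Prim.card_eq : (Fintype.card pr.κ : ℂ) = Module.finrank ℂ pr.V := by
  rw [← pr.fr.trace_proj, ← (pr.fr.adj_proj pr.form).tr_eq_trace pr.form pr.fr]
  simp [Inv.tr, pr.fr.proj_of_mem (pr.fr.e_mem _), pr.dual]

theorem Prim.fin (hZ : InvS X.fr pr.V Z) (b : ℕ → Module.End ℂ X.H)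
    (hb : ∀ j, Inv.Adj X.fr.η pr.V (b j) ((-1 : ℂ) ^ j • b j)) (b0 : b 0 = pr.π)
    (ht : ∀ j, LinearMap.trace ℂ _ (b j) = ∑ a, (pr.l a : ℂ) ^ j) (b1 : b 1 ≠ 0)
    (b2 : (ε = -1 ∧ ∀ a, pr.l a = 1 / 2 ∨ pr.l a = -1 / 2) ∨
      (5 ≤ Fintype.card pr.κ ∧ ∀ s : ℂ, b 2 ≠ s • pr.π))
    (h : ∀ k, d.ell k * Fock.cst (1 - pr.π) + ∑ j ∈ range (k + 1), tns (cf k j) (b j) ∈
      ann X.fr ħ Z) (k : ℕ) : d.ell k ∈ ann X.fr ħ Z := by
  have hT := tens_ann (fr := X.fr) (ħ := ħ) (Z := Z)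
  have hc : ∀ k g g', Inv.Isom X.fr.η pr.V g → g * g' = 1 → d.ell k * Fock.cst (1 - pr.π) +
      ∑ j ∈ range (k + 1), tns (cf k j) (g * b j * g') ∈ ann X.fr ħ Z := by
    intro k g g' hg e
    have h1 := conj_mem pr.spl hZ hg e (h k)
    rw [mul_add, add_mul, ← (pr.comm_ell k).eq, ← mul_assoc, ← map_mul, mul_co pr.spl hg e,
      (pr.comm_ell k).eq, mul_assoc, ← map_mul, co_mul pr.spl (inv_isom hg e), Finset.mul_sum,
      Finset.sum_mul] at h1
    simpa only [← tns_one g, ← tns_one g', hT.mul, one_mul, mul_one] using h1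
  have s1 : Inv.Skew X.fr.η pr.V (b 1) := ⟨(hb 1).mem, fun x v hv => by simp [(hb 1).adj x v hv]⟩
  obtain ⟨t3, t2⟩ := irr pr.form pr.fr (tns (cf 2 1)) (tns (cf 2 2)) (ann X.fr ħ Z)
    (d.ell 2 * Fock.cst (1 - pr.π) + tns (cf 2 0) pr.π) s1 (b := b 2) (by simpa using hb 2)
    fun g g' hg e => by
      have h1 := hc 2 g g' hg e
      rw [sum_range_succ, sum_range_succ, sum_range_one, b0, conj_π pr.spl hg e, ← add_assoc,
        ← add_assoc] at h1
      exact h1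
  have hn : (Fintype.card pr.κ : ℂ) ≠ 0 := fun e => b1 (by
    have : IsEmpty pr.κ := Fintype.card_eq_zero_iff.1 (by exact_mod_cast e)
    rw [← (hb 1).proj_mul pr.fr, Inv.proj, Fintype.sum_empty, zero_mul])
  have hl : ∀ c, (d.μ * pr.π) (pr.e c) = (pr.l c : ℂ) • pr.e c := fun c => by
    rw [Module.End.mul_apply, π_of_V pr.spl (pr.fr.e_mem c), pr.eig]
  have r := Inv.red pr.form pr.fr pr.dual hT rel_aZ pr.skew_μ hl
    (fun _ _ => skew_mem pr.spl hZ)
    (fun _ A hA => by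
      have h1 := t3 b1 A hA
      rwa [cf_one, map_smul, LinearMap.smul_apply, Submodule.smul_mem_iff _ two_ne_zero] at h1)
    (fun _ => b2.imp (fun h1 => ⟨h1.1, fun c => (h1.2 c).imp (fun e => by rw [e]; norm_num)
      fun e => by rw [e]; norm_num⟩) fun h1 => ⟨by
        have h2 := pr.card_eq
        norm_cast at h2
        exact h2 ▸ h1.1, cf_two ▸ t2 h1.2⟩) k
  have e1 : d.ell k * Fock.cst pr.π = ∑ c, tns (zp ℂ ℂ (-1) * (aZ + (pr.l c : ℂ) • zp ℂ ℂ 1) ^ k)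
      (Inv.rk X.fr.η (pr.f c) (pr.e c)) := by
    rw [ell_eq, ellO_mul pr.π_mul_π pr.μ_comm pr.ρ_mul]
    simp only [← sum_cf, Prim.π, Inv.pow_mul_proj pr.eig, map_sum, map_smul, LinearMap.sum_apply,
      LinearMap.smul_apply]
    exact sum_comm
  rw [Inv.tens_pow pr.form pr.fr hT pr.skew_μ hl, ← e1] at r
  obtain ⟨n, w, g, g', h1, h2, h3⟩ := exists_avg pr.form pr.fr
  have h4 := (ann X.fr ħ Z).smul_mem (Fintype.card pr.κ : ℂ) ((ann X.fr ħ Z).sum_mem
    fun i (_ : i ∈ univ) => (ann X.fr ħ Z).smul_mem (w i) (hc k _ _ (h1 i).1 (h1 i).2.1))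
  have e2 : ∀ j, (Fintype.card pr.κ : ℂ) • ∑ i, w i • tns (cf k j) (g i * b j * g' i) =
      ∑ c, (pr.l c : ℂ) ^ j • tns (cf k j) (Inv.proj X.fr.η pr.e pr.f) := fun j => by
    simp only [← map_smul (tns (cf k j)), ← map_sum (tns (cf k j))]
    rw [h3 _ _ (hb j), (hb j).tr_eq_trace pr.form pr.fr, ht, ← pr.card_eq, smul_smul,
      mul_div_cancel₀ _ hn, sum_smul]
  refine (Submodule.smul_mem_iff _ hn).1 ?_
  have h5 := (ann X.fr ħ Z).add_mem h4 r
  simp only [smul_add, sum_add_distrib, ← sum_smul, h2, one_smul] at h5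
  simp only [smul_sum (r := w _)] at h5
  rw [sum_comm, smul_sum, sum_congr rfl fun j _ => e2 j, sum_comm] at h5
  simp only [← sum_cf, map_sum, map_smul, LinearMap.sum_apply, LinearMap.smul_apply] at h5
  rwa [add_comm _ (_ - _), sub_add_add_cancel, ← smul_add, ← mul_add, ← map_add, add_sub_cancel,
    map_one, mul_one] at h5

end Vale.Agent.P269.Deg
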