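import Vale.Agent.P269.Deg.Sd

/-! The calculus of the operators `tns P a` and the node operator (helper21). -/

namespace Vale.Agent.P269.Deg

open Fock Finset LinearMap TensorProduct Fn

variable {H : Type} [AddCommGroup H] [Module ℂ H] {p : Par ℂ H} {ι : Type} [Fintype ι]
  {fr : Frame p ι}

lemma tns_eq (P : Module.End ℂ (LL ℂ)) (a : Module.End ℂ H) :
    tns P a = (finsuppScalarLeft ℂ H ℤ).conj (TensorProduct.map P a) := rfl

theorem tns_single (P : Module.End ℂ (LL ℂ)) (a : Module.End ℂ H) (i : ℤ) (v : H) (j : ℤ) :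
    tns P a (Finsupp.single i v) j = P (Finsupp.single i 1) j • a v := by
  rw [tns_eq, LinearEquiv.conj_apply_apply, finsuppScalarLeft_symm_apply_single,
    TensorProduct.map_tmul, finsuppScalarLeft_apply_tmul_apply]

theorem tns_mul (P Q : Module.End ℂ (LL ℂ)) (a b : Module.End ℂ H) :
    tns P a * tns Q b = tns (P * Q) (a * b) := by
  rw [tns_eq, tns_eq, tns_eq, TensorProduct.map_mul]
  exact (LinearEquiv.conj_comp _ _ _).symm

theorem tns_one (a : Module.End ℂ H) : tns 1 a = Fock.cst a := by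
  refine LL_ext fun i v => Finsupp.ext fun j => ?_
  rw [tns_single, cst_single, Module.End.one_apply]
  by_cases h : j = i
  · simp [h]
  · simp [Finsupp.single_eq_of_ne h]

theorem tns_one_one : tns 1 (1 : Module.End ℂ H) = 1 := by rw [tns_one, map_one]

theorem tns_zp (n : ℤ) : tns (zp ℂ ℂ n) (1 : Module.End ℂ H) = zp ℂ H n := by
  refine LL_ext fun i v => Finsupp.ext fun j => ?_
  rw [tns_single, zp_single, zp_single, Module.End.one_apply]
  by_cases h : j = i + n
  · simp [h]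
  · simp [Finsupp.single_eq_of_ne h]

theorem tns_eu : tns (eu ℂ ℂ) (1 : Module.End ℂ H) = eu ℂ H := by
  refine LL_ext fun i v => Finsupp.ext fun j => ?_
  rw [tns_single, eu_single, eu_single, Module.End.one_apply]
  by_cases h : j = i
  · simp [h]
  · simp [Finsupp.single_eq_of_ne h]

theorem tns_mul_cst (P : Module.End ℂ (LL ℂ)) (a b : Module.End ℂ H) :
    tns P a * Fock.cst b = tns P (a * b) := by rw [← tns_one, tns_mul, mul_one]

theorem cst_mul_tns (P : Module.End ℂ (LL ℂ)) (a b : Module.End ℂ H) :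
    Fock.cst a * tns P b = tns P (a * b) := by rw [← tns_one, tns_mul, one_mul]

theorem tns_cst_comm (P : Module.End ℂ (LL ℂ)) (a : Module.End ℂ H) :
    Commute (tns P 1) (Fock.cst a) := by
  rw [Commute, SemiconjBy, tns_mul_cst, cst_mul_tns, one_mul, mul_one]

variable (H) in
/-- `P ↦ P ⊗ 1` as a map of algebras. -/
noncomputable def tl : Module.End ℂ (LL ℂ) →ₐ[ℂ] Module.End ℂ (LL H) :=
  AlgHom.ofLinearMap (tns.flip 1) tns_one_one fun P Q => by
    simp only [LinearMap.flip_apply, tns_mul, mul_one]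

lemma tl_apply (P : Module.End ℂ (LL ℂ)) : tl H P = tns P 1 := rfl

theorem tns_aZ : tns aZ (1 : Module.End ℂ H) = zp ℂ H 1 * (eu ℂ H + hf ℂ • 1) := by
  rw [← tl_apply, aZ, map_mul, map_add, map_smul, map_one, tl_apply, tl_apply, tns_zp, tns_eu]

/-- Naturality in the coefficients. -/
theorem ll_tns {H' : Type} [AddCommGroup H'] [Module ℂ H'] (f : H →ₗ[ℂ] H')
    (P : Module.End ℂ (LL ℂ)) {a : Module.End ℂ H} {b : Module.End ℂ H'}
    (h : ∀ v, f (a v) = b (f v)) (y : LL H) : ll f (tns P a y) = tns P b (ll f y) := by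
  induction y using Finsupp.induction_linear with
  | zero => simp
  | add x y hx hy => simp only [map_add, hx, hy]
  | single i v =>
    ext j
    simp [tns_single, h]

theorem isEv_tns (P : Module.End ℂ (LL ℂ)) {a : Module.End ℂ H} (h : IsEv p p a) :
    IsEv (p.fs ℤ) (p.fs ℤ) (tns P a) := fun y => ll_tns p.σ P h y

theorem up_tns {n : ℤ} {P : Module.End ℂ (LL ℂ)} (h : Up n P) (a : Module.End ℂ H) :
    Up n (tns P a) := fun i y hy j hj => by
  rw [← Finsupp.sum_single y, Finsupp.sum, map_sum, Finsupp.finsetSum_apply]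
  refine sum_eq_zero fun l hl => ?_
  have : l ≤ i := not_lt.1 fun h' => Finsupp.mem_support_iff.1 hl (hy l h')
  rw [tns_single, h.single _ _ (by omega), zero_smul]

theorem lo_tns {n : ℤ} {P : Module.End ℂ (LL ℂ)} (h : Lo n P) (a : Module.End ℂ H) :
    Lo n (tns P a) := fun i y hy j hj => by
  rw [← Finsupp.sum_single y, Finsupp.sum, map_sum, Finsupp.finsetSum_apply]
  refine sum_eq_zero fun l hl => ?_
  have : i ≤ l := not_lt.1 fun h' => Finsupp.mem_support_iff.1 hl (hy l h')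
  rw [tns_single, h.single _ _ (by omega), zero_smul]

/-- The adjoint of a tensor product, from the matrix entries. -/
theorem adj_tns_of {P Q : Module.End ℂ (LL ℂ)} {a b : Module.End ℂ H}
    (h : ∀ i j, sg ℂ j * P (Finsupp.single i 1) (-j - 1) =
      sg ℂ (-i - 1) * Q (Finsupp.single j 1) (-i - 1))
    (h' : ∀ v w, fr.η (a v) w = fr.η v (b w)) : fr.Adj (tns P a) (tns Q b) :=
  Frame.Adj.of_single fun i j v w => by
    rw [Frame.Ω_single_right, Frame.Ω_single_left, tns_single, tns_single, map_smul, map_smul,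
      LinearMap.smul_apply, h', smul_eq_mul, smul_eq_mul, ← mul_assoc, h, mul_assoc]

/-- The adjoint of a tensor product. -/
theorem adj_tns {P Q : Module.End ℂ (LL ℂ)} {a b : Module.End ℂ H}
    (h : fr.Adj (tns P 1) (tns Q 1)) (h' : ∀ v w, fr.η (a v) w = fr.η v (b w)) :
    fr.Adj (tns P a) (tns Q b) := by
  have := h.mul (Frame.adj_cst h')
  rwa [tns_mul_cst, cst_mul_tns, one_mul, mul_one] at this

theorem rel_aZ : Inv.Rel (zp ℂ ℂ 1) (zp ℂ ℂ (-1)) aZ where
  mul_inv := zp_mul_neg 1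
  inv_mul := zp_neg_mul 1
  comm := by
    simp only [aZ, mul_assoc, add_mul, mul_add, eu_zp, smul_mul_assoc, mul_smul_comm,
      mul_one, Int.cast_one, one_smul]
    abel

lemma pow_expand {R S : Type*} [Ring R] [Ring S] (f : R →+* S) (x : S)
    (hx : ∀ r, Commute (f r) x) (a z : R) (k : ℕ) : (f a + f z * x) ^ k =
      ∑ j ∈ range (k + 1),
        f (((Polynomial.C a + Polynomial.C z * Polynomial.X) ^ k).coeff j) * x ^ j := by
  have h1 : (Polynomial.C a + Polynomial.C z * Polynomial.X).natDegree ≤ 1 := by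
    rw [add_comm]; exact Polynomial.natDegree_linear_le
  have h2 := map_pow (Polynomial.eval₂RingHom' f x hx)
    (Polynomial.C a + Polynomial.C z * Polynomial.X) k
  rw [← Polynomial.eval₂_eq_sum_range' f (Nat.lt_succ_of_le
    ((Polynomial.natDegree_pow_le_of_le k h1).trans (by simp)))]
  simp only [Polynomial.eval₂RingHom'_apply, Polynomial.eval₂_add, Polynomial.eval₂_mul_X,
    Polynomial.eval₂_C] at h2
  exact h2.symm

theorem sum_tns_cf (μ : Module.End ℂ H) (k : ℕ) : ∑ j ∈ range (k + 1), tns (cf k j) (μ ^ j) =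
    zp ℂ H (-1) * (zp ℂ H 1 * (eu ℂ H + hf ℂ • 1 + Fock.cst μ)) ^ k := by
  have := pow_expand (tl H).toRingHom (Fock.cst μ) (fun P => tns_cst_comm P μ) aZ (zp ℂ ℂ 1) k
  simp only [AlgHom.toRingHom_eq_coe, RingHom.coe_coe, tl_apply, tns_aZ, tns_zp] at this
  rw [mul_add _ (_ + _), this, Finset.mul_sum]
  refine sum_congr rfl fun j _ => ?_
  rw [← map_pow, tns_mul_cst, ← tns_zp, tns_mul, cf, one_mul, one_mul]

theorem ellO_mul {μ ρ π : Module.End ℂ H} (h1 : π * π = π) (h2 : μ * π = π * μ) (h3 : ρ * π = 0)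
    (k : ℕ) : ellO μ ρ k * Fock.cst π = ∑ j ∈ range (k + 1), tns (cf k j) (μ ^ j * π) := by
  have _ := h1
  simp only [← tns_mul_cst]
  rw [← Finset.sum_mul, sum_tns_cf, ellO, mul_assoc, mul_assoc]
  congr 1
  have hc : Commute (zp ℂ H 1 * (eu ℂ H + hf ℂ • 1 + Fock.cst μ)) (Fock.cst π) :=
    (cst_zp π 1).symm.mul_left (((cst_eu π).symm.add_left
      ((Commute.one_left _).smul_left _)).add_left (Commute.map h2 _))
  induction k with
  | zero => simp
  | succ k ih =>
    rw [pow_succ', mul_assoc, ih, (hc.pow_left k).eq, ← mul_assoc, add_mul, ← map_mul, h3, map_zero,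
      add_zero, mul_assoc, ← (hc.pow_left k).eq, ← mul_assoc, ← pow_succ']

theorem sum_cf (k : ℕ) (l : ℂ) :
    ∑ j ∈ range (k + 1), l ^ j • cf k j = zp ℂ ℂ (-1) * (aZ + l • zp ℂ ℂ 1) ^ k := by
  have := pow_expand (RingHom.id _) (algebraMap ℂ (Module.End ℂ (LL ℂ)) l)
    (fun P => (Algebra.commutes l P).symm) aZ (zp ℂ ℂ 1) k
  simp only [RingHom.id_apply, ← map_pow, ← Algebra.commutes, ← Algebra.smul_def] at this
  rw [this, Finset.mul_sum]
  simp only [cf, mul_smul_comm]

variable (H) in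
/-- The operator that moves the coefficient of `z ^ i` to `z ^ j`. -/
noncomputable def mv (i j : ℤ) : Module.End ℂ (LL H) := Finsupp.lsingle j ∘ₗ Finsupp.lapply i

lemma mv_apply (i j : ℤ) (y : LL H) : mv H i j y = Finsupp.single j (y i) := rfl

lemma tns_mv (i j : ℤ) : tns (mv ℂ i j) (1 : Module.End ℂ H) = mv H i j := by
  refine LL_ext fun l v => Finsupp.ext fun n => ?_
  rw [tns_single, mv_apply, mv_apply, Module.End.one_apply]
  simp only [Finsupp.single_apply]
  split_ifs <;> simp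

lemma up_mv (i j : ℤ) : Up (j - i) (mv H i j) := fun l y hy n hn => by
  rw [mv_apply]
  by_cases h : n = j
  · rw [hy i (by omega), Finsupp.single_zero, Finsupp.zero_apply]
  · exact Finsupp.single_eq_of_ne h

lemma adj_mv (m n : ℕ) : fr.Adj ((-1 : ℂ) ^ (m + 1) • mv H (-(m : ℤ) - 1) n)
    (-((-1 : ℂ) ^ (n + 1) • mv H (-(n : ℤ) - 1) m)) := fun y y' => by
  rw [LinearMap.neg_apply, LinearMap.smul_apply, LinearMap.smul_apply, mv_apply, mv_apply, map_neg,
    map_smul, map_smul, LinearMap.smul_apply, Frame.Ω_single_left, Frame.Ω_single_right, sg_pred,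
    sg_neg, sg_nat, sg_nat, smul_eq_mul, smul_eq_mul]
  ring

variable (fr) in
/-- The class of the diagonal is supersymmetric. -/
lemma sum_swap {N : Type*} [AddCommGroup N] [Module ℂ N] (B : H →ₗ[ℂ] H →ₗ[ℂ] N) :
    ∑ a, B (p.σ (fr.f a)) (fr.e a) = ∑ a, B (fr.e a) (fr.f a) := by
  have e1 : ∀ a, B (p.σ (fr.f a)) (fr.e a) =
      ∑ b, fr.η (fr.f a) (fr.f b) • B (fr.e b) (fr.e a) := fun a => by
    conv_lhs => rw [← fr.left (p.σ (fr.f a))]
    simp only [map_sum, map_smul, LinearMap.sum_apply, LinearMap.smul_apply, fr.η_σ, ← fr.η_symm]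
  have e2 : ∀ b, B (fr.e b) (fr.f b) = ∑ a, fr.η (fr.f a) (fr.f b) • B (fr.e b) (fr.e a) :=
    fun b => by
      conv_lhs => rw [← fr.left (fr.f b)]
      simp only [map_sum, map_smul]
  rw [sum_congr rfl fun a _ => e1 a, sum_comm, sum_congr rfl fun b _ => e2 b]

variable (fr) in
theorem dd_comm (m n : ℕ) : dd fr m n = dd fr n m := by
  have := sum_swap fr ((LinearMap.mul ℂ (S (p.fs ℕ))).compl₁₂
    (Fock.ι _ ∘ₗ Finsupp.lsingle n) (Fock.ι _ ∘ₗ Finsupp.lsingle m))
  simp only [compl₁₂_apply, comp_apply, Finsupp.lsingle_apply, mul_apply'] at this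
  rw [dd, dd, ← this]
  refine sum_congr rfl fun a _ => ?_
  rw [← Par.fs_σ_single, ← par_ι]
  rcases Nat.even_or_odd (fr.π a) with h | h
  · rw [ι_comm_ev (by rw [Par.fs_σ_single, fr.he, h.neg_one_pow, one_smul]),
      par_ι_ev (by rw [Par.fs_σ_single, fr.hf, h.neg_one_pow, one_smul])]
  · exact ι_comm_od (by rw [Par.fs_σ_single, fr.he, h.neg_one_pow]; simp) _

/-- the node operator -/
theorem exists_nodeOp (m n : ℕ) : ∃ P : Module.End ℂ (LL ℂ), ∀ {H : Type} [AddCommGroup H]
    [Module ℂ H] {p : Par ℂ H} {ι : Type} [Fintype ι] (fr : Frame p ι), Qd fr (tns P 1) ∧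
      fr.q0 (tns P 1) = 0 ∧ fr.qm (tns P 1) = 0 ∧ fr.cas (tns P 1) = dd fr m n := by
  refine ⟨(-1 : ℂ) ^ (m + 1) • mv ℂ (-(m : ℤ) - 1) n + (-1 : ℂ) ^ (n + 1) • mv ℂ (-(n : ℤ) - 1) m,
    fun {H} _ _ {p} {ι} _ fr => ?_⟩
  have hev := isEv_tns (p := p) ((-1 : ℂ) ^ (m + 1) • mv ℂ (-(m : ℤ) - 1) n +
    (-1 : ℂ) ^ (n + 1) • mv ℂ (-(n : ℤ) - 1) m) IsEv.one
  simp only [map_add, map_smul, LinearMap.add_apply, LinearMap.smul_apply, tns_mv] at hev ⊢
  set A := (-1 : ℂ) ^ (m + 1) • mv H (-(m : ℤ) - 1) n + (-1 : ℂ) ^ (n + 1) • mv H (-(n : ℤ) - 1) m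
    with hA
  have hu : Up (m + n + 1) A :=
    (((up_mv _ _).mono (by omega)).smul _).add (((up_mv _ _).mono (by omega)).smul _)
  have h0 : ∀ v, A (up ℂ H v) = 0 := fun v => by
    simp only [hA, LinearMap.add_apply, LinearMap.smul_apply, mv_apply]
    rw [up_apply_neg _ (by omega), up_apply_neg _ (by omega)]
    simp
  have hq : Qd fr A :=
    ⟨hev, by rw [hA, neg_add_rev]; exact (adj_mv m n).add (adj_mv n m), _, hu⟩
  have hb : Frame.blk A = 0 := LinearMap.ext fun v => by simp [Frame.blk, h0]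
  have hf0 : fr.qf A = 0 := Subtype.ext (LinearMap.ext fun v => by
    rw [hq.quad.qf_val, h0, map_zero]; rfl)
  refine ⟨hq, by simp [Frame.q0, hb], by simp [Frame.qm, hf0, h0], ?_⟩
  have e : ∀ l, fr.casT A l =
      (if l = m then dd fr m n else 0) + if l = n then dd fr n m else 0 := fun l => by
    have : ∀ i j : ℕ, ∑ a, (-1 : ℂ) ^ (l + 1) • (Fock.ι (p.fs ℕ) (Finsupp.single l (fr.e a)) *
        Fock.ι _ (pos ℂ H (((-1 : ℂ) ^ (i + 1) • mv H (-(i : ℤ) - 1) j)
          (Finsupp.single (-(l : ℤ) - 1) (fr.f a))))) = if l = i then dd fr i j else 0 := by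
      intro i j
      split_ifs with h
      · subst h
        simp only [LinearMap.smul_apply, mv_apply, Finsupp.single_eq_same, map_smul,
          pos_single_nat, mul_smul_comm, smul_smul, neg_one_pow_mul_self, one_smul, dd]
      · refine sum_eq_zero fun a _ => ?_
        rw [LinearMap.smul_apply, mv_apply, Finsupp.single_eq_of_ne (by omega)]
        simp
    rw [← this, ← this, ← sum_add_distrib, Frame.casT]
    simp only [hA, LinearMap.add_apply, map_add, mul_add, smul_add]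
  rw [Frame.cas_eq hu.fin]
  simp only [e, sum_add_distrib, sum_ite_eq', Finset.mem_range]
  rw [if_pos (by omega), if_pos (by omega), dd_comm fr n m, smul_add, ← add_smul, hf_add, one_smul]

end Vale.Agent.P269.Deg
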