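import Vale.Agent.P269.Deg.Cs0
import Vale.Agent.P269.Deg.End
import Vale.Agent.P269.Deg.Fft
import Vale.Agent.P269.Deg.Avg
import Vale.Agent.P269.Deg.Tns
import Vale.Agent.P269.Deg.Ann

/-! The double point step: the case of a non trivial grading on the classes that specialise. -/

set_option linter.unusedSectionVars false

namespace Vale.Agent.P269.Deg

open Fock Finset LinearMap TensorProduct Fn

namespace C1

theorem pow_congr {R : Type} [Monoid R] {a b p : R} (h : a * p = b * p) (hc : Commute a p) (k : ℕ) :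
    a ^ k * p = b ^ k * p := by
  induction k with
  | zero => simp
  | succ k ih => rw [pow_succ, pow_succ, mul_assoc, mul_assoc, ← h, hc.eq, ← mul_assoc, ih, mul_assoc]

section ell

variable {H : Type} [AddCommGroup H] [Module ℂ H] {μ μ' ρ a : Module.End ℂ H}

theorem comm_D (h1 : Commute μ a) (h2 : Commute ρ a) :
    Commute (zp ℂ H 1 * (eu ℂ H + hf ℂ • 1 + Fock.cst μ) + Fock.cst ρ) (Fock.cst a) :=
  ((cst_zp a 1).symm.mul_left (((cst_eu a).symm.add_left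
    ((Commute.one_left _).smul_left _)).add_left (h1.map _))).add_left (h2.map _)

theorem comm_ell (h1 : Commute μ a) (h2 : Commute ρ a) (k : ℕ) :
    Commute (ellO μ ρ k) (Fock.cst a) := (cst_zp a _).symm.mul_left ((comm_D h1 h2).pow_left k)

theorem ell_congr (h : μ * a = μ' * a) (h1 : Commute μ a) (h2 : Commute ρ a) (k : ℕ) :
    ellO μ ρ k * Fock.cst a = ellO μ' ρ k * Fock.cst a := by
  rw [ellO, ellO, mul_assoc, mul_assoc, pow_congr _ (comm_D h1 h2)]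
  simp only [add_mul, mul_assoc, ← map_mul, h]

end ell

section spl

variable {X : Coh} {ε : ℂ} {U V : Submodule ℂ X.H} {π : Module.End ℂ X.H} {u v : X.H}

theorem orth' (h : Spl X ε U V π) (hv : v ∈ V) (hu : u ∈ U) : X.fr.η v u = 0 := by
  rw [X.fr.η_symm, h.orth _ (h.σU u hu) v hv]

theorem η_π (h : Spl X ε U V π) (hv : v ∈ V) (x : X.H) :
    X.fr.η (π x) v = X.fr.η x v ∧ X.fr.η v (π x) = X.fr.η v x := by
  have h1 := h.orth _ (h.πU x) v hv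
  have h2 := orth' h hv (h.πU x)
  simp only [map_sub, LinearMap.sub_apply, sub_eq_zero] at h1 h2
  exact ⟨h1.symm, h2.symm⟩

theorem π_eq_zero (h : Spl X ε U V π) (h0 : ∀ v ∈ V, X.fr.η v u = 0) : π u = 0 :=
  h.form.nondeg _ (h.πV u) fun v hv => (η_π h hv u).2.trans (h0 v hv)

theorem π_of_U (h : Spl X ε U V π) (hu : u ∈ U) : π u = 0 := π_eq_zero h fun _ hv => orth' h hv hu

theorem π_of_V (h : Spl X ε U V π) (hv : v ∈ V) : π v = v :=
  (sub_eq_zero.1 (h.form.nondeg _ (V.sub_mem hv (h.πV v)) fun _ hw => orth' h hw (h.πU v))).symm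

theorem π_π (h : Spl X ε U V π) : π * π = π := LinearMap.ext fun x => π_of_V h (h.πV x)

theorem π_ρ (h : Spl X ε U V π) (d : VD X.fr) (h0 : ∀ v ∈ V, d.ρ v = 0) :
    d.ρ * π = 0 ∧ π * d.ρ = 0 :=
  ⟨LinearMap.ext fun x => h0 _ (h.πV x), LinearMap.ext fun x => π_eq_zero (u := d.ρ x) h fun v hv => by
    rw [← d.adjρ, h0 v hv, map_zero, LinearMap.zero_apply]⟩

end spl

section prim

variable {X : Coh} {ε : ℂ} {d : VD X.fr} (pr : Prim X d ε)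

theorem μ_mem {v : X.H} (hv : v ∈ pr.V) : d.μ v ∈ pr.V := by
  rw [← pr.fr.expand v hv, map_sum]
  exact pr.V.sum_mem fun a _ => by
    rw [map_smul, pr.eig]
    exact pr.V.smul_mem _ (pr.V.smul_mem _ (pr.fr.e_mem a))

theorem skew_μ : Inv.Skew X.fr.η pr.V (d.μ * pr.π) :=
  ⟨fun x => μ_mem pr (pr.spl.πV x), fun x v hv => by
    rw [Module.End.mul_apply, Module.End.mul_apply, d.adjμ, π_of_V pr.spl hv,
      (η_π pr.spl (μ_mem pr hv) x).1, neg_add_cancel]⟩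

theorem trace_π : LinearMap.trace ℂ _ pr.π = Fintype.card pr.κ := by
  rw [Prim.π, ← (pr.fr.adj_proj pr.form).tr_eq_trace pr.form pr.fr]
  simp [Inv.tr, pr.fr.proj_of_mem (pr.fr.e_mem _), pr.dual]

theorem sum_shift (c : ℂ) (j : ℕ) :
    ∑ a, ((pr.l a : ℂ) + -c) ^ j = (-1) ^ j * ∑ a, ((pr.l a : ℂ) + c) ^ j := by
  have h := Inv.sum_neg_pow pr.form pr.fr pr.dual (skew_μ pr) (l := fun a => pr.l a) fun a => by
    rw [Module.End.mul_apply, π_of_V pr.spl (pr.fr.e_mem a), pr.eig]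
  have : ∑ a, (-(pr.l a : ℂ) + -c) ^ j = ∑ a, ((pr.l a : ℂ) + -c) ^ j := by
    simp only [add_pow]
    rw [sum_comm, sum_comm (f := fun a m => (pr.l a : ℂ) ^ m * _ * _)]
    simp only [← sum_mul, h]
  rw [← this, mul_sum]
  exact sum_congr rfl fun a _ => by rw [← neg_add, neg_pow]

theorem avg : ∃ (n : ℕ) (w : Fin n → ℂ) (g g' : Fin n → Module.End ℂ X.H),
    (∀ i, Inv.Isom X.fr.η pr.V (g i) ∧ g i * g' i = 1) ∧ ∑ i, w i = 1 ∧ ∀ (c : ℂ) (j : ℕ),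
      ∑ i, w i • ((g i * d.μ * g' i + c • 1) ^ j * pr.π) =
        ((∑ a, ((pr.l a : ℂ) + c) ^ j) / Fintype.card pr.κ) • pr.π := by
  obtain ⟨n, w, g, g', h1, h2, h3⟩ := exists_avg pr.form pr.fr
  refine ⟨n, w, g, g', fun i => ⟨(h1 i).1, (h1 i).2.1⟩, h2, fun c j => ?_⟩
  have h4 : ∀ j, ∃ x, Inv.Adj X.fr.η pr.V ((d.μ + c • 1) ^ j * pr.π) x := fun j => by
    induction j with
    | zero => exact ⟨_, by simpa [Prim.π] using pr.fr.adj_proj pr.form⟩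
    | succ j ih =>
      obtain ⟨x, hx⟩ := ih
      have := ((skew_μ pr).adj.sub ((pr.fr.adj_proj pr.form).smul (-c))).mul hx
      rw [neg_smul, sub_neg_eq_add, add_mul, mul_assoc, smul_mul_assoc, hx.proj_mul pr.fr,
        show pr.π * _ = _ from hx.proj_mul pr.fr] at this
      rw [pow_succ', mul_assoc, add_mul, smul_mul_assoc, one_mul]
      exact ⟨_, this⟩
  obtain ⟨x, hx⟩ := h4 j
  have h5 : ∀ a, ((d.μ + c • 1) ^ j) (pr.e a) = ((pr.l a : ℂ) + c) ^ j • pr.e a := fun a => by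
    clear hx
    induction j with
    | zero => simp
    | succ j ih =>
      rw [pow_succ', Module.End.mul_apply, ih, map_smul, LinearMap.add_apply, pr.eig,
        LinearMap.smul_apply, Module.End.one_apply, ← add_smul, smul_smul, pow_succ]
  have h6 := h3 _ _ hx
  rw [← pr.fr.trace_proj, ← Prim.π, trace_π] at h6
  simp only [Inv.tr, Module.End.mul_apply, π_of_V pr.spl (pr.fr.e_mem _), h5, map_smul,
    LinearMap.smul_apply, pr.dual, smul_eq_mul, mul_one] at h6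
  rw [← h6]
  refine sum_congr rfl fun i _ => congrArg _ ?_
  have h7 : pr.π * g' i = g' i * pr.π := by
    have h8 : ∀ x, g' i x - x ∈ pr.V := fun x => by
      have := (h1 i).1.mem (g' i x)
      rwa [← Module.End.mul_apply, (h1 i).2.1, ← neg_sub, pr.V.neg_mem_iff] at this
    have h9 : ∀ x ∈ pr.A, g' i x = x := fun x hx => sub_eq_zero.1
      (pr.form.nondeg _ (h8 x) fun v hv => by
        rw [pr.form.symm v hv _ (h8 x), map_sub, LinearMap.sub_apply, ← (h1 i).1.isom _ v hv,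
          ← Module.End.mul_apply, (h1 i).2.1, Module.End.one_apply, pr.orth x hx v hv,
          pr.orth x hx _ ((h1 i).1.map_mem hv), sub_self, mul_zero])
    ext x
    have h10 := π_of_V pr.spl (h8 x)
    have h11 := h9 _ (pr.spl.πU x)
    rw [map_sub] at h10 h11
    rw [Module.End.mul_apply, Module.End.mul_apply]
    linear_combination (norm := module) h10 + h11
  have h8 : g i * d.μ * g' i + c • 1 = g i * (d.μ + c • 1) * g' i := by
    rw [mul_add, add_mul, mul_smul_comm, smul_mul_assoc, mul_one, (h1 i).2.1]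
  rw [h8, mul_assoc (g i) (_ * _), mul_assoc _ pr.π, h7, ← mul_assoc, ← mul_assoc]
  congr 1
  clear h6 h5 hx
  induction j with
  | zero => simp [(h1 i).2.1]
  | succ j ih =>
    rw [pow_succ, ih, pow_succ]
    simp only [mul_assoc]
    rw [← mul_assoc (g' i), (h1 i).2.2, one_mul]

end prim

variable {D : Dv} {Γ : Type} [AddCommGroup Γ] {g : Grd Γ} {b : DPIn g D} (σ : b.Sig)

theorem π_π' : b.pr.π * σ.π' = σ.π' ∧ σ.π' * b.pr.π = σ.π' :=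
  ⟨LinearMap.ext fun x => π_of_V b.pr.spl (σ.VV (σ.spl.πV x)), LinearMap.ext fun x => by
    have := π_of_U σ.spl (σ.AU (b.pr.spl.πU x))
    rw [map_sub, sub_eq_zero] at this
    exact this.symm⟩

theorem μW_eq_zero {x : b.s.X.H} (h : ∀ w ∈ σ.U ⊓ b.pr.V, b.s.X.fr.η x w = 0) : σ.μW x = 0 :=
  b.pr.form.nondeg _ (σ.skew.mem x).2 fun v hv => by
    have h1 : v - σ.π' v ∈ σ.U ⊓ b.pr.V := ⟨σ.spl.πU v, b.pr.V.sub_mem hv (σ.VV (σ.spl.πV v))⟩
    have h2 := σ.skew.skew x _ h1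
    rw [h _ (σ.skew.mem _), add_zero, map_sub, σ.spl.orth _ (σ.skew.mem x).1 _ (σ.spl.πV v),
      sub_zero] at h2
    rw [b.pr.form.symm v hv _ (σ.skew.mem x).2, h2, mul_zero]

theorem μW_π : σ.μW * σ.π' = 0 ∧ σ.π' * σ.μW = 0 ∧ σ.μW * b.pr.π = σ.μW ∧ b.pr.π * σ.μW = σ.μW :=
  ⟨LinearMap.ext fun x => μW_eq_zero σ fun _ hw => orth' σ.spl (σ.spl.πV x) hw.1,
    LinearMap.ext fun x => π_of_U (u := σ.μW x) σ.spl (σ.skew.mem x).1, LinearMap.ext fun x => by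
      have := μW_eq_zero σ fun w hw => b.pr.orth _ (b.pr.spl.πU x) w hw.2
      rw [map_sub, sub_eq_zero] at this
      exact this.symm, LinearMap.ext fun x => π_of_V b.pr.spl (σ.skew.mem x).2⟩

theorem skew_μW : Inv.Skew b.s.X.fr.η b.pr.V σ.μW :=
  ⟨fun x => (σ.skew.mem x).2, fun x v hv => by
    have h2 := σ.skew.skew x _ ⟨σ.spl.πU v, b.pr.V.sub_mem hv (σ.VV (σ.spl.πV v))⟩
    rwa [map_sub, map_sub, σ.spl.orth _ (σ.skew.mem x).1 _ (σ.spl.πV v), sub_zero,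
      ← Module.End.mul_apply σ.μW σ.π', (μW_π σ).1, LinearMap.zero_apply, sub_zero] at h2⟩

/-- the part of the grading that does not depend on the divisor -/
noncomputable def μ0 : Module.End ℂ b.s.X.H := b.d.μ * (1 - b.pr.π) + σ.μW

theorem μ0_π : μ0 σ * σ.π' = 0 ∧ σ.π' * μ0 σ = 0 ∧ μ0 σ * b.pr.π = σ.μW ∧ b.pr.π * μ0 σ = σ.μW := by
  have h1 : b.pr.π * (b.d.μ * (1 - b.pr.π)) = 0 :=
    LinearMap.ext fun x => π_of_U (u := b.d.μ (x - b.pr.π x)) b.pr.spl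
      (b.pr.μA _ (b.pr.spl.πU x))
  obtain ⟨h2, h3, h4, h5⟩ := μW_π σ
  refine ⟨?_, ?_, ?_, ?_⟩
  · rw [μ0, add_mul, mul_assoc, sub_mul, one_mul, (π_π' σ).1, sub_self, mul_zero, h2, add_zero]
  · rw [μ0, mul_add, h3, ← (π_π' σ).2, mul_assoc, h1, mul_zero, add_zero]
  · rw [μ0, add_mul, mul_assoc, sub_mul, one_mul, π_π b.pr.spl, sub_self, mul_zero, h4, zero_add]
  · rw [μ0, mul_add, h1, h5, zero_add]

theorem ell_μ {ν : Module.End ℂ D.H} (hν : ∀ v ∈ b.prD.V, ν v ∈ b.prD.V) (k : ℕ) :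
    ellO (σ.μ ν) b.d.ρ k = ellO (μ0 σ) b.d.ρ k * Fock.cst (1 - σ.π') + ∑ j ∈ range (k + 1),
      tns (cf k j) (σ.r ∘ₗ ((ν + (-(1 / 2) : ℂ) • 1) ^ j * b.prD.π) ∘ₗ σ.r' +
        σ.s ∘ₗ ((ν + (1 / 2 : ℂ) • 1) ^ j * b.prD.π) ∘ₗ σ.s') := by
  have h0 : ∀ c : ℂ, ∀ v ∈ b.prD.V, (ν + c • 1) v ∈ b.prD.V := fun c v hv =>
    b.prD.V.add_mem (hν v hv) (b.prD.V.smul_mem c hv)
  have h0' : ∀ (c : ℂ) (j : ℕ), ∀ v ∈ b.prD.V, ((ν + c • 1) ^ j) v ∈ b.prD.V := fun c j v hv =>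
    Module.End.pow_apply_mem_of_forall_mem j (h0 c) v hv
  have e : ∀ x, σ.μ ν x = μ0 σ x + σ.r ((ν + (-(1 / 2) : ℂ) • 1) (σ.r' x)) +
      σ.s ((ν + (1 / 2 : ℂ) • 1) (σ.s' x)) := fun x => by
    rw [neg_smul, ← sub_eq_add_neg]
    rfl
  have h1 : ∀ v ∈ σ.V', μ0 σ v = 0 := fun v hv => by
    rw [← π_of_V σ.spl hv, ← Module.End.mul_apply, (μ0_π σ).1, LinearMap.zero_apply]
  have h2 : ∀ v ∈ b.prD.V, σ.μ ν (σ.r v) = σ.r ((ν + (-(1 / 2) : ℂ) • 1) v) ∧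
      σ.μ ν (σ.s v) = σ.s ((ν + (1 / 2 : ℂ) • 1) v) := fun v hv => by
    obtain ⟨a1, a2, a3, a4, a5, a6, -⟩ := σ.onV v hv
    simp only [e, h1 _ a1, h1 _ a2, a3, a4, a5, a6, map_zero, zero_add, add_zero, and_self]
  have h3 : ∀ (j : ℕ), ∀ v ∈ b.prD.V, (σ.μ ν ^ j) (σ.r v) = σ.r (((ν + (-(1 / 2) : ℂ) • 1) ^ j) v) ∧
      (σ.μ ν ^ j) (σ.s v) = σ.s (((ν + (1 / 2 : ℂ) • 1) ^ j) v) := fun j v hv => by
    induction j with
    | zero => exact ⟨rfl, rfl⟩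
    | succ j ih =>
      simp only [pow_succ', Module.End.mul_apply, ih.1, ih.2, (h2 _ (h0' _ j v hv)).1,
        (h2 _ (h0' _ j v hv)).2, and_self]
  have h4 : σ.μ ν * σ.π' = σ.π' * σ.μ ν := LinearMap.ext fun x => by
    obtain ⟨a1, a2, a3⟩ := σ.dec x
    rw [Module.End.mul_apply, Module.End.mul_apply, a3, map_add, (h2 _ a1).1, (h2 _ a2).2, e,
      map_add, map_add, ← Module.End.mul_apply σ.π', (μ0_π σ).2.1, LinearMap.zero_apply, zero_add,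
      π_of_V σ.spl (σ.onV _ (h0 _ _ a1)).1, π_of_V σ.spl (σ.onV _ (h0 _ _ a2)).2.1]
  have h5 := π_ρ σ.spl b.d fun v hv => b.pr.ρV v (σ.VV hv)
  rw [← ell_congr (μ := σ.μ ν) (LinearMap.ext fun x => by
      have := σ.kill _ (σ.spl.πU x)
      rw [Module.End.mul_apply, Module.End.mul_apply, e, LinearMap.sub_apply, Module.End.one_apply,
        this.1, this.2]
      simp) ((Commute.one_right _).sub_right h4)
    ((Commute.one_right _).sub_right (h5.1.trans h5.2.symm)), map_sub, map_one, mul_sub, mul_one,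
    ellO_mul (π_π σ.spl) h4 h5.1, sub_add, sum_congr rfl fun j _ => congrArg _ ?_, sub_self, sub_zero]
  ext x
  obtain ⟨a1, a2, a3⟩ := σ.dec x
  simp only [Module.End.mul_apply, LinearMap.add_apply, comp_apply, a3, map_add, (h3 j _ a1).1,
    (h3 j _ a2).2, π_of_V b.prD.spl a1, π_of_V b.prD.spl a2]

theorem skew_rs : (∀ v w, b.s.X.fr.η ((σ.r ∘ₗ σ.s') v) w = -b.s.X.fr.η v ((σ.r ∘ₗ σ.s') w)) ∧
    ∀ v w, b.s.X.fr.η ((σ.s ∘ₗ σ.r') v) w = -b.s.X.fr.η v ((σ.s ∘ₗ σ.r') w) := by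
  refine ⟨fun v w => ?_, fun v w => ?_⟩ <;> obtain ⟨a1, a2, a3⟩ := σ.dec v <;>
    obtain ⟨c1, c2, c3⟩ := σ.dec w
  · rw [comp_apply, comp_apply, ← (η_π σ.spl (σ.onV _ a2).1 w).2, ← (η_π σ.spl (σ.onV _ c2).1 v).1,
      a3, c3]
    simp [σ.η_rs a2 c1, σ.η_rs a2 c2, σ.η_rs a1 c2]
  · rw [comp_apply, comp_apply, ← (η_π σ.spl (σ.onV _ a1).2.1 w).2,
      ← (η_π σ.spl (σ.onV _ c1).2.1 v).1, a3, c3]
    simp [σ.η_rs a1 c1, σ.η_rs a2 c1, σ.η_rs a1 c2]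

theorem trace_π' : LinearMap.trace ℂ _ σ.π' = 2 * Fintype.card b.prD.κ := by
  have h1 : σ.π' = (σ.r ∘ₗ b.prD.π) ∘ₗ σ.r' + (σ.s ∘ₗ b.prD.π) ∘ₗ σ.s' := LinearMap.ext fun x => by
    obtain ⟨a1, a2, a3⟩ := σ.dec x
    simp only [LinearMap.add_apply, comp_apply, a3, π_of_V b.prD.spl a1, π_of_V b.prD.spl a2]
  have h2 : σ.r' ∘ₗ σ.r ∘ₗ b.prD.π = b.prD.π := LinearMap.ext fun x => (σ.onV _ (b.prD.spl.πV x)).2.2.1
  have h3 : σ.s' ∘ₗ σ.s ∘ₗ b.prD.π = b.prD.π :=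
    LinearMap.ext fun x => (σ.onV _ (b.prD.spl.πV x)).2.2.2.1
  rw [h1, map_add, trace_comp_comm', trace_comp_comm' σ.s', h2, h3, trace_π, two_mul]

/-- the mean of the eigenvalues on the vanishing part -/
noncomputable def tt (b : DPIn g D) (j : ℕ) : ℂ :=
  (∑ a, ((b.prD.l a : ℂ) + -(1 / 2)) ^ j + ∑ a, ((b.prD.l a : ℂ) + 1 / 2) ^ j) /
    (2 * Fintype.card b.prD.κ)

theorem tt_mul (j : ℕ) : tt b j * (2 * Fintype.card b.prD.κ) =
    ∑ a, (((b.prD.l a : ℂ) - 1 / 2) ^ j + ((b.prD.l a : ℂ) + 1 / 2) ^ j) := by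
  rcases isEmpty_or_nonempty b.prD.κ with h | h
  · simp
  · rw [tt, div_mul_cancel₀ _ (by simp), sum_add_distrib]
    rfl

variable {𝕂 : Type} [CommRing 𝕂] [Algebra ℂ 𝕂] {ħ : 𝕂ˣ} {M : Type} [AddCommGroup M]
  [Module ℂ M] [Module 𝕂 M] [IsScalarTower ℂ 𝕂 M] {Z Z' : S (b.s.X.p.fs ℕ) →ₗ[ℂ] M}

theorem mem_ann (o : σ.Out ħ Z Z') (h : ∃ a, b.pr.l a ≠ 0) (k : ℕ) :
    ellO (μ0 σ) b.d.ρ k * Fock.cst (1 - σ.π') + ∑ j ∈ range (k + 1), tns (cf k j) (tt b j • σ.π') ∈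
      ann b.s.X.fr ħ Z := by
  obtain ⟨n, w, u, u', h1, h2, h3⟩ := avg b.prD
  set A0 := ellO (μ0 σ) b.d.ρ k * Fock.cst (1 - σ.π') with hA
  have h4 : ∑ i, w i • ellO (σ.μ (u i * b.dD.μ * u' i)) b.d.ρ k ∈ ann b.s.X.fr ħ Z' :=
    Submodule.sum_mem _ fun i _ => Submodule.smul_mem _ _ ⟨by
      obtain ⟨d', c1, -, -, c2⟩ := b.prD.exists_conj (h1 i).1 (h1 i).2
      obtain ⟨d, c3, c4⟩ := σ.exists_vd d' c2
      rw [← c1, ← c3, ← c4, ← ell_eq]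
      exact ⟨(d.quad_ell k).ev, (d.quad_ell k).adj, _, d.up_ell k⟩, o.vir _ _ (h1 i).1 (h1 i).2 k⟩
  obtain ⟨P', h5⟩ : ∃ P', ∑ i, w i • ellO (σ.μ (u i * b.dD.μ * u' i)) b.d.ρ k =
      A0 + tns (∑ j ∈ range (k + 1), tt b j • cf k j) σ.π' + tns P' (σ.r ∘ₗ σ.r' - σ.s ∘ₗ σ.s') := by
    refine ⟨∑ j ∈ range (k + 1), ((∑ a, ((b.prD.l a : ℂ) + -(1 / 2)) ^ j -
      ∑ a, ((b.prD.l a : ℂ) + 1 / 2) ^ j) / (2 * Fintype.card b.prD.κ)) • cf k j, ?_⟩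
    rw [sum_congr rfl fun i _ => congrArg _ (ell_μ σ (fun v hv => by
      obtain ⟨d', c1, -, -, c2⟩ := b.prD.exists_conj (h1 i).1 (h1 i).2
      exact c1 ▸ c2 v hv) k)]
    simp only [smul_add, sum_add_distrib, ← sum_smul, h2, one_smul, smul_sum, add_assoc, map_sum,
      LinearMap.sum_apply, ← hA]
    rw [sum_comm, ← sum_add_distrib]
    refine congrArg _ (sum_congr rfl fun j _ => ?_)
    simp only [map_smul, LinearMap.smul_apply]
    simp only [← map_smul, ← map_sum, ← map_add]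
    refine congrArg _ (LinearMap.ext fun x => ?_)
    obtain ⟨a1, a2, a3⟩ := σ.dec x
    have c1 := congrArg (fun a => σ.r (a (σ.r' x))) (h3 (-(1 / 2)) j)
    have c2 := congrArg (fun a => σ.s (a (σ.s' x))) (h3 (1 / 2) j)
    simp only [LinearMap.sum_apply, LinearMap.smul_apply, map_sum, map_smul, π_of_V b.prD.spl a1,
      π_of_V b.prD.spl a2] at c1 c2
    simp only [LinearMap.sum_apply, LinearMap.smul_apply, LinearMap.add_apply, LinearMap.sub_apply,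
      comp_apply, smul_add, sum_add_distrib, c1, c2, a3, tt]
    match_scalars <;> ring
  rw [h5] at h4
  set P := ∑ j ∈ range (k + 1), tt b j • cf k j with hP
  have h6 := π_ρ σ.spl b.d fun v hv => b.pr.ρV v (σ.VV hv)
  have h7 : A0 * Fock.cst σ.π' = 0 := by
    rw [hA, mul_assoc, ← map_mul, sub_mul, one_mul, π_π σ.spl, sub_self, map_zero, mul_zero]
  have h8 : Fock.cst σ.π' * A0 = 0 := by
    rw [hA, ← mul_assoc, ← (comm_ell ((μ0_π σ).1.trans (μ0_π σ).2.1.symm) (h6.1.trans h6.2.symm) k).eq,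
      mul_assoc, ← map_mul, mul_sub, mul_one, π_π σ.spl, sub_self, map_zero, mul_zero]
  have one := σ.kill _ σ.spl.one
  have he : Fock.cst (σ.r ∘ₗ σ.s') ∈ ann b.s.X.fr ħ Z' := by
    have := cns_cst (ħ := ħ) (Z := Z') (κ := 0) σ.isEv.1 (skew_rs σ).1 (by simp [one.2])
    exact ⟨this.1, 0, this.2.2 fun x => by rw [o.he, zero_smul]⟩
  have hf : Fock.cst (σ.s ∘ₗ σ.r') ∈ ann b.s.X.fr ħ Z' := by
    have := cns_cst (ħ := ħ) (Z := Z') (κ := 0) σ.isEv.2.1 (skew_rs σ).2 (by simp [one.1])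
    exact ⟨this.1, 0, this.2.2 fun x => by rw [o.hf, zero_smul]⟩
  have r1 : ∀ x, σ.r' (σ.r (σ.s' x)) = σ.s' x ∧ σ.s' (σ.r (σ.s' x)) = 0 ∧
      σ.r' (σ.s (σ.s' x)) = 0 ∧ σ.s' (σ.s (σ.s' x)) = σ.s' x := fun x => by
    obtain ⟨-, -, a3, a4, a5, a6, -⟩ := σ.onV _ (σ.dec x).2.1
    exact ⟨a3, a6, a5, a4⟩
  have r2 : ∀ x, σ.r' (σ.r (σ.r' x)) = σ.r' x ∧ σ.s' (σ.r (σ.r' x)) = 0 ∧
      σ.r' (σ.s (σ.r' x)) = 0 ∧ σ.s' (σ.s (σ.r' x)) = σ.r' x := fun x => by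
    obtain ⟨-, -, a3, a4, a5, a6, -⟩ := σ.onV _ (σ.dec x).1
    exact ⟨a3, a6, a5, a4⟩
  have e1 : σ.π' * (σ.r ∘ₗ σ.s') = σ.r ∘ₗ σ.s' := by ext x; simp [(σ.dec _).2.2, r1]
  have e2 : (σ.r ∘ₗ σ.s') * σ.π' = σ.r ∘ₗ σ.s' := by ext x; simp [(σ.dec _).2.2, r1, r2]
  have h9 : Fock.cst (σ.r ∘ₗ σ.s') * (A0 + tns P σ.π' + tns P' (σ.r ∘ₗ σ.r' - σ.s ∘ₗ σ.s')) -
      (A0 + tns P σ.π' + tns P' (σ.r ∘ₗ σ.r' - σ.s ∘ₗ σ.s')) * Fock.cst (σ.r ∘ₗ σ.s') =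
      tns P' ((-2 : ℂ) • (σ.r ∘ₗ σ.s')) := by
    have c1 : Fock.cst (σ.r ∘ₗ σ.s') * A0 = 0 := by rw [← e2, map_mul, mul_assoc, h8, mul_zero]
    have c2 : A0 * Fock.cst (σ.r ∘ₗ σ.s') = 0 := by rw [← e1, map_mul, ← mul_assoc, h7, zero_mul]
    simp only [mul_add, add_mul, c1, c2, cst_mul_tns, tns_mul_cst, e1, e2, add_sub_add_left_eq_sub,
      ← map_sub]
    refine congrArg _ (LinearMap.ext fun x => ?_)
    simp [r1, r2]
    module
  have h10 := ann_lie hf (h9 ▸ ann_lie he h4)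
  rw [cst_mul_tns, tns_mul_cst, ← map_sub, show (σ.s ∘ₗ σ.r') * (-2 : ℂ) • (σ.r ∘ₗ σ.s') -
    (-2 : ℂ) • (σ.r ∘ₗ σ.s') * (σ.s ∘ₗ σ.r') = (2 : ℂ) • (σ.r ∘ₗ σ.r' - σ.s ∘ₗ σ.s') by
      ext x
      simp [r1, r2]
      module, map_smul, Submodule.smul_mem_iff _ two_ne_zero] at h10
  have h11 := Submodule.sub_mem _ h4 h10
  rw [add_sub_cancel_right] at h11
  obtain ⟨c1, κ, c2⟩ := h11
  have h12 : ∑ j ∈ range (k + 1), tns (cf k j) (tt b j • σ.π') = tns P σ.π' := by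
    simp only [hP, map_sum, map_smul, LinearMap.sum_apply, LinearMap.smul_apply]
  rw [h12]
  exact ⟨c1, κ, σ.spl.transfer (o.invS σ h) o.eq h7 h8 c1 c2⟩

theorem sq_eq {s : ℂ} (h : σ.μW ^ 2 * (b.pr.π - σ.π') = s • (b.pr.π - σ.π')) {x : ℝ}
    (hx : x ∈ b.lW) : (x : ℂ) ^ 2 = s := by
  have h0 := σ.trace 0
  have h2 := σ.trace 2
  have h4 := σ.trace 4
  rw [show σ.μW ^ 4 = σ.μW ^ 2 * σ.μW ^ 2 by rw [← pow_add], mul_assoc, h, mul_smul_comm] at h4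
  rw [pow_zero, one_mul] at h0
  rw [h, map_smul, h0] at h2
  rw [h, map_smul, map_smul, h0] at h4
  simp only [pow_zero, Multiset.map_const', Multiset.sum_replicate, smul_eq_mul, nsmul_eq_mul,
    mul_one] at h2 h4
  have h5 : (b.lW.card : ℝ) ≠ 0 := by
    simpa using fun e : b.lW = 0 => Multiset.notMem_zero x (e ▸ hx)
  obtain ⟨t, rfl⟩ : ∃ t : ℝ, s = t := ⟨_ / b.lW.card, by
    rw [Complex.ofReal_div, ← h2, mul_div_cancel_right₀ _ (Complex.ofReal_ne_zero.2 h5)]⟩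
  have h6 : (b.lW.map fun y => (y ^ 2 - t) ^ 2).sum = 0 := by
    have e : ∀ y : ℝ, (y ^ 2 - t) ^ 2 = y ^ 4 + (-2 * t) * y ^ 2 + t ^ 2 := fun y => by ring
    simp only [e, Multiset.sum_map_add, Multiset.sum_map_mul_left, Multiset.map_const',
      Multiset.sum_replicate, nsmul_eq_mul]
    norm_cast at h2 h4
    rw [← h2, ← h4]
    ring
  have h7 := Multiset.single_le_sum (s := b.lW.map fun y => (y ^ 2 - t) ^ 2)
    (fun y hy => by obtain ⟨z, -, rfl⟩ := Multiset.mem_map.1 hy; positivity) _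
    (Multiset.mem_map_of_mem _ hx)
  rw [h6] at h7
  exact_mod_cast sub_eq_zero.1 (pow_eq_zero_iff two_ne_zero |>.1 (le_antisymm h7 (sq_nonneg _)))

end C1

open C1

variable {D : Dv} {Γ : Type} [AddCommGroup Γ] {g : Grd Γ} {b : DPIn g D} (σ : b.Sig)
  {𝕂 : Type} [CommRing 𝕂] [Algebra ℂ 𝕂] {ħ : 𝕂ˣ} {M : Type} [AddCommGroup M]
  [Module ℂ M] [Module 𝕂 M] [IsScalarTower ℂ 𝕂 M] {Z Z' : S (b.s.X.p.fs ℕ) →ₗ[ℂ] M}

theorem DPIn.Sig.Out.c1 (o : σ.Out ħ Z Z') (h1 : ∃ x ∈ b.lW, x ≠ 0)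
    (h2 : (b.ε = -1 ∧ ∀ a, b.pr.l a = 1 / 2 ∨ b.pr.l a = -1 / 2) ∨
      (5 ≤ Fintype.card b.pr.κ ∧
        ((∃ x ∈ b.lW, Fintype.card b.prD.κ * x ^ 2 ≠ ∑ a, (b.prD.l a ^ 2 + 1 / 4)) ∨
          ∃ x ∈ b.lW, ∃ y ∈ b.lW, x ^ 2 ≠ y ^ 2))) (k : ℕ) :
    ∃ κ, Cns b.s.X.fr ħ Z (b.d.ell k) κ := by
  obtain ⟨x, hx, hx0⟩ := h1
  obtain ⟨w1, w2, w3, w4⟩ := μW_π σ
  obtain ⟨p1, p2⟩ := C1.π_π' σ
  have p3 := π_π σ.spl
  have p4 := π_π b.pr.spl
  have h3 : ∃ a, b.pr.l a ≠ 0 := by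
    by_contra hn
    push Not at hn
    have h4 := b.hlW 2
    have h5 := Multiset.single_le_sum (s := b.lW.map (· ^ 2))
      (fun y hy => by obtain ⟨z, -, rfl⟩ := Multiset.mem_map.1 hy; positivity) _
      (Multiset.mem_map_of_mem _ hx)
    have h6 : 0 ≤ ∑ a, ((b.prD.l a - 1 / 2) ^ 2 + (b.prD.l a + 1 / 2) ^ 2) := by positivity
    simp only [hn, ne_eq, OfNat.ofNat_ne_zero, not_false_eq_true, zero_pow, sum_const_zero] at h4
    have := pow_pos (abs_pos.2 hx0) 2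
    rw [sq_abs] at this
    linarith
  have q1 : σ.π' * (b.pr.π - σ.π') = 0 := by rw [mul_sub, p2, p3, sub_self]
  have q2 : ∀ j, σ.π' * (σ.μW ^ j * (b.pr.π - σ.π')) = 0 := fun j => by
    rw [← mul_assoc, (Commute.pow_right (w2.trans w1.symm) j).eq, mul_assoc, q1, mul_zero]
  refine (b.pr.fin (o.inv h3) (fun j => σ.μW ^ j * (b.pr.π - σ.π') + tt b j • σ.π') (fun j => ?_) ?_
    (fun j => ?_) (fun e => ?_) (h2.imp_right fun h4 => ⟨h4.1, fun s e => ?_⟩) (fun k => ?_) k).2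
  · have a1 : Inv.Adj b.s.X.fr.η b.pr.V σ.π' σ.π' := by
      have : ∀ x, ∀ v ∈ b.pr.V, b.s.X.fr.η (σ.π' x) v = b.s.X.fr.η x (σ.π' v) := fun x v _ =>
        (η_π σ.spl (σ.spl.πV x) v).2.symm.trans (η_π σ.spl (σ.spl.πV v) x).1
      exact ⟨fun x => σ.VV (σ.spl.πV x), fun x => σ.VV (σ.spl.πV x), this, this⟩
    have a2 : σ.μW ^ j * σ.π' = (0 : ℂ) ^ j • σ.π' := by
      cases j with
      | zero => simp
      | succ j => simp [pow_succ, mul_assoc, w1]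
    have a3 : (-1 : ℂ) ^ j * (0 ^ j - tt b j) = 0 ^ j - tt b j := by
      rw [mul_sub, ← mul_pow, mul_zero, tt, sum_shift, ← mul_div_assoc, mul_add, ← mul_assoc,
        neg_one_pow_mul_self, one_mul, add_comm]
    convert ((skew_μW σ).adj_pow b.pr.form b.pr.fr j).sub (a1.smul (0 ^ j - tt b j)) using 1
    · rw [mul_sub, a2, Prim.π]
      module
    · rw [← a3, mul_sub _ b.pr.π, a2, Prim.π]
      module
  · rcases isEmpty_or_nonempty b.prD.κ with h | h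
    · have : σ.π' = 0 := LinearMap.ext fun x => by
        obtain ⟨a1, a2, a3⟩ := σ.dec x
        rw [a3, ← b.prD.fr.expand _ a1, ← b.prD.fr.expand _ a2]
        simp
      simp [this]
    · simp [tt, ← two_mul]
  · rw [map_add, map_smul, σ.trace, trace_π', smul_eq_mul, tt_mul]
    have := congrArg Complex.ofReal (b.hlW j)
    push_cast at this ⊢
    exact this.symm
  · have a1 := congrArg (σ.π' * ·) e
    simp only [mul_add, q2, zero_add, mul_smul_comm, p3, mul_zero] at a1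
    rw [a1, add_zero, pow_one] at e
    exact hx0 (by simpa using sq_eq σ (s := 0) (by rw [sq, mul_assoc, e, mul_zero, zero_smul]) hx)
  · have a1 := congrArg (σ.π' * ·) e
    simp only [mul_add, q2, zero_add, mul_smul_comm, p3, p2] at a1
    rw [a1, ← eq_sub_iff_add_eq, ← smul_sub] at e
    rcases h4.2 with ⟨y, hy, a2⟩ | ⟨y, hy, z, hz, a2⟩
    · have a3 := congrArg (LinearMap.trace ℂ _) a1
      rw [map_smul, map_smul, trace_π', smul_eq_mul, tt_mul, ← sq_eq σ e hy, smul_eq_mul] at a3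
      have a4 : ∀ a, ((b.prD.l a : ℂ) - 1 / 2) ^ 2 + ((b.prD.l a : ℂ) + 1 / 2) ^ 2 =
        2 * ((b.prD.l a : ℂ) ^ 2 + 1 / 4) := fun a => by ring
      simp only [a4, ← mul_sum] at a3
      refine a2 (Complex.ofReal_injective ?_)
      push_cast
      linear_combination -a3 / 2
    · exact a2 (by exact_mod_cast (sq_eq σ e hy).trans (sq_eq σ e hz).symm)
  · obtain ⟨m1, m2, m3, m4⟩ := μ0_π σ
    have r1 := π_ρ σ.spl b.d fun v hv => b.pr.ρV v (σ.VV hv)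
    have r2 := π_ρ b.pr.spl b.d b.pr.ρV
    have a1 : Commute (μ0 σ) (b.pr.π - σ.π') := Commute.sub_right (m3.trans m4.symm) (m1.trans m2.symm)
    convert mem_ann σ o h3 k using 1
    rw [show 1 - σ.π' = 1 - b.pr.π + (b.pr.π - σ.π') by abel, map_add, mul_add,
      ellO_mul (by rw [sub_mul, q1, mul_sub, p4, p1, sub_zero]) a1
        (by rw [mul_sub, r1.1, r2.1, sub_self]), ell_eq, ell_congr (μ' := b.d.μ)
        (by rw [μ0, add_mul, mul_assoc, mul_sub σ.μW, w3, mul_one, sub_self, add_zero, sub_mul,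
          one_mul, mul_sub b.pr.π, p4, mul_one, sub_self, sub_zero])
        ((Commute.one_right _).sub_right (m3.trans m4.symm))
        ((Commute.one_right _).sub_right (r2.1.trans r2.2.symm)), add_assoc, ← sum_add_distrib]
    refine congrArg _ (sum_congr rfl fun j _ => ?_)
    rw [map_add, pow_congr (b := σ.μW) (by rw [mul_sub, mul_sub, m1, m3, w1, w3]) a1]

end Vale.Agent.P269.Deg
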