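import Vale.Agent.P269.Deg.Cs0A
import Vale.Agent.P269.Deg.Fft

/-! The lowering operator of the vanishing part kills the refined series (helper22). -/

namespace Vale.Agent.P269.Deg

open Fock Finset LinearMap TensorProduct Fn Cs0P

variable {D : Dv} {Γ : Type} [AddCommGroup Γ] {g : Grd Γ} {b : DPIn g D} (σ : b.Sig)
  {𝕂 : Type} [CommRing 𝕂] {ħ : 𝕂ˣ} {M : Type} [AddCommGroup M]
  [Module ℂ M] [Module 𝕂 M] {Z Z' : S (b.s.X.p.fs ℕ) →ₗ[ℂ] M}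

theorem DPIn.Sig.Out.hf (o : σ.Out ħ Z Z') (x) : Z' (dv _ (vv (σ.s ∘ₗ σ.r')) x) = 0 :=
  sl2_kill (isEv_vv σ.isEv.1) (isEv_vv σ.isEv.2.1) (isEv_vv (σ.isEv.2.2.1.sub σ.isEv.2.2.2))
    (by rw [← vv_mul, ← vv_mul, ← vv_sub, σ.lie_ef])
    (by rw [← vv_mul, ← vv_mul, ← vv_sub, σ.lie_hf, vv_smul])
    (by rw [← vv_mul, σ.f_mul_f, vv_zero]) o.he o.hh x

end Vale.Agent.P269.Deg
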