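import Vale.Agent.P269.Deg.End
import Vale.Agent.P269.Deg.Cs0

/-! The two small cases of the double point step. -/

namespace Vale.Agent.P269.Deg

open Fock Finset LinearMap TensorProduct Fn End3

namespace Cs2P

section lin
variable {H : Type} [AddCommGroup H] [Module ℂ H] {B : H →ₗ[ℂ] H →ₗ[ℂ] ℂ} {V : Submodule ℂ H}
  {u v x p q : H}

lemma form_cast {ε ε' : ℂ} (h : Inv.IsForm B V ε) (e : ε = ε') : Inv.IsForm B V ε' := e ▸ h

lemma wd_one (h : ∀ x ∈ V, ∃ c : ℂ, x = c • p) (hu : u ∈ V) (hv : v ∈ V) :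
    Inv.wd B 1 u v = 0 ∧ ∀ x ∈ V, Inv.wd B (-1) u v x = (2 * B u v) • x := by
  obtain ⟨a, rfl⟩ := h u hu
  obtain ⟨c, rfl⟩ := h v hv
  refine ⟨by rw [Inv.wd_smul_left, Inv.wd_smul_right, Inv.wd_self, smul_zero, smul_zero],
    fun x hx => ?_⟩
  obtain ⟨d, rfl⟩ := h x hx
  simp only [Inv.wd_apply, map_smul, LinearMap.smul_apply, smul_eq_mul]
  module

lemma wd_two (hf : Inv.IsForm B V (-1)) (hp : p ∈ V) (hq : q ∈ V)
    (h : ∀ x ∈ V, ∃ c d : ℂ, x = c • p + d • q) (hu : u ∈ V) (hv : v ∈ V) (hx : x ∈ V) :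
    Inv.wd B 1 u v x = (-B u v) • x := by
  obtain ⟨a, a', rfl⟩ := h u hu
  obtain ⟨c, c', rfl⟩ := h v hv
  obtain ⟨d, d', rfl⟩ := h x hx
  simp only [Inv.wd_apply, map_smul, map_add, LinearMap.smul_apply, LinearMap.add_apply,
    smul_eq_mul, hf.self_eq_zero hp, hf.self_eq_zero hq, hf.symm q hq p hp]
  module

lemma wd_mem (hf : Inv.IsForm B V (-1)) (𝔠 : Submodule ℂ (Module.End ℂ H))
    (h : ∀ a a', Inv.Skew B V a → Inv.Skew B V a' → a * a' - a' * a ∈ 𝔠) (hu : u ∈ V)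
    (hv : v ∈ V) : Inv.wd B (-1) u v ∈ 𝔠 := by
  have h1 : ∀ u ∈ V, Inv.wd B (-1) u u ∈ 𝔠 := fun u hu => by
    by_cases h0 : ∀ w ∈ V, B w u = 0
    · rw [hf.nondeg u hu h0, Inv.wd_zero_right]; exact 𝔠.zero_mem
    push Not at h0
    obtain ⟨w, hw, h0⟩ := h0
    have h2 := h _ _ (hf.skew_wd hu hw) (hf.skew_wd hu hu)
    rw [(hf.skew_wd hu hw).lie_wd hu hu, Inv.wd_apply, hf.self_eq_zero hu, hf.symm u hu w hw,
      zero_smul, zero_sub, ← neg_smul, Inv.wd_smul_left, Inv.wd_smul_right, ← add_smul] at h2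
    exact (𝔠.smul_mem_iff (by simpa using h0)).1 h2
  have e : (2 : ℂ) • Inv.wd B (-1) u v =
      Inv.wd B (-1) (u + v) (u + v) - Inv.wd B (-1) u u - Inv.wd B (-1) v v := by
    rw [Inv.wd_add_left, Inv.wd_add_right, Inv.wd_add_right, Inv.wd_swap (by simp) u v]
    module
  rw [← 𝔠.smul_mem_iff (two_ne_zero' ℂ), e]
  exact 𝔠.sub_mem (𝔠.sub_mem (h1 _ (V.add_mem hu hv)) (h1 u hu)) (h1 v hv)

end lin

section fock
variable {H : Type} [AddCommGroup H] [Module ℂ H] {p : Par ℂ H} {𝕂 : Type} [CommRing 𝕂] {M : Type}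
  [AddCommGroup M] [Module ℂ M] [Module 𝕂 M] {Z : S (p.fs ℕ) →ₗ[ℂ] M}
  {a a' g μ ρ : Module.End ℂ H}

variable (Z) in
/-- The maps whose derivation kills `Z`. -/
noncomputable def kl : Submodule ℂ (Module.End ℂ H) where
  carrier := {a | ∀ x, Z (dv _ (vv a) x) = 0}
  add_mem' {a a'} ha ha' x := by
    rw [show vv (a + a') = vv a + vv a' by ext; simp, map_add, LinearMap.add_apply, map_add, ha,
      ha', add_zero]
  zero_mem' x := by rw [show vv (0 : Module.End ℂ H) = 0 by ext; simp]; simp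
  smul_mem' t a ha x := by
    rw [show vv (t • a) = t • vv a by ext; simp, map_smul, LinearMap.smul_apply, map_smul, ha,
      smul_zero]

lemma lie_mem (e : IsEv p p a) (e' : IsEv p p a') {κ κ' : 𝕂}
    (h : ∀ x, Z (dv _ (vv a) x) = κ • Z x) (h' : ∀ x, Z (dv _ (vv a') x) = κ' • Z x) :
    a * a' - a' * a ∈ kl Z := fun x => by
  have := congrArg Z (dv_dv (isEv_vv e) (isEv_vv e') x)
  rw [map_add, h, h', h', h, smul_comm, left_eq_add] at this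
  rwa [show vv (a * a' - a' * a) = vv a * vv a' - vv a' * vv a by ext; simp]

lemma map_dv (e : IsEv p p a) (e' : IsEv p p a') (hg : IsEv p p g) (h : a' * g = g * a) (x) :
    Fock.map _ (isEv_vv hg) (dv _ (vv a) x) = dv _ (vv a') (Fock.map _ (isEv_vv hg) x) := by
  have h1 : ∀ v, vv a' (vv g v) = vv g (vv a v) := fun v =>
    Finsupp.ext fun m => LinearMap.congr_fun h (v m)
  induction x using Fock.induction with
  | h1 => simp
  | hι v x hx => simp only [dv_ι_mul (isEv_vv e), dv_ι_mul (isEv_vv e'), hx, map_add, map_mul,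
      map_ι, h1]
  | hadd x y hx hy => simp only [hx, hy, map_add]
  | hsmul c x hx => simp only [hx, map_smul]

lemma map_map (hg : IsEv p p g) (h : g * g = 1) (x) :
    Fock.map _ (isEv_vv hg) (Fock.map _ (isEv_vv hg) x) = x :=
  DFunLike.congr_fun (hom_ext (f := (Fock.map _ (isEv_vv hg)).comp (Fock.map _ (isEv_vv hg)))
    (g := AlgHom.id ℂ _) fun v => by
      rw [AlgHom.comp_apply, map_ι, map_ι, show vv g (vv g v) = v from
        Finsupp.ext fun m => LinearMap.congr_fun h (v m), AlgHom.id_apply]) x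

lemma ellO_one : ellO (μ + a) ρ 1 = ellO μ ρ 1 + Fock.cst a := by
  simp only [ellO, pow_one, map_add, mul_add, ← mul_assoc, zp_neg_mul, one_mul]
  abel

end fock

section prim
variable {X : Coh} {ε : ℂ} {d : VD X.fr} (pr : Prim X d ε) {𝕂 : Type} [CommRing 𝕂] {ħ : 𝕂ˣ}
  {M : Type} [AddCommGroup M] [Module ℂ M] [Module 𝕂 M] {Z : S (X.p.fs ℕ) →ₗ[ℂ] M}

lemma exists_pm (hε : ε = -1) (h : ∀ a, pr.l a = 1 / 2 ∨ pr.l a = -1 / 2) (a : pr.κ) :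
    ∃ p ∈ pr.V, ∃ q ∈ pr.V, d.μ p = (1 / 2 : ℂ) • p ∧ d.μ q = -(1 / 2 : ℂ) • q ∧
      X.fr.η p q ≠ 0 := by
  have h1 : ∀ v ∈ pr.V, d.μ (d.μ v) = (1 / 4 : ℂ) • v := fun v hv => by
    rw [← pr.fr.expand v hv, map_sum, map_sum, smul_sum]
    refine sum_congr rfl fun c _ => ?_
    rw [map_smul, map_smul, pr.eig, map_smul, pr.eig, smul_comm (1 / 4 : ℂ), smul_smul (pr.l c : ℂ)]
    rcases h c with e | e <;> rw [e] <;> norm_num
  have h2 := pr.fr.e_mem a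
  have h3 := pr.fr.f_mem a
  have h4 := pr.V.sub_mem (pr.V.smul_mem (pr.l a : ℂ) h3) (pr.μV h3)
  have h5 : X.fr.η (pr.e a) ((pr.l a : ℂ) • pr.f a - d.μ (pr.f a)) = 2 * pr.l a := by
    have := d.adjμ (pr.e a) (pr.f a)
    simp only [pr.eig, map_smul, map_sub, LinearMap.smul_apply, pr.dual, smul_eq_mul] at this ⊢
    linear_combination -this
  have h6 := pr.eig a
  rcases h a with e | e <;> rw [e] at h4 h5 h6
  · refine ⟨_, h2, _, h4, by simpa using h6, ?_, by rw [h5]; norm_num⟩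
    rw [map_sub, map_smul, h1 _ h3]
    push_cast
    module
  · refine ⟨_, h4, _, h2, ?_, by simpa [neg_div] using h6, by
      rw [pr.form.symm _ h4 _ h2, h5, hε]; norm_num⟩
    rw [map_sub, map_smul, h1 _ h3]
    push_cast
    module

lemma cns_refl {U V : Submodule ℂ X.H} {π : Module.End ℂ X.H} {Z' : S (X.p.fs ℕ) →ₗ[ℂ] M}
    (h : Spl X ε U V π) (hε : ε = 1) (hZ : InvS X.fr V Z) (h0 : ∀ x ∈ conS X.fr U, Z x = Z' x)
    (hL : ∀ a, Inv.Skew X.fr.η V a → a ∈ kl Z') {δ : X.H} (hδ : δ ∈ V) (hδ' : X.fr.η δ δ ≠ 0)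
    (hμ : d.μ δ = 0) (hρ : d.ρ δ = 0) {k : ℕ} {κ : 𝕂} (hc : Cns X.fr ħ Z' (d.ell k) κ) :
    Cns X.fr ħ Z (d.ell k) κ := by
  subst hε
  have hR := h.form.isom_refl hδ hδ'
  have e := Inv.refl_mul_self hδ'
  have he := h.isEv hR
  have hη : ∀ v w, X.fr.η v (Inv.refl X.fr.η δ w) = X.fr.η (Inv.refl X.fr.η δ v) w := fun v w => by
    rw [← isom_all h hR e, ← Module.End.mul_apply _ _ w, e, Module.End.one_apply]
  have h1 : InvS X.fr V (Z' + Z' ∘ₗ (Fock.map _ (isEv_vv he)).toLinearMap) := by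
    refine h.invS_of_lie (fun a ha x => ?_) fun _ _ => ⟨δ, hδ, hδ', fun _ x => ?_⟩
    · have h2 : Inv.Skew X.fr.η V (Inv.refl X.fr.η δ * a * Inv.refl X.fr.η δ) :=
        ⟨fun x => hR.map_mem (ha.mem _), fun x v _ => by
          simp only [Module.End.mul_apply]
          rw [← hη, skew_all h ha, hη, neg_add_cancel]⟩
      rw [LinearMap.add_apply, hL a ha, comp_apply, AlgHom.toLinearMap_apply,
        map_dv (skew_ev h ha) (skew_ev h h2) he (by rw [mul_assoc, e, mul_one]), hL _ h2, add_zero]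
    · simp only [LinearMap.add_apply, comp_apply, AlgHom.toLinearMap_apply, map_map he e]
      exact add_comm _ _
  have h2 := LinearMap.congr_fun (h.fft (Z := Z + Z - _)
    (fun g hg he x => by
      rw [LinearMap.sub_apply, h1 g hg he, LinearMap.add_apply, hZ g hg he]; rfl)
    fun x hx => by simp [h.map_conSF hR he hx, h0 x hx])
  have h3 : Cns X.fr ħ (Z' ∘ₗ (Fock.map _ (isEv_vv he)).toLinearMap) (d.ell k) κ :=
    (Cns.conj (fr' := X.fr) (LinearEquiv.ofLinearMap _ _ e e) he (isom_all h hR e)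
      (fix_U h hR e h.one) (Cs0P.qd_ell d k) (LinearMap.congr_fun (comm_ellO
        (by ext x; simp [Inv.refl_apply, hμ, d.adjμ])
        (by ext x; simp [Inv.refl_apply, hρ, d.adjρ]) k).eq) hc).2
  intro x
  refine smul_right_injective M (two_ne_zero' ℂ) ?_
  simp only [LinearMap.sub_apply, LinearMap.add_apply, LinearMap.zero_apply] at h2
  simp only [two_smul]
  linear_combination (norm := module) h2 (X.fr.q0 _ x) + (ħ : 𝕂) • h2 (X.fr.q1 _ x) +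
    (↑ħ⁻¹ : 𝕂) • h2 (X.fr.qm _ x) - κ • h2 x + hc x + h3 x

end prim

section sig
variable {D : Dv} {Γ : Type} [AddCommGroup Γ] {g : Grd Γ} {b : DPIn g D} (σ : b.Sig)
  {ν : Module.End ℂ D.H} {a : Module.End ℂ b.s.X.H}

/-- The diagonal action. -/
noncomputable def Φ : Module.End ℂ D.H →ₗ[ℂ] Module.End ℂ b.s.X.H where
  toFun a := σ.bl a a
  map_add' a a' := by ext; simp [σ.bl_apply, add_add_add_comm]
  map_smul' c a := by ext; simp [σ.bl_apply]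

lemma skew_Φ (h : Inv.Skew D.fr.η b.prD.V ν) : Inv.Skew b.s.X.fr.η σ.V' (Φ σ ν) :=
  σ.skew_bl (fun v _ => h.mem v) (fun v _ => h.mem v) fun v _ w hw =>
    eq_neg_of_add_eq_zero_left (h.skew v w hw)

lemma exists_ne (h : Nonempty b.prD.κ) : ∃ a, b.pr.l a ≠ 0 := by
  by_contra! h0
  have h1 := b.hlW 2
  simp only [h0, ne_eq, OfNat.ofNat_ne_zero, not_false_eq_true, zero_pow, sum_const_zero] at h1
  refine absurd h1 (ne_of_lt (add_pos_of_nonneg_of_pos (Multiset.sum_nonneg fun y hy => by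
    obtain ⟨x, -, rfl⟩ := Multiset.mem_map.1 hy; exact sq_nonneg x)
      (sum_pos (fun a _ => by nlinarith [sq_nonneg (b.prD.l a)]) univ_nonempty)))

lemma skew_mem (𝔟 : Submodule ℂ (Module.End ℂ b.s.X.H)) (he : σ.r ∘ₗ σ.s' ∈ 𝔟)
    (hf : σ.s ∘ₗ σ.r' ∈ 𝔟) (hh : σ.r ∘ₗ σ.r' - σ.s ∘ₗ σ.s' ∈ 𝔟)
    (h1 : ∀ u ∈ b.prD.V, ∀ v ∈ b.prD.V, ∃ c : ℂ, ∀ x ∈ b.prD.V, Inv.wd D.fr.η b.ε u v x = c • x)
    (h2 : ∀ u ∈ b.prD.V, ∀ v ∈ b.prD.V, Φ σ (Inv.wd D.fr.η (-b.ε) u v) ∈ 𝔟)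
    (ha : Inv.Skew b.s.X.fr.η σ.V' a) : a ∈ 𝔟 := by
  have rs : ∀ u ∈ b.prD.V, ∀ v ∈ b.prD.V, Inv.wd b.s.X.fr.η b.ε (σ.r u) (σ.s v) ∈ 𝔟 := by
    intro u hu v hv
    obtain ⟨c, hc⟩ := h1 v hv u hu
    rw [show Inv.wd b.s.X.fr.η b.ε (σ.r u) (σ.s v) =
      (-1 / 2 : ℂ) • Φ σ (Inv.wd D.fr.η (-b.ε) v u) + (-c / 2) • (σ.r ∘ₗ σ.r' - σ.s ∘ₗ σ.s') from
      LinearMap.ext fun x => ?_]
    · exact 𝔟.add_mem (𝔟.smul_mem _ (h2 v hv u hu)) (𝔟.smul_mem _ hh)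
    have e1 := congrArg σ.r (hc _ (σ.dec x).1)
    have e2 := congrArg σ.s (hc _ (σ.dec x).2.1)
    simp only [Φ, σ.bl_apply, Inv.wd_apply, σ.η_r_right hu, σ.η_s_right hv,
      LinearMap.add_apply,
      LinearMap.smul_apply, LinearMap.sub_apply, comp_apply, coe_mk, AddHom.coe_mk, map_sub,
      map_smul, ← mul_assoc, σ.spl.form.sq] at e1 e2 ⊢
    linear_combination (norm := module) (-1 / 2 : ℂ) • e1 + (1 / 2 : ℂ) • e2
  have h3 : ∀ x ∈ σ.V', ∀ y ∈ σ.V', Inv.wd b.s.X.fr.η b.ε x y ∈ 𝔟 := by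
    intro x hx y hy
    obtain ⟨x1, x2, ex⟩ := σ.dec x
    obtain ⟨y1, y2, ey⟩ := σ.dec y
    rw [← π_of_V σ.spl hx, ← π_of_V σ.spl hy, ex, ey, Inv.wd_add_left, Inv.wd_add_right,
      Inv.wd_add_right, Inv.wd_swap σ.spl.form.sq (σ.r _) (σ.s _)]
    refine 𝔟.add_mem (𝔟.add_mem ?_ (rs _ x1 _ y2)) (𝔟.add_mem (𝔟.smul_mem _ (rs _ y1 _ x2)) ?_)
    · obtain ⟨c, hc⟩ := h1 _ x1 _ y1
      rw [show Inv.wd b.s.X.fr.η b.ε (σ.r (σ.r' x)) (σ.r (σ.r' y)) = (-b.ε * c) • σ.r ∘ₗ σ.s' from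
        LinearMap.ext fun z => ?_]
      · exact 𝔟.smul_mem _ he
      have e1 := congrArg σ.r (hc _ (σ.dec z).2.1)
      simp only [Inv.wd_apply, σ.η_r_right x1, σ.η_r_right y1, LinearMap.smul_apply, comp_apply,
        map_sub, map_smul] at e1 ⊢
      linear_combination (norm := module) (-b.ε) • e1
    · obtain ⟨c, hc⟩ := h1 _ x2 _ y2
      rw [show Inv.wd b.s.X.fr.η b.ε (σ.s (σ.s' x)) (σ.s (σ.s' y)) = (b.ε * c) • σ.s ∘ₗ σ.r' from
        LinearMap.ext fun z => ?_]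
      · exact 𝔟.smul_mem _ hf
      have e1 := congrArg σ.s (hc _ (σ.dec z).1)
      simp only [Inv.wd_apply, σ.η_s_right x2, σ.η_s_right y2, LinearMap.smul_apply, comp_apply,
        map_sub, map_smul] at e1 ⊢
      linear_combination (norm := module) b.ε • e1
  obtain ⟨n, e, f, hF, -⟩ := Inv.exists_frame σ.spl.form
  rw [← 𝔟.smul_mem_iff (two_ne_zero' ℂ), ha.eq_sum_wd σ.spl.form hF]
  exact 𝔟.sum_mem fun i _ => h3 _ (hF.f_mem i) _ (ha.mem _)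

lemma fin {𝕂 : Type} [CommRing 𝕂] [Algebra ℂ 𝕂] {ħ : 𝕂ˣ} {M : Type} [AddCommGroup M] [Module ℂ M]
    [Module 𝕂 M] [IsScalarTower ℂ 𝕂 M] {Z : S (b.s.X.p.fs ℕ) →ₗ[ℂ] M}
    (hZ : InvS b.s.X.fr b.pr.V Z) (hl : ∃ a, b.pr.l a ≠ 0)
    (b2 : (b.ε = -1 ∧ ∀ a, b.pr.l a = 1 / 2 ∨ b.pr.l a = -1 / 2) ∨
      (5 ≤ Fintype.card b.pr.κ ∧ ∃ δ ∈ b.pr.V, δ ≠ 0 ∧ σ.μ b.dD.μ δ = 0))
    (h : ∀ k, ∃ κ, Cns b.s.X.fr ħ Z (ellO (σ.μ b.dD.μ) b.d.ρ k) κ) (k : ℕ) :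
    ∃ κ, Cns b.s.X.fr ħ Z (b.d.ell k) κ := by
  have hV : ∀ v ∈ b.prD.V, b.dD.μ v ∈ b.prD.V := fun _ => b.prD.μV
  have h0 : σ.μ b.dD.μ ^ 2 * b.pr.π ≠ 0 := fun e => by
    obtain ⟨a, ha⟩ := hl
    have h1 := σ.trace_μ_pow 2
    rw [e, map_zero] at h1
    norm_cast at h1
    exact ha (pow_eq_zero_iff two_ne_zero |>.1 ((sum_eq_zero_iff_of_nonneg
      fun a _ => sq_nonneg _).1 h1.symm a (mem_univ a)))
  have e5 : ∀ δ ∈ b.pr.V, δ ≠ 0 → σ.μ b.dD.μ δ = 0 → ∀ s : ℂ,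
      σ.μ b.dD.μ ^ 2 * b.pr.π ≠ s • b.pr.π := fun δ h4 h5 h6 s e => h0 <| by
    have := LinearMap.congr_fun e δ
    rw [Module.End.mul_apply, LinearMap.smul_apply, π_of_V b.pr.spl h4, sq, Module.End.mul_apply,
      h6, map_zero, eq_comm, smul_eq_zero, or_iff_left h5] at this
    rw [e, this, zero_smul]
  refine (b.pr.fin hZ (fun j => σ.μ b.dD.μ ^ j * b.pr.π) (fun j => ?_) (by simp) σ.trace_μ_pow
    (fun e => h0 (by rw [pow_succ', mul_assoc, e, mul_zero]))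
    (b2.imp_right fun ⟨h3, δ, h4, h5, h6⟩ => ⟨h3, e5 δ h4 h5 h6⟩)
    (fun k => σ.ellO_eq_π hV k ▸ ⟨σ.qd_ellO _ hV k, h k⟩) k).2
  have := (σ.skew_μ _ hV).adj_pow b.pr.form b.pr.fr j
  rwa [← σ.μ_mul_π, Commute.mul_pow (σ.μ_π hV), mul_assoc, ← Prim.π, ← pow_succ,
    IsIdempotentElem.pow_succ_eq j b.pr.π_mul_π] at this

end sig

end Cs2P

open Cs2P

variable {D : Dv} {Γ : Type} [AddCommGroup Γ] {g : Grd Γ} {b : DPIn g D} (σ : b.Sig)
  {𝕂 : Type} [CommRing 𝕂] [Algebra ℂ 𝕂] {ħ : 𝕂ˣ} {M : Type} [AddCommGroup M]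
  [Module ℂ M] [Module 𝕂 M] [IsScalarTower ℂ 𝕂 M] {Z Z' : S (b.s.X.p.fs ℕ) →ₗ[ℂ] M}

theorem DPIn.Sig.Out.c2 (o : σ.Out ħ Z Z') (h1 : b.ε = -1) (h2 : Fintype.card b.prD.κ = 1)
    (h3 : b.lW = 0) (k : ℕ) : ∃ κ, Cns b.s.X.fr ħ Z (b.d.ell k) κ := by
  obtain ⟨a, ha⟩ := Fintype.card_eq_one_iff.1 h2
  have hl := exists_ne (b := b) ⟨a⟩
  have hs : ∀ {N : Type} [AddCommMonoid N] (f : b.prD.κ → N), ∑ c, f c = f a := fun f =>
    Fintype.sum_eq_single a fun c hc => absurd (ha c) hc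
  have hp : ∀ x ∈ b.prD.V, ∃ c : ℂ, x = c • b.prD.e a := fun x hx =>
    ⟨_, (b.prD.fr.expand x hx).symm.trans (hs _)⟩
  have hZ : InvS b.s.X.fr σ.V' Z' := σ.spl.invS_of_lie
    (fun c hc => skew_mem σ (kl Z') o.he (o.hf σ) o.hh
      (fun u hu v hv => ⟨_, fun x hx => by rw [h1]; exact (wd_one hp hu hv).2 x hx⟩)
      (fun u hu v hv => by rw [h1, neg_neg, (wd_one hp hu hv).1, map_zero]; exact zero_mem _) hc)
    fun e => absurd (h1.symm.trans e) (by norm_num)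
  have e : Z = Z' := sub_eq_zero.1 (σ.spl.fft
    (fun h hh he x => by rw [LinearMap.sub_apply, o.invS σ hl h hh he, hZ h hh he]; rfl)
    fun x hx => by rw [LinearMap.sub_apply, o.eq x hx, sub_self])
  refine Cs2P.fin σ (o.inv hl) hl (.inl ⟨h1, fun c => ?_⟩) (fun k => ?_) k
  · have h4 : b.prD.l a = 0 := by
      have := Inv.sum_neg_pow b.prD.form b.prD.fr b.prD.dual b.prD.skew_μ
        (l := fun c => (b.prD.l c : ℂ)) (fun c => by
          rw [Module.End.mul_apply, π_of_V b.prD.spl (b.prD.fr.e_mem c), b.prD.eig]) 1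
      rw [hs, hs, pow_one, pow_one, neg_eq_iff_add_eq_zero, add_self_eq_zero] at this
      exact_mod_cast this
    have h5 := fun k => b.hlW k
    simp only [h3, hs, h4, Multiset.map_zero, Multiset.sum_zero] at h5
    have h6 : ∑ c, (b.pr.l c ^ 2 - 1 / 4) ^ 2 = 0 := by
      rw [sum_congr rfl fun c _ => show (b.pr.l c ^ 2 - 1 / 4) ^ 2 =
        b.pr.l c ^ 4 - 1 / 2 * b.pr.l c ^ 2 + 1 / 16 * b.pr.l c ^ 0 by ring, sum_add_distrib,
        sum_sub_distrib, ← mul_sum, ← mul_sum, h5, h5, h5]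
      norm_num
    have h7 := pow_eq_zero_iff two_ne_zero |>.1 ((sum_eq_zero_iff_of_nonneg
      fun a _ => sq_nonneg _).1 h6 c (mem_univ c))
    refine (mul_eq_zero.1 (show (b.pr.l c - 1 / 2) * (b.pr.l c + 1 / 2) = 0 by
      linear_combination h7)).imp (fun h => ?_) fun h => ?_ <;> linear_combination h
  · have := o.vir 1 1 Inv.Isom.one (one_mul 1) k
    rwa [one_mul, mul_one, ← e] at this

theorem DPIn.Sig.Out.c3 (o : σ.Out ħ Z Z') (h1 : b.ε = 1) (h2 : Fintype.card b.prD.κ = 2)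
    (h3 : ∀ a, b.prD.l a = 1 / 2 ∨ b.prD.l a = -1 / 2) (_h4 : ∀ x ∈ b.lW, x = 0)
    (h5 : 5 ≤ Fintype.card b.pr.κ) (k : ℕ) : ∃ κ, Cns b.s.X.fr ħ Z (b.d.ell k) κ := by
  classical
  have hf : Inv.IsForm D.fr.η b.prD.V (-1) := form_cast b.prD.form (by rw [h1])
  obtain ⟨a, a', hne, ha⟩ := card_eq_two.1 h2
  have hl := exists_ne (b := b) ⟨a⟩
  obtain ⟨p, hp, q, hq, μp, μq, hpq⟩ := exists_pm b.prD (by rw [h1]) h3 a
  have t := (irr hf b.prD.fr (Fock.cst.toLinearMap ∘ₗ Φ σ) 0 (ann b.s.X.fr ħ Z')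
    (ellO (σ.μ 0) b.d.ρ 1) b.prD.skew_μ (b := 0) ⟨by simp, by simp, by simp, by simp⟩
    fun g g' hg e => ?_).1 fun e => ?_
  rotate_left
  · obtain ⟨d1, e1, -, -, e2⟩ := b.prD.exists_conj hg e
    have e5 : σ.μ (g * b.dD.μ * g') = σ.μ 0 + Φ σ (g * (b.dD.μ * b.prD.π) * g') := by
      ext x
      have e6 := fun v hv => π_of_V b.prD.spl ((inv_isom hg e).map_mem (v := v) hv)
      simp only [DPIn.Sig.μ, Φ, σ.bl_apply, LinearMap.add_apply, LinearMap.sub_apply, comp_apply,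
        Module.End.mul_apply, coe_mk, AddHom.coe_mk, e6 _ (σ.dec x).1, e6 _ (σ.dec x).2.1, map_add,
        map_sub, LinearMap.zero_apply, map_zero]
      abel
    rw [LinearMap.zero_apply, add_zero, comp_apply, AlgHom.toLinearMap_apply, ← ellO_one, ← e5]
    exact ⟨e1 ▸ σ.qd_ellO d1 e2 1, o.vir g g' hg e 1⟩
  · have := LinearMap.congr_fun e p
    rw [Module.End.mul_apply, π_of_V b.prD.spl hp, μp, LinearMap.zero_apply, smul_eq_zero] at this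
    simp [this.resolve_left (by norm_num)] at hpq
  have hL : ∀ c, Inv.Skew b.s.X.fr.η σ.V' c → c ∈ kl Z' := fun c hc => by
    refine skew_mem σ (kl Z') o.he (o.hf σ) o.hh
      (fun u hu v hv => ⟨-D.fr.η u v, fun x hx => ?_⟩) (fun u hu v hv => ?_) hc <;> rw [h1]
    · exact wd_two hf (b.prD.fr.e_mem a) (b.prD.fr.e_mem a') (fun y hy => ⟨_, _,
        (b.prD.fr.expand y hy).symm.trans (by rw [ha, sum_pair hne])⟩) hu hv hx
    · refine wd_mem hf ((kl Z').comap (Φ σ)) (fun c c' hc hc' => ?_) hu hv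
      obtain ⟨-, κ, e1⟩ := t c hc
      obtain ⟨-, κ', e2⟩ := t c' hc'
      have := lie_mem (skew_ev σ.spl (skew_Φ σ hc)) (skew_ev σ.spl (skew_Φ σ hc'))
        ((skew_cns σ.spl (skew_Φ σ hc) κ).2.1 e1) ((skew_cns σ.spl (skew_Φ σ hc') κ').2.1 e2)
      rw [Submodule.mem_comap, map_sub]
      rwa [show Φ σ c * Φ σ c' = Φ σ (c * c') from σ.bl_mul (fun v _ => hc'.mem v) fun v _ =>
        hc'.mem v, show Φ σ c' * Φ σ c = Φ σ (c' * c) from σ.bl_mul (fun v _ => hc.mem v)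
          fun v _ => hc.mem v] at this
  have δ1 := σ.V'.add_mem (σ.r_mem hp) (σ.s_mem hq)
  have hδ : b.s.X.fr.η (σ.r p + σ.s q) (σ.r p + σ.s q) ≠ 0 := by
    simpa [σ.η_rs hp hp, σ.η_rs hq hq, σ.η_rs hp hq, σ.η_rs hq hp, hf.symm q hq p hp, h1] using hpq
  have hν : σ.μ b.dD.μ (σ.r p + σ.s q) = 0 := by
    rw [map_add, σ.μ_r hp, σ.μ_s hq, μp, μq]
    simp
  obtain ⟨d', e1, e2⟩ := σ.exists_vd b.dD fun _ => b.prD.μV
  refine Cs2P.fin σ (o.inv hl) hl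
    (.inr ⟨h5, _, σ.VV δ1, fun e => hδ (by rw [e, map_zero]), hν⟩) (fun k => ?_) k
  obtain ⟨κ, h⟩ := o.vir 1 1 Inv.Isom.one (one_mul 1) k
  rw [one_mul, mul_one] at h
  rw [← e1, ← e2] at h ⊢
  exact ⟨κ, cns_refl σ.spl h1 (o.invS σ hl) o.eq hL δ1 hδ (e1 ▸ hν)
    (e2 ▸ b.pr.ρV _ (σ.VV δ1)) h⟩

end Vale.Agent.P269.Deg
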