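import Vale.Agent.P269.Deg.InA
import Vale.Agent.P269.Deg.G3A

/-! The caps in the matrix model. -/

namespace Vale.Agent.P269.Deg

open Fock Finset LinearMap TensorProduct Fn

variable {Γ : Type} [AddCommGroup Γ] {g : Grd Γ} {D : Dv}

namespace InC

section gen

variable {V W : Type} [AddCommGroup V] [Module ℂ V] [AddCommGroup W] [Module ℂ W] {p : Par ℂ V}
  {q : Par ℂ W}

lemma map_dv {f : V →ₗ[ℂ] W} (hf : IsEv p q f) {a : Module.End ℂ V} {b : Module.End ℂ W}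
    (ha : IsEv p p a) (hb : IsEv q q b) (h : ∀ v, f (a v) = b (f v)) (x : S p) :
    Fock.map f hf (dv p a x) = dv q b (Fock.map f hf x) := by
  induction x using Fock.induction with
  | h1 => simp
  | hι v x hx => simp [dv_ι_mul ha, dv_ι_mul hb, hx, h]
  | hadd x y hx hy => simp only [map_add, hx, hy]
  | hsmul c x hx => simp only [map_smul, hx]

lemma isEv_en (p : Par ℂ V) : IsEv (p.prod (D.p.fs ℕ)) (p.prod (D.p.fs ℕ))
    ((0 : Module.End ℂ V).prodMap (enO D.H)) :=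
  fun v => Prod.ext (map_zero p.σ) (PairP.isEv_enO v.2)

/-- the energy of a product -/
lemma dv_prod (x : S p) {e : ℕ} {y : S (D.p.fs ℕ)} (hy : y ∈ En D.p e) :
    dv _ ((0 : Module.End ℂ V).prodMap (enO D.H))
      (Fock.map _ (isEv_inl p _) x * Fock.map _ (isEv_inr p _) y) =
      (e : ℂ) • (Fock.map _ (isEv_inl p _) x * Fock.map _ (isEv_inr p _) y) := by
  rw [dv_mul (isEv_en (D := D) p), ← map_dv (isEv_inl p (D.p.fs ℕ)) (a := 0) (fun _ => map_zero p.σ)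
    (isEv_en p) (fun v => by simp), ← map_dv (isEv_inr p (D.p.fs ℕ)) PairP.isEv_enO (isEv_en p)
    (fun v => by simp), PairP.mem_En.1 hy]
  simp

lemma ext_En {M : Type} [AddCommGroup M] [Module ℂ M] {T T' : S (D.p.fs ℕ) →ₗ[ℂ] M}
    (h : ∀ e, ∀ y ∈ En D.p e, T y = T' y) : T = T' :=
  LinearMap.ext (PairP.ind h fun x y hx hy => by rw [map_add, map_add, hx, hy])

end gen

variable {ε : ℂ} {P : Cz D ε} {F : Ser Γ (pR P.p D)} {en : Γ →+ ℤ} {s : ℕ}

/-- the insertions from the far section -/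
noncomputable def far (P : Cz D ε) : S (P.pz.fs ℕ) →ₐ[ℂ] S (pT P.p) :=
  Fock.map _ (isEv_comp (isEv_inl _ _) (isEv_vv P.hnul))

lemma map_far (z : S (P.pz.fs ℕ)) (y : S (D.p.fs ℕ)) :
    Fock.map _ P.isEv_far (Fock.map _ (isEv_inl _ _) z * Fock.map _ (isEv_inr _ _) y) =
      Fock.map _ (isEv_inl _ _) (far P z) * Fock.map _ (isEv_inr _ _) y := by
  rw [map_mul]
  congr 1
  · exact DFunLike.congr_fun (hom_ext (f := (Fock.map _ P.isEv_far).comp (Fock.map _ (isEv_inl _ _)))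
      (g := (Fock.map _ (isEv_inl _ _)).comp (far P)) fun v => by simp [far]) z
  · exact DFunLike.congr_fun (hom_ext (f := (Fock.map _ P.isEv_far).comp (Fock.map _ (isEv_inr _ _)))
      (g := Fock.map _ (isEv_inr _ _)) fun v => by simp; rfl) y

variable (hF : F.Ok g) (hf : F.LF g)
  (hen : ∀ β j x, F β j (dv _ ((0 : Module.End ℂ _).prodMap (enO D.H)) x) = en β * F β j x)

include hen in
lemma en_eq {β : Γ} {j : ℤ} {x : S (pT P.p)} {e : ℕ} {y : S (D.p.fs ℕ)} (hy : y ∈ En D.p e)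
    (h : F β j (Fock.map _ (isEv_inl _ _) x * Fock.map _ (isEv_inr _ _) y) ≠ 0) :
    en β = e ∧ F β ≠ 0 := by
  have h1 := hen β j (Fock.map _ (isEv_inl _ _) x * Fock.map _ (isEv_inr _ _) y)
  rw [dv_prod x hy, map_smul, smul_eq_mul] at h1
  exact ⟨by exact_mod_cast (mul_right_cancel₀ h h1).symm, fun h0 => h (by rw [h0]; rfl)⟩

variable (h : G3 g P F en s)

include hen h in
/-- triangularity -/
lemma slc_low (x : S (pT P.p)) {n e : ℕ} (hn : n < s * e) {y : S (D.p.fs ℕ)} (hy : y ∈ En D.p e) :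
    slc (F.tot hF hf n) x y = 0 := by
  refine Hat.ext (funext fun j => ?_)
  show ∑ᶠ (β) (_ : g.deg β = n), F β j (Fock.map _ (isEv_inl _ _) x *
    Fock.map _ (isEv_inr _ _) y) = 0
  refine finsum_eq_zero_of_forall_eq_zero fun β => ?_
  rw [finsum_eq_if]
  refine ite_eq_right_iff.2 fun hβ => by_contra fun h0 => ?_
  obtain ⟨h1, h2⟩ := en_eq hen hy h0
  have h3 := h.le β h2
  rw [h1, hβ] at h3
  exact absurd hn (not_lt.2 (by exact_mod_cast h3))

/-- the invariants in the multiples of the class of the fibre -/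
noncomputable def fib (e : ℕ) (j : ℤ) : S ((P.pz.fs ℕ).prod (D.p.fs ℕ)) →ₗ[ℂ] ℂ :=
  F (e • h.φ) j ∘ₗ (Fock.map _ P.isEv_far).toLinearMap

include hF in
lemma fib_low (e : ℕ) (x) : ∃ J, ∀ j < J, fib h e j x = 0 := hF.low _ _

include hen in
/-- the top part -/
lemma slc_top (z : S (P.pz.fs ℕ)) {e : ℕ} {y : S (D.p.fs ℕ)} (hy : y ∈ En D.p e) :
    slc (F.tot hF hf (s * e)) (far P z) y = lau (fib h e) (fib_low hF h e)
      (Fock.map _ (isEv_inl _ _) z * Fock.map _ (isEv_inr _ _) y) := by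
  refine Hat.ext (funext fun j => ?_)
  show ∑ᶠ (β) (_ : g.deg β = (s * e : ℕ)), F β j (Fock.map _ (isEv_inl _ _) (far P z) *
    Fock.map _ (isEv_inr _ _) y) = F (e • h.φ) j (Fock.map _ P.isEv_far _)
  rw [map_far, finsum_eq_single _ (e • h.φ), finsum_eq_if, if_pos]
  · rw [map_nsmul, h.deg_φ, nsmul_eq_mul, Nat.cast_mul, mul_comm]
  · intro β hβ
    rw [finsum_eq_if]
    refine ite_eq_right_iff.2 fun h1 => by_contra fun h0 => hβ ?_
    obtain ⟨h2, h3⟩ := en_eq hen hy h0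
    rw [h.eq β h3 (by rw [h1, h2, Nat.cast_mul]), h2, natCast_zsmul]

include hen h in
/-- the top parts span -/
lemma span_top (N : ℕ) (G : S (D.p.fs ℕ) →ₗ[ℂ] KK) : ∃ (t : Finset (S (P.pz.fs ℕ)))
    (c : S (P.pz.fs ℕ) → KK), ∀ e < N, ∀ y ∈ En D.p e,
      G y = ∑ z ∈ t, c z * slc (F.tot hF hf (s * e)) (far P z) y := by
  obtain ⟨t, c, H⟩ := span_of_g3 (fib h) h.C
    (fun e j x => (congrArg _ (par_map _ P.isEv_far x).symm).trans (hF.ev _ j _)) h.C_ev
    (fib_low hF h) h.C_low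
    (fun e j x => (congrArg _ (map_dv P.isEv_far (isEv_en _) (isEv_en _) (fun v => by simp) x)).trans
      ((hen _ j _).trans (by rw [map_nsmul, h.en_φ, nsmul_one, Int.cast_natCast]; rfl)))
    h.C_en h.prod (fun j hj => by rw [← h.norm j hj]; simp [fib]) h.nd N G
  exact ⟨t, c, fun e he y hy => (H e he y (PairP.mem_En.1 hy)).trans
    (sum_congr rfl fun z _ => by rw [slc_top hF hf hen h z hy])⟩

variable (y : Sys D)

lemma pr_π (T : S (D.p.fs ℕ) →ₗ[ℂ] KK) (e : ℕ) (v : y.F) :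
    y.pr T (y.G.π e v) = prE D.fr (hb : KK) e T (y.val v) := by
  rw [y.pr_eq T _ (e + 1) fun e' he x hx => by rw [y.hπ e e' v x hx, if_neg (by omega)],
    sum_range_succ, sum_eq_zero, zero_add]
  · exact y.pr_congr e _ _ _ _ (fun _ _ => rfl) fun x hx => by rw [y.hπ e e v x hx, if_pos rfl]
  · exact fun e' he => PairP.prE_zero _ _ _ fun _ _ x hx => by
      rw [y.hπ e e' v x hx, if_neg (mem_range.1 he).ne', mul_zero]

lemma pr_π_congr {T T' : S (D.p.fs ℕ) →ₗ[ℂ] KK} {e : ℕ} (H : ∀ x ∈ En D.p e, T x = T' x) (v : y.F) :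
    y.pr T (y.G.π e v) = y.pr T' (y.G.π e v) := by
  rw [pr_π, pr_π]
  exact y.pr_congr e _ _ _ _ H fun _ _ => rfl

lemma π_eq_zero {v : y.F} {e : ℕ} (H : ∀ x ∈ En D.p e, y.val v x = 0) : y.G.π e v = 0 :=
  y.inj (ext_En fun e' x hx => by
    rw [y.hπ e e' v x hx, map_zero, LinearMap.zero_apply]
    split_ifs with h1
    exacts [H x (h1 ▸ hx), rfl])

end InC

open InC

variable (y : Sys D)

theorem Sys.ir (P : Cz D (-1)) {F : Ser Γ (pR P.p D)} (hF : F.RelR g) (s : ℕ) (_hs : 0 < s)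
    (h : G3 g P F g.ξ s) :
    ∃ c : S (P.pz.fs ℕ) → ℕ → y.F, y.G.IR s c ∧
      (∀ z, (pull _ ((P.cp sqm).xt pN).hnul (y.col F hF)).ap z = Deg.col (c z)) ∧
      (s = 1 → ∀ x, (y.col F hF).ap x ∈ (y.G.rg ℂ).R) := by
  choose c h1 h2 using y.col_ap F hF
  have low : ∀ x n e, n < s * e → y.G.π e (c x n) = 0 := fun x n e hn =>
    π_eq_zero y fun w hw => by rw [h2, slc_low _ _ hF.en h x hn hw]
  refine ⟨fun z => c (far P z), ⟨fun z => low _, fun N r hr e he => LinearMap.ext fun v => ?_⟩,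
    fun z => h1 _, fun h0 x => (y.G.mem_R _).2 ⟨c x, h1 x, fun n e hn =>
      low x n e (by rwa [h0, one_mul])⟩⟩
  obtain ⟨t, a, H⟩ := span_top hF.toOk hF.lf hF.en h N (y.val (y.G.π e v))
  have e1 : y.G.π e v = ∑ z ∈ t, a z • ∑ e' ∈ range N, y.G.π e' (c (far P z) (s * e')) := by
    refine y.inj (ext_En fun e' w hw => ?_)
    simp only [map_sum, map_smul, LinearMap.sum_apply, LinearMap.smul_apply,
      fun e F => y.hπ e e' F w hw, sum_ite_eq', mem_range, h2, smul_eq_mul]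
    split_ifs with h3 h4 h4
    · rw [← H e' h4 w hw, y.hπ e e' v w hw, if_pos h3]
    · exact absurd (h3 ▸ he) h4
    · rw [← H e' h4 w hw, y.hπ e e' v w hw, if_neg h3]
    · simp
  rw [comp_apply, e1, map_sum]
  exact sum_eq_zero fun z _ => by rw [map_smul, map_sum, hr z, smul_zero]

theorem Sys.il (P : Cz D 1) {F : Ser Γ (pR P.p D)} (hF : F.RelL g) (h : G3 g P F (-g.ξ) 1) :
    ∃ a : S (P.pz.fs ℕ) → ℕ → Module.Dual KK y.F, y.G.IL a ∧
      (∀ z, (pull _ ((P.cp sq1).xt pN).hnul (y.row F hF)).ap z = Deg.row (a z)) ∧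
      ∀ x, (y.row F hF).ap x ∈ (y.G.rg ℂ).L := by
  have hen : ∀ β j x, F β j (dv _ ((0 : Module.End ℂ _).prodMap (enO D.H)) x) =
      (-g.ξ) β * F β j x := fun β j x => by rw [hF.en, AddMonoidHom.neg_apply, Int.cast_neg]
  have low : ∀ x n e, n < e → y.pr (slc (F.tot hF.toOk hF.lf n) x) ∘ₗ y.G.π e = 0 :=
    fun x n e hn => LinearMap.ext fun v => (pr_π_congr y (T' := 0) (fun w hw =>
      slc_low _ _ hen h x (by rwa [one_mul]) hw) v).trans (by rw [map_zero]; rfl)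
  refine ⟨fun z n => y.pr (slc (F.tot hF.toOk hF.lf n) (far P z)),
    ⟨fun z => low _, fun N v hv e he => y.pr_nd _ fun T => ?_⟩, fun z => y.row_ap F hF _,
    fun x => (y.G.mem_L _).2 ⟨_, y.row_ap F hF x, low x⟩⟩
  obtain ⟨t, a, H⟩ := span_top hF.toOk hF.lf hen h N (T ∘ₗ PairP.P D.p e)
  have e1 : ∑ e' ∈ range N, y.pr (T ∘ₗ PairP.P D.p e) (y.G.π e' v) = y.pr T (y.G.π e v) := by
    rw [sum_eq_single_of_mem e (mem_range.2 he) fun e' _ h1 => (pr_π_congr y (T' := 0) (fun w hw => by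
      rw [comp_apply, PairP.P_of_mem e hw, if_neg h1.symm, map_zero]; rfl) v).trans
        (by rw [map_zero]; rfl)]
    exact pr_π_congr y (fun w hw => by rw [comp_apply, PairP.P_same hw]) v
  rw [← e1, sum_congr rfl fun e' h1 => pr_π_congr y
    (T' := ∑ z ∈ t, a z • slc (F.tot hF.toOk hF.lf e') (far P z)) (fun w hw => by
      rw [H e' (mem_range.1 h1) w hw, one_mul, LinearMap.sum_apply]; rfl) v]
  simp only [map_sum, map_smul, LinearMap.sum_apply, LinearMap.smul_apply]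
  rw [sum_comm]
  exact sum_eq_zero fun z _ => by rw [← smul_sum, hv z, smul_zero]

theorem Sys.canR (P : Cz D (-1)) (F : Ser Γ (pR P.p D)) (hF : F.RelR g) (s : ℕ) (hs : 0 < s)
    (h : G3 g P F g.ξ s) : ((P.cp sqm).xt pN).CanR (y.G.rg ℂ) (y.col F hF) := by
  obtain ⟨c, h1, h2, -⟩ := y.ir P hF s hs h
  exact ⟨y.col_ev F hF, fun x hx h0 => h1.can hs hx fun z => h2 z ▸ h0 z⟩

theorem Sys.caps (c : CapIn g D) : Cp.Caps (y.G.rg ℂ) ((c.P'.cp sq1).xt pN) ((c.P.cp sqm).xt pN)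
    (y.row c.F' c.relL) (y.col c.F c.relR) := by
  obtain ⟨b, h1, h2, h3⟩ := y.ir c.P c.relR 1 one_pos c.g3R
  obtain ⟨a, k1, k2, k3⟩ := y.il c.P' c.relL c.g3L
  refine ⟨⟨y.row_ev _ _, fun x hx h0 => k1.can hx fun z => k2 z ▸ h0 z,
    fun x h0 => k1.inj fun z => k2 z ▸ h0 z⟩, y.canR _ _ _ 1 one_pos c.g3R, k3, h3 rfl,
    fun E M hE hM e => ?_⟩
  obtain ⟨x, e1, e2⟩ := Gr.tl k1 h1 E M hE hM fun i j => h2 j ▸ k2 i ▸ e i j
  exact ⟨x, fun z => (e1 z).trans (by rw [← k2]), fun z => (e2 z).trans (by rw [← h2])⟩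

end Vale.Agent.P269.Deg
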