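import Vale.Agent.P269.Deg.InB
import Vale.Agent.P269.Deg.InCA

/-! Existence of the matrix model. -/

namespace Vale.Agent.P269.Deg

open Fock Finset LinearMap TensorProduct Fn

variable {Γ : Type} [AddCommGroup Γ] (g : Grd Γ) (D : Dv)

theorem exists_mdl : Nonempty (Mdl g D) := by
  obtain ⟨y⟩ := exists_sys D
  exact ⟨{ A := y.G.alg, B := Mat KK y.F, sA := y.G.sA ℂ, s := y.G.sB ℂ, h := y.G.rg ℂ, lin := y.lin
           row := y.row, col := y.col, ab := y.ab, row_ev := y.row_ev, row_mem := y.row_mem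
           col_mem := y.col_mem, g1 := fun X _ hF _ hG _ hZ => y.g1 X hF hG hZ
           g2 := fun X _ h0 _ h1 _ hG _ => y.g2 X h0 h1 hG, canR := y.canR, caps := y.caps
           node := y.node, vir := y.vir, inv := y.inv }⟩

end Vale.Agent.P269.Deg
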