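import Vale.Agent.P269.Deg.StB
import Vale.Agent.P269.Deg.Cs1
import Vale.Agent.P269.Deg.Cs2
import Vale.Agent.P269.Deg.InC

/-! The two degeneration steps. -/

namespace Vale.Agent.P269.Deg

/-- **The blow-up step.** -/
theorem stepBl : StepBl := fun g D b => let ⟨m⟩ := exists_mdl g D; m.stepBl b

/-- **The double point step.** -/
theorem stepDP : StepDP := fun g D b => by
  obtain ⟨m⟩ := exists_mdl g D
  obtain ⟨R, U, n⟩ := m.exists_fl b
  obtain ⟨σ⟩ := SigP.nonempty_sig b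
  refine m.vir_of _ b.s.abs fun k => ?_
  rcases b.cases with ⟨h1, h2⟩ | ⟨h1, h2⟩ | ⟨h1, h2, h3⟩ | ⟨h1, h2, h3, h4, h5⟩
  · exact n.c0 σ h1 h2 k
  · exact (n.out σ).c1 σ h1 h2 k
  · exact (n.out σ).c2 σ h1 h2 h3 k
  · exact (n.out σ).c3 σ h1 h2 h3 h4 h5 k

end Vale.Agent.P269.Deg
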