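import Vale.Agent.P269.Deg.Sd

/-! Linear algebra for the double point step: lifts, traces on a three term complex, splittings. -/

namespace Vale.Agent.P269.Deg

open Fock Finset LinearMap

namespace SigP

section lin

variable {E F N H : Type*} [AddCommGroup E] [Module ℂ E] [AddCommGroup F] [Module ℂ F]
  [AddCommGroup N] [Module ℂ N] [AddCommGroup H] [Module ℂ H]

lemma exists_lift (f : E →ₗ[ℂ] F) (g : N →ₗ[ℂ] F) (h : ∀ x, ∃ y, f y = g x) :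
    ∃ k : N →ₗ[ℂ] E, ∀ x, f (k x) = g x := by
  obtain ⟨k, hk⟩ := Module.projective_lifting_property f.rangeRestrict
    (g.codRestrict (LinearMap.range f) h) f.surjective_rangeRestrict
  exact ⟨k, fun x => congrArg Subtype.val (LinearMap.congr_fun hk x)⟩

lemma exists_ev_lift {p : Par ℂ E} {q : Par ℂ F} {r : Par ℂ N} {f : E →ₗ[ℂ] F} {g : N →ₗ[ℂ] F}
    (hf : IsEv p q f) (hg : IsEv r q g) (h : ∀ x, ∃ y, f y = g x) :
    ∃ k : N →ₗ[ℂ] E, IsEv r p k ∧ ∀ x, f (k x) = g x := by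
  obtain ⟨k, hk⟩ := exists_lift f g h
  refine ⟨(1 / 2 : ℂ) • (k + p.σ ∘ₗ k ∘ₗ r.σ), fun x => ?_, fun x => ?_⟩
  · simp [p.inv, r.inv, add_comm]
  · simp only [LinearMap.smul_apply, LinearMap.add_apply, comp_apply, map_smul, map_add, ← hf _, hk, hg _, r.inv]
    module

/-- The trace on the middle term of a complex `E → F → E` with cohomology inside `H`. -/
lemma trace_cx [FiniteDimensional ℂ E] [FiniteDimensional ℂ F] [FiniteDimensional ℂ H]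
    {G : E →ₗ[ℂ] F} {R : F →ₗ[ℂ] E} {Θ : H →ₗ[ℂ] F} {p : F →ₗ[ℂ] H} {P : Module.End ℂ E}
    (h1 : ∀ t, R t = 0 → ∃ a, t = Θ (p t) + G a) (h2 : ∀ a, ∃ t, R t = P a)
    (h3 : ∀ t, P (R t) = R t) (h4 : ∀ a, G (P a) = G a) (h5 : ∀ a, G a = 0 → P a = 0)
    (h6 : ∀ a, R (G a) = 0) (h7 : ∀ x, R (Θ x) = 0) (h8 : ∀ a, p (G a) = 0)
    {M : Module.End ℂ F} {Mp Mm : Module.End ℂ E} (hp : ∀ a, M (G a) = G (Mp a))
    (hm : ∀ t, R (M t) = Mm (R t)) :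
    trace ℂ F M = trace ℂ H (p ∘ₗ M ∘ₗ Θ) + trace ℂ E (Mp * P) + trace ℂ E (Mm * P) := by
  obtain ⟨k, hk⟩ := exists_lift R P h2
  let Z : Module.End ℂ F := 1 - k ∘ₗ R
  have hZ : ∀ t, Z t = t - k (R t) := fun _ => rfl
  obtain ⟨l, hl⟩ := exists_lift G (Z - Θ ∘ₗ p ∘ₗ Z) fun t => by
    obtain ⟨a, ha⟩ := h1 (Z t) (by rw [hZ, map_sub, hk, h3, sub_self])
    exact ⟨a, (sub_eq_of_eq_add' ha).symm⟩
  replace hl : ∀ t, G (l t) = Z t - Θ (p (Z t)) := hl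
  have e : M = (M ∘ₗ Θ) ∘ₗ (p ∘ₗ Z) + G ∘ₗ (Mp ∘ₗ P ∘ₗ l) + (M ∘ₗ k) ∘ₗ R := by
    ext t
    simp only [LinearMap.add_apply, comp_apply, ← hp, h4, hl, ← map_add, hZ t]
    congr 1
    abel
  have e1 : (p ∘ₗ Z) ∘ₗ M ∘ₗ Θ = p ∘ₗ M ∘ₗ Θ := by
    ext x
    simp only [comp_apply, hZ, hm, h7, map_zero, sub_zero]
  have e2 : (Mp ∘ₗ P ∘ₗ l) ∘ₗ G = Mp * P := by
    ext a
    have := h5 (l (G a) - a) (by
      rw [map_sub, hl, hZ, h6, map_zero, sub_zero, h8, map_zero, sub_zero, sub_self])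
    rw [map_sub, sub_eq_zero] at this
    simp only [comp_apply, this, Module.End.mul_apply]
  have e3 : R ∘ₗ M ∘ₗ k = Mm * P := by
    ext a
    simp only [comp_apply, hm, hk, Module.End.mul_apply]
  conv_lhs => rw [e]
  rw [map_add, map_add, trace_comp_comm', trace_comp_comm' _ G, trace_comp_comm' R, e1, e2, e3]

/-- A complement of the radical of a form. -/
lemma exists_rad {B : H →ₗ[ℂ] H →ₗ[ℂ] ℂ} {V : Submodule ℂ H} {ε : ℂ} (h : Inv.IsForm B V ε)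
    {V1 : Submodule ℂ H} (h1 : V1 ≤ V) : ∃ U ≤ V1, Inv.IsForm B U ε ∧
      ∀ x ∈ V1, ∃ u ∈ U, ∀ y ∈ V1, B (x - u) y = 0 := by
  let R : Submodule ℂ H := V1 ⊓ ⨅ y ∈ V1, LinearMap.ker (B.flip y)
  have hR : ∀ x, x ∈ R ↔ x ∈ V1 ∧ ∀ y ∈ V1, B x y = 0 := fun x => by simp [R]
  obtain ⟨C, hC⟩ := R.exists_isCompl
  have key : ∀ x ∈ V1, ∃ u ∈ C ⊓ V1, x - u ∈ R := fun x hx => by
    obtain ⟨r, hr, c, hc, e⟩ := Submodule.mem_sup.1 (hC.sup_eq_top ▸ Submodule.mem_top (x := x))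
    have e1 : x - c = r := sub_eq_of_eq_add e.symm
    have e2 : x - r = c := sub_eq_of_eq_add' e.symm
    exact ⟨c, ⟨hc, e2 ▸ V1.sub_mem hx ((hR r).1 hr).1⟩, e1 ▸ hr⟩
  refine ⟨C ⊓ V1, inf_le_right, ⟨h.sq, fun u hu v hv => h.symm u (h1 hu.2) v (h1 hv.2),
    fun u hu h0 => ?_⟩, fun x hx => ?_⟩
  · refine (Submodule.disjoint_def.1 hC.disjoint) u ((hR u).2 ⟨hu.2, fun y hy => ?_⟩) hu.1
    obtain ⟨c, hc, hr⟩ := key y hy
    have := ((hR _).1 hr).2 u hu.2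
    rw [map_sub, LinearMap.sub_apply, h0 c hc, sub_zero] at this
    rw [h.symm u (h1 hu.2) y (h1 hy), this, mul_zero]
  · obtain ⟨c, hc, hr⟩ := key x hx
    exact ⟨c, hc, ((hR _).1 hr).2⟩

variable {p : Par ℂ H} {ι : Type*} [Fintype ι] (fr : Frame p ι)

lemma str_eq [FiniteDimensional ℂ H] (T : Module.End ℂ H) : fr.str T = trace ℂ H (p.σ * T) := by
  have e : p.σ * T = ∑ a, Inv.rk fr.η (fr.e a) (p.σ (T (fr.f a))) := by
    ext x
    conv_lhs => rw [← fr.right x]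
    simp [LinearMap.sum_apply]
  rw [e, map_sum, Frame.str_apply]
  refine sum_congr rfl fun a _ => ?_
  rw [Inv.rk, trace_smulRight, flip_apply, ← fr.η_symm]

/-- Every functional is a pairing. -/
lemma exists_adj (φ : E →ₗ[ℂ] H →ₗ[ℂ] ℂ) : ∃ k : E →ₗ[ℂ] H, ∀ t x, fr.η (k t) x = φ t x := by
  refine ⟨∑ a, (φ.flip (fr.e a)).smulRight (fr.f a), fun t x => ?_⟩
  conv_rhs => rw [← fr.left x]
  simp [LinearMap.sum_apply, mul_comm]

end lin

end SigP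

namespace Spl

variable {X : Coh} {ε : ℂ} {U V : Submodule ℂ X.H} {π : Module.End ℂ X.H} (h : Spl X ε U V π)
include h

lemma z_orth {v a : X.H} (hv : v ∈ V) (ha : a ∈ U) : X.fr.η v a = 0 := by
  rw [X.fr.η_symm, h.orth _ (h.σU a ha) v hv]

lemma z_zero {x : X.H} (hU : x ∈ U) (hV : x ∈ V) : x = 0 :=
  h.form.nondeg x hV fun _ hv => h.z_orth hv hU

lemma z_V {v : X.H} (hv : v ∈ V) : π v = v :=
  (sub_eq_zero.1 (h.z_zero (h.πU v) (V.sub_mem hv (h.πV v)))).symm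

lemma z_U {u : X.H} (hu : u ∈ U) : π u = 0 :=
  h.z_zero (by simpa using U.sub_mem hu (h.πU u)) (h.πV u)

lemma z_memU {u : X.H} (hu : π u = 0) : u ∈ U := by simpa [hu] using h.πU u

lemma z_left (x : X.H) {v : X.H} (hv : v ∈ V) : X.fr.η (π x) v = X.fr.η x v := by
  have := h.orth _ (h.πU x) v hv
  rw [map_sub, LinearMap.sub_apply, sub_eq_zero] at this
  exact this.symm

lemma z_right (x : X.H) {v : X.H} (hv : v ∈ V) : X.fr.η v (π x) = X.fr.η v x := by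
  have := h.z_orth hv (h.πU x)
  rw [map_sub, sub_eq_zero] at this
  exact this.symm

lemma z_adj (x y : X.H) : X.fr.η (π x) y = X.fr.η x (π y) := by
  rw [← h.z_right y (h.πV x), h.z_left x (h.πV y)]

lemma z_orthU {x : X.H} (hx : ∀ v ∈ V, X.fr.η x v = 0) : x ∈ U :=
  h.z_memU (X.fr.ext_left fun y => by rw [h.z_adj, hx _ (h.πV y), map_zero, LinearMap.zero_apply])

lemma z_orthV {x : X.H} (hx : ∀ a ∈ U, X.fr.η a x = 0) : x ∈ V := by
  have : π x = x := X.fr.ext_right fun y => by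
    have := hx _ (h.πU y)
    rw [map_sub, LinearMap.sub_apply, sub_eq_zero] at this
    rw [← h.z_adj, this]
  exact this ▸ h.πV x

lemma z_ev : IsEv X.p X.p π := fun x => by
  have := h.z_U (h.σU _ (h.πU x))
  rw [map_sub, map_sub, sub_eq_zero, h.σV _ (h.πV x), map_smul, h.z_V (h.πV x)] at this
  rw [this, h.σV _ (h.πV x)]

lemma z_trace : trace ℂ _ π = Module.finrank ℂ V := IsProj.trace ⟨h.πV, fun _ => h.z_V⟩

end Spl

namespace SigP

variable {X : Coh} {ε : ℂ} {d : VD X.fr} (pr : Prim X d ε)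

lemma spl : Spl X ε pr.A pr.V pr.π := by
  refine ⟨pr.form, pr.orth, fun a ha => by rwa [pr.σA a ha], pr.σV, pr.one, pr.fr.proj_mem,
    fun x => ?_⟩
  obtain ⟨a, ha, v, hv, rfl⟩ := Submodule.mem_sup.1 (pr.sup ▸ Submodule.mem_top (x := x))
  have : pr.π a = 0 := by
    simp [Prim.π, Inv.proj_apply, pr.orth a ha _ (pr.fr.f_mem _)]
  rwa [map_add, this, Prim.π, pr.fr.proj_of_mem hv, zero_add, add_sub_cancel_right]

lemma trace_pow (c : ℂ) (k : ℕ) : trace ℂ _ (X.p.σ * (d.μ + c • 1) ^ k * pr.π) =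
    ε * ∑ b, ((pr.l b : ℂ) + c) ^ k := by
  rw [mul_assoc, Prim.π, Inv.pow_mul_proj (l := fun b => (pr.l b : ℂ) + c) fun b => by
    simp [pr.eig, add_smul], Finset.mul_sum, map_sum, Finset.mul_sum]
  refine sum_congr rfl fun b _ => ?_
  have : X.p.σ * Inv.rk X.fr.η (pr.f b) (pr.e b) = ε • Inv.rk X.fr.η (pr.f b) (pr.e b) := by
    ext x
    simp [pr.σV _ (pr.fr.e_mem b), smul_comm ε]
  rw [mul_smul_comm, this, map_smul, map_smul, Inv.rk, trace_smulRight, flip_apply, pr.dual]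
  simp [mul_comm]

lemma finrank_V : (Module.finrank ℂ pr.V : ℂ) = Fintype.card pr.κ := by
  have h := trace_pow pr 0 0
  have e : X.p.σ * pr.π = ε • pr.π := by
    ext x
    exact pr.σV _ ((spl pr).πV x)
  rw [pow_zero, mul_one, e, map_smul, (spl pr).z_trace] at h
  simpa [pr.form.ne_zero] using h

/-- A non degenerate part `U` of a space `U1` that contains the ambient classes. -/
lemma exists_spl {U1 : Submodule ℂ X.H} (h1 : pr.A ≤ U1) :
    ∃ (U V' : Submodule ℂ X.H) (π' : Module.End ℂ X.H), Spl X ε U V' π' ∧ pr.A ≤ U ∧ V' ≤ pr.V ∧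
      U ≤ U1 ∧ ∀ x ∈ U1, ∀ y ∈ U1, X.fr.η (π' x) y = 0 := by
  have hs := spl pr
  obtain ⟨U', hU, hf, hr⟩ := exists_rad pr.form (V1 := pr.V ⊓ U1) inf_le_left
  obtain ⟨n, e, f, hF, -⟩ := Inv.exists_frame hf
  set τ := Inv.proj X.fr.η e f
  have hUV : U' ≤ pr.V := hU.trans inf_le_left
  have h0 : ∀ x, (∀ u ∈ U', X.fr.η x u = 0) → τ x = 0 := fun x hx => by
    simp [τ, Inv.proj_apply, hx _ (hF.f_mem _)]
  have h2 : ∀ x, τ (pr.π x) = τ x := fun x => by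
    rw [eq_comm, ← sub_eq_zero, ← map_sub]
    exact h0 _ fun u hu => hs.orth _ (hs.πU x) u (hUV hu)
  have h3 : ∀ u ∈ U', ∀ v ∈ pr.V ⊓ LinearMap.ker τ, X.fr.η u v = 0 := fun u hu v hv => by
    rw [pr.form.symm u (hUV hu) v hv.1, ← hF.pair_proj hf v hu, show τ v = 0 from hv.2]
    simp
  have h4 : ∀ v ∈ pr.V, v - τ v ∈ pr.V ⊓ LinearMap.ker τ := fun v hv =>
    ⟨pr.V.sub_mem hv (hUV (hF.proj_mem v)), by
      simp [τ, hF.proj_of_mem (hF.proj_mem v)]⟩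
  have h5 : ∀ x ∈ U1, pr.π x ∈ pr.V ⊓ U1 := fun x hx =>
    ⟨hs.πV x, by simpa using U1.sub_mem hx (h1 (hs.πU x))⟩
  refine ⟨pr.A ⊔ U', pr.V ⊓ LinearMap.ker τ, pr.π - τ, ⟨⟨pr.form.sq,
    fun u hu v hv => pr.form.symm u hu.1 v hv.1, fun u hu h => pr.form.nondeg u hu.1 fun v hv => ?_⟩,
    fun a ha v hv => ?_, fun a ha => ?_, fun v hv => pr.σV v hv.1,
    Submodule.mem_sup_left pr.one, fun x => ?_, fun x => ?_⟩, le_sup_left, inf_le_left,
    sup_le h1 (hU.trans inf_le_right), fun x hx y hy => ?_⟩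
  · have := h _ (h4 v hv)
    rwa [map_sub, LinearMap.sub_apply, h3 _ (hF.proj_mem v) u hu, sub_zero] at this
  · obtain ⟨c, hc, u, hu, rfl⟩ := Submodule.mem_sup.1 ha
    rw [map_add, LinearMap.add_apply, pr.orth c hc v hv.1, h3 u hu v hv, add_zero]
  · obtain ⟨c, hc, u, hu, rfl⟩ := Submodule.mem_sup.1 ha
    rw [map_add, pr.σA c hc, pr.σV u (hUV hu)]
    exact Submodule.add_mem_sup hc (U'.smul_mem _ hu)
  · rw [LinearMap.sub_apply, ← h2]
    exact h4 _ (hs.πV x)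
  · rw [LinearMap.sub_apply, sub_sub_eq_add_sub, add_sub_right_comm]
    exact Submodule.add_mem_sup (hs.πU x) (hF.proj_mem x)
  · obtain ⟨u, hu, h⟩ := hr _ (h5 x hx)
    have e1 : τ x = u := by
      have := h0 _ fun y hy => h y (hU hy)
      rwa [map_sub, h2, sub_eq_zero, hF.proj_of_mem hu] at this
    rw [LinearMap.sub_apply, e1, ← hs.z_right y (pr.V.sub_mem (hs.πV x) (hUV hu)), h _ (h5 y hy)]

end SigP

end Vale.Agent.P269.Deg
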