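import Vale.Agent.P269.Hdg.Prim

/-!
# The eigenvalues of the Hodge grading on primitive cohomology in a degeneration
-/

namespace Vale.Agent.P269.Deg

open Finset Hdg

/-- multiplicity of `p - n/2` on the primitive part, `n = N - card d`. -/
noncomputable def vP (N : ℕ) (d : Multiset ℕ) (r : ℕ) : ℤ :=
  if d.card ≤ N ∧ r ≤ N - d.card then (-1) ^ (N - d.card) * ((-1) ^ r * chiP N d r - 1) else 0

/-- The eigenvalues on the primitive part. -/
noncomputable def lP (N : ℕ) (d : Multiset ℕ) : Multiset ℝ :=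
  ∑ r ∈ range (N + 1), Multiset.replicate (vP N d r).toNat ((r : ℝ) - ((N : ℝ) - d.card) / 2)

theorem vP_eq (N : ℕ) (d : Multiset ℕ) (hd : ∀ a ∈ d, 1 ≤ a) (r : ℕ) : vP N d r = hp N d r := by
  unfold vP
  split_ifs with h
  · have e : dm N d = (N - d.card : ℕ) := by simp only [dm]; omega
    rw [hp, if_pos (by omega), cz_nat, sn_add, e, sn_nat, sn_nat]; ring
  · exact (hp_big hd (by simp only [dm]; omega)).symm

theorem lP_eq (N : ℕ) (d : Multiset ℕ) (hd : ∀ a ∈ d, 1 ≤ a) : lP N d = eig N d := by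
  have : ms N d = ∑ r ∈ range (N + 1), Multiset.replicate (vP N d r).toNat (r : ℤ) := by
    ext r
    zify
    rw [count_ms hd]
    simp only [Multiset.count_sum', Multiset.count_replicate, Nat.cast_sum, Nat.cast_ite,
      vP_eq N d hd, Int.toNat_of_nonneg (hp_nonneg hd _), Nat.cast_zero]
    by_cases h : r < 0
    · rw [hp_neg h]; exact (sum_eq_zero fun x _ => if_neg (by omega)).symm
    lift r to ℕ using by omega
    simp only [Nat.cast_inj, sum_ite_eq', mem_range]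
    split_ifs with h'
    · rfl
    · exact hp_big hd (by simp only [dm]; omega)
  rw [eig, this, ← Multiset.coe_mapAddMonoidHom, map_sum]
  simp [lP, dm]

theorem vP_nonneg (N : ℕ) (d : Multiset ℕ) (hd : ∀ a ∈ d, 1 ≤ a) (r : ℕ) : 0 ≤ vP N d r := by
  rw [vP_eq N d hd]; exact hp_nonneg hd r

theorem lP_neg (N : ℕ) (d : Multiset ℕ) (hd : ∀ a ∈ d, 1 ≤ a) :
    (lP N d).map (fun x => -x) = lP N d := by rw [lP_eq N d hd, eig_neg hd]

theorem lP_one (N : ℕ) (d : Multiset ℕ) : lP (N + 1) (d + {1}) = lP N d := by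
  have e : ∀ r, vP (N + 1) (d + {1}) r = vP N d r := fun r => by simp [vP, chiP_one]
  simp only [lP, e, sum_range_succ _ (N + 1)]
  rw [show vP N d (N + 1) = 0 from if_neg (by omega)]
  simp

theorem lP_zero (N : ℕ) : lP N 0 = 0 := by rw [lP_eq N 0 (by simp), eig_zero]

theorem chiP_of_lt (N : ℕ) (d : Multiset ℕ) (hd : ∀ a ∈ d, 1 ≤ a) {r : ℕ} (h : N < r + d.card) :
    chiP N d r = 0 := by
  have : dm N d < r := by simp only [dm]; omega
  rw [← cz_nat, cz_eq, if_neg (by omega), hp_big hd this]; simp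

theorem eig_rec (N : ℕ) (d : Multiset ℕ) (hd : Pos d) (a : ℕ) (ha : 1 ≤ a) (hN : d.card + 1 ≤ N) :
    eig (N + 1) (d + {a + 1}) = eig (N + 1) (d + {a}) + eig N d + eig N (d + {a, a + 1}) +
      (eig N (d + {a})).map (· - 1 / 2) + (eig N (d + {a})).map (· + 1 / 2) := by
  have e1 : d + {a, 1} = d + {a} + {1} := by rw [add_assoc]; rfl
  have e2 : d + {a, 1, a + 1} = d + {a, a + 1} + {1} := by
    rw [add_assoc]; congr 1
    simp only [Multiset.insert_eq_cons, ← Multiset.singleton_add]; abel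
  rw [eig_add hd ha le_rfl (by simp only [dm]; omega), eigW, e1, e2, eig_one, eig_one, eig_one]

theorem lP_rec (N : ℕ) (d : Multiset ℕ) (hd : ∀ a ∈ d, 1 ≤ a) (a : ℕ) (ha : 1 ≤ a)
    (hN : d.card + 1 ≤ N) : lP (N + 1) (d + {a + 1}) =
      lP (N + 1) (d + {a}) + lP N d + lP N (d + {a, a + 1}) +
        (lP N (d + {a})).map (· - 1 / 2) + (lP N (d + {a})).map (· + 1 / 2) := by
  have p1 : Pos (d + {a}) := pos_add.2 ⟨hd, by simp [Pos, ha]⟩
  rw [lP_eq _ _ (pos_add.2 ⟨hd, by simp [Pos]⟩), lP_eq _ _ p1, lP_eq _ _ hd, lP_eq _ _ p1,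
    lP_eq _ _ (pos_add.2 ⟨hd, by simp [Pos, ha]⟩), eig_rec N d hd a ha hN]

/-- Symmetric multisets without central gap. -/
structure Nc (n : ℤ) (l : Multiset ℝ) : Prop where
  neg : ∀ x ∈ l, -x ∈ l
  ev : Even n → ∀ x ∈ l, 0 ∈ l
  od : Odd n → ∀ x ∈ l, 1 / 2 ∈ l
  ne : Odd n → 0 ∉ l

theorem Nc.add {n : ℤ} {l l' : Multiset ℝ} (h : Nc n l) (h' : Nc n l') : Nc n (l + l') := by
  refine ⟨fun x hx => ?_, fun e x hx => ?_, fun e x hx => ?_, fun e hx => ?_⟩ <;>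
    rw [Multiset.mem_add] at *
  exacts [hx.imp (h.neg x) (h'.neg x), hx.imp (h.ev e x) (h'.ev e x), hx.imp (h.od e x) (h'.od e x),
    hx.elim (h.ne e) (h'.ne e)]

theorem nc_eig {N : ℕ} {d : Multiset ℕ} (hd : Pos d) {n : ℤ} (hn : n % 2 = dm N d % 2) :
    Nc n (eig N d) := by
  have key : ∀ x ∈ eig N d, ∀ r : ℤ, dm N d ≤ 2 * r → 2 * r ≤ dm N d + 1 → 0 < hp N d r := by
    intro x hx r h1 h2
    obtain ⟨s, hs, -⟩ := (mem_eig hd).1 hx
    by_cases h : 2 * s ≤ dm N d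
    · exact hp_pos_of hd hs (by omega) (by omega)
    · exact hp_pos_of hd (r := dm N d - s) (by rwa [hp_symm hd]) (by omega) (by omega)
  refine ⟨fun x hx => ?_, fun e x hx => ?_, fun e x hx => ?_, fun e hx => ?_⟩
  · rw [← eig_neg hd]; exact Multiset.mem_map_of_mem _ hx
  · obtain ⟨k, hk⟩ : ∃ k, dm N d = 2 * k := ⟨dm N d / 2, by rw [Int.even_iff] at e; omega⟩
    exact (mem_eig hd).2 ⟨k, key x hx k (by omega) (by omega), by rw [hk]; push_cast; ring⟩
  · obtain ⟨k, hk⟩ : ∃ k, dm N d = 2 * k - 1 := ⟨(dm N d + 1) / 2, by rw [Int.odd_iff] at e; omega⟩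
    exact (mem_eig hd).2 ⟨k, key x hx k (by omega) (by omega), by rw [hk]; push_cast; ring⟩
  · obtain ⟨s, -, hs⟩ := (mem_eig hd).1 hx
    have : (2 * s : ℤ) = dm N d := by
      have : ((2 * s : ℤ) : ℝ) = dm N d := by push_cast; linarith
      exact_mod_cast this
    rw [Int.odd_iff] at e; omega

theorem card_le {l : Multiset ℝ} (s : Finset ℝ) (h : ∀ x ∈ s, x ∈ l) : s.card ≤ l.card :=
  Multiset.card_le_card (Finset.val_le_iff_val_subset.2 h)

theorem Nc.two {n : ℤ} {l : Multiset ℝ} (h : Nc n l) {x : ℝ} (hx : x ∈ l) (h0 : x ≠ 0) :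
    2 ≤ l.card := by
  have := card_le (l := l) {x, -x} (by simp [hx, h.neg x hx])
  rwa [card_pair (by intro e; apply h0; linarith)] at this

theorem Nc.three {n : ℤ} {l : Multiset ℝ} (h : Nc n l) (e : Even n) {x : ℝ} (hx : x ∈ l)
    (h0 : x ≠ 0) : 3 ≤ l.card := by
  have := card_le (l := l) {0, x, -x} (by simp [hx, h.neg x hx, h.ev e x hx])
  rwa [card_insert_of_notMem (by simp [h0, h0.symm]),
    card_pair (by intro e; apply h0; linarith)] at this

theorem Nc.three' {n : ℤ} {l : Multiset ℝ} (h : Nc n l) (e : Odd n) {x : ℝ} (hx : x ∈ l)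
    (h0 : x ^ 2 ≠ (1 / 2) ^ 2) : 3 ≤ l.card := by
  have h1 := h.od e x hx
  have := card_le (l := l) {x, 1 / 2, -(1 / 2)} (by
    simp only [mem_insert, mem_singleton, forall_eq_or_imp, forall_eq]
    exact ⟨hx, h1, h.neg _ h1⟩)
  rwa [card_insert_of_notMem (by
    simp only [mem_insert, mem_singleton]
    rintro (rfl | rfl) <;> exact h0 (by ring)), card_pair (by norm_num)] at this

theorem level_of_hp {N : ℕ} {d : Multiset ℕ} (hd : Pos d) (h : ∀ r, 0 < hp N d r → 2 * r = dm N d) :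
    ∀ x ∈ eig N d, x = 0 := fun x hx => by
  obtain ⟨s, h1, rfl⟩ := (mem_eig hd).1 hx
  rw [← h s h1]; push_cast; ring

theorem ne_of_hp {N : ℕ} {d : Multiset ℕ} (hd : Pos d) {r : ℤ} (h : 0 < hp N d r)
    (h' : 2 * r ≠ dm N d) : ∃ x ∈ eig N d, x ≠ 0 :=
  ⟨_, (mem_eig hd).2 ⟨r, h, rfl⟩, fun e => h' (by
    have : ((2 * r : ℤ) : ℝ) = dm N d := by push_cast; linarith
    exact_mod_cast this)⟩

theorem level_quad {N : ℕ} {d : Multiset ℕ} (hd : Pos d) (h : d.sum ≤ d.card + 1) {r : ℤ}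
    (hr : 0 < hp N d r) : 2 * r = dm N d := by
  rcases h.eq_or_lt with h | h
  · rw [hp_quad hd h] at hr; split_ifs at hr <;> omega
  · rw [hp_lin hd (by have := hd.card_le; omega)] at hr; omega

/-- Even dimensional intersections of two quadrics have level zero. -/
theorem level_two_two {N : ℕ} {d : Multiset ℕ} (hd : Pos d) (h : d.sum = d.card + 1)
    (he : Odd (dm N d)) {r : ℤ} (hr : 0 < hp N (d + {1 + 1}) r) : 2 * r = dm N d - 1 := by
  induction h1 : (dm N d).toNat using Nat.strong_induction_on generalizing d r with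
  | _ m ih =>
  by_cases h0 : dm N d ≤ 0
  · rw [hp_of_dm_neg (by simp [dm_add]; omega)] at hr; omega
  have p1 : Pos (d + {1}) := pos_add.2 ⟨hd, by simp [Pos]⟩
  have p2 : Pos (d + {1, 1}) := pos_add.2 ⟨hd, by simp [Pos]⟩
  have e : dm N (d + {1, 1}) = dm N d - 2 := by rw [dm_add]; rfl
  have o2 : Odd (dm N (d + {1, 1})) := by rw [e, Int.odd_iff]; rw [Int.odd_iff] at he; omega
  rw [hp_add, hp_odd_small p2 (by simp; omega) o2, hp_odd_small p2 (by simp; omega) o2,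
    show d + {1, 1, 1 + 1} = d + {1, 1} + {1 + 1} by rw [add_assoc]; rfl] at hr
  have h2 := fun h' => level_quad (N := N) (r := r) p1 (by simp; omega) h'
  have h3 := fun h' => ih _ (by omega) p2 (by simp; omega) o2 (r := r - 1) h' rfl
  have h4 := hp_nonneg (N := N) p1 r
  have h5 := hp_nonneg (N := N) (pos_add.2 ⟨p2, show Pos {1 + 1} by simp [Pos]⟩) (r - 1)
  simp only [dm_add, Multiset.card_singleton] at h2
  split_ifs at hr <;> omega

theorem eig_cases (N : ℕ) (d : Multiset ℕ) (hd : Pos d) (a : ℕ) (ha : 1 ≤ a)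
    (hN : d.card + 1 ≤ N) (lX lW lD : Multiset ℝ) (hX : lX = eig (N + 1) (d + {a + 1}))
    (hW : lW = eig (N + 1) (d + {a}) + eig N d + eig N (d + {a, a + 1}))
    (hD : lD = eig N (d + {a})) :
    (lD = 0 ∧ ((∀ x ∈ lX, x = 0) ∨
      (Even (N - d.card) ∧ 4 ≤ N - d.card ∧ a = 2 ∧ d.sum = d.card))) ∨
    ((∃ x ∈ lW, x ≠ 0) ∧ ((Odd (N - d.card) ∧ ∀ x ∈ lX, x = 1 / 2 ∨ x = -1 / 2) ∨
      (5 ≤ lX.card ∧ ∃ x ∈ lW, lD.card * x ^ 2 ≠ (lD.map fun y => y ^ 2 + 1 / 4).sum))) ∨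
    (Odd (N - d.card) ∧ lD.card = 1 ∧ lW = 0) ∨
    (Even (N - d.card) ∧ lD.card = 2 ∧ (∀ x ∈ lD, x = 1 / 2 ∨ x = -1 / 2) ∧ (∀ x ∈ lW, x = 0) ∧
      5 ≤ lX.card) := by
  obtain ⟨n, hn⟩ : ∃ n, N = n + d.card := ⟨N - d.card, by omega⟩
  rw [show N - d.card = n by omega]
  have p1 : Pos (d + {a}) := pos_add.2 ⟨hd, by simp [Pos, ha]⟩
  have p2 : Pos (d + {a, a + 1}) := pos_add.2 ⟨hd, by simp [Pos, ha]⟩
  have p3 : Pos (d + {a + 1}) := pos_add.2 ⟨hd, by simp [Pos]⟩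
  have hc := hd.card_le
  have d0 : dm N d = n := by simp only [dm]; omega
  have d1 : dm (N + 1) (d + {a}) = n := by simp [dm]; omega
  have d2 : dm N (d + {a, a + 1}) = n - 2 := by simp [dm]; omega
  have d3 : dm N (d + {a}) = n - 1 := by simp [dm]; omega
  have d4 : dm (N + 1) (d + {a + 1}) = n := by simp [dm]; omega
  have s1 : (d + {a}).sum = d.sum + a := by simp
  have c1 : (d + {a}).card = d.card + 1 := by simp
  have rec' : lX = lW + lD.map (· - 1 / 2) + lD.map (· + 1 / 2) := by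
    rw [hX, hW, hD, eig_rec N d hd a ha hN]
  have hcard : lX.card = lW.card + 2 * lD.card := by rw [rec']; simp; ring
  have nW : Nc n lW := hW ▸ ((nc_eig p1 (by omega)).add (nc_eig hd (by omega))).add
    (nc_eig p2 (by omega))
  have nD : Nc (n - 1) lD := hD ▸ nc_eig p1 (by omega)
  have par : (Even n ∧ Even (n : ℤ) ∧ Odd ((n : ℤ) - 1)) ∨ (Odd n ∧ Odd (n : ℤ) ∧ Even ((n : ℤ) - 1)) := by
    simp only [Int.even_iff, Int.odd_iff, Nat.even_iff, Nat.odd_iff]; omega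
  have mW1 : ∀ x ∈ eig (N + 1) (d + {a}), x ∈ lW := fun x hx => by simp [hW, hx]
  have mW2 : ∀ x ∈ eig N (d + {a, a + 1}), x ∈ lW := fun x hx => by
    rw [hW]; exact Multiset.mem_add.2 (Or.inr hx)
  by_cases h0 : lD = 0
  · refine Or.inl ⟨h0, ?_⟩
    have hz : ∀ r, ¬0 < hp N (d + {a}) r := fun r hr => by
      have := (mem_eig p1).2 ⟨r, hr, rfl⟩
      rw [← hD, h0] at this; simp at this
    by_cases e0 : d.sum + a = d.card + 1
    · exact Or.inl (hX ▸ level_of_hp p3 fun r hr => level_quad p3 (by simp; omega) hr)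
    rcases par with ⟨e1, e2, e3⟩ | ⟨e1, e2, e3⟩
    swap
    · obtain ⟨k, hk⟩ := e3
      exact (hz k (hp_pos_even p1 (by omega) (by omega) (by omega))).elim
    obtain ⟨k, hk⟩ := e3
    have e4 : d.sum + a = d.card + 2 := by
      by_contra e4
      exact hz k (hp_pos_odd p1 (by omega) (by omega) (by omega))
    by_cases a1 : a = 1
    · subst a1
      refine Or.inl (hX ▸ level_of_hp p3 fun r hr => ?_)
      have := level_two_two (N := N + 1) hd (by omega) ⟨k + 1, by simp only [dm]; omega⟩ hr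
      simp only [dm] at this; omega
    by_cases n4 : 4 ≤ n
    · exact Or.inr ⟨e1, n4, by omega, by omega⟩
    refine Or.inl fun x hx => ?_
    rw [rec', h0, hW] at hx
    simp only [Multiset.map_zero, add_zero, Multiset.mem_add] at hx
    rcases hx with (hx | hx) | hx
    · exact level_of_hp p1 (fun r hr => level_quad p1 (by omega) hr) x hx
    · exact level_of_hp hd (fun r hr => level_quad hd (by omega) hr) x hx
    · refine level_of_hp p2 (fun r hr => ?_) x hx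
      have h1 := fun h => hp_neg (N := N) (d := d + {a, a + 1}) (r := r) h
      have h2 := fun h => hp_big (N := N) (r := r) p2 h
      omega
  obtain ⟨y, hy⟩ := Multiset.exists_mem_of_ne_zero h0
  have cD : 0 < lD.card := Multiset.card_pos.2 h0
  have two : ∀ x ∈ lW, ∀ x' ∈ lW, x ^ 2 ≠ x' ^ 2 →
      ∃ x ∈ lW, lD.card * x ^ 2 ≠ (lD.map fun y => y ^ 2 + 1 / 4).sum := fun x hx x' hx' h => by
    by_contra hcon
    push Not at hcon
    exact h (mul_left_cancel₀ (Nat.cast_ne_zero.2 cD.ne') ((hcon x hx).trans (hcon x' hx').symm))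
  refine Or.inr ?_
  by_cases h1 : ∃ x ∈ lW, x ≠ 0
  · refine Or.inl ⟨h1, ?_⟩
    obtain ⟨x, hx, hx0⟩ := h1
    rcases par with ⟨-, e2, e3⟩ | ⟨e1, e2, e3⟩
    · have := nW.three e2 hx hx0
      exact Or.inr ⟨by omega, two x hx 0 (nW.ev e2 x hx) (by simpa using hx0)⟩
    by_cases h2 : ∃ x ∈ lW, x ^ 2 ≠ (1 / 2) ^ 2
    · obtain ⟨x, hx, hx1⟩ := h2
      have := nW.three' e2 hx hx1
      exact Or.inr ⟨by omega, two x hx _ (nW.od e2 x hx) hx1⟩
    push Not at h2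
    by_cases h3 : ∃ y ∈ lD, y ≠ 0
    · obtain ⟨y, hy, hy0⟩ := h3
      have := nD.three e3 hy hy0
      refine Or.inr ⟨by omega, x, hx, ne_of_lt ?_⟩
      rw [h2 x hx, ← nsmul_eq_mul, ← Multiset.sum_replicate, ← Multiset.map_const']
      exact Multiset.sum_lt_sum (fun z _ => by nlinarith [sq_nonneg z])
        ⟨y, hy, by nlinarith [sq_pos_of_ne_zero hy0]⟩
    push Not at h3
    refine Or.inl ⟨e1, fun z hz => ?_⟩
    rw [rec'] at hz
    simp only [Multiset.mem_add, Multiset.mem_map] at hz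
    rcases hz with (hz | ⟨w, hw, rfl⟩) | ⟨w, hw, rfl⟩
    · exact (sq_eq_sq_iff_eq_or_eq_neg.1 (h2 z hz)).imp_right fun e => by rw [e]; ring
    · rw [h3 w hw]; norm_num
    · rw [h3 w hw]; norm_num
  refine Or.inr ?_
  have hz : ∀ r, 0 < hp (N + 1) (d + {a}) r → 2 * r = n := fun r hr => by
    by_contra e
    obtain ⟨x, hx, hx0⟩ := ne_of_hp p1 hr (by omega)
    exact h1 ⟨x, mW1 x hx, hx0⟩
  obtain ⟨r, hr, -⟩ := (mem_eig p1).1 (hD ▸ hy)
  rcases par with ⟨e1, ⟨k, hk⟩, e3⟩ | ⟨e1, e2, ⟨k, hk⟩⟩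
  · have e4 : d.card + 3 ≤ d.sum + a := by
      by_contra e4
      rw [hp_odd_small p1 (by omega) (d3 ▸ e3)] at hr; omega
    have e5 : d.sum + a = d.card + 3 := by
      by_contra e5
      have := hz (k - 1) (hp_pos_level p1 (by omega) (by omega) (by omega))
      omega
    have e6 : n = 2 := by
      by_contra e6
      obtain ⟨x, hx, hx0⟩ := ne_of_hp p2 (hp_pos_level (N := N) (r := k - 2) p2 (by simp; omega)
        (by omega) (by omega)) (by omega)
      exact h1 ⟨x, mW2 x hx, hx0⟩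
    have e7 : ms N (d + {a}) = {0, 1} := by
      ext r
      zify
      rw [count_ms p1, hp_ell p1 (by omega) (by omega)]
      simp only [Multiset.insert_eq_cons, Multiset.count_cons, Multiset.count_singleton]
      split_ifs <;> omega
    have e8 : lD = {-1 / 2, 1 / 2} := by
      rw [hD, eig, e7, d3, e6]; norm_num
    have e9 : 0 < lW.card := Multiset.card_pos_iff_exists_mem.2 ⟨_, mW1 _ ((mem_eig p1).2
      ⟨k, hp_pos_even p1 (by omega) (by omega) (by omega), rfl⟩)⟩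
    push Not at h1
    refine Or.inr ⟨e1, by simp [e8], by simp [e8], h1, ?_⟩
    rw [hcard, e8]; simp; omega
  · have e4 : d.sum + a ≤ d.card + 2 := by
      by_contra e4
      have := hz k (hp_pos_odd p1 (by omega) (by omega) (by omega))
      omega
    have e5 : d.sum + a = d.card + 2 := by
      by_contra e5
      rw [hp_lin p1 (by omega)] at hr; omega
    have e7 : ms N (d + {a}) = {k} := by
      ext r
      zify
      rw [count_ms p1, hp_quad p1 (by omega)]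
      simp only [Multiset.count_singleton]
      split_ifs <;> omega
    push Not at h1
    exact Or.inl ⟨e1, by rw [hD, card_eig, e7]; rfl,
      Multiset.eq_zero_of_forall_notMem fun x hx => nW.ne e2 (h1 x hx ▸ hx)⟩

/-- The list of cases. In the first case the primitive cohomology of `D` vanishes; the grading of
`X` vanishes as well, except for cubics of even dimension at least four. -/
theorem lP_cases (N : ℕ) (d : Multiset ℕ) (hd : ∀ a ∈ d, 1 ≤ a) (a : ℕ) (ha : 1 ≤ a)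
    (hN : d.card + 1 ≤ N) (lX lW lD : Multiset ℝ) (hX : lX = lP (N + 1) (d + {a + 1}))
    (hW : lW = lP (N + 1) (d + {a}) + lP N d + lP N (d + {a, a + 1})) (hD : lD = lP N (d + {a})) :
    (lD = 0 ∧ ((∀ x ∈ lX, x = 0) ∨
      (Even (N - d.card) ∧ 4 ≤ N - d.card ∧ a = 2 ∧ d.sum = d.card))) ∨
    ((∃ x ∈ lW, x ≠ 0) ∧ ((Odd (N - d.card) ∧ ∀ x ∈ lX, x = 1 / 2 ∨ x = -1 / 2) ∨
      (5 ≤ lX.card ∧ ∃ x ∈ lW, lD.card * x ^ 2 ≠ (lD.map fun y => y ^ 2 + 1 / 4).sum))) ∨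
    (Odd (N - d.card) ∧ lD.card = 1 ∧ lW = 0) ∨
    (Even (N - d.card) ∧ lD.card = 2 ∧ (∀ x ∈ lD, x = 1 / 2 ∨ x = -1 / 2) ∧ (∀ x ∈ lW, x = 0) ∧
      5 ≤ lX.card) := by
  have p1 : Pos (d + {a}) := pos_add.2 ⟨hd, by simp [Pos, ha]⟩
  rw [lP_eq _ _ (pos_add.2 ⟨hd, by simp [Pos]⟩)] at hX
  rw [lP_eq _ _ p1, lP_eq _ _ hd, lP_eq _ _ (pos_add.2 ⟨hd, by simp [Pos, ha]⟩)] at hW
  rw [lP_eq _ _ p1] at hD
  exact eig_cases N d hd a ha hN lX lW lD hX hW hD

/-- The list of cases, in the form of `DPIn.cases`. -/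
theorem lP_cases' (N : ℕ) (d : Multiset ℕ) (hd : ∀ a ∈ d, 1 ≤ a) (a : ℕ) (ha : 1 ≤ a)
    (hN : d.card + 1 ≤ N) (lX lW lD : Multiset ℝ) (hX : lX = lP (N + 1) (d + {a + 1}))
    (hW : lW = lP (N + 1) (d + {a}) + lP N d + lP N (d + {a, a + 1})) (hD : lD = lP N (d + {a})) :
    (lD = 0 ∧ ∀ x ∈ lX, x = 0) ∨
    ((∃ x ∈ lW, x ≠ 0) ∧ ((Odd (N - d.card) ∧ ∀ x ∈ lX, x = 1 / 2 ∨ x = -1 / 2) ∨
      (5 ≤ lX.card ∧ ((∃ x ∈ lW, lD.card * x ^ 2 ≠ (lD.map fun y => y ^ 2 + 1 / 4).sum) ∨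
        ∃ x ∈ lW, ∃ y ∈ lW, x ^ 2 ≠ y ^ 2)))) ∨
    (Odd (N - d.card) ∧ lD.card = 1 ∧ lW = 0) ∨
    (Even (N - d.card) ∧ lD.card = 2 ∧ (∀ x ∈ lD, x = 1 / 2 ∨ x = -1 / 2) ∧ (∀ x ∈ lW, x = 0) ∧
      5 ≤ lX.card) := by
  rcases lP_cases N d hd a ha hN lX lW lD hX hW hD with ⟨h0, h | ⟨⟨k, hk⟩, h4, rfl, hs⟩⟩ | h | h
  · exact Or.inl ⟨h0, h⟩
  · have p2 : Pos (d + {2, 2 + 1}) := pos_add.2 ⟨hd, by simp [Pos]⟩
    have p3 : Pos (d + {2}) := pos_add.2 ⟨hd, by simp [Pos]⟩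
    have p4 : Pos (d + {2} + {2}) := pos_add.2 ⟨p3, by simp [Pos]⟩
    have d2 : dm N (d + {2, 2 + 1}) = 2 * k - 2 := by simp [dm]; omega
    obtain ⟨x, hx, hx0⟩ := ne_of_hp p2 (hp_pos_level (N := N) (r := k - 2) p2 (by simp; omega)
      (by omega) (by omega)) (by omega)
    have h0' := (nc_eig p2 rfl).ev ⟨k - 1, by omega⟩ x hx
    have hm : ∀ x ∈ eig N (d + {2, 2 + 1}), x ∈ lW := fun x hx => by
      rw [hW, lP_eq N _ p2]; exact Multiset.mem_add.2 (Or.inr hx)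
    refine Or.inr (Or.inl ⟨⟨x, hm x hx, hx0⟩, Or.inr ⟨?_, Or.inr ⟨x, hm x hx, 0, hm 0 h0',
      by simpa using hx0⟩⟩⟩)
    obtain ⟨M, rfl⟩ : ∃ M, N = M + 1 := ⟨N - 1, by omega⟩
    have h1 := congrArg Multiset.card (eig_rec M (d + {2}) p3 2 one_le_two (by simp; omega))
    obtain ⟨y, hy, hy0⟩ := ne_of_hp p4 (hp_pos_odd (N := M) (r := k - 2) p4 (by simp; omega)
      (by omega) (by simp [dm]; omega)) (by simp [dm]; omega)
    have h2 := (nc_eig p4 rfl).two hy hy0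
    have h3 : 0 < (eig (M + 1) (d + {2} + {2})).card := Multiset.card_pos_iff_exists_mem.2
      ⟨_, (mem_eig p4).2 ⟨k - 1, hp_pos_even p4 (by simp; omega) (by omega)
        (by simp [dm]; omega), rfl⟩⟩
    rw [hX, lP_rec _ d hd 2 one_le_two hN, lP_eq _ _ p2,
      show d + {2, 2 + 1} = d + {2} + {2 + 1} by rw [add_assoc]; rfl]
    simp only [Multiset.card_add, Multiset.card_map] at h1 ⊢
    omega
  · exact Or.inr (Or.inl ⟨h.1, h.2.imp_right fun h => ⟨h.1, Or.inl h.2⟩⟩)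
  · exact Or.inr (Or.inr h)

theorem zero_notMem_lP (N : ℕ) (d : Multiset ℕ) (hd : ∀ a ∈ d, 1 ≤ a) (h : d.card ≤ N)
    (ho : Odd (N - d.card)) : (0 : ℝ) ∉ lP N d := by
  rw [lP_eq _ _ hd]
  exact (nc_eig hd rfl).ne (by rw [Nat.odd_iff] at ho; rw [Int.odd_iff]; simp only [dm]; omega)

end Vale.Agent.P269.Deg
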