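import Vale.Agent.P269.Deg.Tot

/-! The action of a natural operator on a sandwich. -/

namespace Vale.Agent.P269.Deg

open Fock LinearMap TensorProduct Fn

section ring

variable {K : Type*} [CommRing K] [Algebra ℚ K] {Um Up : Type*} [AddCommGroup Um] [Module K Um]
  [AddCommGroup Up] [Module K Up] {A B : Type*} [Ring A] [Algebra K A] [Ring B] [Algebra K B]
  {s : SPar K B} {sA : SPar K A} {b : Bs K Um Up}
  {V : Type*} [AddCommGroup V] [Module K V] {p : Par K V}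
  {T T1 T2 Z Z' : Type*} [AddCommGroup T] [Module K T] [AddCommGroup T1] [Module K T1]
  [AddCommGroup T2] [Module K T2] [AddCommGroup Z] [Module K Z] [AddCommGroup Z'] [Module K Z']
  {h : Rg sA s} {Ob : BOp b} {P : Pc b T} {P1 : Pc b T1} {P2 : Pc b T2} {O : Op P.p}
  {O1 : Op P1.p} {O2 : Op P2.p} {F : Fn P.p s} {F1 : Fn P1.p s} {F2 : Fn P2.p s}
  {R : Fn b.ms sA} {U : Fn b.uni sA}

omit [Algebra ℚ K] in
lemma map_comm' (f : T1 →ₗ[K] V) (g : T2 →ₗ[K] T) (x : T1 ⊗[K] T2) :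
    TensorProduct.comm K _ _ (TensorProduct.map f g x) =
      TensorProduct.map g f (TensorProduct.comm K _ _ x) := (map_comm _ _ _).symm

namespace Pc

lemma D_f1 (x : (T1 × T2) × Um × Up) (F1 : Fn P1.p s) :
    D x (f1 P1 P2 s F1) = f1 P1 P2 s (D x.1.1 F1) := D_pull _ _ _ _

lemma D_f2 (x : (T1 × T2) × Um × Up) (F2 : Fn P2.p s) :
    D x (f2 P1 P2 s F2) = f2 P1 P2 s (D x.1.2 F2) := D_pull _ _ _ _

lemma D_Φ (x : (T1 × T2) × Um × Up) (X : Fn b.uni sA) :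
    D x (Φ P1 P2 h X) = Φ P1 P2 h (D (tρ P1 P2 x) X) := h.D_emb _ _ _ _

lemma FlL.D_io (e1 : τ F1 = F1) (h1 : P1.FlL h F1 R) (P2 : Pc b T2) (x : Up) :
    f1 P1 P2 s (D (P1.io x) F1) = f1 P1 P2 s F1 * Φ P1 P2 h (b.e1 sA (D (0, x) R)) := by
  have := congrArg (D (0, (0, x))) (h1.tq P2)
  rw [D_Vf_of_od (isOd_tq P1 P2), D_mul_of_ev (τ_f1 (P2 := P2) e1), D_f1, D_f1, D_f1, D_Φ, Bs.e1,
    D_pull] at this
  simpa [Bs.e1] using this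

lemma FlR.D_io (h2 : P2.FlR h F2 R) (P1 : Pc b T1) (x : Up) :
    f2 P1 P2 s (D (P2.io x) F2) = -(Φ P1 P2 h (b.e2 sA (D (0, x) R)) * f2 P1 P2 s F2) := by
  have := congrArg (D (inr K (T1 × T2) _ (0, x))) (h2.tq P1)
  rw [D_Vf_of_od (isOd_tq P1 P2), map_neg,
    D_mul_of_zero (isEv_inr _ b.gh) fun _ => by simp [D_f2], D_f2, D_f2, D_Φ, Bs.e2,
    D_pull] at this
  simpa [Bs.e2] using this

lemma τ_f1_Φ (e1 : τ F1 = F1) (hU : τ U = U) :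
    τ (f1 P1 P2 s F1 * Φ P1 P2 h U) = f1 P1 P2 s F1 * Φ P1 P2 h U := by
  rw [map_mul, τ_f1 e1, τ_Φ, hU]

lemma Sw_v (c1 : P1.Comp 1 O1 Ob) (c2 : P2.Comp (-1) O2 Ob) (e1 : τ F1 = F1) (hU : τ U = U) :
    D (Ob.top O1 O2).v (Sw P1 P2 h F1 F2 U) =
      f1 P1 P2 s (D O1.v F1) * Φ P1 P2 h U * f2 P1 P2 s F2 + Sw P1 P2 h F1 F2 (D Ob.uop.v U) +
      f1 P1 P2 s F1 * Φ P1 P2 h U * f2 P1 P2 s (D O2.v F2) := by
  rw [Sw_apply, D_mul_of_ev (τ_f1_Φ (P2 := P2) e1 hU), D_mul_of_ev (τ_f1 (P2 := P2) e1), D_f1, D_f2,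
    D_Φ, add_mul]
  simp [BOp.top, BOp.uop, c1.v, c2.v, Sw_apply]

lemma Sw_a (c1 : P1.Comp 1 O1 Ob) (c2 : P2.Comp (-1) O2 Ob) :
    Vf (Ob.top O1 O2).a (Sw P1 P2 h F1 F2 U) =
      f1 P1 P2 s (Vf O1.a F1) * Φ P1 P2 h U * f2 P1 P2 s F2 + Sw P1 P2 h F1 F2 (Vf Ob.uop.a U) +
      f1 P1 P2 s F1 * Φ P1 P2 h U * f2 P1 P2 s (Vf O2.a F2) := by
  have e := (Ob.top O1 O2).ha
  have a1 : Vf (Ob.top O1 O2).a (f1 P1 P2 s F1) = f1 P1 P2 s (Vf O1.a F1) :=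
    Vf_pull (a := (Ob.top O1 O2).a) (b := O1.a) _ (isEv_p1 P1 P2) (fun _ => rfl) F1
  have a2 : Vf (Ob.top O1 O2).a (f2 P1 P2 s F2) = f2 P1 P2 s (Vf O2.a F2) :=
    Vf_pull (a := (Ob.top O1 O2).a) (b := O2.a) _ (isEv_p2 P1 P2) (fun _ => rfl) F2
  have a3 : Vf (Ob.top O1 O2).a (Φ P1 P2 h U) = Φ P1 P2 h (Vf Ob.uop.a U) :=
    h.Vf_emb (a := (Ob.top O1 O2).a) (a' := Ob.uop.a) _ (isEv_tρ P1 P2)
      (fun _ => by simp [BOp.top, BOp.uop, c1.a_res, c2.a_res]) U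
  rw [Sw_apply, Vf_mul_ev e, Vf_mul_ev e, add_mul, a1, a2, a3, Sw_apply]

lemma Sw_f : sm s (Ob.top O1 O2).f * Sw P1 P2 h F1 F2 U =
    f1 P1 P2 s (sm s O1.f * F1) * Φ P1 P2 h U * f2 P1 P2 s F2 +
      Sw P1 P2 h F1 F2 (sm sA Ob.uop.f * U) +
      f1 P1 P2 s F1 * Φ P1 P2 h U * f2 P1 P2 s (sm s O2.f * F2) := by
  have e : Φ P1 P2 h (sm sA Ob.uop.f * U) =
      sm s (pull _ (isEv_snd (P1.p.prod P2.p) _) Ob.fg) * Φ P1 P2 h U := by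
    rw [Φ, Rg.emb_def, map_mul, pull_sm, mapc_sm_mul, BOp.uop,
      pull_pull _ _ _ _ _ (isEv_snd _ _) fun _ => by simp]
    rfl
  have e2 := sm_comm (s := s) (τ_f2 (P1 := P1) O2.hf) (f1 P1 P2 s F1 * Φ P1 P2 h U)
  have e3 := sm_comm (s := s) (f := pull _ (isEv_snd (P1.p.prod P2.p) _) Ob.fg)
    (by rw [τ_pull, Ob.hfg]) (f1 P1 P2 s F1)
  have e4 : f1 P1 P2 s (sm s O1.f) = sm s (f1 P1 P2 _ O1.f) := rfl
  have e5 : f2 P1 P2 s (sm s O2.f) = sm s (f2 P1 P2 _ O2.f) := rfl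
  rw [Sw_apply, Sw_apply, e, map_mul, map_mul, ← mul_assoc (f1 P1 P2 s F1), ← e3,
    ← mul_assoc (_ * Φ P1 P2 h U), e4, e5, ← e2]
  simp only [BOp.top, map_add, add_mul, mul_assoc]
  abel

lemma Sw_c1 (c1 : P1.Comp 1 O1 Ob) (e1 : τ F1 = F1) (h1 : P1.FlL h F1 R) :
    Dx (mulT _ (TensorProduct.map (inl K _ _ ∘ₗ inl K _ _) (inl K _ _ ∘ₗ inl K _ _) O1.c))
      (Sw P1 P2 h F1 F2 U) = f1 P1 P2 s (Dx (mulT _ O1.c) F1) * Φ P1 P2 h U * f2 P1 P2 s F2 +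
      Sw P1 P2 h F1 F2 (Dx (mulT _ (TensorProduct.map (uw K Um Up) (uw K Um Up) Ob.cb)) U +
        (bil ((b.e1 sA).toLinearMap ∘ₗ D.flip R ∘ₗ inr K _ _ ∘ₗ b.pp.σ) (D.flip U ∘ₗ uw K Um Up)
          Ob.g1 + bil ((b.e1 sA).toLinearMap ∘ₗ D.flip R ∘ₗ inr K _ _) (D.flip U ∘ₗ uw K Um Up)
          Ob.g2)) := by
  obtain ⟨i1, hi⟩ : ∃ i1 : T1 →ₗ[K] (T1 × T2) × Um × Up, i1 = inl K _ _ ∘ₗ inl K _ _ := ⟨_, rfl⟩
  have hi1 : IsEv P1.p (P1.tot P2) i1 := fun _ => by simp [hi]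
  have z1 : ∀ x, D (i1 x) (f2 P1 P2 s F2) = 0 := fun _ => by simp [D_f2, hi]
  have e : D.flip (Φ P1 P2 h U) ∘ₗ i1 = (Φ P1 P2 h ∘ₗ D.flip U ∘ₗ uw K Um Up) ∘ₗ P1.res :=
    LinearMap.ext fun _ => by simp [D_Φ, hi]
  have e' : tρ P1 P2 ∘ₗ i1 = uw K Um Up ∘ₗ P1.res := LinearMap.ext fun _ => by simp [hi]
  have hc := c1.cb
  have k1 := congrArg (bil ((D.flip (f1 P1 P2 s F1) ∘ₗ (P1.tot P2).σ) ∘ₗ i1)
    (Φ P1 P2 h ∘ₗ D.flip U ∘ₗ uw K Um Up)) c1.c1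
  have k2 := congrArg (bil (D.flip (f1 P1 P2 s F1) ∘ₗ i1)
    (Φ P1 P2 h ∘ₗ D.flip U ∘ₗ uw K Um Up)) c1.c2
  rw [one_smul, bil_map, bil_map, comp_id, comp_id] at k1 k2
  rw [one_smul] at hc
  rw [← map_bil (mulLeft K (f1 P1 P2 s F1) ∘ₗ Φ P1 P2 h)
    (X := (b.e1 sA).toLinearMap ∘ₗ D.flip R ∘ₗ inr K _ _ ∘ₗ b.pp.σ)
    (Y := D.flip U ∘ₗ uw K Um Up) fun v w => by
      simp [D_f1, hi, P1.hio v, h1.D_io e1, Φ_mul, mul_assoc]] at k1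
  rw [← map_bil (mulLeft K (f1 P1 P2 s F1) ∘ₗ Φ P1 P2 h)
    (X := (b.e1 sA).toLinearMap ∘ₗ D.flip R ∘ₗ inr K _ _)
    (Y := D.flip U ∘ₗ uw K Um Up) fun v w => by
      simp [D_f1, hi, h1.D_io e1, Φ_mul, mul_assoc]] at k2
  have a1 : Dx (mulT _ (TensorProduct.map i1 i1 O1.c)) (f1 P1 P2 s F1) =
      f1 P1 P2 s (Dx (mulT _ O1.c) F1) := by
    rw [f1, Dx_mulT_pull, map_map, show (fst K T1 T2 ∘ₗ fst K _ (Um × Up)) ∘ₗ i1 = LinearMap.id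
      from hi ▸ rfl, TensorProduct.map_id, id_apply]
  have a2 : Dx (mulT _ (TensorProduct.map i1 i1 O1.c)) (Φ P1 P2 h U) =
      Φ P1 P2 h (Dx (mulT _ (TensorProduct.map (uw K Um Up) (uw K Um Up) Ob.cb)) U) := by
    rw [Φ, h.Dx_mulT_emb, map_map, e', ← map_map, hc]
  rw [← hi, Sw_apply, Sw_apply, Dx_mul_right hi1 z1, Dx_mulT_mul (τ_f1 e1) _ (O1.hc.map hi1 hi1),
    crs_eq, map_comm', bil_map, bil_map, e, k1, k2, a1, a2]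
  simp only [comp_apply, mulLeft_apply, map_add, mul_add, add_mul]
  abel

lemma Sw_c2 (c2 : P2.Comp (-1) O2 Ob) (e1 : τ F1 = F1) (h2 : P2.FlR h F2 R) (hU : τ U = U) :
    Dx (mulT _ (TensorProduct.map (inl K _ _ ∘ₗ inr K _ _) (inl K _ _ ∘ₗ inr K _ _) O2.c))
      (Sw P1 P2 h F1 F2 U) = f1 P1 P2 s F1 * Φ P1 P2 h U * f2 P1 P2 s (Dx (mulT _ O2.c) F2) +
      Sw P1 P2 h F1 F2 (-Dx (mulT _ (TensorProduct.map (uv K Um Up) (uv K Um Up) Ob.cb)) U +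
        (bil (D.flip U ∘ₗ uv K Um Up ∘ₗ b.pm.σ) ((b.e2 sA).toLinearMap ∘ₗ D.flip R ∘ₗ inr K _ _)
          (TensorProduct.comm K _ _ Ob.g2) +
        bil (D.flip U ∘ₗ uv K Um Up) ((b.e2 sA).toLinearMap ∘ₗ D.flip R ∘ₗ inr K _ _)
          (TensorProduct.comm K _ _ Ob.g1))) := by
  obtain ⟨i2, hi⟩ : ∃ i2 : T2 →ₗ[K] (T1 × T2) × Um × Up, i2 = inl K _ _ ∘ₗ inr K _ _ := ⟨_, rfl⟩
  have hi2 : IsEv P2.p (P1.tot P2) i2 := fun _ => by simp [hi]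
  have z2 : ∀ x, D (i2 x) (f1 P1 P2 s F1) = 0 := fun _ => by simp [D_f1, hi]
  have e : D.flip (f1 P1 P2 s F1 * Φ P1 P2 h U) ∘ₗ i2 =
      (mulLeft K (f1 P1 P2 s F1) ∘ₗ Φ P1 P2 h ∘ₗ D.flip U ∘ₗ uv K Um Up) ∘ₗ P2.res :=
    LinearMap.ext fun _ => by simp [D_mul_of_ev (τ_f1 (P2 := P2) e1), D_f1, D_Φ, hi]
  have e0 : (D.flip (f1 P1 P2 s F1 * Φ P1 P2 h U) ∘ₗ (P1.tot P2).σ) ∘ₗ i2 =
      (mulLeft K (f1 P1 P2 s F1) ∘ₗ Φ P1 P2 h ∘ₗ D.flip U ∘ₗ uv K Um Up ∘ₗ b.pm.σ) ∘ₗ P2.res :=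
    LinearMap.ext fun x => by
      have := LinearMap.congr_fun e (P2.p.σ x)
      simp only [comp_apply, hi2 x, P2.hres x] at this ⊢
      exact this
  have e' : tρ P1 P2 ∘ₗ i2 = uv K Um Up ∘ₗ P2.res := LinearMap.ext fun _ => by simp [hi]
  have hc := c2.cb
  have k1 := congrArg (bil (mulLeft K (f1 P1 P2 s F1) ∘ₗ Φ P1 P2 h ∘ₗ D.flip U ∘ₗ uv K Um Up ∘ₗ
    b.pm.σ) (D.flip (f2 P1 P2 s F2) ∘ₗ i2)) c2.c3
  have k2 := congrArg (bil (mulLeft K (f1 P1 P2 s F1) ∘ₗ Φ P1 P2 h ∘ₗ D.flip U ∘ₗ uv K Um Up)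
    (D.flip (f2 P1 P2 s F2) ∘ₗ i2)) c2.c4
  rw [neg_smul, one_smul, map_neg, bil_map, bil_map, comp_id, comp_id] at k1 k2
  rw [neg_smul, one_smul] at hc
  rw [← map_bil (-Sw P1 P2 h F1 F2) (X := D.flip U ∘ₗ uv K Um Up ∘ₗ b.pm.σ)
    (Y := (b.e2 sA).toLinearMap ∘ₗ D.flip R ∘ₗ inr K _ _) fun v w => by
      simp [D_f2, hi, h2.D_io, Φ_mul, mul_assoc, Sw_apply]] at k1
  rw [← map_bil (-Sw P1 P2 h F1 F2) (X := D.flip U ∘ₗ uv K Um Up)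
    (Y := (b.e2 sA).toLinearMap ∘ₗ D.flip R ∘ₗ inr K _ _) fun v w => by
      simp [D_f2, hi, h2.D_io, Φ_mul, mul_assoc, Sw_apply]] at k2
  have a1 : Dx (mulT _ (TensorProduct.map i2 i2 O2.c)) (f2 P1 P2 s F2) =
      f2 P1 P2 s (Dx (mulT _ O2.c) F2) := by
    rw [f2, Dx_mulT_pull, map_map, show (snd K T1 T2 ∘ₗ fst K _ (Um × Up)) ∘ₗ i2 = LinearMap.id
      from hi ▸ rfl, TensorProduct.map_id, id_apply]
  have a2 : Dx (mulT _ (TensorProduct.map i2 i2 O2.c)) (Φ P1 P2 h U) =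
      -Φ P1 P2 h (Dx (mulT _ (TensorProduct.map (uv K Um Up) (uv K Um Up) Ob.cb)) U) := by
    rw [Φ, h.Dx_mulT_emb, map_map, e', ← map_map, hc]
    simp only [map_neg, LinearMap.neg_apply]
  rw [← hi, Sw_apply, Dx_mulT_mul (τ_f1_Φ e1 hU) _ (O2.hc.map hi2 hi2),
    Dx_mul_left (τ_f1 e1) z2, crs_eq, map_comm', bil_map, bil_map, e, e0, k1, k2, a1, a2]
  simp only [map_add, map_neg, LinearMap.neg_apply, neg_neg, Sw_apply, mul_neg, neg_mul]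
  abel

lemma Sw_cg (e1 : τ F1 = F1) (c : (Um × Up) ⊗[K] (Um × Up)) :
    Dx (mulT _ (TensorProduct.map (inr K _ _) (inr K _ _) c)) (Sw P1 P2 h F1 F2 U) =
      Sw P1 P2 h F1 F2 (Dx (mulT _ (TensorProduct.map (ug K Um Up) (ug K Um Up) c)) U) := by
  rw [Sw_apply, Dx_mul_right (isEv_inr _ _) fun _ => by simp [D_f2],
    Dx_mul_left (τ_f1 (P2 := P2) e1) fun _ => by simp [D_f1], Φ, h.Dx_mulT_emb, map_map,
    show tρ P1 P2 ∘ₗ inr K _ _ = ug K Um Up from LinearMap.ext fun _ => by simp]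
  rfl

theorem act_Sw (c1 : P1.Comp 1 O1 Ob) (c2 : P2.Comp (-1) O2 Ob) (e1 : τ F1 = F1)
    (h1 : P1.FlL h F1 R) (h2 : P2.FlR h F2 R) (hU : τ U = U) :
    (Ob.top O1 O2).act s (Sw P1 P2 h F1 F2 U) =
      f1 P1 P2 s (O1.act s F1) * Φ P1 P2 h U * f2 P1 P2 s F2 +
      f1 P1 P2 s F1 * Φ P1 P2 h U * f2 P1 P2 s (O2.act s F2) + Sw P1 P2 h F1 F2 (Ob.G0 R U) := by
  have e0 : (Ob.top O1 O2).c =
      TensorProduct.map (inl K _ _ ∘ₗ inl K _ _) (inl K _ _ ∘ₗ inl K _ _) O1.c +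
      TensorProduct.map (inl K _ _ ∘ₗ inr K _ _) (inl K _ _ ∘ₗ inr K _ _) O2.c +
      TensorProduct.map (inr K _ _) (inr K _ _) Ob.cg := rfl
  have e2 : Ob.uop.c = TensorProduct.map (uw K Um Up) (uw K Um Up) Ob.cb -
    TensorProduct.map (uv K Um Up) (uv K Um Up) Ob.cb +
    TensorProduct.map (ug K Um Up) (ug K Um Up) Ob.cg := rfl
  rw [Op.act_apply, Sw_v c1 c2 e1 hU, Sw_a c1 c2, Sw_f, e0, map_add, map_add, map_add,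
    map_add, LinearMap.add_apply, LinearMap.add_apply, Sw_c1 c1 e1 h1, Sw_c2 c2 e1 h2 hU, Sw_cg e1]
  simp only [BOp.G0, Op.act_apply, e2, map_add, map_sub, map_neg, LinearMap.add_apply,
    LinearMap.sub_apply, mul_add, add_mul]
  abel

end Pc

end ring

end Vale.Agent.P269.Deg
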