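import Vale.Agent.P269.Deg.Ext

/-! Exact smoothings, the chains of relative constraints, the symmetry of the connection. -/

set_option linter.unusedSectionVars false

namespace Vale.Agent.P269.Deg

open Fock LinearMap TensorProduct Fn

variable {K : Type*} [Field K] [Algebra ℚ K] {𝕂 : Type*} [CommRing 𝕂] [Algebra K 𝕂]
  {Um Up : Type*} [AddCommGroup Um] [Module K Um]
  [AddCommGroup Up] [Module K Up] {A B : Type*} [Ring A] [Algebra K A] [Ring B] [Algebra K B]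
  [Algebra 𝕂 A] [IsScalarTower K 𝕂 A] [Algebra 𝕂 B] [IsScalarTower K 𝕂 B]
  {s : SPar K B} {sA : SPar K A} [s.Lin 𝕂] [sA.Lin 𝕂] {b : Bs K Um Up}
  {V W : Type*} [AddCommGroup V] [Module K V] [AddCommGroup W] [Module K W] {p : Par K V}
  {q : Par K W}
  {T T' T1 T2 Z Z' Z2 N : Type*} [AddCommGroup T] [Module K T] [AddCommGroup T'] [Module K T']
  [AddCommGroup T1] [Module K T1] [AddCommGroup T2] [Module K T2] [AddCommGroup Z] [Module K Z]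
  [AddCommGroup Z'] [Module K Z'] [AddCommGroup Z2] [Module K Z2] [AddCommGroup N] [Module K N]
  {ħ : 𝕂ˣ} {h : Rg sA s}

lemma Fn.pull_congr {f g : V →ₗ[K] W} (hf : IsEv p q f) (hg : IsEv p q g) (e : ∀ v, f v = g v)
    (F : Fn q s) : pull f hf F = pull g hg F := by
  obtain rfl : f = g := LinearMap.ext e
  rfl

namespace Pc

/-- An exact smoothing: `p` is the general fibre, `q` the total space. -/
structure Ex (P1 : Pc b T1) (P2 : Pc b T2) (p : Par K V) (q : Par K W) where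
  θ : W →ₗ[K] T1 × T2
  sp : W →ₗ[K] V
  j : V →ₗ[K] W
  i : V →ₗ[K] (T1 × T2) × Um × Up
  k : Up →ₗ[K] W
  hθ : IsEv q (P1.p.prod P2.p) θ
  hsp : IsEv q p sp
  hj : IsEv p q j
  hi : IsEv p (P1.tot P2) i
  mat : ∀ w, P1.res (θ w).1 = P2.res (θ w).2
  mv : ∀ t1 t2, P1.res t1 = P2.res t2 → ∃ w, θ w = (t1, t2)
  spj : ∀ x, sp (j x) = x
  cl : ∀ x, P1.tq P2 (i x) = 0
  ht : ∀ w, ∃ y, (θ w, 0) = i (sp w) + P1.tq P2 y
  θk : ∀ a, θ (k a) = (P1.io a, P2.io a)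
  spk : ∀ a, sp (k a) = 0

variable {P1 : Pc b T1} {P2 : Pc b T2} {F1 : Fn P1.p s} {F2 : Fn P2.p s} {R : Fn b.ms sA}
  {U : Fn b.uni sA} {Ob : BOp b} {O1 : Op P1.p} {O2 : Op P2.p} {O : Op p} {G : Fn p s} {κ : 𝕂}

lemma Sw_cl (e1 : τ F1 = F1) (f1 : P1.FlL h F1 R) (f2 : P2.FlR h F2 R) (hU : Bs.IsU R U) :
    Vf (P1.tq P2) (Sw P1 P2 h F1 F2 U) = 0 := by rw [tq_Sw e1 f1 f2, hU.cl, map_zero]

lemma pull_Sw_θ {θ : W →ₗ[K] T1 × T2} (hθ : IsEv q (P1.p.prod P2.p) θ)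
    (mat : ∀ w, P1.res (θ w).1 = P2.res (θ w).2) (hL : ∀ x, F1.ap x ∈ h.NL) (hU : Bs.IsU R U) :
    pull _ (isEv_comp (isEv_inl _ b.gh) hθ) (Sw P1 P2 h F1 F2 U) =
      pull _ hθ (pull _ (isEv_fst _ _) F1 * pull _ (isEv_snd _ _) F2) := by
  have h1 := isEv_comp (isEv_fst _ _) hθ
  have h2 := isEv_comp (isEv_snd _ _) hθ
  rw [map_mul, pull_pull _ _ _ _ _ h1 fun _ => rfl, pull_pull _ _ _ _ _ h2 fun _ => rfl,
    ← pull_Sw_U h1 h2 mat hU hL]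
  exact pull_congr _ _ (fun _ => rfl) _

/-- The constraint on the refined series descends. -/
theorem descend {i : V →ₗ[K] (T1 × T2) × Um × Up} {hi : IsEv p (P1.tot P2) i}
    (r : (Ob.top O1 O2).Rs O (P1.tq P2) i hi) (e1 : τ F1 = F1) (f1 : P1.FlL h F1 R)
    (f2 : P2.FlR h F2 R) (hU : Bs.IsU R U)
    (hY : ∃ Y, (Ob.top O1 O2).ac ħ (Sw P1 P2 h F1 F2 U) - κ • Sw P1 P2 h F1 F2 U =
      Vf (P1.tq P2) Y) :
    O.ac ħ (pull i hi (Sw P1 P2 h F1 F2 U)) = κ • pull i hi (Sw P1 P2 h F1 F2 U) := by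
  obtain ⟨Y, hY⟩ := hY
  have := congrArg (pull i hi) hY
  rwa [pull_Vf_zero _ _ r.ker, map_sub, pull_sc, r.pull_ac ħ (isOd_tq _ _) (Sw_cl e1 f1 f2 hU),
    sub_eq_zero] at this

/-- The refined series is killed by the ghost number. -/
theorem kill_h {i : V →ₗ[K] (T1 × T2) × Um × Up} (hi : IsEv p (P1.tot P2) i) (hU : Bs.IsU R U)
    {a : Module.End K V} (e : ∀ x, i (a x) = (0, ((i x).2.1, -(i x).2.2))) :
    Vf a (pull i hi (Sw P1 P2 h F1 F2 U)) = 0 := by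
  rw [Vf_pull (b := tn K Um Up T1 T2) _ _ e, tn_Sw, hU.gh, map_zero, map_zero]

/-- The refined series is killed by the raising operator. -/
theorem kill_e {i : V →ₗ[K] (T1 × T2) × Um × Up} (hi : IsEv p (P1.tot P2) i)
    (cl : ∀ x, P1.tq P2 (i x) = 0) (e1 : τ F1 = F1) (f1 : P1.FlL h F1 R) (f2 : P2.FlR h F2 R)
    (hU : Bs.IsU R U) (hR : τ R = -R) {u : Up →ₗ[K] Um} (hu : IsEv b.pp b.pm u)
    (sym : Vf ((u ∘ₗ snd K Um Up).prod 0) R = 0) {a : Module.End K V}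
    (e : ∀ x, i (a x) = (0, (u (i x).2.2, 0))) : Vf a (pull i hi (Sw P1 P2 h F1 F2 U)) = 0 := by
  set c : Module.End K ((T1 × T2) × Um × Up) :=
    inr K _ _ ∘ₗ inl K _ _ ∘ₗ u ∘ₗ snd K _ _ ∘ₗ snd K _ _ with hc
  set d : Module.End K ((Um × Um) × Um × Up) := uw K Um Up ∘ₗ u ∘ₗ snd K _ _ ∘ₗ snd K _ _ with hd
  have ec : IsEv (P1.tot P2) (P1.tot P2) c := fun v => by simp [hc, hu _]
  have od : IsOd b.uni b.uni d := fun v => by simp [hd, hu _]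
  have a1 : Vf d (b.e1 sA R) = 0 := by
    rw [Bs.e1, Vf_pull (b := (u ∘ₗ snd K Um Up).prod 0) _ _ fun v => by simp [hd], sym, map_zero]
  have a2 : Vf d (b.e2 sA R) = 0 := Vf_pull_zero _ _ (fun v => by simp [hd, Prod.ext_iff]) _
  have a3 := congrArg (Vf d) hU.cl
  rw [Bs.Qh_apply, hU.ev, map_sub, map_add, Vf_mul_od od, Vf_mul_od od, a1, a2, Bs.e1, τ_pull, hR,
    map_neg, ← Bs.e1, Vf_Vf_od od b.isOd_uq, map_zero] at a3
  have a4 : Vf (b.uq * d + d * b.uq) U = Bs.Qh R (Vf d U) := by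
    rw [Bs.Qh_apply, τ_Vf_od od, hU.ev, ← sub_eq_zero, ← a3]
    simp only [zero_mul, mul_zero, neg_mul]
    abel
  have a5 : Vf c (Sw P1 P2 h F1 F2 U) = Vf (P1.tq P2) (Sw P1 P2 h F1 F2 (Vf d U)) := by
    rw [tq_Sw e1 f1 f2, ← a4, Sw_apply, Vf_mul_ev ec, Vf_mul_ev ec, Pc.f1, Pc.f2,
      Vf_pull_zero _ _ fun v => by simp [hc], Vf_pull_zero _ _ fun v => by simp [hc], Φ,
      h.Vf_emb (a' := b.uq * d + d * b.uq) _ _ fun v => by simp [hc, hd]]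
    simp [Sw_apply, Pc.f1, Pc.f2, Φ]
  rw [Vf_pull (b := c) _ _ fun v => by simp [e, hc], a5, pull_Vf_zero _ _ cl]

namespace Ex

variable (E : Ex P1 P2 p q)

/-- The degeneration formula. -/
def G1 (F1 : Fn P1.p s) (F2 : Fn P2.p s) (G : Fn p s) : Prop :=
  pull _ E.hsp G = pull _ E.hθ (pull _ (isEv_fst _ _) F1 * pull _ (isEv_snd _ _) F2)

variable {E}

theorem G1.kinv (g : E.G1 F1 F2 G) : Kinv P1 P2 F1 F2 := by
  have hψ : IsEv (q.prod b.pp.opp) (P1.tot P2) (E.θ.prodMap (inr K Um Up)) :=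
    isEv_prodMap' E.hθ (isEv_inr _ _)
  refine res0_of_pull _ hψ (fun v hv => ?_) ?_
  · obtain ⟨w, hw⟩ := E.mv _ _ ((mem_W1 _ _).1 hv).1
    exact ⟨(w, v.2.2), by simp [hw, Prod.ext_iff, ((mem_W1 _ _).1 hv).2]⟩
  · have hθ := isEv_comp E.hθ (isEv_fst q b.pp.opp)
    rw [← Vf_pull (a := (E.k ∘ₗ snd K _ _).prod 0) _ _ fun v => by
        simp [E.θk, E.mat], map_mul, f1, f2,
      pull_pull _ _ _ _ _ (isEv_comp (isEv_fst _ _) hθ) fun _ => rfl,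
      pull_pull _ _ _ _ _ (isEv_comp (isEv_snd _ _) hθ) fun _ => rfl,
      ← pull_pull _ hθ _ (isEv_fst _ _) _ _ fun _ => rfl,
      ← pull_pull _ hθ _ (isEv_snd _ _) _ _ fun _ => rfl, ← map_mul,
      ← pull_pull _ (isEv_fst _ _) _ E.hθ _ _ fun _ => rfl, ← g,
      pull_pull _ _ _ _ _ (isEv_comp E.hsp (isEv_fst _ _)) fun _ => rfl]
    exact Vf_pull_zero _ _ (fun v => by simp [E.spk]) _

lemma pull_cl {X : Fn (P1.tot P2) s} (hX : Vf (P1.tq P2) X = 0) :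
    pull _ (isEv_comp (isEv_inl _ b.gh) E.hθ) X = pull _ E.hsp (pull _ E.hi X) := by
  rw [pull_pull _ _ _ _ _ (isEv_comp E.hi E.hsp) fun _ => rfl]
  exact pull_eq_of_htpy (isOd_tq _ _) hX _ _ (fun w => by simp [E.mat, Prod.ext_iff])
    (fun w => E.cl _) E.ht

theorem G1.pull_Sw (g : E.G1 F1 F2 G) (e1 : τ F1 = F1) (hL : ∀ x, F1.ap x ∈ h.NL)
    (f1 : P1.FlL h F1 R) (f2 : P2.FlR h F2 R) (hU : Bs.IsU R U) :
    pull _ E.hi (Sw P1 P2 h F1 F2 U) = G := by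
  have := congrArg (pull _ E.hj) (E.pull_cl (Sw_cl e1 f1 f2 hU))
  rw [pull_Sw_θ E.hθ E.mat hL hU, ← g, pull_pull_id _ _ _ _ E.spj, pull_pull_id _ _ _ _ E.spj]
    at this
  exact this.symm

theorem G1.vm (g : E.G1 F1 F2 G) (c1 : P1.Comp 1 O1 Ob) (c2 : P2.Comp (-1) O2 Ob)
    (r : (Ob.top O1 O2).Rs O (P1.tq P2) E.i E.hi) (e1 : τ F1 = F1) (hL : ∀ x, F1.ap x ∈ h.NL)
    (f1 : P1.FlL h F1 R) (f2 : P2.FlR h F2 R) (hU : Bs.IsU R U) (v : O.ac ħ G = κ • G) :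
    VM ħ P1 P2 h Ob O1 O2 F1 F2 U κ := by
  have c := Sw_cl e1 f1 f2 hU
  refine res0_of_pull _ (isEv_comp (isEv_inl _ b.gh) E.hθ) (fun v hv => ?_) ?_
  · obtain ⟨w, hw⟩ := E.mv _ _ ((mem_W0 _ _).1 hv).1
    exact ⟨w, by simp [hw, Prod.ext_iff, ((mem_W0 _ _).1 hv).2]⟩
  · rw [E.pull_cl (by rw [map_sub, Vf_sc, (BOp.cm_tq c1 c2).ac, c, Cp.ac_zero]; simp), map_sub,
      pull_sc, r.pull_ac ħ (isOd_tq _ _) c, g.pull_Sw e1 hL f1 f2 hU, v, sub_self, map_zero]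

variable (E) in
/-- Spectators. -/
@[reducible] def xt (pn : Par K N) : Ex (P1.xt pn) (P2.xt pn) (p.prod pn) (q.prod pn) where
  θ := ((fst K _ _ ∘ₗ E.θ).prodMap .id).prod ((snd K _ _ ∘ₗ E.θ).prodMap .id)
  sp := E.sp.prodMap .id
  j := E.j.prodMap .id
  i := ixt N E.i
  k := inl K _ _ ∘ₗ E.k
  hθ := isEv_prod (isEv_prodMap' (isEv_comp (isEv_fst _ _) E.hθ) (isEv_id _))
    (isEv_prodMap' (isEv_comp (isEv_snd _ _) E.hθ) (isEv_id _))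
  hsp := isEv_prodMap' E.hsp (isEv_id _)
  hj := isEv_prodMap' E.hj (isEv_id _)
  hi := isEv_ixt pn E.hi
  mat w := by simp [E.mat]
  mv t1 t2 e := by
    simp only [prodMap_apply, Prod.ext_iff, id_apply] at e
    obtain ⟨w, hw⟩ := E.mv _ _ e.1
    exact ⟨(w, t1.2), by simp [hw, Prod.ext_iff, e.2]⟩
  spj x := by simp [E.spj]
  cl x := by
    have := E.cl x.1
    simp only [tq_apply, Prod.ext_iff] at this
    simpa [Prod.ext_iff, and_assoc] using this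
  ht w := by
    obtain ⟨y, hy⟩ := E.ht w.1
    refine ⟨(((y.1.1, 0), (y.1.2, 0)), ((y.2.1, 0), y.2.2)), ?_⟩
    simp only [tq_apply, Prod.ext_iff] at hy
    simpa [Prod.ext_iff, and_assoc] using hy
  θk a := by simp [E.θk]
  spk a := by simp [E.spk, Prod.ext_iff]

theorem G1.z {pn : Par K N} {F1 : Fn (P1.xt pn).p s} {F2 : Fn (P2.xt pn).p s}
    {G : Fn (p.prod pn) s} (g : (E.xt pn).G1 F1 F2 G) : E.G1 (z0 F1) (z0 F2) (z0 G) := by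
  have := congrArg (pull _ (isEv_inl q pn)) g
  have h1 := isEv_comp (isEv_inl _ pn) (isEv_comp (isEv_fst _ _) E.hθ)
  have h2 := isEv_comp (isEv_inl _ pn) (isEv_comp (isEv_snd _ _) E.hθ)
  simp only [map_mul] at this
  rw [pull_pull _ _ _ _ _ (isEv_comp (isEv_inl _ pn) E.hsp) fun _ => rfl,
    pull_pull _ (E.xt pn).hθ _ _ _ (isEv_comp (isEv_fst _ _) (E.xt pn).hθ) fun _ => rfl,
    pull_pull _ (E.xt pn).hθ _ _ _ (isEv_comp (isEv_snd _ _) (E.xt pn).hθ) fun _ => rfl,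
    pull_pull _ _ _ _ _ h1 fun _ => rfl, pull_pull _ _ _ _ _ h2 fun _ => rfl] at this
  rw [G1, map_mul, pull_pull _ _ _ _ _ (isEv_comp (isEv_inl _ pn) E.hsp) fun _ => rfl, this,
    pull_pull _ _ _ _ _ (isEv_comp (isEv_fst _ _) E.hθ) fun _ => rfl,
    pull_pull _ _ _ _ _ (isEv_comp (isEv_snd _ _) E.hθ) fun _ => rfl,
    pull_pull _ _ _ _ _ h1 fun _ => rfl, pull_pull _ _ _ _ _ h2 fun _ => rfl]

end Ex

end Pc

namespace Cp

variable {P' : Cp b T' Z'} {P : Cp b T Z} {F' : Fn P'.p s} {F : Fn P.p s} {R : Fn b.ms sA}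
  {U : Fn b.uni sA} {Ob : BOp b} {O' : Op P'.p} {O : Op P.p} {P1 : Pc b T1} {F1 : Fn P1.p s}
  {O1 : Op P1.p} {κ0 κ1 κ2 : 𝕂}

lemma Caps.z {pn : Par K N} {F' : Fn (P'.xt pn).p s} {F : Fn (P.xt pn).p s}
    (c : Caps h (P'.xt pn) (P.xt pn) F' F) : Caps h P' P (z0 F') (z0 F) :=
  ⟨c.canL.z, c.canR.z, pull_mem c.memL _ _, pull_mem c.memR _ _,
    by rw [Cp.nul_z, Cp.nul_z]; exact c.tl⟩

/-- The chain of the double point step. -/
theorem Caps.dp {P2 : Pc b T2} {F2 : Fn P2.p s} {O2 : Op P2.p} (l : h.Lin 𝕂)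
    (c : Caps h P' P F' F) (f' : P'.FlL h F' R) (f : P.FlR h F R) (hU : Bs.IsU R U)
    (e1 : τ F1 = F1) (hL : ∀ x, F1.ap x ∈ h.NL) (hR : ∀ x, F2.ap x ∈ h.NR) (f1 : P1.FlL h F1 R)
    (f2 : P2.FlR h F2 R) (c' : P'.Comp 1 O' Ob) (c0 : P.Comp (-1) O Ob) (c1 : P1.Comp 1 O1 Ob)
    (c2 : P2.Comp (-1) O2 Ob) (v0 : Pc.VM ħ P'.toPc P.toPc h Ob O' O F' F U κ0)
    (v1 : Pc.VM ħ P1 P.toPc h Ob O1 O F1 F U κ1) (v2 : Pc.VM ħ P'.toPc P2 h Ob O' O2 F' F2 U κ2) :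
    ∃ Y, (Ob.top O1 O2).ac ħ (Pc.Sw P1 P2 h F1 F2 U) - (κ1 + κ2 - κ0) • Pc.Sw P1 P2 h F1 F2 U =
      Vf (P1.tq P2) Y := by
  obtain ⟨M, r', r⟩ := c.exists_rv l v0 c' c0 f' f hU
  have := Pc.mn l c1 c2 e1 f1 f2 hU.ev (c.canR.rl l v1 c1 c0 e1 hL f1 f hU r)
    (c.canL.rr l v2 c' c2 c.memNL hR f' f2 hU r')
    (exists_dfc l c.canL c.memNL c.canR f' f hU c' c0 r' r)
  rwa [sub_zero, ← add_sub_assoc] at this

/-- The chain of the blow-up step. -/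
theorem Caps.bl {Q : Cp b T2 Z2} {FQ : Fn Q.p s} {OQ : Op Q.p} (l : h.Lin 𝕂)
    (c : Caps h P' P F' F) (cQ : Q.CanR h FQ) (f' : P'.FlL h F' R) (f : P.FlR h F R)
    (hU : Bs.IsU R U) (e1 : τ F1 = F1) (hL : ∀ x, F1.ap x ∈ h.NL) (hR : ∀ x, FQ.ap x ∈ h.NR)
    (f1 : P1.FlL h F1 R) (f2 : Q.FlR h FQ R) (c' : P'.Comp 1 O' Ob) (c0 : P.Comp (-1) O Ob)
    (c1 : P1.Comp 1 O1 Ob) (c2 : Q.Comp (-1) OQ Ob)
    (v0 : Pc.VM ħ P'.toPc P.toPc h Ob O' O F' F U κ0)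
    (v1 : Pc.VM ħ P1 Q.toPc h Ob O1 OQ F1 FQ U κ1)
    (v2 : Pc.VM ħ P'.toPc Q.toPc h Ob O' OQ F' FQ U κ2) :
    ∃ Y, (Ob.top O1 O).ac ħ (Pc.Sw P1 P.toPc h F1 F U) -
      (κ1 - (κ2 - κ0) + 0) • Pc.Sw P1 P.toPc h F1 F U = Vf (P1.tq P.toPc) Y := by
  obtain ⟨M, r', r⟩ := c.exists_rv l v0 c' c0 f' f hU
  exact Pc.mn l c1 c0 e1 f1 f hU.ev (cQ.rl l v1 c1 c2 e1 hL f1 f2 hU
    (c.canL.rr l v2 c' c2 c.memNL hR f' f2 hU r')) r
    (exists_dfc l c.canL c.memNL c.canR f' f hU c' c0 r' r)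

/-- The equivariant degeneration formula gives the symmetry of the connection. -/
theorem Caps.sym (c : Caps h P' P F' F) (f' : P'.FlL h F' R) (f : P.FlR h F R) {G : Fn P'.p s}
    (e1 : τ G = G) (hL : ∀ x, G.ap x ∈ h.NL) {u : Up →ₗ[K] Um} (hu : IsEv b.pp b.pm u) {t : K}
    (ht : t ≠ 0) {θ : W →ₗ[K] T' × T} (hθ : IsEv q (P'.p.prod P.p) θ)
    (mat : ∀ w, P'.res (θ w).1 = P.res (θ w).2)
    (mv : ∀ t1 t2, P'.res t1 = P.res t2 → ∃ w, θ w = (t1, t2))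
    (g : ∀ v, pull _ hθ
      (D (P'.io v, P.io v) (pull _ (isEv_fst _ _) G * pull _ (isEv_snd _ _) F) +
        t • D (P'.sec (u v), 0) (pull _ (isEv_fst _ _) F' * pull _ (isEv_snd _ _) F)) = 0) :
    Vf ((u ∘ₗ snd K Um Up).prod 0) R = 0 := by
  set a : Module.End K (T' × Up) := (P'.sec ∘ₗ u ∘ₗ snd K T' Up).prod 0 with ha
  set a' : Module.End K ((T' × T) × Um × Up) :=
    (inl K _ _ ∘ₗ P'.sec ∘ₗ u ∘ₗ snd K _ _ ∘ₗ snd K _ _).prod 0 with ha'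
  have oa : IsOd P'.ts P'.ts a := fun v => by simp [ha, P'.hsec _, hu _]
  have oa' : IsOd (P'.tot P.toPc) (P'.tot P.toPc) a' := fun v => by simp [ha', P'.hsec _, hu _]
  have hK : Res0 (Pc.W1 P'.toPc P.toPc)
      (Vf (P'.tq P.toPc) (P'.f1 P.toPc s G * P'.f2 P.toPc s F) +
        t • Vf a' (P'.f1 P.toPc s F' * P'.f2 P.toPc s F)) := by
    have hψ : IsEv (q.prod b.pp.opp) (P'.tot P.toPc) (θ.prodMap (inr K Um Up)) :=
      isEv_prodMap' hθ (isEv_inr _ _)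
    refine res0_of_pull _ hψ (fun v hv => ?_) ?_
    · obtain ⟨w, hw⟩ := mv _ _ ((Pc.mem_W1 _ _).1 hv).1
      exact ⟨(w, v.2.2), by simp [hw, Prod.ext_iff, ((Pc.mem_W1 _ _).1 hv).2]⟩
    · have e (X : Fn P'.p s) : P'.f1 P.toPc s X * P'.f2 P.toPc s F = pull _ (isEv_fst _ b.gh)
          (pull _ (isEv_fst _ _) X * pull _ (isEv_snd _ _) F) := by
        rw [map_mul, pull_pull _ _ _ _ _ (P'.isEv_p1 P.toPc) fun _ => rfl,
          pull_pull _ _ _ _ _ (P'.isEv_p2 P.toPc) fun _ => rfl]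
        rfl
      rw [map_add, map_smul, pull_Vf', pull_Vf', ← map_smul, ← map_add]
      refine ins_eq_zero fun v => ?_
      have := congrArg (pull _ (isEv_fst q b.pp.opp)) (g v.2)
      rw [pull_pull _ _ _ _ _ (isEv_comp hθ (isEv_fst _ _)) fun _ => rfl, map_zero,
        ← pull_pull _ hψ _ (isEv_fst _ b.gh) _ _ fun _ => rfl, map_add, map_add, map_smul,
        map_smul] at this
      simpa [e, D_pull, ha', mat, -map_mul, Prod.mk_zero_zero] using this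
  have hm : IsEv P'.ts b.pm (P'.res ∘ₗ fst K _ _) := isEv_comp P'.hres (isEv_fst _ _)
  have hφ : IsEv (P'.ts.prod P.pz) (P'.tot P.toPc)
      (((fst K _ _ ∘ₗ fst K _ _).prod (P.pt _)).prod (inr K _ _ ∘ₗ snd K _ _ ∘ₗ fst K _ _)) :=
    isEv_prod (isEv_prod (fun _ => rfl) (P.isEv_pt hm)) fun _ => by simp
  have := hK.pull _ hφ fun _ => by simp [Pc.mem_W1, P.res_sec, P.res_nul]
  have b1 : Vf a' (P'.f1 P.toPc s F') = pull _ (P'.isEv_s1 P.toPc) (Vf a (P'.f0 s F')) := by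
    rw [← Vf_pull (a := a') _ _ fun v => by simp [ha, ha'], Pc.f0,
      pull_pull _ _ _ _ _ (P'.isEv_p1 P.toPc) fun _ => rfl, Pc.f1]
  have b2 : Vf a' (P'.f2 P.toPc s F) = 0 := Vf_pull_zero _ _ (fun v => by simp [ha']) _
  rw [Vf_mul_od (Pc.isOd_tq _ _), Vf_mul_od oa', b1, b2, f.tq, Pc.tq_f1, Pc.τ_f1 e1, mul_neg,
    mul_zero, add_zero, ← mul_assoc, ← sub_eq_add_neg, ← sub_mul, ← smul_mul_assoc, ← add_mul,
    map_mul, map_add, map_smul, map_sub, map_mul, Pc.f1, Pc.f2, Pc.Φ, Bs.e2,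
    pull_pull _ _ _ _ _ (isEv_fst _ _) fun _ => rfl,
    pull_pull _ _ _ _ _ (isEv_comp (isEv_fst _ _) (isEv_fst _ _)) fun _ => rfl,
    pull_pull _ _ _ _ _ (isEv_fst _ _) fun _ => rfl,
    pull_pull _ _ _ _ _ (P.isEv_pt hm) fun _ => rfl,
    h.emb_pull _ _ _ _ _ (isEv_comp (isEv_snd _ _) (Pc.isEv_tρ _ _)) fun _ => rfl,
    h.pull_emb _ _ _ _ _ (isEv_comp P'.isEv_rs (isEv_fst _ _))
      fun _ => by simp [P.res_sec, P.res_nul],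
    ← pull_pull _ (isEv_fst _ _) _ (isEv_fst _ _) _ _ fun _ => rfl,
    ← h.pull_emb _ P'.isEv_rs _ (isEv_fst _ _) _ _ fun _ => rfl, ← map_mul, ← map_sub,
    ← map_smul, ← map_add] at this
  have e : Vf P'.iq (P'.f0 s G) - P'.f0 s G * h.emb _ P'.isEv_rs R + t • Vf a (P'.f0 s F') = 0 :=
    c.canR.cancel hm (fun x => add_mem (sub_mem (P'.iq_mem hL x)
    (h.mul_emb_mem _ _ h.σNL h.NLm (P'.f0_mem hL) R x)) (h.NL.smul_mem _ (by
      rw [Vf_eq_pre]; exact P'.f0_mem c.memNL _))) this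
  have e2 := congrArg (Vf P'.iq) e
  have mc := congrArg (h.emb _ P'.isEv_rs) (c.canL.mc f')
  have t0 (X : Fn P'.p s) (hX : τ X = X) : τ (P'.f0 s X) = P'.f0 s X := by rw [Pc.f0, τ_pull, hX]
  have z : a * P'.iq + P'.iq * a = 0 := LinearMap.ext fun v => by simp [ha]
  rw [map_add, h.emb_mul, map_zero, add_eq_zero_iff_neg_eq] at mc
  rw [map_add, map_sub, map_smul, Vf_Vf_self P'.isOd_iq fun _ => by simp, Vf_mul_od P'.isOd_iq,
    Vf_Vf_od P'.isOd_iq oa, z, f', Vf_mul_od oa, t0 _ e1, t0 _ c.canL.ev,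
    h.Vf_emb (a' := b.cq) _ _ fun _ => by simp [P'.hc], ← mc,
    h.Vf_emb (a' := (u ∘ₗ snd K Um Up).prod 0) _ _ fun _ => by simp [ha, P'.res_sec],
    eq_add_of_sub_eq (eq_sub_of_add_eq e), map_zero, map_zero] at e2
  refine c.canL.eq_zero' ?_
  rw [← smul_eq_zero_iff_right ht, ← neg_eq_zero, ← e2]
  simp only [add_mul, sub_mul, zero_mul, smul_mul_assoc, mul_neg, mul_assoc, LinearMap.zero_apply,
    smul_add, smul_neg, smul_zero]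
  abel

end Cp

end Vale.Agent.P269.Deg
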