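import Vale.Agent.P269.Deg.Sd

/-! Restriction of quantised operators to the cohomology of a complex. -/

namespace Vale.Agent.P269.Deg

open Fock Finset LinearMap TensorProduct Fn

namespace RsP

lemma exists_ginv {V : Type} [AddCommGroup V] [Module ℂ V] (q : Module.End ℂ V) :
    ∃ s : Module.End ℂ V, ∀ y, q (s (q y)) = q y := by
  obtain ⟨g, hg⟩ := q.rangeRestrict.exists_rightInverse_of_surjective q.range_rangeRestrict
  obtain ⟨r, hr⟩ := (LinearMap.range q).subtype.exists_leftInverse_of_injective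
    (Submodule.ker_subtype _)
  refine ⟨g ∘ₗ r, fun y => ?_⟩
  have h1 : r (q y) = ⟨q y, y, rfl⟩ := LinearMap.congr_fun hr ⟨q y, y, rfl⟩
  rw [comp_apply, h1]
  exact congrArg Subtype.val (LinearMap.congr_fun hg ⟨q y, y, rfl⟩)

lemma exists_htpy {V W : Type} [AddCommGroup V] [Module ℂ V] [AddCommGroup W] [Module ℂ W]
    {q : Module.End ℂ V} {i : W →ₗ[ℂ] V} {π : V →ₗ[ℂ] W} (hqq : ∀ x, q (q x) = 0)
    (cl : ∀ x, q (i x) = 0) (h1 : ∀ x, π (i x) = x) (h2 : ∀ x, π (q x) = 0)
    (ker : ∀ z, q z = 0 → ∃ x y, z = i x + q y) :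
    ∃ κ : Module.End ℂ V, ∀ z, q (κ z) + κ (q z) = z - i (π z) := by
  obtain ⟨s, hs⟩ := exists_ginv q
  refine ⟨(1 - i ∘ₗ π) * s * (1 - i ∘ₗ π) * (1 - s * q), fun z => ?_⟩
  obtain ⟨x, y, h⟩ := ker (z - s (q z)) (by simp [hs])
  have e : z = i x + q y + s (q z) := by rw [← h]; abel
  simp only [Module.End.mul_apply, LinearMap.sub_apply, Module.End.one_apply, comp_apply, h,
    map_add, map_sub, h1, h2, hqq, cl, map_zero, sub_zero, hs]
  conv_rhs => rw [e]
  simp only [map_add, h1, h2, add_zero]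
  abel

section
variable {H H' : Type} [AddCommGroup H] [Module ℂ H] [AddCommGroup H'] [Module ℂ H']

lemma pos_ll (f : H →ₗ[ℂ] H') (y : LL H) : pos ℂ H' (ll f y) = vv f (pos ℂ H y) := by
  ext m; simp

lemma ll_single (f : H →ₗ[ℂ] H') (j : ℤ) (v : H) :
    ll f (Finsupp.single j v) = Finsupp.single j (f v) := by simp

lemma vv_single (f : H →ₗ[ℂ] H') (j : ℕ) (v : H) :
    vv f (Finsupp.single j v) = Finsupp.single j (f v) := by simp

lemma up_vv (f : H →ₗ[ℂ] H') (v : VV H) : up ℂ H' (vv f v) = ll f (up ℂ H v) := by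
  induction v using Finsupp.induction_linear with
  | zero => simp
  | add a b ha hb => simp only [map_add, ha, hb]
  | single m v => rw [vv_single, up_single, up_single, ll_single]

variable {p : Par ℂ H} {p' : Par ℂ H'}

lemma pull_qf (f : H →ₗ[ℂ] H') (hf : IsEv p p' f) (Q : SymB p) (Q' : SymB p')
    (h : ∀ v w, Q'.1 (f v) (f w) = Q.1 v w) : pull f hf (qf Q') = qf Q :=
  eq_of_D (by simp) fun v => by
    rw [D_pull, D_qf, D_qf, pull_lin]
    exact congrArg _ (LinearMap.ext (h v))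

variable {ι : Type} [Fintype ι] (fr : Frame p ι)

/-- The diagonal. -/
noncomputable def dg : H ⊗[ℂ] H := ∑ a, fr.e a ⊗ₜ fr.f a

lemma dg_closed {q : Module.End ℂ H} (hs : ∀ x y, fr.η (q x) y + fr.η (p.σ x) (q y) = 0) :
    TensorProduct.map q LinearMap.id (dg fr) + TensorProduct.map p.σ q (dg fr) = 0 := by
  have e1 : ∀ b, q (fr.e b) = ∑ c, fr.η (fr.f c) (q (fr.e b)) • fr.e c := fun b => (fr.left _).symm
  have e2 : ∀ c, ∑ b, fr.η (fr.f c) (q (fr.e b)) • fr.f b = -q (p.σ (fr.f c)) := fun c => by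
    rw [← fr.right (q (p.σ (fr.f c))), ← sum_neg_distrib]
    refine sum_congr rfl fun b _ => ?_
    have := hs (p.σ (fr.f c)) (fr.e b)
    rw [p.inv] at this
    rw [← neg_smul, eq_neg_of_add_eq_zero_right this]
  have e3 : ∑ b, q (fr.e b) ⊗ₜ[ℂ] fr.f b = ∑ c, fr.e c ⊗ₜ[ℂ] (-q (p.σ (fr.f c))) := by
    simp only [← e2, tmul_sum, tmul_smul]
    rw [sum_comm]
    refine sum_congr rfl fun b _ => ?_
    conv_lhs => rw [e1 b]
    simp only [sum_tmul, smul_tmul']
  simp only [dg, map_sum, map_tmul, id_apply, e3, ← sum_add_distrib]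
  refine sum_eq_zero fun c _ => ?_
  rw [fr.he, fr.hf, map_smul, tmul_neg, tmul_smul, smul_tmul', neg_add_cancel]

end

end RsP

open RsP

theorem rs_of {C X : Coh} {q : Module.End ℂ C.H} (hq : IsOd C.p C.p q) (hqq : q * q = 0)
    (hs : ∀ x y, C.fr.η (q x) y + C.fr.η (C.p.σ x) (q y) = 0) {i : X.H →ₗ[ℂ] C.H}
    (hi : IsEv X.p C.p i) (iso : ∀ x y, C.fr.η (i x) (i y) = X.fr.η x y) (cl : ∀ x, q (i x) = 0)
    (ker : ∀ z, q z = 0 → ∃ x y, z = i x + q y) (one : ∃ y, C.fr.one = i X.fr.one + q y)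
    {AC : Module.End ℂ (LL C.H)} (hC : Qd C.fr AC) (hc : AC * Fock.cst q = Fock.cst q * AC)
    {A : Module.End ℂ (LL X.H)} (hA : Qd X.fr A)
    (ht : ∀ x, ∃ y, AC (ll i x) = ll i (A x) + ll q y) :
    (Op.of C.fr AC hC.quad).Rs (Op.of X.fr A hA.quad) (vv q) (vv i) (isEv_vv hi) := by
  have hc' : ∀ y, AC (ll q y) = ll q (AC y) := fun y => LinearMap.congr_fun hc y
  have hqi : ∀ x y, C.fr.η (q x) (i y) = 0 := fun x y => by simpa [cl] using hs x (i y)
  have hΩ : ∀ x y w, C.fr.Ω (ll i x + ll q y) (ll i w) = X.fr.Ω x w := fun x y w => by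
    induction w using Finsupp.induction_linear with
    | zero => simp
    | add a b ha hb => simp only [map_add, LinearMap.add_apply] at ha hb ⊢; rw [← ha, ← hb]
    | single j v => rw [ll_single, Frame.Ω_single_right, Frame.Ω_single_right]; simp [iso, hqi]
  obtain ⟨y0, hy0⟩ := one
  have hdil : ∃ y, AC (up ℂ _ C.fr.dil) = ll i (A (up ℂ _ X.fr.dil)) + ll q y := by
    obtain ⟨y, hy⟩ := ht (up ℂ _ X.fr.dil)
    refine ⟨y + AC (Finsupp.single ((1 : ℕ) : ℤ) y0), ?_⟩
    rw [map_add, ← add_assoc, ← hy, ← hc', ← map_add, Frame.dil, Frame.dil, up_single, up_single,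
      ll_single, ll_single, ← Finsupp.single_add, hy0]
  obtain ⟨y1, hy1⟩ := hdil
  have hod : IsOd (C.p.fs ℕ) (C.p.fs ℕ) (vv q) := fun v => by ext m; simp [hq _]
  refine ⟨fun w => by ext m; simp [cl], ⟨-pos ℂ _ y1, ?_⟩, fun w => ?_, ?_, ?_⟩
  · simp only [Op.of, Frame.blk, comp_apply, hy1, map_add, pos_ll, map_neg]
    abel
  · obtain ⟨y, hy⟩ := ht (up ℂ _ w)
    exact ⟨pos ℂ _ y, by simp only [Op.of, Frame.blk, comp_apply, up_vv, hy, map_add, pos_ll]⟩
  · let π : C.H →ₗ[ℂ] X.H := ∑ a, (C.fr.η.flip (i (X.fr.e a))).smulRight (X.fr.f a)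
    have hπ : ∀ z, π z = ∑ a, C.fr.η z (i (X.fr.e a)) • X.fr.f a := fun z => by
      simp [π, LinearMap.sum_apply]
    obtain ⟨κ, hκ⟩ := exists_htpy (π := π) (fun x => LinearMap.congr_fun hqq x) cl
      (fun x => by simp only [hπ, iso, X.fr.right]) (fun x => by simp [hπ, hqi]) ker
    have d1 : TensorProduct.map LinearMap.id (i ∘ₗ π) (dg C.fr) =
        TensorProduct.map i i (dg X.fr) := by
      simp only [dg, map_sum, map_tmul, id_apply, comp_apply, hπ, map_smul, tmul_sum, tmul_smul]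
      rw [sum_comm]
      refine sum_congr rfl fun a _ => ?_
      conv_rhs => rw [← C.fr.left (i (X.fr.e a))]
      simp only [sum_tmul, smul_tmul']
    have d2 : dg C.fr = TensorProduct.map i i (dg X.fr) +
        (TensorProduct.map q LinearMap.id (TensorProduct.map C.p.σ κ (dg C.fr)) +
          TensorProduct.map C.p.σ q (TensorProduct.map C.p.σ κ (dg C.fr))) := by
      have e := congrArg (TensorProduct.map C.p.σ κ) (dg_closed C.fr hs)
      have key : ∀ c : C.H ⊗[ℂ] C.H, c = TensorProduct.map LinearMap.id (i ∘ₗ π) c +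
          (TensorProduct.map q LinearMap.id (TensorProduct.map C.p.σ κ c) +
            TensorProduct.map C.p.σ q (TensorProduct.map C.p.σ κ c)) +
          TensorProduct.map C.p.σ κ
            (TensorProduct.map q LinearMap.id c + TensorProduct.map C.p.σ q c) := fun c => by
        induction c with
        | zero => simp
        | tmul x y =>
          have := congrArg (fun z => x ⊗ₜ[ℂ] z) (hκ y)
          simp only [tmul_add, tmul_sub] at this
          simp only [map_tmul, map_add, id_apply, comp_apply, C.p.inv, hq x, neg_tmul]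
          linear_combination (norm := abel) -this
        | add x y hx hy =>
          simp only [map_add] at hx hy ⊢
          linear_combination (norm := abel) hx + hy
      have := key (dg C.fr)
      rwa [e, map_zero, add_zero, d1] at this
    obtain ⟨N1, hN1⟩ := hC.quad.fin
    obtain ⟨N2, hN2⟩ := hA.quad.fin
    have step : ∀ m : ℕ, mulT _ (∑ a, (-1 : ℂ) ^ (m + 1) • (Finsupp.single m (C.fr.e a) ⊗ₜ
        pos ℂ _ (AC (Finsupp.single (-(m : ℤ) - 1) (C.fr.f a))))) -
        mulT _ (TensorProduct.map (vv i) (vv i) (∑ a, (-1 : ℂ) ^ (m + 1) •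
          (Finsupp.single m (X.fr.e a) ⊗ₜ
            pos ℂ _ (A (Finsupp.single (-(m : ℤ) - 1) (X.fr.f a)))))) ∈
        LinearMap.range (dv (C.p.fs ℕ) (vv q)) := fun m => by
      let L : C.H →ₗ[ℂ] VV C.H := Finsupp.lsingle m
      let R : C.H →ₗ[ℂ] VV C.H := pos ℂ _ ∘ₗ AC ∘ₗ Finsupp.lsingle (-(m : ℤ) - 1)
      have hL : ∀ v, L v = Finsupp.single m v := fun _ => rfl
      have hR : ∀ v, R v = pos ℂ _ (AC (Finsupp.single (-(m : ℤ) - 1) v)) := fun _ => rfl
      have e1 : ∑ a, Finsupp.single m (C.fr.e a) ⊗ₜ[ℂ]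
          pos ℂ _ (AC (Finsupp.single (-(m : ℤ) - 1) (C.fr.f a))) =
          TensorProduct.map L R (dg C.fr) := by simp only [dg, map_sum, map_tmul, hL, hR]
      have e2 : ∀ c : C.H ⊗[ℂ] C.H, mulT _ (TensorProduct.map L R
          (TensorProduct.map q LinearMap.id c + TensorProduct.map C.p.σ q c)) =
          dv (C.p.fs ℕ) (vv q) (mulT _ (TensorProduct.map L R c)) := fun c => by
        rw [dv_mulT_od hod]
        congr 1
        induction c with
        | zero => simp
        | tmul x y =>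
          simp only [map_add, map_tmul, id_apply, hL, hR, vv_single, Par.fs_σ_single, ← pos_ll,
            ← hc', ll_single]
        | add x y hx hy =>
          simp only [map_add] at hx hy ⊢
          linear_combination (norm := abel) hx + hy
      rw [← smul_sum, ← smul_sum, map_smul, map_smul, map_smul, ← smul_sub, e1, d2, map_add,
        map_add, e2, add_sub_right_comm]
      refine Submodule.smul_mem _ _ (add_mem ?_ ⟨_, rfl⟩)
      simp only [dg, map_sum, map_tmul, ← sum_sub_distrib, hL, hR]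
      refine sum_mem fun a _ => ?_
      obtain ⟨y, hy⟩ := ht (Finsupp.single (-(m : ℤ) - 1) (X.fr.f a))
      refine ⟨mulT _ (Finsupp.single m (i (X.p.σ (X.fr.e a))) ⊗ₜ pos ℂ _ y), ?_⟩
      rw [dv_mulT_od hod, ← ll_single, hy]
      simp only [map_add, map_tmul, vv_single, cl, Finsupp.single_zero, zero_tmul,
        zero_add, Par.fs_σ_single, hi _, X.p.inv, pos_ll, tmul_add, add_sub_cancel_left]
    have := Submodule.smul_mem _ (hf ℂ)
      (sum_mem (t := range (max N1 N2)) fun m _ => step m)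
    obtain ⟨y, hy⟩ := this
    refine ⟨y, ?_⟩
    simp only [Op.of]
    rw [hy, casTen_eq (N := max N1 N2) fun m hm => hN1 m (le_of_max_le_left hm),
      casTen_eq (N := max N1 N2) fun m hm => hN2 m (le_of_max_le_right hm), sum_sub_distrib]
    simp only [map_smul, map_sum, smul_sub]
    abel
  · simp only [Op.of]
    rw [map_sub, pull_lin, pull_qf (vv i) (isEv_vv hi) (X.fr.qf A) _ fun v w => ?_]
    · congr 2
      refine LinearMap.ext fun w => ?_
      rw [comp_apply, Frame.neg_apply, Frame.neg_apply, hy1, up_vv, hΩ]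
    · obtain ⟨y, hy⟩ := ht (up ℂ _ v)
      rw [hC.quad.qf_val, hA.quad.qf_val, Frame.neg_apply, Frame.neg_apply, up_vv, up_vv, hy, hΩ]

end Vale.Agent.P269.Deg
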