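import Vale.Agent.P269.Deg.Sd
import Vale.Agent.P269.Deg.Rs

/-! The part of a natural operator that only depends on the divisor. -/

namespace Vale.Agent.P269.Deg

open Fock Finset LinearMap TensorProduct Fn

namespace CmpP

section gen

variable {K : Type*} [CommRing K] [Algebra ℚ K] {V W U : Type*} [AddCommGroup V] [Module K V]
  [AddCommGroup W] [Module K W] [AddCommGroup U] [Module K U] {p : Par K V} {q : Par K W}
  {r : Par K U}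

/-- The quadratic function of an odd bilinear form. -/
noncomputable def bq (B : V →ₗ[K] Module.Dual K V) : Sc p := ins (lin ∘ₗ B)

@[simp] lemma bq_ap_one (B : V →ₗ[K] Module.Dual K V) : (bq B : Sc p).ap 1 = 0 := ins_ap_one _

lemma D_bq {B : V →ₗ[K] Module.Dual K V} (hB : ∀ v w, B (p.σ v) w = -B v (p.σ w)) (v : V) :
    D v (bq B : Sc p) = lin (B v + B.flip v) := by
  have e : (lin (B.flip v) : Sc p) =
      ins ((cst (p := p) (s := SPar.triv K K)).toLinearMap ∘ₗ B.flip v) := rfl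
  rw [bq, D_ins, map_add lin, e]
  congr 1
  refine ins_congr fun w => ?_
  simp only [LinearMap.add_apply, comp_apply, D_lin, hB, p.σ_od, map_neg, neg_neg, flip_apply,
    AlgHom.toLinearMap_apply]
  rw [← map_add, ← map_add, p.ev_add_od]

lemma map_dv {f : V →ₗ[K] W} (hf : IsEv p q f) {a : Module.End K V} {b : Module.End K W}
    (ha : IsOd p p a) (hb : IsOd q q b) (h : ∀ v, f (a v) = b (f v)) (x : S p) :
    Fock.map f hf (dv p a x) = dv q b (Fock.map f hf x) := by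
  induction x using Fock.induction with
  | h1 => simp
  | hι v x hx => simp [dv_mul_od ha, dv_mul_od hb, hx, h, hf v]
  | hadd x y hx hy => simp only [map_add, hx, hy]
  | hsmul c x hx => simp only [map_smul, hx]

/-- Transport of a restriction along an even map of complexes. -/
theorem rs_map {O : Op p} {O' : Op q} {O2 : Op r} {𝔮 : Module.End K V} {𝔯 : Module.End K U}
    {i : W →ₗ[K] V} {hi : IsEv q p i} (h : O.Rs O' 𝔮 i hi) (h𝔮 : IsOd p p 𝔮) (h𝔯 : IsOd r r 𝔯)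
    {Φ : V →ₗ[K] U} (hΦ : IsEv p r Φ) (e : ∀ v, Φ (𝔮 v) = 𝔯 (Φ v)) (hv : O2.v = Φ O.v)
    (ha : ∀ v, O2.a (Φ v) = Φ (O.a v)) (hc : O2.c = TensorProduct.map Φ Φ O.c)
    (hf : pull Φ hΦ O2.f = O.f) {j : W →ₗ[K] U} (hj : IsEv q r j) (ej : ∀ w, Φ (i w) = j w) :
    O2.Rs O' 𝔯 j hj := by
  refine ⟨fun w => by rw [← ej, ← e, h.ker, map_zero], ?_, fun w => ?_, ?_, ?_⟩
  · obtain ⟨y, hy⟩ := h.v
    exact ⟨Φ y, by rw [hv, hy, map_add, ej, e]⟩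
  · obtain ⟨y, hy⟩ := h.a w
    exact ⟨Φ y, by rw [← ej, ha, hy, map_add, ej, e]⟩
  · obtain ⟨y, hy⟩ := h.c
    refine ⟨Fock.map Φ hΦ y, ?_⟩
    rw [hc, ← map_mulT Φ hΦ, hy, map_add, map_dv hΦ h𝔮 h𝔯 e, map_mulT, TensorProduct.map_map,
      show Φ ∘ₗ i = j from LinearMap.ext ej]
  · rw [← pull_pull i hi Φ hΦ j hj ej, hf, h.f]

end gen

section loop

variable {H H' : Type} [AddCommGroup H] [Module ℂ H] [AddCommGroup H'] [Module ℂ H']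
  {p : Par ℂ H} {p' : Par ℂ H'} {ι ι' : Type} [Fintype ι] [Fintype ι'] {fr : Frame p ι}
  {fr' : Frame p' ι'}

@[simp] lemma ll_apply (f : H →ₗ[ℂ] H') (y : LL H) (n : ℤ) : ll f y n = f (y n) := rfl

@[simp] lemma vv_apply (f : H →ₗ[ℂ] H') (y : VV H) (n : ℕ) : vv f y n = f (y n) := rfl

lemma ll_single (f : H →ₗ[ℂ] H') (n : ℤ) (v : H) :
    ll f (Finsupp.single n v) = Finsupp.single n (f v) := by simp

lemma vv_single (f : H →ₗ[ℂ] H') (n : ℕ) (v : H) :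
    vv f (Finsupp.single n v) = Finsupp.single n (f v) := by simp

lemma pos_ll (f : H →ₗ[ℂ] H') (y : LL H) : pos ℂ H' (ll f y) = vv f (pos ℂ H y) := by
  ext; rfl

lemma up_vv (f : H →ₗ[ℂ] H') (y : VV H) : up ℂ H' (vv f y) = ll f (up ℂ H y) := by
  ext j
  rcases lt_or_ge j 0 with hj | hj
  · simp [up_apply_neg _ hj]
  · obtain ⟨m, rfl⟩ := Int.eq_ofNat_of_zero_le hj; simp

lemma isEv_ll {f : H →ₗ[ℂ] H'} (hf : IsEv p p' f) : IsEv (p.fs ℤ) (p'.fs ℤ) (ll f) := fun v => by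
  ext m; simp [hf _]

lemma Ω_ll {f : H →ₗ[ℂ] H'} {g : H' →ₗ[ℂ] H} (h : ∀ x t, fr'.η (f x) t = fr.η x (g t))
    (y : LL H) (y' : LL H') : fr'.Ω (ll f y) y' = fr.Ω y (ll g y') := by
  induction y using Finsupp.induction_linear with
  | zero => simp
  | add a b ha hb => simp only [map_add, LinearMap.add_apply, ha, hb]
  | single i v => rw [ll_single, Frame.Ω_single_left, Frame.Ω_single_left, h, ll_apply]

lemma evT_cas {A : Module.End ℂ (LL H)} (hA : IsEv (p.fs ℤ) (p.fs ℤ) A) {n : ℤ} (hn : Up n A) :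
    EvT (p.fs ℕ) (p.fs ℕ) (casTen fr A) := by
  rw [casTen_eq hn.fin]
  refine (EvT.sum _ fun m _ => EvT.sum _ fun a _ => EvT.smul ?_ _).smul _
  rw [EvT, TensorProduct.map_tmul, isEv_pos p, hA, Par.fs_σ_single, Par.fs_σ_single, fr.he, fr.hf,
    ← Finsupp.smul_single, ← Finsupp.smul_single, map_smul, map_smul, smul_tmul_smul,
    neg_one_pow_mul_self, one_smul]

/-- Moving a map across the diagonal classes. -/
lemma sum_diag {N : Type*} [AddCommGroup N] [Module ℂ N] (B : H' →ₗ[ℂ] H →ₗ[ℂ] N)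
    {f : H →ₗ[ℂ] H'} {g : H' →ₗ[ℂ] H} (h : ∀ t x, fr'.η t (f x) = fr.η (g t) x) :
    ∑ a, B (fr'.e a) (g (fr'.f a)) = ∑ b, B (f (fr.e b)) (fr.f b) := by
  have e1 : ∀ a, B (fr'.e a) (g (fr'.f a)) =
      ∑ b, fr.η (g (fr'.f a)) (fr.e b) • B (fr'.e a) (fr.f b) := fun a => by
    conv_lhs => rw [← fr.right (g (fr'.f a))]
    simp [map_sum]
  have e2 : ∀ b, B (f (fr.e b)) (fr.f b) =
      ∑ a, fr.η (g (fr'.f a)) (fr.e b) • B (fr'.e a) (fr.f b) := fun b => by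
    conv_lhs => rw [← fr'.left (f (fr.e b))]
    simp [map_sum, h]
  rw [sum_congr rfl fun a _ => e1 a, sum_comm, sum_congr rfl fun b _ => e2 b]

/-- The tensor `z ^ m x ⊗ pos A (z ^ (-m - 1) y)`. -/
noncomputable def ct (H' : Type) [AddCommGroup H'] [Module ℂ H'] (A : Module.End ℂ (LL H))
    (m : ℕ) : H' →ₗ[ℂ] H →ₗ[ℂ] VV H' ⊗[ℂ] VV H :=
  (TensorProduct.mk ℂ _ _).compl₁₂ (Finsupp.lsingle m)
    (pos ℂ H ∘ₗ A ∘ₗ Finsupp.lsingle (-(m : ℤ) - 1))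

lemma ct_apply (A : Module.End ℂ (LL H)) (m : ℕ) (x : H') (y : H) : ct H' A m x y =
    Finsupp.single m x ⊗ₜ pos ℂ H (A (Finsupp.single (-(m : ℤ) - 1) y)) := rfl

lemma cas_eq {A : Module.End ℂ (LL H)} {n : ℤ} (hn : Up n A) : casTen fr A =
    hf ℂ • ∑ m ∈ range n.toNat, (-1 : ℂ) ^ (m + 1) • ∑ a, ct H A m (fr.e a) (fr.f a) := by
  rw [casTen_eq hn.fin]
  simp only [smul_sum, ct_apply]

variable {A : Module.End ℂ (LL H')} {B : Module.End ℂ (LL H)} {n : ℤ} {f : H →ₗ[ℂ] H'}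
  {g : H' →ₗ[ℂ] H}

lemma cas_right (hA : Up n A) (hB : Up n B) (h : ∀ t x, fr'.η t (f x) = fr.η (g t) x)
    (e : ∀ y, ll g (A y) = B (ll g y)) : TensorProduct.map LinearMap.id (vv g) (casTen fr' A) =
      TensorProduct.map (vv f) LinearMap.id (casTen fr B) := by
  rw [cas_eq hA, cas_eq hB, map_smul, map_smul, map_sum, map_sum]
  refine congrArg _ (sum_congr rfl fun m _ => ?_)
  rw [map_smul, map_smul, map_sum, map_sum]
  congr 1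
  refine Eq.trans (sum_congr rfl fun a _ => ?_)
    ((sum_diag (ct H' B m) h).trans (sum_congr rfl fun b _ => ?_))
  · simp only [ct_apply, map_tmul, id_apply, ← pos_ll, e, ll_single]
  · simp only [ct_apply, map_tmul, id_apply, vv_single]

lemma cas_left (hA : Up n A) (hB : Up n B) (h : ∀ x t, fr'.η (f x) t = fr.η x (g t))
    (e : ∀ y, A (ll f y) = ll f (B y)) : TensorProduct.map (vv g) LinearMap.id (casTen fr' A) =
      TensorProduct.map LinearMap.id (vv f) (casTen fr B) := by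
  rw [cas_eq hA, cas_eq hB, map_smul, map_smul, map_sum, map_sum]
  refine congrArg _ (sum_congr rfl fun m _ => ?_)
  rw [map_smul, map_smul, map_sum, map_sum]
  congr 1
  refine Eq.trans (sum_congr rfl fun a _ => ?_)
    ((sum_diag (fr := fr') (fr' := fr) (ct H A m) fun x t => (h x t).symm).symm.trans
      (sum_congr rfl fun b _ => ?_))
  · simp only [ct_apply, map_tmul, id_apply, vv_single]
  · simp only [ct_apply, map_tmul, id_apply, ← pos_ll, ← e, ll_single]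

variable (fr) in
/-- The bilinear form of a loop operator. -/
noncomputable def om (B : Module.End ℂ (LL H)) : VV H →ₗ[ℂ] Module.Dual ℂ (VV H) :=
  fr.neg ∘ₗ B ∘ₗ up ℂ H

lemma om_apply (v w : VV H) : om fr B v w = fr.Ω (B (up ℂ H v)) (up ℂ H w) := rfl

lemma om_σ (hB : IsEv (p.fs ℤ) (p.fs ℤ) B) (v w : VV H) :
    om fr B v ((p.fs ℕ).σ w) = om fr B ((p.fs ℕ).σ v) w := by
  rw [om_apply, om_apply, ← isEv_up p, ← isEv_up p, Frame.Ω_σ, hB]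

lemma om_adj {B' : Module.End ℂ (LL H)} (h : fr.Adj B (-B')) (v w : VV H) :
    om fr B' v w = om fr B ((p.fs ℕ).σ w) v := by
  rw [om_apply, om_apply, h, ← isEv_up p, LinearMap.neg_apply, map_neg, ← Frame.Ω_skew]

lemma of_f_one (hB : fr.Quad B) : (Op.of fr B hB).f.ap 1 = 0 := by simp [Op.of]

lemma D_of_f (hB : fr.Quad B) (v : VV H) :
    D v (Op.of fr B hB).f = lin (om fr B v) - Fn.cst (om fr B fr.dil v) := by
  rw [Op.of, map_sub, D_qf, D_lin, hB.qf_val]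
  rfl

end loop

variable {D : Dv}

section piece

variable {ε : ℂ} {Y : Pz D ε} {A : Module.End ℂ (LL Y.H)} {t : Trip D}

lemma adj' (Y : Pz D ε) (u : Y.H) (x : D.H) : Y.fr.η u (Y.gys x) = D.fr.η (Y.res u) x := by
  rw [Y.fr.η_symm, Y.hgys, Y.adj, ← D.fr.η_symm]

lemma Ω_gys (Y : Pz D ε) (x : LL D.H) (u : LL Y.H) :
    Y.fr.Ω (ll Y.gys x) u = D.fr.Ω x (ll Y.res u) := Ω_ll Y.adj x u

lemma Ω_res (Y : Pz D ε) (u : LL Y.H) (x : LL D.H) :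
    D.fr.Ω (ll Y.res u) x = Y.fr.Ω u (ll Y.gys x) := Ω_ll (fun u x => (adj' Y u x).symm) u x

lemma nat_gys (hA : Y.Nat A t) (x : LL D.H) : A (ll Y.gys x) = ll Y.gys (t.ap x) :=
  Y.fr.Ω_ext fun u => by
    have e1 := hA.qd.adj u (ll Y.gys x)
    have e2 := t.adj (ll Y.res u) x
    rw [← hA.res, Ω_res, e1, Ω_res, LinearMap.neg_apply, LinearMap.neg_apply, map_neg, map_neg,
      map_neg] at e2
    exact neg_inj.1 e2

lemma adj_ap (t : Trip D) : D.fr.Adj t.ap (-t.am) := by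
  simpa using (t.adj.symm t.evm).neg

lemma om_gys (hA : Y.Nat A t) (x : VV D.H) (u : VV Y.H) :
    om Y.fr A (vv Y.gys x) u = om D.fr t.ap x (vv Y.res u) := by
  rw [om_apply, om_apply, up_vv, up_vv, nat_gys hA, Ω_gys]

lemma om_res (hA : Y.Nat A t) (u : VV Y.H) (x : VV D.H) :
    om Y.fr A u (vv Y.gys x) = om D.fr t.am (vv Y.res u) x := by
  rw [om_apply, om_apply, up_vv, up_vv, ← hA.res, Ω_res]

lemma res_dil (Y : Pz D ε) : vv Y.res Y.fr.dil = D.fr.dil := by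
  rw [Frame.dil, vv_single, Y.res_one, Frame.dil]

lemma res_blk (hA : Y.Nat A t) (u : VV Y.H) :
    vv Y.res (Frame.blk A u) = Frame.blk t.am (vv Y.res u) := by
  simp only [Frame.blk, comp_apply, ← pos_ll, hA.res, up_vv]

lemma blk_gys (hA : Y.Nat A t) (x : VV D.H) :
    Frame.blk A (vv Y.gys x) = vv Y.gys (Frame.blk t.ap x) := by
  simp only [Frame.blk, comp_apply, ← pos_ll, ← nat_gys hA, up_vv]

variable (t)

/-- The bilinear form on `(u, s)`. -/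
noncomputable def Bm : VV D.H × VV D.H →ₗ[ℂ] Module.Dual ℂ (VV D.H × VV D.H) :=
  (om D.fr t.ap).compl₁₂ (snd ℂ _ _) (fst ℂ _ _)

/-- The bilinear form on `(r, s)`. -/
noncomputable def Bg : VV D.H × VV D.H →ₗ[ℂ] Module.Dual ℂ (VV D.H × VV D.H) :=
  (om D.fr t.ap).compl₁₂ ((D.p.fs ℕ).σ ∘ₗ snd ℂ _ _) (fst ℂ _ _) -
    (om D.fr t.am).compl₁₂ ((D.p.fs ℕ).σ ∘ₗ fst ℂ _ _) (snd ℂ _ _)

lemma Bm_apply (x y : VV D.H × VV D.H) : Bm t x y = om D.fr t.ap x.2 y.1 := rfl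

lemma Bg_apply (x y : VV D.H × VV D.H) : Bg t x y =
    om D.fr t.ap ((D.p.fs ℕ).σ x.2) y.1 - om D.fr t.am ((D.p.fs ℕ).σ x.1) y.2 := rfl

lemma Bg_mem : Bg t ∈ SymB D.bs.gh := fun x y => by
  change Bg t x y = Bg t (-(D.p.fs ℕ).σ y.1, -(D.p.fs ℕ).σ y.2) x
  simp only [Bg_apply, map_neg, LinearMap.neg_apply, (D.p.fs ℕ).inv]
  rw [om_adj t.adj, om_adj t.adj y.2, om_σ t.evm, (D.p.fs ℕ).inv]
  ring

/-- The function of `(u, s)`. -/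
noncomputable def fm : Sc D.bs.ms := bq (Bm t) - lin (om D.fr t.am D.fr.dil ∘ₗ snd ℂ _ _)

lemma D_fm (x : VV D.H × VV D.H) : Fn.D x (fm t) =
    lin (Bm t x + (Bm t).flip x) - Fn.cst (om D.fr t.am D.fr.dil x.2) := by
  rw [fm, map_sub, D_bq, D_lin]
  · rfl
  · intro v w
    change om D.fr t.ap (-(D.p.fs ℕ).σ v.2) w.1 = -om D.fr t.ap v.2 ((D.p.fs ℕ).σ w.1)
    rw [om_σ t.evp, map_neg, LinearMap.neg_apply]

/-- The part of the operator that only depends on the divisor. -/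
noncomputable def ob : BOp D.bs where
  v := -Frame.blk t.am D.fr.dil
  am := Frame.blk t.am
  ap := Frame.blk t.ap
  g1 := casTen D.fr t.am
  g2 := TensorProduct.comm ℂ _ _ (casTen D.fr t.ap)
  fm := fm t
  fg := qf ⟨Bg t, Bg_mem t⟩
  hv := by
    change (D.p.fs ℕ).σ _ = _
    rw [map_neg, Frame.blk, (isEv_pos D.p).comp (t.evm.comp (isEv_up D.p)), D.fr.σ_dil]
  ham := (isEv_pos D.p).comp (t.evm.comp (isEv_up D.p))
  hap := (isEv_pos D.p).comp (t.evp.comp (isEv_up D.p))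
  hg1 := t.up.elim fun _ h => evT_cas t.evm h.1
  hg2 := t.up.elim fun _ h => (evT_cas t.evp h.2).comm
  hfg := τ_qf _
  gn_fg := eq_of_D (by simp) fun x => by
    rw [D_Vf_of_ev D.bs.isEv_gn, D_qf, D_qf, Vf_lin, ← map_add, map_zero, ← map_zero lin]
    congr 1
    refine LinearMap.ext fun y => ?_
    simp [Bg_apply]
  uq_fg := eq_of_D (by simp [fm, Bs.e1, Bs.e2]) fun x => by
    rw [map_sub, map_add, D_Vf_of_od D.bs.isOd_uq, Bs.e1, Bs.e2]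
    simp only [D_pull, D_qf, D_fm, pull_lin, Vf_lin, map_sub, pull_cst]
    refine eq_of_D (by simp) fun y => ?_
    simp only [map_add, map_sub, D_lin, D_cst, map_zero, sub_zero]
    rw [← map_add, ← map_add, ← map_sub, ← map_zero (Fn.cst (p := D.bs.uni) (s := SPar.triv ℂ ℂ))]
    congr 1
    have := om_adj t.adj y.2.2 x.1.1
    simp [Bg_apply, Bm_apply, Dv.bs, (D.p.fs ℕ).inv, this]
    ring

variable {t}

theorem comp_ob (hε : ε * ε = 1) (hA : Y.Nat A t) :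
    (Y.pc hε).Comp ε (Op.of Y.fr A hA.qd.quad) (ob t) := by
  obtain ⟨n, hn⟩ := hA.qd.up
  obtain ⟨m, hm, hp⟩ := t.up
  have e : ∀ c : VV D.H ⊗[ℂ] VV D.H, ε • TensorProduct.map (ε • vv Y.gys) LinearMap.id c =
      TensorProduct.map (vv Y.gys) LinearMap.id c := fun c => by
    rw [TensorProduct.map_smul_left, LinearMap.smul_apply, smul_smul, hε, one_smul]
  refine ⟨?_, res_blk hA, fun x => ?_, ?_, ?_, ?_⟩
  · change vv Y.res (-Frame.blk A Y.fr.dil) = -Frame.blk t.am D.fr.dil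
    rw [map_neg, res_blk hA, res_dil]
  · change Frame.blk A (ε • vv Y.gys x) = ε • vv Y.gys (Frame.blk t.ap x)
    rw [map_smul, blk_gys hA]
  · exact (cas_right (hn.mono (le_max_left n m)) (hm.mono (le_max_right n m)) (adj' Y)
      hA.res).trans (e _).symm
  · refine Eq.trans ?_ (e _).symm
    change TensorProduct.map LinearMap.id (vv Y.res) (TensorProduct.comm ℂ _ _ (casTen Y.fr A)) =
      TensorProduct.map (vv Y.gys) LinearMap.id (TensorProduct.comm ℂ _ _ (casTen D.fr t.ap))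
    rw [TensorProduct.map_comm, TensorProduct.map_comm,
      cas_left (hn.mono (le_max_left n m)) (hp.mono (le_max_right n m)) Y.adj (nat_gys hA)]
  · refine eq_of_D (by simp [ob, fm]) fun x => ?_
    rw [D_Vf_of_od (Y.pc hε).isOd_iq, Pc.f0, map_smul]
    have hD : ∀ v, Fn.D (p := (Y.pc hε).p) v (Op.of Y.fr A hA.qd.quad).f =
      lin (om Y.fr A v) - Fn.cst (om Y.fr A Y.fr.dil v) := D_of_f _
    simp only [ob, D_pull, hD, D_fm, pull_lin, Vf_lin, map_sub, pull_cst, Vf_cst]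
    refine eq_of_D ?_ fun y => ?_
    · simp only [add_ap, sub_ap, smul_ap, lin_ap_one, cst_ap_one, zero_sub, sub_zero, add_zero]
      change -om Y.fr A Y.fr.dil (ε • vv Y.gys x.2) = ε • -om D.fr t.am D.fr.dil x.2
      rw [map_smul, om_res hA, res_dil, smul_neg]
    · simp only [map_add, map_smul, map_sub, D_lin, D_cst, sub_zero]
      rw [← map_add, ← map_smul]
      congr 1
      change om Y.fr A (ε • vv Y.gys x.2) y.1 +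
        om Y.fr A ((Y.p.fs ℕ).σ x.1) (ε • vv Y.gys y.2) =
        ε • (om D.fr t.ap x.2 (vv Y.res y.1) + om D.fr t.ap y.2 (vv Y.res x.1))
      rw [map_smul, map_smul, LinearMap.smul_apply, om_gys hA, om_res hA, om_adj t.adj y.2,
        isEv_vv Y.hres, smul_add]

end piece

section pair

variable (Y1 : Pz D 1) (Y2 : Pz D (-1))

/-- The projections of the complex. -/
abbrev p1 : CH Y1 Y2 →ₗ[ℂ] Y1.H := fst ℂ _ _ ∘ₗ fst ℂ _ _
abbrev p2 : CH Y1 Y2 →ₗ[ℂ] Y2.H := snd ℂ _ _ ∘ₗ fst ℂ _ _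
abbrev p3 : CH Y1 Y2 →ₗ[ℂ] D.H := fst ℂ _ _ ∘ₗ snd ℂ _ _
abbrev p4 : CH Y1 Y2 →ₗ[ℂ] D.H := snd ℂ _ _ ∘ₗ snd ℂ _ _

/-- The inclusions into the complex. -/
abbrev j1 : Y1.H →ₗ[ℂ] CH Y1 Y2 := inl ℂ _ _ ∘ₗ inl ℂ _ _
abbrev j2 : Y2.H →ₗ[ℂ] CH Y1 Y2 := inl ℂ _ _ ∘ₗ inr ℂ _ _
abbrev j3 : D.H →ₗ[ℂ] CH Y1 Y2 := inr ℂ _ _ ∘ₗ inl ℂ _ _
abbrev j4 : D.H →ₗ[ℂ] CH Y1 Y2 := inr ℂ _ _ ∘ₗ inr ℂ _ _

/-- The pairing of the complex as a bilinear map. -/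
def etaL : CH Y1 Y2 →ₗ[ℂ] Module.Dual ℂ (CH Y1 Y2) :=
  Y1.fr.η.compl₁₂ (p1 Y1 Y2) (p1 Y1 Y2) + Y2.fr.η.compl₁₂ (p2 Y1 Y2) (p2 Y1 Y2) +
    D.fr.η.compl₁₂ (p4 Y1 Y2) (D.p.σ ∘ₗ p3 Y1 Y2) - D.fr.η.compl₁₂ (p3 Y1 Y2) (D.p.σ ∘ₗ p4 Y1 Y2)

lemma etaL_apply (x y : CH Y1 Y2) : etaL Y1 Y2 x y = etaC Y1 Y2 x y := rfl

lemma pC_σ (x : CH Y1 Y2) : (pC Y1 Y2).σ x =
    ((Y1.p.σ x.1.1, Y2.p.σ x.1.2), (-D.p.σ x.2.1, -D.p.σ x.2.2)) := rfl

lemma qC_apply (x : CH Y1 Y2) : qC Y1 Y2 x =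
    ((Y1.gys x.2.2, -Y2.gys x.2.2), (Y1.res x.1.1 - Y2.res x.1.2, 0)) := by
  simp [qC, Pz.pcH]

/-- The frame of the complex. -/
def frC : Frame (pC Y1 Y2) ((Y1.ι ⊕ Y2.ι) ⊕ D.ι ⊕ D.ι) where
  η := etaL Y1 Y2
  sym x y := by
    simp only [etaL_apply, etaC, pC_σ, map_neg, LinearMap.neg_apply, Frame.η_σ_σ]
    rw [Y1.fr.η_symm, Y2.fr.η_symm, D.fr.η_symm x.2.2, D.fr.η_symm x.2.1, D.p.inv, D.p.inv]
    ring
  e := Sum.elim (Sum.elim (fun a => j1 Y1 Y2 (Y1.fr.e a)) fun a => j2 Y1 Y2 (Y2.fr.e a))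
    (Sum.elim (fun a => j3 Y1 Y2 (D.p.σ (D.fr.e a))) fun a => j4 Y1 Y2 (D.p.σ (D.fr.e a)))
  f := Sum.elim (Sum.elim (fun a => j1 Y1 Y2 (Y1.fr.f a)) fun a => j2 Y1 Y2 (Y2.fr.f a))
    (Sum.elim (fun a => j4 Y1 Y2 (D.fr.f a)) fun a => -j3 Y1 Y2 (D.fr.f a))
  π := Sum.elim (Sum.elim Y1.fr.π Y2.fr.π) (Sum.elim (fun a => D.fr.π a + 1) fun a => D.fr.π a + 1)
  he := by
    rintro ((a | a) | a | a) <;> simp [Pz.pcH, Dv.bsH, Frame.he, pow_succ]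
  hf := by
    rintro ((a | a) | a | a) <;> simp [Pz.pcH, Dv.bsH, Frame.hf, pow_succ]
  left v := by
    have e : ∀ u, ∑ a, D.fr.η (D.fr.f a) (D.p.σ u) • D.p.σ (D.fr.e a) = u := fun u => by
      simp only [← map_smul]
      rw [← map_sum, D.fr.left, D.p.inv]
    simp only [Fintype.sum_sum_type, Sum.elim_inl, Sum.elim_inr, etaL_apply, etaC]
    simp only [comp_apply, inl_apply, inr_apply, Prod.fst_neg, Prod.snd_neg, Prod.fst_zero,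
      Prod.snd_zero, neg_zero, map_zero, LinearMap.zero_apply, add_zero, zero_add, sub_zero,
      zero_sub, map_neg, LinearMap.neg_apply, neg_neg]
    simp [Prod.ext_iff, Prod.fst_sum, Prod.snd_sum, Frame.left, e]
  one := ((Y1.fr.one, Y2.fr.one), 0)
  hone := by simp [Pz.pcH, Frame.hone]

/-- The complex as a cohomology space. -/
def cohC : Coh where
  H := CH Y1 Y2
  p := pC Y1 Y2
  ι := (Y1.ι ⊕ Y2.ι) ⊕ D.ι ⊕ D.ι
  fr := frC Y1 Y2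

lemma Ω_C (x y : LL (CH Y1 Y2)) : (frC Y1 Y2).Ω x y =
    Y1.fr.Ω (ll (p1 Y1 Y2) x) (ll (p1 Y1 Y2) y) + Y2.fr.Ω (ll (p2 Y1 Y2) x) (ll (p2 Y1 Y2) y) +
    D.fr.Ω (ll (p4 Y1 Y2) x) ((D.p.fs ℤ).σ (ll (p3 Y1 Y2) y)) -
    D.fr.Ω (ll (p3 Y1 Y2) x) ((D.p.fs ℤ).σ (ll (p4 Y1 Y2) y)) := by
  induction x using Finsupp.induction_linear with
  | zero => simp
  | add a b ha hb => simp only [map_add, LinearMap.add_apply, ha, hb]; ring
  | single i v =>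
    simp only [ll_single, Frame.Ω_single_left]
    rw [← mul_add, ← mul_add, ← mul_sub]
    rfl

lemma eta_q (x y : CH Y1 Y2) :
    etaC Y1 Y2 (qC Y1 Y2 x) y + etaC Y1 Y2 ((pC Y1 Y2).σ x) (qC Y1 Y2 y) = 0 := by
  simp only [etaC, qC_apply, pC_σ, map_neg, map_sub, LinearMap.neg_apply, LinearMap.sub_apply,
    Pz.adj, adj', map_zero, LinearMap.zero_apply, ← Y1.hres _, ← Y2.hres _, ← D.fr.η_σ, D.p.inv]
  ring

variable {Y1 Y2} (A1 : Module.End ℂ (LL Y1.H)) (A2 : Module.End ℂ (LL Y2.H)) (t : Trip D)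

/-- The loop operator on the complex. -/
noncomputable def AC : Module.End ℂ (LL (CH Y1 Y2)) :=
  ll (j1 Y1 Y2) ∘ₗ A1 ∘ₗ ll (p1 Y1 Y2) + ll (j2 Y1 Y2) ∘ₗ A2 ∘ₗ ll (p2 Y1 Y2) +
    ll (j3 Y1 Y2) ∘ₗ t.am ∘ₗ ll (p3 Y1 Y2) + ll (j4 Y1 Y2) ∘ₗ t.ap ∘ₗ ll (p4 Y1 Y2)

lemma AC_apply (y : LL (CH Y1 Y2)) (n : ℤ) : AC A1 A2 t y n =
    ((A1 (ll (p1 Y1 Y2) y) n, A2 (ll (p2 Y1 Y2) y) n),
      (t.am (ll (p3 Y1 Y2) y) n, t.ap (ll (p4 Y1 Y2) y) n)) := by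
  simp [AC]

lemma p1_AC (y : LL (CH Y1 Y2)) : ll (p1 Y1 Y2) (AC A1 A2 t y) = A1 (ll (p1 Y1 Y2) y) := by
  ext n; rw [ll_apply, AC_apply]; rfl

lemma p2_AC (y : LL (CH Y1 Y2)) : ll (p2 Y1 Y2) (AC A1 A2 t y) = A2 (ll (p2 Y1 Y2) y) := by
  ext n; rw [ll_apply, AC_apply]; rfl

lemma p3_AC (y : LL (CH Y1 Y2)) : ll (p3 Y1 Y2) (AC A1 A2 t y) = t.am (ll (p3 Y1 Y2) y) := by
  ext n; rw [ll_apply, AC_apply]; rfl

lemma p4_AC (y : LL (CH Y1 Y2)) : ll (p4 Y1 Y2) (AC A1 A2 t y) = t.ap (ll (p4 Y1 Y2) y) := by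
  ext n; rw [ll_apply, AC_apply]; rfl

lemma LL_ext4 {x y : LL (CH Y1 Y2)} (h1 : ll (p1 Y1 Y2) x = ll (p1 Y1 Y2) y)
    (h2 : ll (p2 Y1 Y2) x = ll (p2 Y1 Y2) y) (h3 : ll (p3 Y1 Y2) x = ll (p3 Y1 Y2) y)
    (h4 : ll (p4 Y1 Y2) x = ll (p4 Y1 Y2) y) : x = y :=
  Finsupp.ext fun n => Prod.ext (Prod.ext (DFunLike.congr_fun h1 n) (DFunLike.congr_fun h2 n))
    (Prod.ext (DFunLike.congr_fun h3 n) (DFunLike.congr_fun h4 n))

variable {A1 A2 t}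

lemma up_AC {n : ℤ} (u1 : Up n A1) (u2 : Up n A2) (u3 : Up n t.am) (u4 : Up n t.ap) :
    Up n (AC A1 A2 t) := fun i y hy j hj => by
  rw [AC_apply, u1 i _ (fun k hk => by rw [ll_apply, hy k hk, map_zero]) j hj,
    u2 i _ (fun k hk => by rw [ll_apply, hy k hk, map_zero]) j hj,
    u3 i _ (fun k hk => by rw [ll_apply, hy k hk, map_zero]) j hj,
    u4 i _ (fun k hk => by rw [ll_apply, hy k hk, map_zero]) j hj]
  rfl

lemma exists_up (h1 : Y1.Nat A1 t) (h2 : Y2.Nat A2 t) :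
    ∃ n, Up n A1 ∧ Up n A2 ∧ Up n t.am ∧ Up n t.ap := by
  obtain ⟨a, ha⟩ := h1.qd.up
  obtain ⟨b, hb⟩ := h2.qd.up
  obtain ⟨c, hc, hd⟩ := t.up
  exact ⟨max a (max b c), ha.mono (by omega), hb.mono (by omega), hc.mono (by omega),
    hd.mono (by omega)⟩

lemma qd_AC (h1 : Y1.Nat A1 t) (h2 : Y2.Nat A2 t) : Qd (frC Y1 Y2) (AC A1 A2 t) := by
  have s1 : ∀ y, ll (p1 Y1 Y2) (((pC Y1 Y2).fs ℤ).σ y) = (Y1.p.fs ℤ).σ (ll (p1 Y1 Y2) y) :=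
    fun y => by ext; rfl
  have s2 : ∀ y, ll (p2 Y1 Y2) (((pC Y1 Y2).fs ℤ).σ y) = (Y2.p.fs ℤ).σ (ll (p2 Y1 Y2) y) :=
    fun y => by ext; rfl
  have s3 : ∀ y, ll (p3 Y1 Y2) (((pC Y1 Y2).fs ℤ).σ y) = -(D.p.fs ℤ).σ (ll (p3 Y1 Y2) y) :=
    fun y => by ext; rfl
  have s4 : ∀ y, ll (p4 Y1 Y2) (((pC Y1 Y2).fs ℤ).σ y) = -(D.p.fs ℤ).σ (ll (p4 Y1 Y2) y) :=
    fun y => by ext; rfl
  refine ⟨fun y => LL_ext4 ?_ ?_ ?_ ?_, fun x y => ?_, ?_⟩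
  · rw [s1, p1_AC, p1_AC, s1, h1.qd.ev]
  · rw [s2, p2_AC, p2_AC, s2, h2.qd.ev]
  · rw [s3, p3_AC, p3_AC, s3, t.evm, map_neg]
  · rw [s4, p4_AC, p4_AC, s4, t.evp, map_neg]
  · simp only [Ω_C, LinearMap.neg_apply, map_neg, p1_AC, p2_AC, p3_AC, p4_AC, h1.qd.adj _,
      h2.qd.adj _, t.adj _, adj_ap t _, t.evm _, t.evp _]
    ring
  · obtain ⟨n, u1, u2, u3, u4⟩ := exists_up h1 h2
    exact ⟨n, up_AC u1 u2 u3 u4⟩

lemma AC_q (h1 : Y1.Nat A1 t) (h2 : Y2.Nat A2 t) :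
    AC A1 A2 t * Fock.cst (qC Y1 Y2) = Fock.cst (qC Y1 Y2) * AC A1 A2 t := by
  have s1 : ∀ y, ll (p1 Y1 Y2) (Fock.cst (qC Y1 Y2) y) = ll Y1.gys (ll (p4 Y1 Y2) y) :=
    fun y => by ext; simp [Pz.pcH]
  have s2 : ∀ y, ll (p2 Y1 Y2) (Fock.cst (qC Y1 Y2) y) = -ll Y2.gys (ll (p4 Y1 Y2) y) :=
    fun y => by ext; simp [Pz.pcH]
  have s3 : ∀ y, ll (p3 Y1 Y2) (Fock.cst (qC Y1 Y2) y) =
      ll Y1.res (ll (p1 Y1 Y2) y) - ll Y2.res (ll (p2 Y1 Y2) y) :=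
    fun y => by ext; simp [Pz.pcH]
  have s4 : ∀ y, ll (p4 Y1 Y2) (Fock.cst (qC Y1 Y2) y) = 0 := fun y => by ext; simp
  refine LinearMap.ext fun y => LL_ext4 ?_ ?_ ?_ ?_ <;> simp only [Module.End.mul_apply]
  · rw [s1, p1_AC, p4_AC, s1, nat_gys h1]
  · rw [s2, p2_AC, p4_AC, s2, map_neg, nat_gys h2]
  · rw [s3, p3_AC, p1_AC, p2_AC, s3, map_sub, h1.res, h2.res]
  · rw [s4, p4_AC, s4, map_zero]

variable (Y1 Y2) in
/-- The components of a descendant class of the complex. -/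
noncomputable def Φ : VV (CH Y1 Y2) →ₗ[ℂ] (VV Y1.H × VV Y2.H) × VV D.H × VV D.H :=
  ((vv (p1 Y1 Y2)).prod (vv (p2 Y1 Y2))).prod ((vv (p3 Y1 Y2)).prod (vv (p4 Y1 Y2)))

lemma Φ_apply (x : VV (CH Y1 Y2)) : Φ Y1 Y2 x =
    ((vv (p1 Y1 Y2) x, vv (p2 Y1 Y2) x), (vv (p3 Y1 Y2) x, vv (p4 Y1 Y2) x)) := rfl

lemma isEv_Φ : IsEv ((pC Y1 Y2).fs ℕ) ((Y1.pc sq1).tot (Y2.pc sqm)) (Φ Y1 Y2) := fun v => by
  refine Prod.ext (Prod.ext ?_ ?_) (Prod.ext ?_ ?_) <;> ext m <;> rfl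

lemma Φ_q (v : VV (CH Y1 Y2)) :
    Φ Y1 Y2 (vv (qC Y1 Y2) v) = (Y1.pc sq1).tq (Y2.pc sqm) (Φ Y1 Y2 v) := by
  refine Prod.ext (Prod.ext ?_ ?_) (Prod.ext ?_ ?_) <;> ext m <;> simp [Φ_apply, Pz.pc, Pz.pcH]

lemma Φ_blk (v : VV (CH Y1 Y2)) : Φ Y1 Y2 (Frame.blk (AC A1 A2 t) v) =
    ((Frame.blk A1).prodMap (Frame.blk A2)).prodMap ((Frame.blk t.am).prodMap (Frame.blk t.ap))
      (Φ Y1 Y2 v) := by
  simp only [Φ_apply, Frame.blk, comp_apply, ← pos_ll, p1_AC, p2_AC, p3_AC, p4_AC, prodMap_apply,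
    up_vv]

lemma Φ_dil : Φ Y1 Y2 (frC Y1 Y2).dil = ((Y1.fr.dil, Y2.fr.dil), 0) := by
  simp only [Φ_apply, Frame.dil, vv_single]
  simp [frC, Prod.ext_iff]

lemma om_C (v w : VV (CH Y1 Y2)) : om (frC Y1 Y2) (AC A1 A2 t) v w =
    om Y1.fr A1 (Φ Y1 Y2 v).1.1 (Φ Y1 Y2 w).1.1 + om Y2.fr A2 (Φ Y1 Y2 v).1.2 (Φ Y1 Y2 w).1.2 +
      Bg t (Φ Y1 Y2 v).2 (Φ Y1 Y2 w).2 := by
  rw [Bg_apply, ← om_σ t.evm, ← om_σ t.evp]
  simp only [om_apply, Ω_C, Φ_apply, p1_AC, p2_AC, p3_AC, p4_AC, up_vv, ← isEv_up D.p _]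
  ring

lemma Φ_ct (m : ℕ) {H H' : Type} [AddCommGroup H] [Module ℂ H] [AddCommGroup H'] [Module ℂ H']
    {j : H →ₗ[ℂ] CH Y1 Y2} {j' : H' →ₗ[ℂ] CH Y1 Y2} {B : Module.End ℂ (LL H')}
    (e : ∀ y, AC A1 A2 t (ll j' y) = ll j' (B y)) (x : H) (y : H') :
    TensorProduct.map (Φ Y1 Y2) (Φ Y1 Y2) (ct _ (AC A1 A2 t) m (j x) (j' y)) =
      TensorProduct.map (Φ Y1 Y2 ∘ₗ vv j) (Φ Y1 Y2 ∘ₗ vv j') (ct H B m x y) := by
  simp only [ct_apply, map_tmul, comp_apply, ← ll_single, e, pos_ll, vv_single]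

lemma top_c (h1 : Y1.Nat A1 t) (h2 : Y2.Nat A2 t) :
    ((ob t).top (P1 := Y1.pc sq1) (P2 := Y2.pc sqm) (Op.of Y1.fr A1 h1.qd.quad)
      (Op.of Y2.fr A2 h2.qd.quad)).c =
      TensorProduct.map (Φ Y1 Y2) (Φ Y1 Y2) (casTen (frC Y1 Y2) (AC A1 A2 t)) := by
  obtain ⟨n, u1, u2, u3, u4⟩ := exists_up h1 h2
  have z : ∀ {H H' H'' : Type} [AddCommGroup H] [Module ℂ H] [AddCommGroup H'] [Module ℂ H']
      [AddCommGroup H''] [Module ℂ H''] (f : H →ₗ[ℂ] H') (g : H' →ₗ[ℂ] H'') (y : LL H),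
      (∀ x, g (f x) = 0) → ll g (ll f y) = 0 := fun f g y h => Finsupp.ext fun n => h _
  have o : ∀ {H H' : Type} [AddCommGroup H] [Module ℂ H] [AddCommGroup H'] [Module ℂ H']
      (f : H →ₗ[ℂ] H') (g : H' →ₗ[ℂ] H) (y : LL H),
      (∀ x, g (f x) = x) → ll g (ll f y) = y := fun f g y h => Finsupp.ext fun n => h _
  have a1 : ∀ y, AC A1 A2 t (ll (j1 Y1 Y2) y) = ll (j1 Y1 Y2) (A1 y) := fun y => by
    refine Finsupp.ext fun n => ?_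
    rw [AC_apply, o _ _ _ fun _ => rfl, z _ _ _ fun _ => rfl, z _ _ _ fun _ => rfl,
      z _ _ _ fun _ => rfl, map_zero, map_zero, map_zero]
    rfl
  have a2 : ∀ y, AC A1 A2 t (ll (j2 Y1 Y2) y) = ll (j2 Y1 Y2) (A2 y) := fun y => by
    refine Finsupp.ext fun n => ?_
    rw [AC_apply, z _ _ _ fun _ => rfl, o _ _ _ fun _ => rfl, z _ _ _ fun _ => rfl,
      z _ _ _ fun _ => rfl, map_zero, map_zero, map_zero]
    rfl
  have a3 : ∀ y, AC A1 A2 t (ll (j3 Y1 Y2) y) = ll (j3 Y1 Y2) (t.am y) := fun y => by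
    refine Finsupp.ext fun n => ?_
    rw [AC_apply, z _ _ _ fun _ => rfl, z _ _ _ fun _ => rfl, o _ _ _ fun _ => rfl,
      z _ _ _ fun _ => rfl, map_zero, map_zero, map_zero]
    rfl
  have a4 : ∀ y, AC A1 A2 t (ll (j4 Y1 Y2) y) = ll (j4 Y1 Y2) (t.ap y) := fun y => by
    refine Finsupp.ext fun n => ?_
    rw [AC_apply, z _ _ _ fun _ => rfl, z _ _ _ fun _ => rfl, z _ _ _ fun _ => rfl,
      o _ _ _ fun _ => rfl, map_zero, map_zero, map_zero]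
    rfl
  have b1 : Φ Y1 Y2 ∘ₗ vv (j1 Y1 Y2) = inl ℂ _ _ ∘ₗ inl ℂ _ _ := LinearMap.ext fun v => by
    refine Prod.ext (Prod.ext ?_ ?_) (Prod.ext ?_ ?_) <;> ext m <;> rfl
  have b2 : Φ Y1 Y2 ∘ₗ vv (j2 Y1 Y2) = inl ℂ _ _ ∘ₗ inr ℂ _ _ := LinearMap.ext fun v => by
    refine Prod.ext (Prod.ext ?_ ?_) (Prod.ext ?_ ?_) <;> ext m <;> rfl
  have b3 : Φ Y1 Y2 ∘ₗ vv (j3 Y1 Y2) = inr ℂ _ _ ∘ₗ inl ℂ _ _ := LinearMap.ext fun v => by
    refine Prod.ext (Prod.ext ?_ ?_) (Prod.ext ?_ ?_) <;> ext m <;> rfl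
  have b4 : Φ Y1 Y2 ∘ₗ vv (j4 Y1 Y2) = inr ℂ _ _ ∘ₗ inr ℂ _ _ := LinearMap.ext fun v => by
    refine Prod.ext (Prod.ext ?_ ?_) (Prod.ext ?_ ?_) <;> ext m <;> rfl
  have key : ∀ m, TensorProduct.map (Φ Y1 Y2) (Φ Y1 Y2)
      (∑ a, ct _ (AC A1 A2 t) m ((frC Y1 Y2).e a) ((frC Y1 Y2).f a)) =
      TensorProduct.map (inl ℂ _ _ ∘ₗ inl ℂ _ _) (inl ℂ _ _ ∘ₗ inl ℂ _ _)
        (∑ a, ct _ A1 m (Y1.fr.e a) (Y1.fr.f a)) +
      TensorProduct.map (inl ℂ _ _ ∘ₗ inr ℂ _ _) (inl ℂ _ _ ∘ₗ inr ℂ _ _)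
        (∑ a, ct _ A2 m (Y2.fr.e a) (Y2.fr.f a)) +
      TensorProduct.map (inr ℂ _ _) (inr ℂ _ _)
        (TensorProduct.map (inl ℂ _ _ ∘ₗ (D.p.fs ℕ).σ) (inr ℂ _ _)
          (∑ a, ct _ t.ap m (D.fr.e a) (D.fr.f a)) -
        TensorProduct.map (inr ℂ _ _ ∘ₗ (D.p.fs ℕ).σ) (inl ℂ _ _)
          (∑ a, ct _ t.am m (D.fr.e a) (D.fr.f a))) := fun m => by
    simp only [Fintype.sum_sum_type, frC, Sum.elim_inl, Sum.elim_inr, map_add, map_sum, map_neg,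
      Φ_ct m a1, Φ_ct m a2, Φ_ct m a3, Φ_ct m a4, b1, b2, b3, b4, map_sub, sum_neg_distrib]
    simp only [ct_apply, map_tmul, comp_apply, Par.fs_σ_single, sub_eq_add_neg]
  change TensorProduct.map _ _ (casTen Y1.fr A1) + TensorProduct.map _ _ (casTen Y2.fr A2) +
    TensorProduct.map _ _ (TensorProduct.map _ _ (TensorProduct.comm ℂ _ _
      (TensorProduct.comm ℂ _ _ (casTen D.fr t.ap))) - TensorProduct.map _ _ (casTen D.fr t.am)) = _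
  rw [comm_comm, cas_eq u1, cas_eq u2, cas_eq u3, cas_eq u4, cas_eq (up_AC u1 u2 u3 u4)]
  conv_rhs => rw [map_smul, map_sum]
  simp only [map_smul, key]
  simp only [map_smul, map_sum, map_sub, smul_add, smul_sub, sum_add_distrib, sum_sub_distrib]
  rfl

lemma top_f (h1 : Y1.Nat A1 t) (h2 : Y2.Nat A2 t) :
    pull _ isEv_Φ ((ob t).top (P1 := Y1.pc sq1) (P2 := Y2.pc sqm) (Op.of Y1.fr A1 h1.qd.quad)
      (Op.of Y2.fr A2 h2.qd.quad)).f = (Op.of (frC Y1 Y2) _ (qd_AC h1 h2).quad).f := by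
  have d1 : ∀ v, Fn.D (p := (Y1.pc sq1).p) v (Op.of Y1.fr A1 h1.qd.quad).f =
    lin (om Y1.fr A1 v) - Fn.cst (om Y1.fr A1 Y1.fr.dil v) := D_of_f _
  have d2 : ∀ v, Fn.D (p := (Y2.pc sqm).p) v (Op.of Y2.fr A2 h2.qd.quad).f =
    lin (om Y2.fr A2 v) - Fn.cst (om Y2.fr A2 Y2.fr.dil v) := D_of_f _
  refine eq_of_D ?_ fun x => ?_
  · simp only [BOp.top, ob, Pc.f1, Pc.f2, pull_ap_one, add_ap, qf_ap_one, of_f_one, add_zero]
    exact (congrArg₂ _ (of_f_one h1.qd.quad) (of_f_one h2.qd.quad)).trans (add_zero _)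
  simp only [D_of_f, BOp.top, Pc.f1, Pc.f2, ob, D_pull, map_add, d1, d2, D_qf, map_sub, pull_lin,
    pull_cst]
  refine eq_of_D ?_ fun y => ?_
  · simp [om_C, Φ_dil]
    exact add_comm _ _
  · simp only [map_add, map_sub, D_lin, D_cst, sub_zero]
    rw [← map_add, ← map_add, om_C]
    rfl

end pair

end CmpP

open CmpP

variable {D : Dv}

theorem exists_bop (t : Trip D) : ∃ Ob : BOp D.bs, Ob.v = -Frame.blk t.am D.fr.dil ∧
    (∀ {ε : ℂ} (hε : ε * ε = 1) (Y : Pz D ε) (A) (hA : Y.Nat A t),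
      (Y.pc hε).Comp ε (Op.of Y.fr A hA.qd.quad) Ob) ∧
    ∀ (Y1 : Pz D 1) (Y2 : Pz D (-1)) (A1 A2) (h1 : Y1.Nat A1 t) (h2 : Y2.Nat A2 t) (X : Coh)
      (i : X.H →ₗ[ℂ] CH Y1 Y2) (hi : Ctr i) (A) (hA : Qd X.fr A), HtL i A1 A2 t A →
      (Ob.top (P1 := Y1.pc sq1) (P2 := Y2.pc sqm) (Op.of Y1.fr A1 h1.qd.quad)
        (Op.of Y2.fr A2 h2.qd.quad)).Rs (Op.of X.fr A hA.quad) ((Y1.pc sq1).tq (Y2.pc sqm))
        (vi i) (isEv_vi hi.ev) := by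
  refine ⟨ob t, rfl, fun hε _ _ hA => comp_ob hε hA, fun Y1 Y2 A1 A2 h1 h2 X i hi A hA ht => ?_⟩
  have hq : IsOd (pC Y1 Y2) (pC Y1 Y2) (qC Y1 Y2) := Pc.isOd_tq _ _
  have h := rs_of (C := cohC Y1 Y2) (q := qC Y1 Y2) hq (LinearMap.ext (Pc.tq_tq _ _))
    (eta_q Y1 Y2) hi.ev hi.iso hi.cl hi.ker hi.one (qd_AC h1 h2) (AC_q h1 h2) hA fun x => by
      obtain ⟨y, hy⟩ := ht x
      have e : ∀ {H : Type} [AddCommGroup H] [Module ℂ H] (g : CH Y1 Y2 →ₗ[ℂ] H),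
          ll g (ll i x) = ll (g ∘ₗ i) x := fun g => Finsupp.ext fun _ => rfl
      refine ⟨y, Finsupp.ext fun n => (AC_apply A1 A2 t (ll i x) n).trans ?_⟩
      rw [e, e, e, e]
      exact hy n
  refine rs_map h (fun v => ?_) (Pc.isOd_tq _ _) isEv_Φ Φ_q ?_ (fun v => (Φ_blk v).symm)
    (top_c h1 h2) (top_f h1 h2) _ fun w => ?_
  · ext m : 1
    exact hq (v m)
  · change _ = Φ Y1 Y2 (-Frame.blk (AC A1 A2 t) (frC Y1 Y2).dil)
    rw [map_neg, Φ_blk, Φ_dil]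
    simp [BOp.top, Op.of, Prod.ext_iff]
  · refine Prod.ext (Prod.ext ?_ ?_) (Prod.ext ?_ ?_) <;> ext m <;> rfl

end Vale.Agent.P269.Deg
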