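import Vale.Agent.P269.Deg.Gr

/-! The ring of banded operators inside the ring of matrices; triangular systems. -/

namespace Vale.Agent.P269.Deg

open Fock Finset LinearMap TensorProduct Fn

variable {k K F : Type} [Field k] [Field K] [Algebra k K] [AddCommGroup F] [Module K F] [Module k F]
  [IsScalarTower k K F] (G : Gr K F)

namespace Coef

theorem π_π (e e' : ℕ) (v : F) : G.π e (G.π e' v) = if e = e' then G.π e v else 0 := by
  rw [← Module.End.mul_apply, G.π_π]
  split_ifs <;> rfl

theorem π_self (e : ℕ) (v : F) : G.π e (G.π e v) = G.π e v := by rw [π_π, if_pos rfl]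

theorem π_sum {N e : ℕ} (he : e < N) (u : ℕ → F) :
    G.π e (∑ e' ∈ range N, G.π e' (u e')) = G.π e (u e) := by
  simp only [map_sum, π_π]
  rw [sum_ite_eq, if_pos (mem_range.2 he)]

theorem ap_zero {W : Type} [AddCommGroup W] [Module K W] (f : F →ₗ[K] W) (v : F)
    (h : ∀ e, f (G.π e v) = 0) : f v = 0 := by
  obtain ⟨N, hN⟩ := G.fin v
  rw [← hN, map_sum]
  exact sum_eq_zero fun e _ => h e

theorem eq_zero (v : F) (h : ∀ e, G.π e v = 0) : v = 0 := ap_zero G LinearMap.id v h

theorem ap_single {W : Type} [AddCommGroup W] [Module K W] (f : F →ₗ[K] W) (v : F) (e : ℕ)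
    (h : ∀ e', e' ≠ e → f (G.π e' v) = 0) : f v = f (G.π e v) := by
  rw [← sub_eq_zero, ← map_sub]
  refine ap_zero G f _ fun e' => ?_
  rw [map_sub, π_π]
  split_ifs with he
  · rw [he, sub_self, map_zero]
  · rw [sub_zero, h e' he]

theorem σσ (v : F) : G.σ (G.σ v) = v := by
  rw [← Module.End.mul_apply, G.inv, Module.End.one_apply]

theorem σπ (e : ℕ) (v : F) : G.σ (G.π e v) = G.π e (G.σ v) := by
  rw [← Module.End.mul_apply, G.σ_π, Module.End.mul_apply]

theorem band_iff {x : PowerSeries (Module.End K F)} : G.Band x ↔ ∀ n e e' v,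
    n + e < e' ∨ n + e' < e → G.π e' (PowerSeries.coeff n x (G.π e v)) = 0 :=
  ⟨fun h n e e' v he => LinearMap.congr_fun (h n e e' he) v,
    fun h n e e' he => LinearMap.ext fun v => h n e e' v he⟩

/-- Conjugation with an involution. -/
def conj {V : Type} [AddCommGroup V] [Module K V] (τ : Module.End K V) (h : τ * τ = 1) :
    Module.End K V →ₐ[K] Module.End K V :=
  AlgHom.ofLinearMap (mulLeft K τ ∘ₗ mulRight K τ) (by simp [h]) fun x y => by
    have : τ * (x * τ) * (τ * (y * τ)) = τ * (x * (τ * τ) * y * τ) := by simp only [mul_assoc]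
    simp only [comp_apply, mulLeft_apply, mulRight_apply]
    rw [this, h, mul_one]

theorem conj_apply {V : Type} [AddCommGroup V] [Module K V] (τ : Module.End K V) (h : τ * τ = 1)
    (x : Module.End K V) (v : V) : conj τ h x v = τ (x (τ v)) := rfl

/-- Coefficientwise conjugation. -/
noncomputable def cj {V : Type} [AddCommGroup V] [Module K V] (τ : Module.End K V)
    (h : τ * τ = 1) : PowerSeries (Module.End K V) →ₐ[K] PowerSeries (Module.End K V) :=
  PowerSeries.mapAlgHom (conj τ h)

theorem coeff_cj {V : Type} [AddCommGroup V] [Module K V] (τ : Module.End K V) (h : τ * τ = 1)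
    (x : PowerSeries (Module.End K V)) (n : ℕ) (v : V) :
    PowerSeries.coeff n (cj τ h x) v = τ (PowerSeries.coeff n x (τ v)) := by
  rw [cj, PowerSeries.mapAlgHom_apply, PowerSeries.coeff_map]
  rfl

theorem cj_cj {V : Type} [AddCommGroup V] [Module K V] (τ : Module.End K V) (h : τ * τ = 1)
    (x : PowerSeries (Module.End K V)) : cj τ h (cj τ h x) = x := by
  have h1 : ∀ v, τ (τ v) = v := fun v => by rw [← Module.End.mul_apply, h, Module.End.one_apply]
  ext n v
  rw [coeff_cj, coeff_cj, h1, h1]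

/-- The parity of `F × K`. -/
def τ : Module.End K (F × K) := G.σ.prodMap LinearMap.id

theorem ττ : τ G * τ G = 1 := LinearMap.ext fun v => Prod.ext (σσ G v.1) rfl

/-- Operators as matrices. -/
noncomputable def emb : PowerSeries (Module.End K F) →ₗ[K] Mat K F where
  toFun x := PowerSeries.mk fun n => (PowerSeries.coeff n x).prodMap 0
  map_add' x y := by ext n : 1; ext <;> simp
  map_smul' c x := by ext n : 1; ext <;> simp

theorem coeff_emb (x : PowerSeries (Module.End K F)) (n : ℕ) (v : F × K) :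
    PowerSeries.coeff n (emb x) v = (PowerSeries.coeff n x v.1, 0) := by
  simp [emb]

theorem coeff_row (r : ℕ → Module.Dual K F) (n : ℕ) (v : F × K) :
    PowerSeries.coeff n (row r) v = (0, r n v.1) := by
  simp [row]

theorem coeff_col (c : ℕ → F) (n : ℕ) (v : F × K) :
    PowerSeries.coeff n (col c : Mat K F) v = (v.2 • c n, 0) := by
  simp [col]

theorem coeff_cor (c : ℕ → K) (n : ℕ) (v : F × K) :
    PowerSeries.coeff n (cor F c) v = (0, v.2 * c n) := by
  simp [cor]

theorem mat_ext {x y : Mat K F}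
    (h : ∀ n v, PowerSeries.coeff n x v = PowerSeries.coeff n y v) : x = y :=
  PowerSeries.ext fun n => LinearMap.ext (h n)

theorem coeff_mul {V : Type} [AddCommGroup V] [Module K V] (x y : PowerSeries (Module.End K V))
    (n : ℕ) (v : V) : PowerSeries.coeff n (x * y) v =
      ∑ q ∈ antidiagonal n, PowerSeries.coeff q.1 x (PowerSeries.coeff q.2 y v) := by
  rw [PowerSeries.coeff_mul, LinearMap.sum_apply]
  rfl

theorem emb_mul (x y : PowerSeries (Module.End K F)) : emb (x * y) = emb x * emb y :=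
  mat_ext fun n v => by
    simp only [coeff_mul, coeff_emb]
    exact Prod.ext (by simp [Prod.fst_sum]) (by simp [Prod.snd_sum])

theorem row_emb (r : ℕ → Module.Dual K F) (x : PowerSeries (Module.End K F)) :
    row r * emb x = row fun n => ∑ q ∈ antidiagonal n, r q.1 ∘ₗ PowerSeries.coeff q.2 x :=
  mat_ext fun n v => by
    simp only [coeff_mul, coeff_emb, coeff_row]
    exact Prod.ext (by simp [Prod.fst_sum]) (by simp [Prod.snd_sum])

theorem emb_col (x : PowerSeries (Module.End K F)) (c : ℕ → F) :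
    emb x * col c = col fun n => ∑ q ∈ antidiagonal n, PowerSeries.coeff q.1 x (c q.2) :=
  mat_ext fun n v => by
    simp only [coeff_mul, coeff_emb, coeff_col]
    exact Prod.ext (by simp [Prod.fst_sum, smul_sum]) (by simp [Prod.snd_sum])

end Coef

open Coef

/-- The ring of banded series of operators. -/
noncomputable def Gr.alg : Subalgebra K (PowerSeries (Module.End K F)) where
  carrier := {x | G.Band x}
  mul_mem' := fun {x y} hx hy => (band_iff G).2 fun n e e' v h => by
    rw [Coef.coeff_mul, map_sum]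
    refine sum_eq_zero fun q hq => ?_
    have hq := mem_antidiagonal.1 hq
    refine ap_zero G (G.π e' ∘ₗ PowerSeries.coeff q.1 x) _ fun e'' => ?_
    by_cases h1 : q.1 + e'' < e' ∨ q.1 + e' < e''
    · exact (band_iff G).1 hx _ _ _ _ h1
    · rw [(band_iff G).1 hy _ _ _ _ (by omega), map_zero]
  add_mem' := fun {x y} hx hy n e e' h => by
    rw [map_add, mul_add, add_mul, hx n e e' h, hy n e e' h, add_zero]
  algebraMap_mem' := fun c => (band_iff G).2 fun n e e' v h => by
    rw [PowerSeries.algebraMap_apply, PowerSeries.coeff_C]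
    split_ifs with hn
    · rw [Module.algebraMap_end_apply, map_smul, Coef.π_π, if_neg (by omega), smul_zero]
    · rw [LinearMap.zero_apply, map_zero]

namespace Coef

theorem band_cj {x : PowerSeries (Module.End K F)} (hx : G.Band x) : G.Band (cj G.σ G.inv x) :=
  (band_iff G).2 fun n e e' v h => by
    rw [coeff_cj, σπ, ← σπ, (band_iff G).1 hx _ _ _ _ h, map_zero]

/-- The parity of the ring of banded operators. -/
noncomputable def σA : G.alg →ₐ[K] G.alg :=
  ((cj G.σ G.inv).comp G.alg.val).codRestrict G.alg fun x => band_cj G x.2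

/-- rows of cap type -/
def capL : Submodule K (ℕ → Module.Dual K F) where
  carrier := {r | ∀ n e, n < e → r n ∘ₗ G.π e = 0}
  add_mem' := fun h h' n e he => by
    rw [Pi.add_apply, add_comp, h n e he, h' n e he, add_zero]
  zero_mem' := fun _ _ _ => rfl
  smul_mem' := fun c _ h n e he => by rw [Pi.smul_apply, smul_comp, h n e he, smul_zero]

/-- columns of cap type -/
def capR : Submodule K (ℕ → F) where
  carrier := {c | ∀ n e, n < e → G.π e (c n) = 0}
  add_mem' := fun h h' n e he => by
    rw [Pi.add_apply, map_add, h n e he, h' n e he, add_zero]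
  zero_mem' := fun _ _ _ => map_zero _
  smul_mem' := fun c _ h n e he => by rw [Pi.smul_apply, map_smul, h n e he, smul_zero]

theorem cj_row (r : ℕ → Module.Dual K F) :
    cj (τ G) (ττ G) (row r) = row fun n => r n ∘ₗ G.σ :=
  mat_ext fun n v => by
    rw [coeff_cj, coeff_row, coeff_row]
    exact Prod.ext (map_zero G.σ) rfl

theorem cj_col (c : ℕ → F) : cj (τ G) (ττ G) (col c) = col fun n => G.σ (c n) :=
  mat_ext fun n v => by
    rw [coeff_cj, coeff_col, coeff_col]
    exact Prod.ext (map_smul G.σ _ _) rfl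

theorem cj_cor (c : ℕ → K) : cj (τ G) (ττ G) (cor F c) = cor F c :=
  mat_ext fun n v => by
    rw [coeff_cj, coeff_cor, coeff_cor]
    exact Prod.ext (map_zero G.σ) rfl

theorem cj_emb (x : PowerSeries (Module.End K F)) :
    cj (τ G) (ττ G) (emb x) = emb (cj G.σ G.inv x) :=
  mat_ext fun n v => by
    rw [coeff_cj, coeff_emb, coeff_emb, coeff_cj]
    rfl

end Coef

variable (k) in
/-- The parity of the ring of matrices. -/
noncomputable def Gr.sB (G : Gr K F) : SPar k (Mat K F) :=
  ⟨(cj (τ G) (ττ G)).restrictScalars k, cj_cj _ (ττ G)⟩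

variable (k) in
/-- The parity of the ring of banded operators. -/
noncomputable def Gr.sA (G : Gr K F) : SPar k G.alg :=
  ⟨(σA G).restrictScalars k, fun x => Subtype.ext (cj_cj _ G.inv x.1)⟩

variable (k) in
/-- The ring of banded operators inside the ring of matrices. -/
noncomputable def Gr.rg (G : Gr K F) : Rg (G.sA k) (G.sB k) where
  φ := (emb ∘ₗ G.alg.val.toLinearMap).restrictScalars k
  σφ x := cj_emb G x.1
  mul x y := emb_mul x.1 y.1
  NL := (LinearMap.range row).restrictScalars k
  NR := (LinearMap.range col).restrictScalars k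
  L := ((capL G).map row).restrictScalars k
  R := ((capR G).map col).restrictScalars k
  L_le := fun _ ⟨r, _, h⟩ => ⟨r, h⟩
  R_le := fun _ ⟨r, _, h⟩ => ⟨r, h⟩
  σNL := by
    rintro _ ⟨r, rfl⟩
    exact ⟨_, (cj_row G r).symm⟩
  σL := by
    rintro _ ⟨r, h, rfl⟩
    refine ⟨_, fun n e he => LinearMap.ext fun v => ?_, (cj_row G r).symm⟩
    exact (congrArg (r n) (σπ G e v)).trans (LinearMap.congr_fun (h n e he) _)
  σR := by
    rintro _ ⟨c, h, rfl⟩
    refine ⟨_, fun n e he => ?_, (cj_col G c).symm⟩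
    rw [← σπ, h n e he, map_zero]
  NLm := by
    rintro _ ⟨r, rfl⟩ x
    exact ⟨_, (row_emb r x.1).symm⟩
  NRm := by
    rintro _ ⟨c, rfl⟩ x
    exact ⟨_, (emb_col x.1 c).symm⟩
  Lm := by
    rintro _ ⟨r, h, rfl⟩ x
    refine ⟨_, fun n e he => LinearMap.ext fun v => ?_, (row_emb r x.1).symm⟩
    rw [comp_apply, LinearMap.sum_apply]
    refine sum_eq_zero fun q hq => ?_
    have hq := mem_antidiagonal.1 hq
    refine ap_zero G (r q.1) _ fun e' => ?_
    by_cases h1 : q.1 < e'
    · exact LinearMap.congr_fun (h _ _ h1) _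
    · rw [(band_iff G).1 x.2 _ _ _ _ (by omega), map_zero]
  Rm := by
    rintro _ ⟨c, h, rfl⟩ x
    refine ⟨_, fun n e he => ?_, (emb_col x.1 c).symm⟩
    rw [map_sum]
    refine sum_eq_zero fun q hq => ?_
    have hq := mem_antidiagonal.1 hq
    refine ap_zero G (G.π e ∘ₗ PowerSeries.coeff q.1 x.1) _ fun e' => ?_
    by_cases h1 : q.2 < e'
    · rw [h _ _ h1, map_zero]
    · exact (band_iff G).1 x.2 _ _ _ _ (by omega)
  NL1 := by
    rintro _ ⟨r, rfl⟩
    refine (row_emb r 1).trans (congrArg row (funext fun n => ?_))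
    rw [sum_eq_single (n, 0)]
    · rw [PowerSeries.coeff_zero_one]
      rfl
    · rintro ⟨a, b⟩ hq hne
      have hq := mem_antidiagonal.1 hq
      rw [PowerSeries.coeff_one, if_neg, comp_zero]
      rintro (rfl : b = 0)
      exact hne (Prod.ext hq rfl)
    · exact fun h => (h (mem_antidiagonal.2 rfl)).elim

theorem Gr.φ_apply (x : G.alg) : (G.rg k).φ x = emb x.1 := rfl

theorem Gr.σB_smul (c : K) (y : Mat K F) : (G.sB k).σ (c • y) = c • (G.sB k).σ y :=
  map_smul (cj (τ G) (ττ G)) c y

theorem Gr.σA_smul (c : K) (y : G.alg) : (G.sA k).σ (c • y) = c • (G.sA k).σ y :=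
  map_smul (σA G) c y

theorem Gr.φ_smul (c : K) (y : G.alg) : (G.rg k).φ (c • y) = c • (G.rg k).φ y :=
  map_smul emb c y.1

theorem Gr.σ_row (r : ℕ → Module.Dual K F) : (G.sB k).σ (row r) = row fun n => r n ∘ₗ G.σ :=
  cj_row G r

theorem Gr.σ_col (c : ℕ → F) : (G.sB k).σ (col c : Mat K F) = col fun n => G.σ (c n) := cj_col G c

theorem Gr.σ_cor (c : ℕ → K) : (G.sB k).σ (cor F c) = cor F c := cj_cor G c

theorem row_mul_col (r : ℕ → Module.Dual K F) (c : ℕ → F) :
    row r * col c = cor F fun n => ∑ q ∈ antidiagonal n, r q.1 (c q.2) :=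
  mat_ext fun n v => by
    simp only [Coef.coeff_mul, coeff_row, coeff_col, coeff_cor]
    exact Prod.ext (by simp [Prod.fst_sum]) (by simp [Prod.snd_sum, mul_sum])

theorem cor_injective : Function.Injective (cor F : (ℕ → K) → Mat K F) := fun c c' h =>
  funext fun n => by
    have h1 := congrArg (fun x : Mat K F => (PowerSeries.coeff n x (0, 1)).2) h
    simpa only [coeff_cor, one_mul] using h1

theorem Gr.mem_NL (y : Mat K F) : y ∈ (G.rg k).NL ↔ ∃ r, y = row r :=
  exists_congr fun _ => eq_comm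

theorem Gr.mem_NR (y : Mat K F) : y ∈ (G.rg k).NR ↔ ∃ c, y = col c :=
  exists_congr fun _ => eq_comm

theorem Gr.mem_L (y : Mat K F) :
    y ∈ (G.rg k).L ↔ ∃ r, y = row r ∧ ∀ n e, n < e → r n ∘ₗ G.π e = 0 :=
  exists_congr fun _ => and_comm.trans (and_congr_left' eq_comm)

theorem Gr.mem_R (y : Mat K F) :
    y ∈ (G.rg k).R ↔ ∃ c, y = col c ∧ ∀ n e, n < e → G.π e (c n) = 0 :=
  exists_congr fun _ => and_comm.trans (and_congr_left' eq_comm)

/-- Triangular columns with spanning top parts. -/
def Gr.IR {I : Type} (s : ℕ) (c : I → ℕ → F) : Prop :=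
  (∀ i n e, n < s * e → G.π e (c i n) = 0) ∧ ∀ N (r : Module.Dual K F),
    (∀ i, ∑ e ∈ range N, r (G.π e (c i (s * e))) = 0) → ∀ e < N, r ∘ₗ G.π e = 0

/-- Triangular rows with spanning top parts. -/
def Gr.IL {I : Type} (a : I → ℕ → Module.Dual K F) : Prop :=
  (∀ i n e, n < e → a i n ∘ₗ G.π e = 0) ∧ ∀ N (v : F),
    (∀ i, ∑ e ∈ range N, a i e (G.π e v) = 0) → ∀ e < N, G.π e v = 0

variable {G} {I I' : Type} {s : ℕ} {c : I → ℕ → F} {a : I' → ℕ → Module.Dual K F}

namespace Coef

/-- The pairing of a row and a column. -/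
def pr (r : ℕ → Module.Dual K F) (n : ℕ) : (ℕ → F) →ₗ[K] K :=
  ∑ q ∈ antidiagonal n, r q.1 ∘ₗ LinearMap.proj q.2

theorem pr_apply (r : ℕ → Module.Dual K F) (n : ℕ) (y : ℕ → F) :
    pr r n y = ∑ q ∈ antidiagonal n, r q.1 (y q.2) := by
  rw [pr, LinearMap.sum_apply]
  rfl

theorem pr_of_eq {r r' : ℕ → Module.Dual K F} {y y' : ℕ → F}
    (h : row r * col y = row r' * col y') (n : ℕ) : pr r n y = pr r' n y' := by
  rw [row_mul_col, row_mul_col] at h
  rw [pr_apply, pr_apply]
  exact congrFun (cor_injective h) n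

theorem pr_congr (r : ℕ → Module.Dual K F) {n : ℕ} {y y' : ℕ → F} (h : ∀ m ≤ n, y m = y' m) :
    pr r n y = pr r n y' := by
  rw [pr_apply, pr_apply]
  refine sum_congr rfl fun q hq => ?_
  have hq := mem_antidiagonal.1 hq
  rw [h _ (by omega)]

/-- The triangular system of the rows, truncated. -/
theorem il_trunc (h : G.IL a) {y : ℕ → F} {N : ℕ} (h0 : ∀ i, ∀ n < N, pr (a i) n y = 0) :
    ∀ q e, q + e < N → G.π e (y q) = 0 := by
  induction N with
  | zero => exact fun q e he => absurd he (Nat.not_lt_zero _)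
  | succ n ih =>
    have ih := ih fun i m hm => h0 i m (by omega)
    intro q e he
    by_cases h1 : q + e < n
    · exact ih q e h1
    have h2 := h.2 (n + 1) (∑ e ∈ range (n + 1), G.π e (y (n - e))) (fun i => by
      rw [← h0 i n (by omega), pr_apply, Nat.sum_antidiagonal_eq_sum_range_succ_mk]
      refine sum_congr rfl fun p hp => ?_
      have hp := mem_range.1 hp
      rw [π_sum G hp fun e => y (n - e)]
      refine (ap_single G _ _ p fun e' he' => ?_).symm
      by_cases h3 : p < e'
      · exact LinearMap.congr_fun (h.1 i _ _ h3) _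
      · rw [ih _ _ (by omega), map_zero]) e (by omega)
    rwa [π_sum G (by omega) fun e => y (n - e), show n - e = q by omega] at h2

theorem il_zero (h : G.IL a) {y : ℕ → F} (h0 : ∀ i n, pr (a i) n y = 0) : y = 0 :=
  funext fun q => eq_zero G _ fun e => il_trunc h (fun i n _ => h0 i n) q e (Nat.lt_succ_self _)

theorem ir_zero (h : G.IR s c) (hs : 0 < s) {r : ℕ → Module.Dual K F}
    (h0 : ∀ i n, pr r n (c i) = 0) : r = 0 := by
  have key : ∀ n p e, p + s * e < n → r p ∘ₗ G.π e = 0 := by
    intro n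
    induction n with
    | zero => exact fun p e he => absurd he (Nat.not_lt_zero _)
    | succ n ih =>
      intro p e he
      by_cases h1 : p + s * e < n
      · exact ih p e h1
      have hle : ∀ e, e < n / s + 1 ↔ s * e ≤ n := fun e => by
        rw [Nat.lt_succ_iff, Nat.le_div_iff_mul_le hs, mul_comm]
      have hρ : ∀ e < n / s + 1, ∀ v,
          (∑ e ∈ range (n / s + 1), r (n - s * e) ∘ₗ G.π e) (G.π e v) =
            r (n - s * e) (G.π e v) := fun e he v => by
        rw [LinearMap.sum_apply, sum_eq_single e]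
        · rw [comp_apply, π_self]
        · intro e' _ hne
          rw [comp_apply, π_π, if_neg hne, map_zero]
        · exact fun h => (h (mem_range.2 he)).elim
      have h2 := h.2 (n / s + 1) (∑ e ∈ range (n / s + 1), r (n - s * e) ∘ₗ G.π e) (fun i => by
        rw [← h0 i n, pr_apply, Nat.sum_antidiagonal_eq_sum_range_succ_mk,
          ← sum_range_reflect _ (n + 1)]
        refine sum_of_injOn (fun e => s * e) (fun _ _ _ _ hh => Nat.eq_of_mul_eq_mul_left hs hh)
          (fun e he => mem_range.2 (Nat.lt_succ_of_le ((hle e).1 (mem_range.1 he))))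
          (fun b hb hn => ?_) fun e he => ?_
        · have hb := mem_range.1 hb
          refine ap_zero G _ _ fun e' => ?_
          rcases lt_trichotomy b (s * e') with h3 | h3 | h3
          · rw [h.1 i _ _ (by omega), map_zero]
          · exact (hn ⟨e', mem_coe.2 (mem_range.2 ((hle e').2 (by omega))), h3.symm⟩).elim
          · exact LinearMap.congr_fun (ih _ _ (by omega)) _
        · have he := mem_range.1 he
          have he2 := (hle e).1 he
          rw [hρ e he, show n + 1 - 1 - s * e = n - s * e from rfl,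
            show n - (n - s * e) = s * e by omega]
          refine (ap_single G _ _ e fun e' he' => ?_).symm
          rcases lt_or_gt_of_ne he' with h3 | h3
          · have := Nat.mul_lt_mul_of_pos_left h3 hs
            exact LinearMap.congr_fun (ih _ _ (by omega)) _
          · rw [h.1 i _ _ (Nat.mul_lt_mul_of_pos_left h3 hs), map_zero]) e
        ((hle e).2 (by omega))
      refine LinearMap.ext fun v => ?_
      have h3 := LinearMap.congr_fun h2 v
      rwa [comp_apply, hρ e ((hle e).2 (by omega)), show n - s * e = p by omega] at h3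
  exact funext fun p => LinearMap.ext fun v => ap_zero G _ v fun e =>
    LinearMap.congr_fun (key _ p e (Nat.lt_succ_self _)) v

/-- The shift of a column. -/
def shf : (ℕ → F) →ₗ[K] (ℕ → F) where
  toFun y n := Nat.casesOn n 0 y
  map_add' y y' := funext fun n => by cases n <;> simp
  map_smul' t y := funext fun n => by cases n <;> simp

theorem pr_shf_zero (r : ℕ → Module.Dual K F) (y : ℕ → F) : pr r 0 (shf (K := K) y) = 0 := by
  rw [pr_apply, Nat.antidiagonal_zero, sum_singleton]
  exact map_zero _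

theorem pr_shf_succ (r : ℕ → Module.Dual K F) (y : ℕ → F) (n : ℕ) :
    pr r (n + 1) (shf (K := K) y) = pr r n y := by
  rw [pr_apply, pr_apply, Nat.sum_antidiagonal_succ']
  exact (congrArg (· + _) (map_zero _)).trans (zero_add _)

theorem shf_pow_lt (j : ℕ) (y : ℕ → F) : ∀ n < j, ((shf (K := K)) ^ j) y n = 0 := by
  induction j with
  | zero => exact fun n hn => absurd hn (Nat.not_lt_zero _)
  | succ j ih =>
    intro n hn
    rw [pow_succ', Module.End.mul_apply]
    cases n with
    | zero => rfl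
    | succ n => exact ih n (by omega)

theorem shf_pow_add (j : ℕ) (y : ℕ → F) (n : ℕ) : ((shf (K := K)) ^ j) y (n + j) = y n := by
  induction j with
  | zero => rfl
  | succ j ih =>
    rw [pow_succ', Module.End.mul_apply]
    exact ih

theorem pr_pow_lt (r : ℕ → Module.Dual K F) (j : ℕ) (y : ℕ → F) {n : ℕ} (hn : n < j) :
    pr r n (((shf (K := K)) ^ j) y) = 0 := by
  rw [pr_congr r (y' := 0) fun m hm => shf_pow_lt j y m (by omega), map_zero]

theorem pr_pow_add (r : ℕ → Module.Dual K F) (j : ℕ) (y : ℕ → F) (n : ℕ) :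
    pr r (n + j) (((shf (K := K)) ^ j) y) = pr r n y := by
  induction j with
  | zero => rfl
  | succ j ih => rw [pow_succ', Module.End.mul_apply, ← add_assoc, pr_shf_succ, ih]

theorem pr_single (r : ℕ → Module.Dual K F) (v : F) (n : ℕ) : pr r n (Pi.single 0 v) = r n v := by
  rw [pr_apply, sum_eq_single (n, 0)]
  · rw [Pi.single_eq_same]
  · rintro ⟨p, q⟩ hq hne
    have hq := mem_antidiagonal.1 hq
    rw [Pi.single_eq_of_ne, map_zero]
    rintro (rfl : q = 0)
    exact hne (Prod.ext hq rfl)
  · exact fun h => (h (mem_antidiagonal.2 rfl)).elim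

theorem shf_mem {y : ℕ → F} (hy : y ∈ capR G) : shf (K := K) y ∈ capR G := fun n e he => by
  cases n with
  | zero => exact map_zero _
  | succ n => exact hy n e (by omega)

/-- Approximation by the elements of a submodule which is stable under the shift. -/
theorem approx (h : G.IR 1 c) {S : Submodule K (ℕ → F)} (hc : ∀ j, c j ∈ S)
    (hS : ∀ w ∈ S, shf (K := K) w ∈ S) (N j : ℕ) : ∀ l, l + j = N → ∀ w : ℕ → F,
      (∀ n < N, ∀ e, n < e + l → G.π e (w n) = 0) → ∃ w' ∈ S, ∀ n < N, w n = w' n := by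
  induction j with
  | zero => exact fun l hl w hw => ⟨0, zero_mem _, fun n hn => eq_zero G _ fun e =>
      hw n hn e (by omega)⟩
  | succ j ih =>
    intro l hl w hw
    let top : (ℕ → F) →ₗ[K] F := ∑ e ∈ range N, G.π e ∘ₗ LinearMap.proj e
    have htop : ∀ y, top y = ∑ e ∈ range N, G.π e (y e) := fun y => LinearMap.sum_apply _ _ _
    have hcR : ∀ i, c i ∈ capR G := fun i n e he => h.1 i n e (by omega)
    have h1 : top (fun e => w (e + l)) ∈ (S ⊓ capR G).map top := by
      by_contra hn
      obtain ⟨f, hf, hker⟩ := Submodule.exists_le_ker_of_notMem hn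
      have h2 := h.2 N f fun i => by
        have h3 : f (top (c i)) = 0 := hker (Submodule.mem_map_of_mem ⟨hc i, hcR i⟩)
        simpa only [htop, map_sum, one_mul] using h3
      rw [htop, map_sum] at hf
      exact hf (sum_eq_zero fun e he => LinearMap.congr_fun (h2 e (mem_range.1 he)) _)
    obtain ⟨w1, ⟨hw1, hw1R⟩, he1⟩ := h1
    have h4 : ∀ m, ((shf (K := K)) ^ m) w1 ∈ S := fun m => by
      induction m with
      | zero => exact hw1
      | succ m ihm =>
        rw [pow_succ', Module.End.mul_apply]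
        exact hS _ ihm
    obtain ⟨w', hw', he'⟩ := ih (l + 1) (by omega) (w - ((shf (K := K)) ^ l) w1) fun n hn e he => by
      rw [Pi.sub_apply, map_sub]
      by_cases h5 : n < l
      · rw [hw n hn e (by omega), shf_pow_lt l w1 n h5, map_zero, sub_zero]
      obtain ⟨m, rfl⟩ : ∃ m, n = m + l := ⟨n - l, by omega⟩
      rw [shf_pow_add]
      by_cases h6 : m < e
      · rw [hw _ hn e (by omega), hw1R m e h6, sub_zero]
      obtain rfl : m = e := by omega
      have h7 := congrArg (G.π m) he1
      rw [htop, htop, π_sum G (by omega), π_sum G (by omega) fun e => w (e + l)] at h7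
      rw [h7, sub_self]
    exact ⟨w' + ((shf (K := K)) ^ l) w1, add_mem hw' (h4 l), fun n hn =>
      sub_eq_iff_eq_add.1 (he' n hn)⟩

/-- Passage to the limit. -/
theorem limit (h : G.IL a) {g : I' → ℕ → K}
    (H : ∀ N, ∃ y ∈ capR G, ∀ i, ∀ n < N, pr (a i) n y = g i n) :
    ∃ y ∈ capR G, ∀ i n, pr (a i) n y = g i n := by
  choose y hy hg using H
  have key : ∀ N N' q e, q + e < N → q + e < N' → G.π e (y N q) = G.π e (y N' q) := by
    intro N N' q e h1 h2
    rw [← sub_eq_zero, ← map_sub]
    exact il_trunc h (y := y N - y N') (N := min N N') (fun i n hn => by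
      rw [map_sub, hg N i n (by omega), hg N' i n (by omega), sub_self]) q e (by omega)
  refine ⟨fun n => y (2 * n + 1) n, fun n e he => hy _ n e he, fun i n => ?_⟩
  rw [← hg (2 * n + 1) i n (by omega)]
  refine pr_congr _ fun m hm => ?_
  rw [← sub_eq_zero]
  refine eq_zero G _ fun e => ?_
  rw [map_sub, sub_eq_zero]
  by_cases h1 : m < e
  · rw [hy _ m e h1, hy _ m e h1]
  · exact key _ _ m e (by omega) (by omega)

theorem solve (h' : G.IL a) (h : G.IR 1 c) {ε : I' → ℕ → Module.Dual K F} {m : I → ℕ → F}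
    (hε : ∀ i n e, n < e → ε i n ∘ₗ G.π e = 0) (hm : ∀ j, m j ∈ capR G)
    (H : ∀ i j n, pr (ε i) n (c j) = pr (a i) n (m j)) (e : ℕ) (v : F) :
    ∃ z : ℕ → F, (∀ n e', n + e < e' → G.π e' (z n) = 0) ∧
      ∀ i n, pr (a i) n z = ε i n (G.π e v) := by
  let S : Submodule K (ℕ → F) :=
    { carrier := {w | ∃ y ∈ capR G, ∀ i n, pr (a i) n y = pr (ε i) n w}
      add_mem' := fun ⟨y, hy, h⟩ ⟨y', hy', h'⟩ => ⟨y + y', add_mem hy hy', fun i n => by
        rw [map_add, map_add, h, h']⟩
      zero_mem' := ⟨0, zero_mem _, fun i n => by rw [map_zero, map_zero]⟩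
      smul_mem' := fun t _ ⟨y, hy, h⟩ => ⟨t • y, Submodule.smul_mem _ t hy, fun i n => by
        rw [map_smul, map_smul, h]⟩ }
  obtain ⟨y, hy, hg⟩ := limit h' (g := fun i n => pr (ε i) n
      (((shf (K := K)) ^ e) (Pi.single 0 (G.π e v)))) fun N => by
    obtain ⟨w, ⟨y, hy, hw⟩, hw'⟩ := approx h (S := S)
      (fun j => ⟨m j, hm j, fun i n => (H i j n).symm⟩)
      (fun w ⟨y, hy, hw⟩ => ⟨shf (K := K) y, shf_mem hy, fun i n => by
        cases n with
        | zero => rw [pr_shf_zero, pr_shf_zero]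
        | succ n => rw [pr_shf_succ, pr_shf_succ, hw]⟩) N N 0 (zero_add N)
      (((shf (K := K)) ^ e) (Pi.single 0 (G.π e v))) fun n _ e' he' => by
        by_cases h1 : n < e
        · rw [shf_pow_lt e _ n h1, map_zero]
        obtain ⟨p, rfl⟩ : ∃ p, n = p + e := ⟨n - e, by omega⟩
        rw [shf_pow_add]
        by_cases h2 : p = 0
        · rw [h2, Pi.single_eq_same, π_π, if_neg (by omega)]
        · rw [Pi.single_eq_of_ne h2, map_zero]
    exact ⟨y, hy, fun i n hn => (hw i n).trans (pr_congr _ fun p hp => (hw' p (by omega)).symm)⟩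
  have h1 := il_trunc h' (y := y) (N := 2 * e) fun i n hn => by
    rw [hg]
    by_cases h1 : n < e
    · exact pr_pow_lt _ _ _ h1
    obtain ⟨p, rfl⟩ : ∃ p, n = p + e := ⟨n - e, by omega⟩
    rw [pr_pow_add, pr_single]
    exact LinearMap.congr_fun (hε i p e (by omega)) v
  have h2 : y = ((shf (K := K)) ^ e) fun n => y (n + e) := funext fun n => by
    by_cases h2 : n < e
    · rw [shf_pow_lt e _ n h2]
      refine eq_zero G _ fun e' => ?_
      by_cases h3 : n < e'
      · exact hy n e' h3
      · exact h1 n e' (by omega)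
    · obtain ⟨p, rfl⟩ : ∃ p, n = p + e := ⟨n - e, by omega⟩
      rw [shf_pow_add]
  refine ⟨fun n => y (n + e), fun n e' he => hy _ e' he, fun i n => ?_⟩
  rw [← pr_pow_add _ e, ← h2, hg, pr_pow_add, pr_single]

end Coef

theorem Gr.IR.can (h : G.IR s c) (hs : 0 < s) {y : Mat K F} (hy : y ∈ (G.rg k).NL)
    (h0 : ∀ i, y * col (c i) = 0) : y = 0 := by
  obtain ⟨r, rfl⟩ := hy
  rw [ir_zero h hs (r := r) fun i n => (pr_of_eq (r' := r) (y' := 0)
    (by rw [h0, map_zero, mul_zero]) n).trans (map_zero _), map_zero]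

theorem Gr.IL.can (h : G.IL a) {y : Mat K F} (hy : y ∈ (G.rg k).NR)
    (h0 : ∀ i, row (a i) * y = 0) : y = 0 := by
  obtain ⟨c, rfl⟩ := hy
  rw [il_zero h (y := c) fun i n => (pr_of_eq (r' := a i) (y' := 0)
    (by rw [h0, map_zero, mul_zero]) n).trans (map_zero _), map_zero]

theorem Gr.IL.inj (h : G.IL a) {x : G.alg} (h0 : ∀ i, row (a i) * (G.rg k).φ x = 0) : x = 0 := by
  refine Subtype.ext (PowerSeries.ext fun n => LinearMap.ext fun v => ?_)
  refine congrFun (il_zero h (y := fun n => PowerSeries.coeff n x.1 v) fun i n => ?_) n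
  have h1 := congrArg (fun y : Mat K F => (PowerSeries.coeff n y (v, 0)).2) (h0 i)
  simp only [Gr.φ_apply, row_emb, coeff_row, LinearMap.sum_apply, comp_apply] at h1
  rw [pr_apply]
  exact h1

theorem Gr.tl (h' : G.IL a) (h : G.IR 1 c) (E : I' → Mat K F) (M : I → Mat K F)
    (hE : ∀ i, E i ∈ (G.rg k).L) (hM : ∀ i, M i ∈ (G.rg k).R)
    (e : ∀ i j, E i * col (c j) = row (a i) * M j) :
    ∃ x : G.alg, (∀ i, E i = row (a i) * (G.rg k).φ x) ∧
      ∀ j, M j = (G.rg k).φ x * col (c j) := by
  choose ε hε hε' using hE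
  choose m hm hm' using hM
  have H : ∀ i j n, pr (ε i) n (c j) = pr (a i) n (m j) := fun i j =>
    pr_of_eq (by rw [hε', hm', e])
  have h1 : ∀ v, ∃ z : ℕ → F, ∀ i n, pr (a i) n z = ε i n v := fun v => by
    choose z _ hz using fun e => solve h' h hε hm H e v
    obtain ⟨N, hN⟩ := G.fin v
    refine ⟨∑ e ∈ range N, z e, fun i n => ?_⟩
    rw [map_sum, ← hN, map_sum]
    exact sum_congr rfl fun e _ => hz e i n
  choose z hz using h1
  have uniq : ∀ {y y' : ℕ → F}, (∀ i n, pr (a i) n y = pr (a i) n y') → y = y' := fun H =>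
    sub_eq_zero.1 (il_zero h' fun i n => by rw [map_sub, H, sub_self])
  let Z : F →ₗ[K] (ℕ → F) :=
    { toFun := z
      map_add' := fun v w => uniq fun i n => by rw [map_add, hz, hz, hz, map_add]
      map_smul' := fun t v => uniq fun i n => by
        rw [RingHom.id_apply, map_smul, hz, hz, map_smul] }
  let x : PowerSeries (Module.End K F) := PowerSeries.mk fun n => LinearMap.proj n ∘ₗ Z
  have hx : ∀ n v, PowerSeries.coeff n x v = z v n := fun n v => by
    rw [PowerSeries.coeff_mk]
    rfl
  have hb : G.Band x := (band_iff G).2 fun n e e' v he => by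
    rw [hx]
    rcases he with he | he
    · obtain ⟨y, hy, hy'⟩ := solve h' h hε hm H e v
      rw [uniq (y := z (G.π e v)) (y' := y) fun i n => by rw [hz, hy']]
      exact hy n e' he
    · exact il_trunc h' (N := e) (fun i p hp => by
        rw [hz]
        exact LinearMap.congr_fun (hε i p e hp) v) n e' he
  have hE : ∀ i, E i = row (a i) * (G.rg k).φ ⟨x, hb⟩ := fun i => by
    rw [Gr.φ_apply, row_emb, ← hε']
    refine congrArg row (funext fun n => LinearMap.ext fun v => ?_)
    rw [← hz, pr_apply, LinearMap.sum_apply]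
    exact sum_congr rfl fun q _ => congrArg _ (hx _ _).symm
  refine ⟨⟨x, hb⟩, hE, fun j => sub_eq_zero.1 (h'.can (k := k) ?_ fun i => ?_)⟩
  · exact sub_mem ⟨_, hm' j⟩ ((G.rg k).NRm _ ⟨_, rfl⟩ _)
  · rw [mul_sub, ← mul_assoc, ← hE, e, sub_self]

end Vale.Agent.P269.Deg
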