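import Vale.Agent.P269.Deg.Sg
import Vale.Agent.P269.Deg.Tns
import Vale.Agent.P269.Deg.Avg

/-! Linear algebra of the double point step (helper22). -/

namespace Vale.Agent.P269.Deg

open Fock Finset LinearMap TensorProduct Fn

namespace Cs0P

section spl

variable {X : Coh} {ε : ℂ} {U V : Submodule ℂ X.H} {π : Module.End ℂ X.H} (h : Spl X ε U V π)
  {u v : X.H}
include h

theorem orth' (hv : v ∈ V) (hu : u ∈ U) : X.fr.η v u = 0 := by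
  rw [X.fr.η_symm]
  exact h.orth _ (h.σU u hu) v hv

theorem eq_zero (hu : u ∈ U) (hv : u ∈ V) : u = 0 :=
  h.form.nondeg u hv fun _ hw => orth' h hw hu

theorem π_V (hv : v ∈ V) : π v = v :=
  (sub_eq_zero.1 (eq_zero h (h.πU v) (V.sub_mem hv (h.πV v)))).symm

theorem π_U (hu : u ∈ U) : π u = 0 :=
  eq_zero h (by simpa using U.sub_mem hu (h.πU u)) (h.πV u)

theorem π_π : π * π = π := LinearMap.ext fun x => π_V h (h.πV x)

theorem η_π_left (x : X.H) (hv : v ∈ V) : X.fr.η (π x) v = X.fr.η x v := by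
  have := h.orth _ (h.πU x) v hv
  rw [map_sub, LinearMap.sub_apply, sub_eq_zero] at this
  exact this.symm

theorem η_π_right (hv : v ∈ V) (x : X.H) : X.fr.η v (π x) = X.fr.η v x := by
  have := orth' h hv (h.πU x)
  rw [map_sub, sub_eq_zero] at this
  exact this.symm

theorem adj_π (x y : X.H) : X.fr.η (π x) y = X.fr.η x (π y) := by
  rw [← η_π_right h (h.πV x), η_π_left h x (h.πV y)]

theorem mem_U {x : X.H} (hx : ∀ v ∈ V, X.fr.η x v = 0) : x ∈ U := by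
  have h1 : π x = 0 := h.form.nondeg _ (h.πV x) fun v hv => by
    rw [h.form.symm v hv _ (h.πV x), η_π_left h x hv, hx v hv, mul_zero]
  simpa [h1] using h.πU x

theorem apply_π {N : Type} [AddCommGroup N] [Module ℂ N] {T : X.H →ₗ[ℂ] N}
    (hk : ∀ u ∈ U, T u = 0) (x : X.H) : T (π x) = T x := by
  have := hk _ (h.πU x)
  rw [map_sub, sub_eq_zero] at this
  exact this.symm

theorem isEv_of {T : Module.End ℂ X.H} (hm : ∀ x, T x ∈ V) (hk : ∀ u ∈ U, T u = 0) :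
    IsEv X.p X.p T := fun x => by
  have h1 := hk _ (h.σU _ (h.πU x))
  rw [map_sub, map_sub, sub_eq_zero, h.σV _ (h.πV x), map_smul, apply_π h hk] at h1
  rw [h.σV _ (hm x), h1]

theorem isEv_π : IsEv X.p X.p π := isEv_of h h.πV fun _ => π_U h

variable {ν g g' : Module.End ℂ X.H}

theorem adj_U (hν : Inv.Adj X.fr.η V ν g) (hu : u ∈ U) : ν u = 0 :=
  eq_zero h (mem_U h fun v hv => by rw [hν.adj u v hv, h.orth u hu _ (hν.mem' v)]) (hν.mem u)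

theorem adj_adj (hν : Inv.Adj X.fr.η V ν g) (x y : X.H) : X.fr.η (ν x) y = X.fr.η x (g y) := by
  rw [← η_π_right h (hν.mem x), hν.adj x _ (h.πV y), apply_π h fun _ => adj_U h hν.symm]

theorem skew_U (hν : Inv.Skew X.fr.η V ν) (hu : u ∈ U) : ν u = 0 := adj_U h hν.adj hu

theorem skew_adj (hν : Inv.Skew X.fr.η V ν) (x y : X.H) : X.fr.η (ν x) y = -X.fr.η x (ν y) := by
  rw [adj_adj h hν.adj, LinearMap.neg_apply, map_neg]

theorem skew_isEv (hν : Inv.Skew X.fr.η V ν) : IsEv X.p X.p ν :=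
  isEv_of h hν.mem fun _ => skew_U h hν

theorem skew_mul_π (hν : Inv.Skew X.fr.η V ν) : ν * π = ν :=
  LinearMap.ext (apply_π h fun _ => skew_U h hν)

theorem π_mul_skew (hν : Inv.Skew X.fr.η V ν) : π * ν = ν :=
  LinearMap.ext fun x => π_V h (hν.mem x)

omit h in
theorem isom_inv (hg : Inv.Isom X.fr.η V g) (e : g * g' = 1) : Inv.Isom X.fr.η V g' := by
  have h1 : ∀ x, g (g' x) = x := LinearMap.congr_fun e
  have h2 : ∀ x, g' x - x ∈ V := fun x => by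
    have := V.neg_mem (hg.mem (g' x))
    rwa [h1, neg_sub] at this
  refine ⟨h2, fun x v hv => ?_⟩
  rw [← hg.isom _ _ (by simpa using V.add_mem (h2 v) hv), h1, h1]

theorem isom_U (hg : Inv.Isom X.fr.η V g) (hu : u ∈ U) : g u = u := by
  obtain ⟨g', e, -⟩ := AvgP.exists_inv h.form hg
  have h1 : ∀ x, g (g' x) = x := LinearMap.congr_fun e
  refine sub_eq_zero.1 (eq_zero h (U.sub_mem (mem_U h fun v hv => ?_) hu) (hg.mem u))
  have h2 := (isom_inv hg e).map_mem hv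
  rw [← h1 v, hg.isom _ _ h2, h.orth u hu _ h2]

theorem isom_isom (hg : Inv.Isom X.fr.η V g) (x y : X.H) :
    X.fr.η (g x) (g y) = X.fr.η x y := by
  have h1 := orth' h (hg.mem x) (h.πU y)
  have h2 := isom_U h hg (h.πU y)
  rw [map_sub, sub_eq_iff_eq_add] at h2
  rw [map_sub X.fr.η, LinearMap.sub_apply, sub_eq_zero] at h1
  rw [h2, map_add, h1, hg.isom _ _ (h.πV y), ← map_add, sub_add_cancel]

theorem isom_isEv (hg : Inv.Isom X.fr.η V g) : IsEv X.p X.p g := by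
  have := (isEv_of h (T := g - 1) hg.mem fun u hu => sub_eq_zero.2 (isom_U h hg hu)).add IsEv.one
  rwa [sub_add_cancel] at this

theorem isom_π (hg : Inv.Isom X.fr.η V g) : g * π = π * g := by
  ext x
  have h1 := isom_U h hg (h.πU x)
  rw [map_sub, sub_eq_iff_eq_add] at h1
  rw [Module.End.mul_apply, Module.End.mul_apply, h1, map_add, π_U h (h.πU x), zero_add,
    π_V h (hg.map_mem (h.πV x))]

end spl

section prim

variable {X : Coh} {d : VD X.fr} {ε : ℂ} (pr : Prim X d ε)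

theorem spl : Spl X ε pr.A pr.V pr.π where
  form := pr.form
  orth := pr.orth
  σU a ha := by rwa [pr.σA a ha]
  σV := pr.σV
  one := pr.one
  πV := pr.fr.proj_mem
  πU x := by
    obtain ⟨a, ha, v, hv, rfl⟩ := Submodule.mem_sup.1 (pr.sup ▸ Submodule.mem_top : x ∈ pr.A ⊔ pr.V)
    have h1 : pr.π a = 0 := by
      rw [Prim.π, Inv.proj_apply]
      exact sum_eq_zero fun b _ => by rw [pr.orth a ha _ (pr.fr.f_mem b), zero_smul]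
    rwa [map_add, h1, zero_add, Prim.π, pr.fr.proj_of_mem hv, add_sub_cancel_right]

theorem μ_V {v : X.H} (hv : v ∈ pr.V) : d.μ v ∈ pr.V := by
  rw [← pr.fr.expand v hv, map_sum]
  refine pr.V.sum_mem fun b _ => ?_
  rw [map_smul, pr.eig]
  exact pr.V.smul_mem _ (pr.V.smul_mem _ (pr.fr.e_mem b))

theorem ρ_A (x : X.H) : d.ρ x ∈ pr.A :=
  mem_U (spl pr) fun v hv => by rw [d.adjρ, pr.ρV v hv, map_zero]

theorem ρ_π : d.ρ * pr.π = 0 := LinearMap.ext fun x => pr.ρV _ ((spl pr).πV x)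

theorem π_ρ : pr.π * d.ρ = 0 := LinearMap.ext fun x => π_U (spl pr) (ρ_A pr x)

theorem μ_π : d.μ * pr.π = pr.π * d.μ := by
  ext x
  have h1 := π_U (spl pr) (pr.μA _ ((spl pr).πU x))
  rw [map_sub, map_sub, sub_eq_zero, π_V (spl pr) (μ_V pr ((spl pr).πV x))] at h1
  exact h1.symm

theorem skew_μ : Inv.Skew X.fr.η pr.V (d.μ * pr.π) :=
  ⟨fun x => μ_V pr ((spl pr).πV x), fun x v hv => by
    rw [Module.End.mul_apply, Module.End.mul_apply, π_V (spl pr) hv, d.adjμ,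
      η_π_left (spl pr) x (μ_V pr hv), neg_add_cancel]⟩

theorem trace_pow {T : Module.End ℂ X.H} {l : pr.κ → ℂ} (hl : ∀ b, T (pr.e b) = l b • pr.e b)
    (j : ℕ) : LinearMap.trace ℂ _ (T ^ j * pr.π) = ∑ b, l b ^ j := by
  rw [Prim.π, Inv.pow_mul_proj hl, map_sum]
  refine sum_congr rfl fun b _ => ?_
  rw [map_smul, Inv.rk, LinearMap.trace_smulRight, LinearMap.flip_apply, pr.dual, smul_eq_mul,
    mul_one]

theorem card_eq : Fintype.card pr.κ = Module.finrank ℂ pr.V := by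
  have := trace_pow pr (T := 1) (l := 1) (fun b => by simp) 0
  rw [pow_zero, one_mul, Prim.π, pr.fr.trace_proj] at this
  simp only [pow_zero, sum_const, card_univ, nsmul_eq_mul, mul_one, Nat.cast_inj] at this
  exact this.symm

end prim

section ell

variable {H : Type} [AddCommGroup H] [Module ℂ H] {μ μ' ρ ρ' q : Module.End ℂ H}

theorem ellO_cst (h1 : μ * q = q * μ') (h2 : ρ * q = q * ρ') (k : ℕ) :
    ellO μ ρ k * Fock.cst q = Fock.cst q * ellO μ' ρ' k := by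
  have h3 : SemiconjBy (Fock.cst q) (zp ℂ H 1 * (eu ℂ H + hf ℂ • 1 + Fock.cst μ') + Fock.cst ρ')
      (zp ℂ H 1 * (eu ℂ H + hf ℂ • 1 + Fock.cst μ) + Fock.cst ρ) :=
    (SemiconjBy.mul_right (cst_zp q 1) (SemiconjBy.add_right (SemiconjBy.add_right (cst_eu q)
      ((Commute.one_right _).smul_right _)) (SemiconjBy.map h1.symm Fock.cst))).add_right
      (SemiconjBy.map h2.symm Fock.cst)
  exact (SemiconjBy.mul_right (cst_zp q (-1)) (h3.pow_right k)).eq.symm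

theorem ellO_congr (h1 : μ * q = q * μ) (h2 : ρ * q = q * ρ) (h3 : μ' * q = μ * q) (k : ℕ) :
    ellO μ' ρ k * Fock.cst q = ellO μ ρ k * Fock.cst q := by
  rw [ellO_cst h1 h2, ellO_cst (h3.trans h1) h2]

theorem qd_ell {p : Par ℂ H} {ι : Type} [Fintype ι] {fr : Frame p ι} (d : VD fr) (k : ℕ) :
    Qd fr (d.ell k) := ⟨(d.quad_ell k).ev, (d.quad_ell k).adj, _, d.up_ell k⟩

theorem vv_mul (a b : Module.End ℂ H) : vv (a * b) = vv a * vv b :=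
  LinearMap.ext fun _ => Finsupp.ext fun _ => rfl

theorem vv_sub (a b : Module.End ℂ H) : vv (a - b) = vv a - vv b :=
  LinearMap.ext fun _ => Finsupp.ext fun _ => rfl

theorem vv_add (a b : Module.End ℂ H) : vv (a + b) = vv a + vv b :=
  LinearMap.ext fun _ => Finsupp.ext fun _ => rfl

theorem vv_smul (c : ℂ) (a : Module.End ℂ H) : vv (c • a) = c • vv a :=
  LinearMap.ext fun _ => Finsupp.ext fun _ => rfl

theorem vv_zero : vv (0 : Module.End ℂ H) = 0 := LinearMap.ext fun _ => Finsupp.ext fun _ => rfl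

end ell

end Cs0P

open Cs0P

theorem Prim.exists_vd {X : Coh} {d : VD X.fr} {ε : ℂ} (pr : Prim X d ε) {ν : Module.End ℂ X.H}
    (hν : Inv.Skew X.fr.η pr.V ν) : ∃ d' : VD X.fr, d'.μ = d.μ * (1 - pr.π) + ν ∧ d'.ρ = d.ρ := by
  have h := spl pr
  refine ⟨⟨d.μ * (1 - pr.π) + ν, d.ρ, (d.evμ.mul (IsEv.one.sub (isEv_π h))).add (skew_isEv h hν),
    d.evρ, fun v w => ?_, d.adjρ, ?_⟩, rfl, rfl⟩
  · have h1 : pr.π (d.μ w) = d.μ (pr.π w) := (LinearMap.congr_fun (μ_π pr) w).symm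
    simp only [LinearMap.add_apply, Module.End.mul_apply, LinearMap.sub_apply,
      Module.End.one_apply, map_add, map_sub, d.adjμ, skew_adj h hν, adj_π h, h1]
    ring
  · have h1 : ν * d.ρ = 0 := by rw [← skew_mul_π h hν, mul_assoc, π_ρ, mul_zero]
    have h2 : d.ρ * ν = 0 := by rw [← π_mul_skew h hν, ← mul_assoc, ρ_π, zero_mul]
    rw [add_mul, mul_add, h1, h2, mul_assoc, sub_mul, π_ρ, mul_sub d.μ 1, μ_π, mul_sub d.ρ,
      ← mul_assoc d.ρ pr.π, ρ_π, zero_mul, one_mul, mul_one, sub_zero, sub_zero, add_zero, add_zero,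
      d.comm]

theorem Prim.exists_conj {X : Coh} {d : VD X.fr} {ε : ℂ} (pr : Prim X d ε) {h h' : Module.End ℂ X.H}
    (hh : Inv.Isom X.fr.η pr.V h) (e : h * h' = 1) : ∃ d' : VD X.fr, d'.μ = h * d.μ * h' ∧
      d'.ρ = d.ρ ∧ (∀ a ∈ pr.A, d'.μ a = d.μ a) ∧ ∀ v ∈ pr.V, d'.μ v ∈ pr.V := by
  have s := spl pr
  have hh' := isom_inv hh e
  have e1 : ∀ x, h (h' x) = x := LinearMap.congr_fun e
  have k : ∀ {g}, Inv.Isom X.fr.η pr.V g → ∀ x, d.ρ (g x) = d.ρ x := fun hg x => by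
    rw [← sub_eq_zero, ← map_sub, pr.ρV _ (hg.mem x)]
  refine ⟨⟨h * d.μ * h', d.ρ, ((isom_isEv s hh).mul d.evμ).mul (isom_isEv s hh'), d.evρ,
    fun v w => ?_, d.adjρ, LinearMap.ext fun x => ?_⟩, rfl, rfl, fun a ha => ?_, fun v hv => ?_⟩
  · simp only [Module.End.mul_apply]
    rw [← e1 w, isom_isom s hh, d.adjμ, ← isom_isom s hh, e1, e1]
  · have h1 := LinearMap.congr_fun d.comm x
    have h2 : d.ρ (d.μ (h' x)) = d.ρ (d.μ x) := by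
      rw [← sub_eq_zero, ← map_sub, ← map_sub, pr.ρV _ (μ_V pr (hh'.mem x))]
    simp only [Module.End.mul_apply, LinearMap.add_apply] at h1 ⊢
    rw [isom_U s hh' (ρ_A pr x), isom_U s hh (pr.μA _ (ρ_A pr x)), k hh, h2, h1]
  · simp only [Module.End.mul_apply]
    rw [isom_U s hh' ha, isom_U s hh (pr.μA a ha)]
  · exact hh.map_mem (μ_V pr (hh'.map_mem hv))

variable {D : Dv} {Γ : Type} [AddCommGroup Γ] {g : Grd Γ} {b : DPIn g D} (σ : b.Sig)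

namespace DPIn.Sig

theorem η_rs {v w : D.H} (hv : v ∈ b.prD.V) (hw : w ∈ b.prD.V) :
    b.s.X.fr.η (σ.r v) (σ.r w) = 0 ∧ b.s.X.fr.η (σ.s v) (σ.s w) = 0 ∧
      b.s.X.fr.η (σ.r v) (σ.s w) = b.ε * D.fr.η v w ∧
      b.s.X.fr.η (σ.s v) (σ.r w) = -(b.ε * D.fr.η v w) := by
  obtain ⟨-, -, -, -, -, -, h1, h2⟩ := σ.onV v hv
  obtain ⟨-, -, -, -, -, -, h3, h4⟩ := σ.onV w hw
  have h5 := b.prD.σV w hw
  simp [← σ.ctr.iso, h1, h2, h3, h4, etaC, h5]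

variable {v : D.H} {x : b.s.X.H}

theorem r'_mem (x : b.s.X.H) : σ.r' x ∈ b.prD.V := (σ.dec x).1

theorem s'_mem (x : b.s.X.H) : σ.s' x ∈ b.prD.V := (σ.dec x).2.1

theorem r_mem (hv : v ∈ b.prD.V) : σ.r v ∈ σ.V' := (σ.onV v hv).1

theorem s_mem (hv : v ∈ b.prD.V) : σ.s v ∈ σ.V' := (σ.onV v hv).2.1

theorem r'_r (hv : v ∈ b.prD.V) : σ.r' (σ.r v) = v := (σ.onV v hv).2.2.1

theorem s'_s (hv : v ∈ b.prD.V) : σ.s' (σ.s v) = v := (σ.onV v hv).2.2.2.1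

theorem r'_s (hv : v ∈ b.prD.V) : σ.r' (σ.s v) = 0 := (σ.onV v hv).2.2.2.2.1

theorem s'_r (hv : v ∈ b.prD.V) : σ.s' (σ.r v) = 0 := (σ.onV v hv).2.2.2.2.2.1

theorem π'_eq : σ.π' = σ.r ∘ₗ σ.r' + σ.s ∘ₗ σ.s' := LinearMap.ext fun x => (σ.dec x).2.2

theorem η_r_left (hv : v ∈ b.prD.V) (y : b.s.X.H) :
    b.s.X.fr.η (σ.r v) y = b.ε * D.fr.η v (σ.s' y) := by
  rw [← η_π_right σ.spl (σ.r_mem hv), (σ.dec y).2.2, map_add, (σ.η_rs hv (σ.r'_mem y)).1,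
    (σ.η_rs hv (σ.s'_mem y)).2.2.1, zero_add]

theorem η_s_left (hv : v ∈ b.prD.V) (y : b.s.X.H) :
    b.s.X.fr.η (σ.s v) y = -(b.ε * D.fr.η v (σ.r' y)) := by
  rw [← η_π_right σ.spl (σ.s_mem hv), (σ.dec y).2.2, map_add, (σ.η_rs hv (σ.s'_mem y)).2.1,
    (σ.η_rs hv (σ.r'_mem y)).2.2.2, add_zero]

theorem η_r_right (hv : v ∈ b.prD.V) (y : b.s.X.H) :
    b.s.X.fr.η y (σ.r v) = -(b.ε * D.fr.η (σ.s' y) v) := by
  rw [← η_π_left σ.spl y (σ.r_mem hv), (σ.dec y).2.2, map_add, LinearMap.add_apply,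
    (σ.η_rs (σ.r'_mem y) hv).1, (σ.η_rs (σ.s'_mem y) hv).2.2.2, zero_add]

theorem η_s_right (hv : v ∈ b.prD.V) (y : b.s.X.H) :
    b.s.X.fr.η y (σ.s v) = b.ε * D.fr.η (σ.r' y) v := by
  rw [← η_π_left σ.spl y (σ.s_mem hv), (σ.dec y).2.2, map_add, LinearMap.add_apply,
    (σ.η_rs (σ.s'_mem y) hv).2.1, (σ.η_rs (σ.r'_mem y) hv).2.2.1, add_zero]

/-- The block diagonal endomorphism of `V' = V_D ⊕ V_D`. -/
noncomputable abbrev bl (a c : Module.End ℂ D.H) : Module.End ℂ b.s.X.H :=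
  σ.r ∘ₗ a ∘ₗ σ.r' + σ.s ∘ₗ c ∘ₗ σ.s'

variable {a c a' c' ν ν' : Module.End ℂ D.H}

theorem bl_apply (x : b.s.X.H) : σ.bl a c x = σ.r (a (σ.r' x)) + σ.s (c (σ.s' x)) := rfl

theorem bl_mem (ha : ∀ v ∈ b.prD.V, a v ∈ b.prD.V) (hc : ∀ v ∈ b.prD.V, c v ∈ b.prD.V)
    (x : b.s.X.H) : σ.bl a c x ∈ σ.V' :=
  σ.V'.add_mem (σ.r_mem (ha _ (σ.r'_mem x))) (σ.s_mem (hc _ (σ.s'_mem x)))

theorem bl_U (hx : x ∈ σ.U) : σ.bl a c x = 0 := by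
  simp [σ.kill x hx]

theorem bl_r (hv : v ∈ b.prD.V) : σ.bl a c (σ.r v) = σ.r (a v) := by
  rw [bl_apply, σ.r'_r hv, σ.s'_r hv, map_zero, map_zero, add_zero]

theorem bl_s (hv : v ∈ b.prD.V) : σ.bl a c (σ.s v) = σ.s (c v) := by
  rw [bl_apply, σ.r'_s hv, σ.s'_s hv, map_zero, map_zero, zero_add]

theorem bl_one : σ.bl 1 1 = σ.π' := σ.π'_eq.symm

theorem bl_mul (ha : ∀ v ∈ b.prD.V, a' v ∈ b.prD.V) (hc : ∀ v ∈ b.prD.V, c' v ∈ b.prD.V) :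
    σ.bl a c * σ.bl a' c' = σ.bl (a * a') (c * c') := LinearMap.ext fun x => by
  rw [Module.End.mul_apply, σ.bl_apply x, map_add, σ.bl_r (ha _ (σ.r'_mem x)),
    σ.bl_s (hc _ (σ.s'_mem x))]
  rfl

theorem bl_congr (ha : ∀ v ∈ b.prD.V, a v = a' v) (hc : ∀ v ∈ b.prD.V, c v = c' v) :
    σ.bl a c = σ.bl a' c' := LinearMap.ext fun x => by
  rw [bl_apply, bl_apply, ha _ (σ.r'_mem x), hc _ (σ.s'_mem x)]

theorem bl_adj (ha : ∀ v ∈ b.prD.V, a v ∈ b.prD.V) (hc : ∀ v ∈ b.prD.V, c v ∈ b.prD.V)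
    (ha' : ∀ v ∈ b.prD.V, a' v ∈ b.prD.V) (hc' : ∀ v ∈ b.prD.V, c' v ∈ b.prD.V)
    (h1 : ∀ v ∈ b.prD.V, ∀ w ∈ b.prD.V, D.fr.η (a v) w = D.fr.η v (c' w))
    (h2 : ∀ v ∈ b.prD.V, ∀ w ∈ b.prD.V, D.fr.η (c v) w = D.fr.η v (a' w)) (x y : b.s.X.H) :
    b.s.X.fr.η (σ.bl a c x) y = b.s.X.fr.η x (σ.bl a' c' y) := by
  rw [bl_apply, bl_apply, map_add, map_add, LinearMap.add_apply, σ.η_r_left (ha _ (σ.r'_mem x)),
    σ.η_s_left (hc _ (σ.s'_mem x)), σ.η_r_right (ha' _ (σ.r'_mem y)),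
    σ.η_s_right (hc' _ (σ.s'_mem y)), h1 _ (σ.r'_mem x) _ (σ.s'_mem y),
    h2 _ (σ.s'_mem x) _ (σ.r'_mem y), add_comm]

theorem skew_bl (ha : ∀ v ∈ b.prD.V, a v ∈ b.prD.V) (hc : ∀ v ∈ b.prD.V, c v ∈ b.prD.V)
    (h : ∀ v ∈ b.prD.V, ∀ w ∈ b.prD.V, D.fr.η (a v) w = -D.fr.η v (c w)) :
    Inv.Skew b.s.X.fr.η σ.V' (σ.bl a c) := by
  refine ⟨σ.bl_mem ha hc, fun x y _ => ?_⟩
  rw [σ.bl_adj (a' := -a) (c' := -c) ha hc (fun v hv => neg_mem (ha v hv))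
    (fun v hv => neg_mem (hc v hv)) (fun v hv w hw => by simp [h v hv w hw]) fun v hv w hw => by
      rw [b.prD.form.symm _ (hc v hv) w hw, LinearMap.neg_apply, map_neg,
        b.prD.form.symm v hv _ (ha w hw), h w hw v hv]
      ring, ← map_add]
  simp only [bl_apply, LinearMap.neg_apply, map_neg, map_add]
  ring

theorem skew_e : Inv.Skew b.s.X.fr.η σ.V' (σ.r ∘ₗ σ.s') :=
  ⟨fun x => σ.r_mem (σ.s'_mem x), fun x y _ => by
    rw [comp_apply, comp_apply, σ.η_r_left (σ.s'_mem x), σ.η_r_right (σ.s'_mem y), add_neg_cancel]⟩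

theorem skew_f : Inv.Skew b.s.X.fr.η σ.V' (σ.s ∘ₗ σ.r') :=
  ⟨fun x => σ.s_mem (σ.r'_mem x), fun x y _ => by
    rw [comp_apply, comp_apply, σ.η_s_left (σ.r'_mem x), σ.η_s_right (σ.r'_mem y), neg_add_cancel]⟩

theorem bl_hh : σ.bl 1 (-1) = σ.r ∘ₗ σ.r' - σ.s ∘ₗ σ.s' := LinearMap.ext fun x => by
  simp [sub_eq_add_neg]

theorem skew_hh : Inv.Skew b.s.X.fr.η σ.V' (σ.r ∘ₗ σ.r' - σ.s ∘ₗ σ.s') :=
  σ.bl_hh ▸ σ.skew_bl (fun _ h => h) (fun _ h => neg_mem h) fun v _ w _ => by simp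

theorem isEv : IsEv b.s.X.p b.s.X.p (σ.r ∘ₗ σ.s') ∧ IsEv b.s.X.p b.s.X.p (σ.s ∘ₗ σ.r') ∧
    IsEv b.s.X.p b.s.X.p (σ.r ∘ₗ σ.r') ∧ IsEv b.s.X.p b.s.X.p (σ.s ∘ₗ σ.s') :=
  ⟨skew_isEv σ.spl σ.skew_e, skew_isEv σ.spl σ.skew_f,
    isEv_of σ.spl (fun x => σ.r_mem (σ.r'_mem x)) fun u hu => by simp [σ.kill u hu],
    isEv_of σ.spl (fun x => σ.s_mem (σ.s'_mem x)) fun u hu => by simp [σ.kill u hu]⟩

theorem lie_ef : (σ.r ∘ₗ σ.s') * (σ.s ∘ₗ σ.r') - (σ.s ∘ₗ σ.r') * (σ.r ∘ₗ σ.s') =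
    σ.r ∘ₗ σ.r' - σ.s ∘ₗ σ.s' := LinearMap.ext fun x => by
  simp [σ.s'_s (σ.r'_mem x), σ.r'_r (σ.s'_mem x)]

theorem lie_hf : (σ.r ∘ₗ σ.r' - σ.s ∘ₗ σ.s') * (σ.s ∘ₗ σ.r') -
    (σ.s ∘ₗ σ.r') * (σ.r ∘ₗ σ.r' - σ.s ∘ₗ σ.s') = (-2 : ℂ) • (σ.s ∘ₗ σ.r') :=
  LinearMap.ext fun x => by
    simp only [LinearMap.sub_apply, Module.End.mul_apply, comp_apply, LinearMap.smul_apply,
      map_sub, σ.s'_s (σ.r'_mem x), σ.r'_s (σ.r'_mem x), σ.r'_r (σ.r'_mem x),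
      σ.r'_s (σ.s'_mem x), map_zero]
    module

theorem lie_he : (σ.r ∘ₗ σ.r' - σ.s ∘ₗ σ.s') * (σ.r ∘ₗ σ.s') -
    (σ.r ∘ₗ σ.s') * (σ.r ∘ₗ σ.r' - σ.s ∘ₗ σ.s') = (2 : ℂ) • (σ.r ∘ₗ σ.s') :=
  LinearMap.ext fun x => by
    simp only [LinearMap.sub_apply, Module.End.mul_apply, comp_apply, LinearMap.smul_apply,
      map_sub, σ.s'_s (σ.s'_mem x), σ.s'_r (σ.r'_mem x), σ.r'_r (σ.s'_mem x),
      σ.s'_r (σ.s'_mem x), map_zero]
    module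

theorem f_mul_f : (σ.s ∘ₗ σ.r') * (σ.s ∘ₗ σ.r') = 0 := LinearMap.ext fun x => by
  simp [σ.r'_s (σ.r'_mem x)]

theorem e_mul_e : (σ.r ∘ₗ σ.s') * (σ.r ∘ₗ σ.s') = 0 := LinearMap.ext fun x => by
  simp [σ.s'_r (σ.s'_mem x)]

theorem π_π' : b.pr.π * σ.π' = σ.π' :=
  LinearMap.ext fun x => π_V (Cs0P.spl b.pr) (σ.VV (σ.spl.πV x))

theorem π'_π : σ.π' * b.pr.π = σ.π' :=
  LinearMap.ext (apply_π (Cs0P.spl b.pr) fun _ hu => π_U σ.spl (σ.AU hu))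

theorem ρ_π' : b.d.ρ * σ.π' = 0 := LinearMap.ext fun x => b.pr.ρV _ (σ.VV (σ.spl.πV x))

theorem π'_ρ : σ.π' * b.d.ρ = 0 := LinearMap.ext fun x => π_U σ.spl (σ.AU (ρ_A b.pr x))

/-- The splitting along `W = U ∩ V`. -/
theorem splW : Spl b.s.X.toCoh b.ε (b.pr.A ⊔ σ.V') (σ.U ⊓ b.pr.V) (b.pr.π - σ.π') := by
  have h := Cs0P.spl b.pr
  have h1 : ∀ x, (b.pr.π - σ.π') x ∈ σ.U ⊓ b.pr.V := fun x =>
    ⟨by simpa using σ.U.sub_mem (σ.spl.πU x) (σ.AU (h.πU x)),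
      b.pr.V.sub_mem (h.πV x) (σ.VV (σ.spl.πV x))⟩
  refine ⟨⟨h.form.sq, fun u hu v hv => h.form.symm u hu.2 v hv.2, fun u hu h2 => ?_⟩, ?_, ?_,
    fun v hv => h.σV v hv.2, Submodule.mem_sup_left h.one, h1, fun x => ?_⟩
  · refine h.form.nondeg u hu.2 fun v hv => ?_
    have h3 := h2 _ (h1 v)
    rwa [LinearMap.sub_apply, π_V h hv, map_sub, LinearMap.sub_apply,
      orth' σ.spl (σ.spl.πV v) hu.1, sub_zero] at h3
  · intro a ha v hv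
    obtain ⟨y, hy, z, hz, rfl⟩ := Submodule.mem_sup.1 ha
    rw [map_add, LinearMap.add_apply, h.orth y hy v hv.2, orth' σ.spl hz hv.1, add_zero]
  · intro a ha
    obtain ⟨y, hy, z, hz, rfl⟩ := Submodule.mem_sup.1 ha
    rw [map_add, σ.spl.σV z hz]
    exact Submodule.add_mem_sup (h.σU y hy) (σ.V'.smul_mem _ hz)
  · rw [LinearMap.sub_apply, ← sub_add]
    exact Submodule.add_mem_sup (h.πU x) (σ.spl.πV x)

theorem μW_A (hx : x ∈ b.pr.A) : σ.μW x = 0 := skew_U σ.splW σ.skew (Submodule.mem_sup_left hx)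

theorem μW_V' (hx : x ∈ σ.V') : σ.μW x = 0 := skew_U σ.splW σ.skew (Submodule.mem_sup_right hx)

theorem skew_of_V' {T : Module.End ℂ b.s.X.H} (h : Inv.Skew b.s.X.fr.η σ.V' T) :
    Inv.Skew b.s.X.fr.η b.pr.V T :=
  ⟨fun x => σ.VV (h.mem x), fun x y _ => by rw [skew_adj σ.spl h, neg_add_cancel]⟩

theorem skew_μW : Inv.Skew b.s.X.fr.η b.pr.V σ.μW :=
  ⟨fun x => (σ.skew.mem x).2, fun x y _ => by rw [skew_adj σ.splW σ.skew, neg_add_cancel]⟩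

theorem isom_of_V' {T : Module.End ℂ b.s.X.H} (h : Inv.Isom b.s.X.fr.η σ.V' T) :
    Inv.Isom b.s.X.fr.η b.pr.V T :=
  ⟨fun x => σ.VV (h.mem x), fun x y _ => isom_isom σ.spl h x y⟩

theorem μ_eq (ν : Module.End ℂ D.H) : σ.μ ν = b.d.μ * (1 - b.pr.π) +
    (σ.μW + σ.bl (ν - (1 / 2 : ℂ) • 1) (ν + (1 / 2 : ℂ) • 1)) := by
  simp only [μ, bl, add_assoc]

omit σ in
theorem sub_half (h : ∀ v ∈ b.prD.V, ν v ∈ b.prD.V) :
    ∀ v ∈ b.prD.V, (ν - (1 / 2 : ℂ) • 1 : Module.End ℂ D.H) v ∈ b.prD.V := fun v hv =>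
  b.prD.V.sub_mem (h v hv) (b.prD.V.smul_mem _ hv)

omit σ in
theorem add_half (h : ∀ v ∈ b.prD.V, ν v ∈ b.prD.V) :
    ∀ v ∈ b.prD.V, (ν + (1 / 2 : ℂ) • 1 : Module.End ℂ D.H) v ∈ b.prD.V := fun v hv =>
  b.prD.V.add_mem (h v hv) (b.prD.V.smul_mem _ hv)

omit σ in
theorem pow_mem (h : ∀ v ∈ b.prD.V, ν v ∈ b.prD.V) (j : ℕ) :
    ∀ v ∈ b.prD.V, (ν ^ j) v ∈ b.prD.V := fun v hv => by
  induction j with
  | zero => exact hv
  | succ j ih => rw [pow_succ']; exact h _ ih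

theorem skew_μ (d' : VD D.fr) (h : ∀ v ∈ b.prD.V, d'.μ v ∈ b.prD.V) :
    Inv.Skew b.s.X.fr.η b.pr.V
      (σ.μW + σ.bl (d'.μ - (1 / 2 : ℂ) • 1) (d'.μ + (1 / 2 : ℂ) • 1)) := by
  have h1 := σ.skew_of_V' (σ.skew_bl (sub_half h) (add_half h) fun v _ w _ => by
    simp only [LinearMap.sub_apply, LinearMap.add_apply, LinearMap.smul_apply, map_sub, map_add,
      map_smul, Module.End.one_apply, d'.adjμ, smul_eq_mul]
    ring)
  refine ⟨fun x => b.pr.V.add_mem (σ.skew_μW.mem x) (h1.mem x), fun x y hy => ?_⟩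
  have h2 := σ.skew_μW.skew x y hy
  have h3 := h1.skew x y hy
  rw [LinearMap.add_apply σ.μW, LinearMap.add_apply σ.μW, map_add, map_add,
    LinearMap.add_apply (b.s.X.fr.η _)]
  linear_combination h2 + h3

theorem exists_vd (d' : VD D.fr) (h : ∀ v ∈ b.prD.V, d'.μ v ∈ b.prD.V) :
    ∃ d : VD b.s.X.fr, d.μ = σ.μ d'.μ ∧ d.ρ = b.d.ρ :=
  σ.μ_eq d'.μ ▸ b.pr.exists_vd (σ.skew_μ d' h)

theorem qd_ellO (d' : VD D.fr) (h : ∀ v ∈ b.prD.V, d'.μ v ∈ b.prD.V) (k : ℕ) :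
    Qd b.s.X.fr (ellO (σ.μ d'.μ) b.d.ρ k) := by
  obtain ⟨d, h1, h2⟩ := σ.exists_vd d' h
  rw [← h1, ← h2]
  exact qd_ell d k

theorem μ_A (hx : x ∈ b.pr.A) : σ.μ ν x = b.d.μ x := by
  rw [μ_eq, LinearMap.add_apply, LinearMap.add_apply σ.μW, σ.μW_A hx, σ.bl_U (σ.AU hx),
    Module.End.mul_apply, LinearMap.sub_apply, π_U (Cs0P.spl b.pr) hx]
  simp

theorem μ_V (hx : x ∈ b.pr.V) :
    σ.μ ν x = σ.μW x + σ.bl (ν - (1 / 2 : ℂ) • 1) (ν + (1 / 2 : ℂ) • 1) x := by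
  rw [μ_eq, LinearMap.add_apply, LinearMap.add_apply σ.μW, Module.End.mul_apply,
    LinearMap.sub_apply, π_V (Cs0P.spl b.pr) hx, Module.End.one_apply, sub_self, map_zero, zero_add]

theorem μ_W (hx : x ∈ σ.U ⊓ b.pr.V) : σ.μ ν x = σ.μW x := by
  rw [σ.μ_V hx.2, σ.bl_U hx.1, add_zero]

theorem μ_V' (hx : x ∈ σ.V') :
    σ.μ ν x = σ.bl (ν - (1 / 2 : ℂ) • 1) (ν + (1 / 2 : ℂ) • 1) x := by
  rw [σ.μ_V (σ.VV hx), σ.μW_V' hx, zero_add]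

theorem μ_r (hv : v ∈ b.prD.V) : σ.μ ν (σ.r v) = σ.r (ν v - (1 / 2 : ℂ) • v) := by
  rw [σ.μ_V' (σ.r_mem hv), σ.bl_r hv]
  rfl

theorem μ_s (hv : v ∈ b.prD.V) : σ.μ ν (σ.s v) = σ.s (ν v + (1 / 2 : ℂ) • v) := by
  rw [σ.μ_V' (σ.s_mem hv), σ.bl_s hv]
  rfl

theorem μ_U (hx : x ∈ σ.U) : σ.μ ν x = b.d.μ (x - b.pr.π x) + σ.μW x := by
  rw [μ_eq, LinearMap.add_apply, LinearMap.add_apply σ.μW, σ.bl_U hx, add_zero]
  rfl

theorem μ_mul_π' : σ.μ ν * σ.π' = σ.bl (ν - (1 / 2 : ℂ) • 1) (ν + (1 / 2 : ℂ) • 1) :=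
  LinearMap.ext fun x => (σ.μ_V' (σ.spl.πV x)).trans (apply_π σ.spl (fun _ => σ.bl_U) x)

theorem μ_mul_π : σ.μ ν * b.pr.π = σ.μW + σ.bl (ν - (1 / 2 : ℂ) • 1) (ν + (1 / 2 : ℂ) • 1) :=
  LinearMap.ext fun x => by
    rw [Module.End.mul_apply, σ.μ_V ((Cs0P.spl b.pr).πV x),
      apply_π (Cs0P.spl b.pr) fun _ => σ.μW_A,
      apply_π (Cs0P.spl b.pr) fun _ hu => σ.bl_U (σ.AU hu), LinearMap.add_apply σ.μW]

theorem μ_mul_one_sub : σ.μ ν * (1 - b.pr.π) = b.d.μ * (1 - b.pr.π) :=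
  LinearMap.ext fun x => σ.μ_A ((Cs0P.spl b.pr).πU x)

theorem μ_mul_one_sub' : σ.μ ν * (1 - σ.π') = b.d.μ * (1 - b.pr.π) + σ.μW := by
  rw [mul_sub, mul_one, μ_mul_π', μ_eq, ← add_assoc, add_sub_cancel_right]

theorem μ_π (h : ∀ v ∈ b.prD.V, ν v ∈ b.prD.V) : σ.μ ν * b.pr.π = b.pr.π * σ.μ ν := by
  have s := Cs0P.spl b.pr
  refine σ.μ_mul_π.trans (LinearMap.ext fun x => ?_)
  rw [Module.End.mul_apply, μ_eq, LinearMap.add_apply (_ * _), map_add,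
    π_U s (u := (_ * _ : Module.End ℂ _) x) (b.pr.μA _ (s.πU x)), zero_add, π_V s]
  exact b.pr.V.add_mem (σ.skew_μW.mem x) (σ.VV (σ.bl_mem (sub_half h) (add_half h) x))

theorem μ_π' (h : ∀ v ∈ b.prD.V, ν v ∈ b.prD.V) : σ.μ ν * σ.π' = σ.π' * σ.μ ν := by
  refine σ.μ_mul_π'.trans (LinearMap.ext fun x => ?_)
  rw [Module.End.mul_apply, μ_eq, LinearMap.add_apply (_ * _), LinearMap.add_apply σ.μW, map_add,
    map_add, π_U σ.spl (u := (_ * _ : Module.End ℂ _) x)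
      (σ.AU (b.pr.μA _ ((Cs0P.spl b.pr).πU x))), π_U σ.spl (σ.skew.mem x).1,
    zero_add, zero_add, π_V σ.spl (σ.bl_mem (sub_half h) (add_half h) x)]

theorem μ_pow_π' (h : ∀ v ∈ b.prD.V, ν v ∈ b.prD.V) (j : ℕ) : σ.μ ν ^ j * σ.π' =
    σ.bl ((ν - (1 / 2 : ℂ) • 1) ^ j) ((ν + (1 / 2 : ℂ) • 1) ^ j) := by
  induction j with
  | zero => rw [pow_zero, one_mul, pow_zero, pow_zero, bl_one]
  | succ j ih =>
    have h1 := pow_mem (sub_half h) j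
    have h2 := pow_mem (add_half h) j
    rw [pow_succ', mul_assoc, ih, pow_succ', pow_succ', ← σ.bl_mul h1 h2]
    exact LinearMap.ext fun x => σ.μ_V' (σ.bl_mem h1 h2 x)

theorem μW_pow_mem (j : ℕ) (x : b.s.X.H) : (σ.μW ^ j * (b.pr.π - σ.π')) x ∈ σ.U ⊓ b.pr.V := by
  cases j with
  | zero => rw [pow_zero, one_mul]; exact σ.splW.πV x
  | succ j => rw [pow_succ', mul_assoc]; exact σ.skew.mem _

theorem μ_pow_W (j : ℕ) : σ.μ ν ^ j * (b.pr.π - σ.π') = σ.μW ^ j * (b.pr.π - σ.π') := by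
  induction j with
  | zero => rw [pow_zero, pow_zero]
  | succ j ih =>
    rw [pow_succ', mul_assoc, ih, pow_succ', mul_assoc]
    exact LinearMap.ext fun x => σ.μ_W (σ.μW_pow_mem j x)

theorem μ_pow_π (h : ∀ v ∈ b.prD.V, ν v ∈ b.prD.V) (j : ℕ) : σ.μ ν ^ j * b.pr.π =
    σ.μW ^ j * (b.pr.π - σ.π') +
      σ.bl ((ν - (1 / 2 : ℂ) • 1) ^ j) ((ν + (1 / 2 : ℂ) • 1) ^ j) := by
  rw [← σ.μ_pow_W (ν := ν), ← σ.μ_pow_π' h, ← mul_add, sub_add_cancel]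

theorem trace_bl (ha : ∀ v ∈ b.prD.V, a v ∈ b.prD.V) (hc : ∀ v ∈ b.prD.V, c v ∈ b.prD.V) :
    LinearMap.trace ℂ _ (σ.bl a c) =
      LinearMap.trace ℂ _ (a * b.prD.π) + LinearMap.trace ℂ _ (c * b.prD.π) := by
  have s := Cs0P.spl b.prD
  rw [σ.bl_congr (a' := a * b.prD.π) (c' := c * b.prD.π)
    (fun v hv => by rw [Module.End.mul_apply, π_V s hv])
    (fun v hv => by rw [Module.End.mul_apply, π_V s hv]), map_add, ← comp_assoc, ← comp_assoc,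
    trace_comp_comm' σ.r', trace_comp_comm' σ.s']
  congr 2
  · exact LinearMap.ext fun x => σ.r'_r (ha _ (s.πV x))
  · exact LinearMap.ext fun x => σ.s'_s (hc _ (s.πV x))

theorem trace_π' : LinearMap.trace ℂ _ σ.π' = 2 * (Fintype.card b.prD.κ : ℂ) := by
  have := trace_pow b.prD (T := 1) (l := 1) (fun b => by simp) 0
  simp only [pow_zero, sum_const, card_univ, nsmul_eq_mul, mul_one] at this
  rw [← σ.bl_one, σ.trace_bl (fun _ h => h) fun _ h => h, this, two_mul]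

theorem trace_μ_pow (j : ℕ) :
    LinearMap.trace ℂ _ (σ.μ b.dD.μ ^ j * b.pr.π) = ∑ a, (b.pr.l a : ℂ) ^ j := by
  have h : ∀ v ∈ b.prD.V, b.dD.μ v ∈ b.prD.V := fun _ => Cs0P.μ_V b.prD
  have h1 := congrArg (fun x : ℝ => (x : ℂ)) (b.hlW j)
  rw [σ.μ_pow_π h, map_add, σ.trace, σ.trace_bl (pow_mem (sub_half h) j) (pow_mem (add_half h) j),
    trace_pow b.prD (l := fun a => b.prD.l a - 1 / 2) (fun a => by simp [b.prD.eig, sub_smul]),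
    trace_pow b.prD (l := fun a => b.prD.l a + 1 / 2) (fun a => by simp [b.prD.eig, add_smul]),
    ← sum_add_distrib]
  push_cast at h1 ⊢
  exact h1.symm

theorem ellO_A (k : ℕ) :
    ellO (σ.μ ν) b.d.ρ k * Fock.cst (1 - b.pr.π) = b.d.ell k * Fock.cst (1 - b.pr.π) :=
  ellO_congr (by rw [mul_sub, sub_mul, Cs0P.μ_π, mul_one, one_mul])
    (by rw [mul_sub, sub_mul, ρ_π, π_ρ, mul_one, one_mul]) σ.μ_mul_one_sub k

theorem ellO_U (h : ∀ v ∈ b.prD.V, ν v ∈ b.prD.V) (k : ℕ) :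
    ellO (σ.μ ν') b.d.ρ k * Fock.cst (1 - σ.π') = ellO (σ.μ ν) b.d.ρ k * Fock.cst (1 - σ.π') :=
  ellO_congr (by rw [mul_sub, sub_mul, σ.μ_π' h, mul_one, one_mul])
    (by rw [mul_sub, sub_mul, ρ_π', π'_ρ, mul_one, one_mul])
    (σ.μ_mul_one_sub'.trans σ.μ_mul_one_sub'.symm) k

theorem ellO_comm (h : ∀ v ∈ b.prD.V, ν v ∈ b.prD.V) (k : ℕ) :
    ellO (σ.μ ν) b.d.ρ k * Fock.cst σ.π' = Fock.cst σ.π' * ellO (σ.μ ν) b.d.ρ k :=
  ellO_cst (σ.μ_π' h) (σ.ρ_π'.trans σ.π'_ρ.symm) k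

/-- The operator in terms of the primitive part. -/
theorem ellO_eq_π (h : ∀ v ∈ b.prD.V, ν v ∈ b.prD.V) (k : ℕ) : ellO (σ.μ ν) b.d.ρ k =
    b.d.ell k * Fock.cst (1 - b.pr.π) + ∑ j ∈ range (k + 1), tns (cf k j) (σ.μ ν ^ j * b.pr.π) := by
  rw [← σ.ellO_A (ν := ν), ← ellO_mul (π_π (Cs0P.spl b.pr)) (σ.μ_π h) (ρ_π b.pr), ← mul_add,
    ← map_add, sub_add_cancel, map_one, mul_one]

/-- The operator in terms of the vanishing part. -/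
theorem ellO_eq_π' (h : ∀ v ∈ b.prD.V, ν v ∈ b.prD.V) (k : ℕ) : ellO (σ.μ ν) b.d.ρ k =
    ellO (σ.μ ν) b.d.ρ k * Fock.cst (1 - σ.π') + ∑ j ∈ range (k + 1),
      tns (cf k j) (σ.bl ((ν - (1 / 2 : ℂ) • 1) ^ j) ((ν + (1 / 2 : ℂ) • 1) ^ j)) := by
  simp only [← σ.μ_pow_π' h]
  rw [← ellO_mul (π_π σ.spl) (σ.μ_π' h) σ.ρ_π', ← mul_add, ← map_add, sub_add_cancel, map_one,
    mul_one]

/-- The part of the operator that does not see the vanishing part. -/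
theorem ellO_one_sub (h : ∀ v ∈ b.prD.V, ν v ∈ b.prD.V) (k : ℕ) :
    ellO (σ.μ ν) b.d.ρ k * Fock.cst (1 - σ.π') = b.d.ell k * Fock.cst (1 - b.pr.π) +
      ∑ j ∈ range (k + 1), tns (cf k j) (σ.μW ^ j * (b.pr.π - σ.π')) := by
  have h1 := (σ.ellO_eq_π' h k).symm.trans (σ.ellO_eq_π h k)
  rw [sum_congr rfl fun j _ => (congrArg (tns (cf k j)) (σ.μ_pow_π h j)).trans (map_add _ _ _),
    sum_add_distrib, ← add_assoc] at h1
  exact add_right_cancel h1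

theorem Out.invS {𝕂 : Type} [CommRing 𝕂] {ħ : 𝕂ˣ} {M : Type} [AddCommGroup M]
    [Module ℂ M] [Module 𝕂 M] {Z Z' : S (b.s.X.p.fs ℕ) →ₗ[ℂ] M} (o : σ.Out ħ Z Z')
    (h : ∃ a, b.pr.l a ≠ 0) : InvS b.s.X.fr σ.V' Z :=
  fun g hg he x => o.inv h g (σ.isom_of_V' hg) he x

end DPIn.Sig

end Vale.Agent.P269.Deg
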