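import Vale.Agent.P269.Deg.Sw

/-! Natural operators on the pieces, on pairs and on the universal space. -/

namespace Vale.Agent.P269.Deg

open Fock LinearMap TensorProduct Fn

section bil

variable {K : Type*} [CommRing K] {V W V' W' : Type*} [AddCommGroup V] [Module K V]
  [AddCommGroup W] [Module K W] [AddCommGroup V'] [Module K V'] [AddCommGroup W'] [Module K W']
  {C C' : Type*} [Ring C] [Algebra K C] [Ring C'] [Algebra K C']

/-- `v ⊗ w ↦ X v * Y w`. -/
noncomputable def bil (X : V →ₗ[K] C) (Y : W →ₗ[K] C) : V ⊗[K] W →ₗ[K] C :=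
  TensorProduct.lift ((LinearMap.mul K C).compl₁₂ X Y)

@[simp] lemma bil_tmul (X : V →ₗ[K] C) (Y : W →ₗ[K] C) (v : V) (w : W) :
    bil X Y (v ⊗ₜ w) = X v * Y w := rfl

lemma bil_map (X : V →ₗ[K] C) (Y : W →ₗ[K] C) (f : V' →ₗ[K] V) (g : W' →ₗ[K] W) (c : V' ⊗[K] W') :
    bil X Y (TensorProduct.map f g c) = bil (X ∘ₗ f) (Y ∘ₗ g) c := by
  induction c with
  | zero => simp
  | tmul x y => simp
  | add x y hx hy => simp only [map_add, hx, hy]

lemma map_bil (L : C →ₗ[K] C') {X : V →ₗ[K] C} {Y : W →ₗ[K] C} {X' : V →ₗ[K] C'}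
    {Y' : W →ₗ[K] C'} (h : ∀ v w, L (X v * Y w) = X' v * Y' w) (c : V ⊗[K] W) :
    L (bil X Y c) = bil X' Y' c := by
  induction c with
  | zero => simp
  | tmul x y => simp [h]
  | add x y hx hy => simp only [map_add, hx, hy]

lemma tens_wt (n : Module.End K V) (j : V' →ₗ[K] V) (j' : W' →ₗ[K] V) (t : K)
    (hj : ∀ x, n (j x) = t • j x) (hj' : ∀ x, n (j' x) = -t • j' x) (c : V' ⊗[K] W') :
    (TensorProduct.map n LinearMap.id + TensorProduct.map LinearMap.id n : _ →ₗ[K] V ⊗[K] V)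
      (TensorProduct.map j j' c) = 0 := by
  induction c with
  | zero => simp
  | tmul x y =>
    simp only [map_tmul, LinearMap.add_apply, hj, hj', id_apply, tmul_smul, ← smul_tmul',
      ← add_smul, add_neg_cancel, zero_smul]
  | add x y hx hy => simp only [map_add, hx, hy, add_zero]

lemma map_neg_left (f : V →ₗ[K] V') (g : W →ₗ[K] W') :
    TensorProduct.map (-f) g = -TensorProduct.map f g := by ext; simp [neg_tmul]

lemma map_neg_right (f : V →ₗ[K] V') (g : W →ₗ[K] W') :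
    TensorProduct.map f (-g) = -TensorProduct.map f g := by ext; simp [tmul_neg]

end bil

variable {K : Type*} [CommRing K] {Um Up : Type*} [AddCommGroup Um] [Module K Um]
  [AddCommGroup Up] [Module K Up] {A B : Type*} [Ring A] [Algebra K A] [Ring B] [Algebra K B]
  {s : SPar K B} {sA : SPar K A} {b : Bs K Um Up}
  {V W U : Type*} [AddCommGroup V] [Module K V] [AddCommGroup W] [Module K W] [AddCommGroup U]
  [Module K U] {p : Par K V} {q : Par K W} {r : Par K U}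
  {T T1 T2 Z Z' : Type*} [AddCommGroup T] [Module K T] [AddCommGroup T1] [Module K T1]
  [AddCommGroup T2] [Module K T2] [AddCommGroup Z] [Module K Z] [AddCommGroup Z'] [Module K Z']

variable (K Um Up) in
/-- The direction of the first restriction. -/
def uw : Um →ₗ[K] (Um × Um) × Um × Up := inl K _ _ ∘ₗ inl K _ _

variable (K Um Up) in
/-- The direction of the second restriction. -/
def uv : Um →ₗ[K] (Um × Um) × Um × Up := (-inl K _ _).prod (inl K _ _)

variable (K Um Up) in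
/-- The ghost directions. -/
def ug : Um × Up →ₗ[K] (Um × Um) × Um × Up :=
  (inr K _ _ ∘ₗ fst K _ _).prod (inr K _ _ ∘ₗ snd K _ _)

variable (K Um Up) in
/-- The ghost coordinates. -/
def ugh : (Um × Um) × Um × Up →ₗ[K] Um × Up := (snd K _ _).prodMap (snd K _ _)

variable (K Um Up) in
/-- The diagonal `w = r = s = 0`. -/
def u0 : Um →ₗ[K] (Um × Um) × Um × Up := inr K _ _ ∘ₗ inl K _ _

variable (K Um Up) in
/-- The ghost number on the ghosts. -/
def gn : Module.End K (Um × Up) := (1 : Module.End K Um).prodMap (-1)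

@[simp] lemma uw_apply (x : Um) : uw K Um Up x = ((x, 0), (0, 0)) := rfl
@[simp] lemma uv_apply (x : Um) : uv K Um Up x = ((-x, 0), (x, 0)) :=
  Prod.ext (Prod.ext rfl neg_zero) rfl
@[simp] lemma ug_apply (x : Um × Up) : ug K Um Up x = ((0, x.1), (0, x.2)) := rfl
@[simp] lemma ugh_apply (x : (Um × Um) × Um × Up) : ugh K Um Up x = (x.1.2, x.2.2) := rfl
@[simp] lemma u0_apply (x : Um) : u0 K Um Up x = ((0, 0), (x, 0)) := rfl
@[simp] lemma gn_apply (x : Um × Up) : gn K Um Up x = (x.1, -x.2) := rfl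

namespace Bs
variable (b)
lemma isEv_uw : IsEv b.pm b.uni (uw K Um Up) := fun v => by simp
lemma isEv_uv : IsEv b.pm b.uni (uv K Um Up) := fun v => by simp
lemma isEv_ug : IsEv b.gh b.uni (ug K Um Up) := fun v => by simp
lemma isEv_ugh : IsEv b.uni b.gh (ugh K Um Up) := fun v => by simp
lemma isEv_u0 : IsEv b.pm b.uni (u0 K Um Up) := fun v => by simp
lemma isEv_gn : IsEv b.gh b.gh (gn K Um Up) := fun v => by simp
end Bs

lemma EvT.comm {c : V ⊗[K] W} (hc : EvT p q c) : EvT q p (TensorProduct.comm K V W c) := by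
  rw [EvT, map_comm, hc]

variable [Algebra ℚ K]

namespace Fn

lemma crs_eq (F G : Fn p s) (c : V ⊗[K] V) : crs F G c =
    bil (D.flip F ∘ₗ p.σ) (D.flip G) c + bil (D.flip F) (D.flip G) (TensorProduct.comm K V V c) := by
  induction c with
  | zero => simp
  | tmul x y => simp
  | add x y hx hy => simp only [map_add, hx, hy]; abel

lemma D_mul_of_zero {j : W →ₗ[K] V} (hj : IsEv q p j) {G : Fn p s} (hG : ∀ w, D (j w) G = 0)
    (F : Fn p s) (w : W) : D (j w) (F * G) = D (j w) F * G := by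
  rw [D_mul', hj.ev, hj.od, hG, hG, mul_zero, mul_zero, add_zero, add_zero]

lemma Dx_mul_right {j : W →ₗ[K] V} (hj : IsEv q p j) {G : Fn p s} (hG : ∀ w, D (j w) G = 0)
    (F : Fn p s) (c : W ⊗[K] W) : Dx (mulT p (TensorProduct.map j j c)) (F * G) =
      Dx (mulT p (TensorProduct.map j j c)) F * G := by
  induction c with
  | zero => simp
  | tmul x y => simp [Dx_mul, Dx_ι, D_mul_of_zero hj hG]
  | add x y hx hy => simp only [map_add, LinearMap.add_apply, hx, hy, add_mul]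

lemma Dx_mul_left {j : W →ₗ[K] V} {F : Fn p s} (hF : τ F = F) (h0 : ∀ w, D (j w) F = 0)
    (G : Fn p s) (c : W ⊗[K] W) : Dx (mulT p (TensorProduct.map j j c)) (F * G) =
      F * Dx (mulT p (TensorProduct.map j j c)) G := by
  induction c with
  | zero => simp
  | tmul x y => simp [Dx_mul, Dx_ι, D_mul_of_ev hF, h0]
  | add x y hx hy => simp only [map_add, LinearMap.add_apply, hx, hy, mul_add]

end Fn

variable (b) in
/-- The part of a natural operator that only depends on the divisor. -/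
structure BOp where
  v : Um
  am : Module.End K Um
  ap : Module.End K Up
  g1 : Up ⊗[K] Um
  g2 : Up ⊗[K] Um
  fm : Sc b.ms
  fg : Sc b.gh
  hv : b.pm.σ v = v
  ham : IsEv b.pm b.pm am
  hap : IsEv b.pp b.pp ap
  hg1 : EvT b.pp b.pm g1
  hg2 : EvT b.pp b.pm g2
  hfg : τ fg = fg
  gn_fg : Vf (gn K Um Up) fg = 0
  uq_fg : Vf b.uq (pull _ b.isEv_ugh fg) + b.e1 _ fm - b.e2 _ fm = 0

/-- The operator `O` on a piece is compatible with `Ob`; the sign `ε` is `1` for left pieces and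
`-1` for right pieces. -/
structure Pc.Comp (P : Pc b T) (ε : K) (O : Op P.p) (Ob : BOp b) : Prop where
  v : P.res O.v = Ob.v
  a_res : ∀ t, P.res (O.a t) = Ob.am (P.res t)
  a_io : ∀ x, O.a (P.io x) = P.io (Ob.ap x)
  c1 : TensorProduct.map LinearMap.id P.res O.c = ε • TensorProduct.map P.io LinearMap.id Ob.g1
  c2 : TensorProduct.map LinearMap.id P.res (TensorProduct.comm K T T O.c) =
    ε • TensorProduct.map P.io LinearMap.id Ob.g2
  f : Vf P.iq (P.f0 _ O.f) = ε • pull _ P.isEv_rs Ob.fm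

namespace BOp

variable (Ob : BOp b)

/-- The ghost Casimir tensor. -/
noncomputable def cg : (Um × Up) ⊗[K] (Um × Up) :=
  TensorProduct.map (inl K _ _ ∘ₗ b.pm.σ) (inr K _ _) (TensorProduct.comm K _ _ Ob.g2) -
    TensorProduct.map (inr K _ _ ∘ₗ b.pp.σ) (inl K _ _) Ob.g1

lemma evT_cg : EvT b.gh b.gh Ob.cg :=
  (Ob.hg2.comm.map_od (fun v => by simp) fun v => by simp).sub
    (Ob.hg1.map_od (fun v => by simp) fun v => by simp)

/-- The restriction of the Casimir tensor. -/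
noncomputable def cb : Um ⊗[K] Um := TensorProduct.map b.c LinearMap.id Ob.g1

lemma evT_cb : EvT b.pm b.pm Ob.cb := Ob.hg1.map b.hc (isEv_id _)

/-- The operator on the universal space. -/
noncomputable def uop : Op b.uni where
  v := u0 K Um Up Ob.v
  a := (Ob.am.prodMap Ob.am).prodMap (Ob.am.prodMap Ob.ap)
  c := TensorProduct.map (uw K Um Up) (uw K Um Up) Ob.cb -
    TensorProduct.map (uv K Um Up) (uv K Um Up) Ob.cb +
    TensorProduct.map (ug K Um Up) (ug K Um Up) Ob.cg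
  f := pull _ b.isEv_ugh Ob.fg
  hv := by simp [Ob.hv]
  ha := fun v => by simp [Ob.ham _, Ob.hap _]
  hc := ((Ob.evT_cb.map b.isEv_uw b.isEv_uw).sub (Ob.evT_cb.map b.isEv_uv b.isEv_uv)).add
    (Ob.evT_cg.map b.isEv_ug b.isEv_ug)
  hf := by rw [τ_pull, Ob.hfg]

/-- The operator on a pair. -/
noncomputable def top {P1 : Pc b T1} {P2 : Pc b T2} (O1 : Op P1.p) (O2 : Op P2.p) :
    Op (P1.tot P2) where
  v := ((O1.v, O2.v), 0)
  a := (O1.a.prodMap O2.a).prodMap (Ob.am.prodMap Ob.ap)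
  c := TensorProduct.map (inl K _ _ ∘ₗ inl K _ _) (inl K _ _ ∘ₗ inl K _ _) O1.c +
    TensorProduct.map (inl K _ _ ∘ₗ inr K _ _) (inl K _ _ ∘ₗ inr K _ _) O2.c +
    TensorProduct.map (inr K _ _) (inr K _ _) Ob.cg
  f := P1.f1 P2 _ O1.f + P1.f2 P2 _ O2.f + pull _ (isEv_snd _ _) Ob.fg
  hv := by simp [O1.hv, O2.hv]
  ha := fun v => by simp [Ob.ham _, Ob.hap _, O1.ha _, O2.ha _]
  hc := ((O1.hc.map (fun v => by simp) fun v => by simp).add
    (O2.hc.map (fun v => by simp) fun v => by simp)).add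
      (Ob.evT_cg.map (isEv_inr _ _) (isEv_inr _ _))
  hf := by rw [map_add, map_add, Pc.τ_f1 O1.hf, Pc.τ_f2 O2.hf, τ_pull, Ob.hfg]

/-- The action on the gluing kernel. -/
noncomputable def G0 (R : Fn b.ms sA) (X : Fn b.uni sA) : Fn b.uni sA :=
  Ob.uop.act sA X +
    (bil ((b.e1 sA).toLinearMap ∘ₗ D.flip R ∘ₗ inr K _ _ ∘ₗ b.pp.σ) (D.flip X ∘ₗ uw K Um Up) Ob.g1 +
    bil ((b.e1 sA).toLinearMap ∘ₗ D.flip R ∘ₗ inr K _ _) (D.flip X ∘ₗ uw K Um Up) Ob.g2) +
    (bil (D.flip X ∘ₗ uv K Um Up ∘ₗ b.pm.σ) ((b.e2 sA).toLinearMap ∘ₗ D.flip R ∘ₗ inr K _ _)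
      (TensorProduct.comm K _ _ Ob.g2) +
    bil (D.flip X ∘ₗ uv K Um Up) ((b.e2 sA).toLinearMap ∘ₗ D.flip R ∘ₗ inr K _ _)
      (TensorProduct.comm K _ _ Ob.g1))

variable {Ob} {P1 : Pc b T1} {P2 : Pc b T2} {O1 : Op P1.p} {O2 : Op P2.p}

lemma _root_.Vale.Agent.P269.Deg.Pc.Comp.c3 {P : Pc b T} {ε : K} {O : Op P.p}
    (h : P.Comp ε O Ob) : TensorProduct.map P.res LinearMap.id O.c =
      ε • TensorProduct.map LinearMap.id P.io (TensorProduct.comm K _ _ Ob.g2) := by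
  rw [map_comm, ← map_smul, ← h.c2, map_comm, comm_comm]

lemma _root_.Vale.Agent.P269.Deg.Pc.Comp.c4 {P : Pc b T} {ε : K} {O : Op P.p}
    (h : P.Comp ε O Ob) : TensorProduct.map P.res LinearMap.id (TensorProduct.comm K _ _ O.c) =
      ε • TensorProduct.map LinearMap.id P.io (TensorProduct.comm K _ _ Ob.g1) := by
  rw [map_comm, map_comm, h.c1, map_smul]

lemma _root_.Vale.Agent.P269.Deg.Pc.Comp.cb {P : Pc b T} {ε : K} {O : Op P.p}
    (h : P.Comp ε O Ob) : TensorProduct.map P.res P.res O.c = ε • Ob.cb := by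
  have := congrArg (TensorProduct.map P.res LinearMap.id) h.c1
  rw [map_smul, map_map, map_map, comp_id, id_comp, id_comp,
    show P.res ∘ₗ P.io = b.c from LinearMap.ext P.hc] at this
  exact this

theorem cm_tn : (Ob.top O1 O2).Cm (tn K Um Up T1 T2) := by
  refine ⟨Or.inl (isEv_tn _ _), by simp [top, Prod.ext_iff], fun x => by simp [top, Prod.ext_iff],
    ?_, ?_⟩
  · rw [dv_mulT_ev (isEv_tn _ _), ← LinearMap.add_apply]
    simp only [top, cg, map_add, map_sub, map_map]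
    rw [tens_wt _ _ _ 0 (fun _ => by simp [Prod.ext_iff]) fun _ => by simp [Prod.ext_iff],
      tens_wt _ _ _ 0 (fun _ => by simp [Prod.ext_iff]) fun _ => by simp [Prod.ext_iff],
      tens_wt _ _ _ 1 (fun _ => by simp) fun _ => by simp,
      tens_wt _ _ _ (-1) (fun _ => by simp) fun _ => by simp]
    simp
  · simp only [top, map_add, Pc.f1, Pc.f2]
    rw [Vf_pull_zero _ _ fun _ => rfl, Vf_pull_zero _ _ fun _ => rfl,
      Vf_pull (a := tn K Um Up T1 T2) _ _ (b := gn K Um Up) fun _ => rfl, Ob.gn_fg]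
    simp

theorem cm_tq (c1 : P1.Comp 1 O1 Ob) (c2 : P2.Comp (-1) O2 Ob) :
    (Ob.top O1 O2).Cm (P1.tq P2) := by
  refine ⟨Or.inr (Pc.isOd_tq _ _), by simp [top, Prod.ext_iff, c1.v, c2.v],
    fun x => by simp [top, c1.a_res, c2.a_res, c1.a_io, c2.a_io], ?_, ?_⟩
  · rw [dv_mulT_od (Pc.isOd_tq _ _)]
    let gr : Um →ₗ[K] (T1 × T2) × Um × Up := inr K _ _ ∘ₗ inl K _ _
    let i1 : T1 →ₗ[K] (T1 × T2) × Um × Up := inl K _ _ ∘ₗ inl K _ _
    let i2 : T2 →ₗ[K] (T1 × T2) × Um × Up := inl K _ _ ∘ₗ inr K _ _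
    have a1 := congrArg (TensorProduct.map gr i1) c1.c3
    have a2 := congrArg (TensorProduct.map (-gr) i2) c2.c3
    have a3 := congrArg (TensorProduct.map (i1 ∘ₗ P1.p.σ) gr) c1.c1
    have a4 := congrArg (TensorProduct.map (i2 ∘ₗ P2.p.σ) (-gr)) c2.c1
    simp only [map_map, comp_id, one_smul, neg_smul, map_neg] at a1 a2 a3 a4
    have b1 : P1.tq P2 ∘ₗ i1 = gr ∘ₗ P1.res :=
      LinearMap.ext fun _ => by simp [gr, i1, Prod.ext_iff]
    have b2 : P1.tq P2 ∘ₗ i2 = (-gr) ∘ₗ P2.res :=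
      LinearMap.ext fun _ => by simp [gr, i2, Prod.ext_iff]
    have b3 : (P1.tot P2).σ ∘ₗ i1 = i1 ∘ₗ P1.p.σ := LinearMap.ext fun _ => by simp [i1]
    have b4 : (P1.tot P2).σ ∘ₗ i2 = i2 ∘ₗ P2.p.σ := LinearMap.ext fun _ => by simp [i2]
    have b5 : P1.tq P2 ∘ₗ inr K _ _ ∘ₗ inl K _ _ ∘ₗ b.pm.σ = 0 :=
      LinearMap.ext fun _ => by simp [Prod.ext_iff]
    have b6 : (P1.tot P2).σ ∘ₗ inr K _ _ ∘ₗ inl K _ _ ∘ₗ b.pm.σ = -gr :=
      LinearMap.ext fun _ => by simp [gr, b.pm.inv]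
    have b7 : P1.tq P2 ∘ₗ inr K _ _ ∘ₗ inr K _ _ = i1 ∘ₗ P1.io + i2 ∘ₗ P2.io :=
      LinearMap.ext fun _ => by simp [i1, i2, Prod.ext_iff]
    have b8 : P1.tq P2 ∘ₗ inr K _ _ ∘ₗ inr K _ _ ∘ₗ b.pp.σ =
        (i1 ∘ₗ P1.p.σ) ∘ₗ P1.io + (i2 ∘ₗ P2.p.σ) ∘ₗ P2.io :=
      LinearMap.ext fun _ => by simp [i1, i2, Prod.ext_iff, P1.hio _, P2.hio _]
    have b9 : P1.tq P2 ∘ₗ inr K _ _ ∘ₗ inl K _ _ = 0 :=
      LinearMap.ext fun _ => by simp [Prod.ext_iff]
    have e0 : (Ob.top O1 O2).c = TensorProduct.map i1 i1 O1.c + TensorProduct.map i2 i2 O2.c +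
      TensorProduct.map (inr K _ _) (inr K _ _) Ob.cg := rfl
    simp only [e0, cg, map_add, map_sub, map_map, id_comp, b1, b2, b3, b4, b5, b6, b7, b8, b9, a1,
      a2, a3, a4, map_zero_left, map_zero_right, map_add_left, map_add_right, map_neg_left,
      map_neg_right, LinearMap.add_apply, LinearMap.neg_apply, LinearMap.zero_apply, map_neg, map_zero]
    abel
  · have hk1 := isEv_comp P1.isEv_rs (P1.isEv_s1 P2)
    have hk2 := isEv_comp P2.isEv_rs (P1.isEv_s2 P2)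
    have := congrArg (pull _ (P1.isEv_tρ P2)) Ob.uq_fg
    rw [map_sub, map_add, ← Vf_pull (a := P1.tq P2) _ _ fun v => by simp [P1.hc, P2.hc],
      pull_pull _ _ _ _ _ (isEv_snd _ _) fun _ => by simp, Bs.e1, Bs.e2,
      pull_pull _ _ _ _ _ hk1 fun _ => by simp, pull_pull _ _ _ _ _ hk2 fun _ => by simp,
      map_zero] at this
    simp only [top, map_add]
    rw [Pc.tq_f1, Pc.tq_f2, c1.f, c2.f, map_smul, map_smul, pull_pull _ _ _ _ _ hk1 fun _ => rfl,
      pull_pull _ _ _ _ _ hk2 fun _ => rfl, ← this, one_smul, neg_smul, one_smul]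
    abel

end BOp

end Vale.Agent.P269.Deg
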