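import Vale.Agent.P269.Deg.Iface
import Vale.Agent.P269.Deg.Tot
import Vale.Agent.P269.Fock.Hat
import Vale.Agent.P269.Inv.Red

/-! Definitions shared by the parts of the degeneration algebra. -/

namespace Vale.Agent.P269.Deg

open Fock Finset LinearMap TensorProduct Fn

section loop

variable {H H' : Type} [AddCommGroup H] [Module ℂ H] [AddCommGroup H'] [Module ℂ H']
  {p : Par ℂ H} {ι : Type} [Fintype ι] (fr : Frame p ι)

/-- A linear map applied to the coefficients of loops. -/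
noncomputable abbrev ll (f : H →ₗ[ℂ] H') : LL H →ₗ[ℂ] LL H' := Finsupp.mapRange.linearMap f

/-- Even, infinitesimally symplectic operators of bounded degree. -/
structure Qd (A : Module.End ℂ (LL H)) : Prop where
  ev : IsEv (p.fs ℤ) (p.fs ℤ) A
  adj : fr.Adj A (-A)
  up : ∃ n, Up n A

variable {fr} in
lemma Qd.quad {A : Module.End ℂ (LL H)} (h : Qd fr A) : fr.Quad A :=
  h.up.elim fun _ hn => Frame.Quad.of_up h.ev h.adj hn

/-- `Z` is an eigenfunction of the quantisation of `A` with the Planck constant `ħ`. -/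
def Cns {𝕂 : Type} [CommRing 𝕂] (ħ : 𝕂ˣ) {M : Type} [AddCommGroup M] [Module ℂ M] [Module 𝕂 M]
    (Z : S (p.fs ℕ) →ₗ[ℂ] M) (A : Module.End ℂ (LL H)) (κ : 𝕂) : Prop :=
  ∀ x, Z (fr.q0 A x) + (ħ : 𝕂) • Z (fr.q1 A x) + (↑ħ⁻¹ : 𝕂) • Z (fr.qm A x) = κ • Z x

/-- The tensor product of an operator in `z` and an endomorphism of `H`. -/
noncomputable def tns : Module.End ℂ (LL ℂ) →ₗ[ℂ] Module.End ℂ H →ₗ[ℂ] Module.End ℂ (LL H) :=
  (TensorProduct.mapBilinear (RingHom.id ℂ) (LL ℂ) H (LL ℂ) H).compr₂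
    (finsuppScalarLeft ℂ H ℤ).conj.toLinearMap

/-- `z² ∂ + z / 2`. -/
noncomputable def aZ : Module.End ℂ (LL ℂ) := zp ℂ ℂ 1 * (eu ℂ ℂ + hf ℂ • 1)

/-- The coefficient of `l ^ j` in `z⁻¹ (a + l z) ^ k`. -/
noncomputable def cf (k j : ℕ) : Module.End ℂ (LL ℂ) :=
  zp ℂ ℂ (-1) * ((Polynomial.C aZ + Polynomial.C (zp ℂ ℂ 1) * Polynomial.X) ^ k).coeff j

/-- `z⁻¹ (z² ∂ + z (1/2 + μ) + ρ) ^ k`. -/
noncomputable def ellO (μ ρ : Module.End ℂ H) (k : ℕ) : Module.End ℂ (LL H) :=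
  zp ℂ H (-1) * (zp ℂ H 1 * (eu ℂ H + hf ℂ • 1 + Fock.cst μ) + Fock.cst ρ) ^ k

lemma ell_eq {fr : Frame p ι} (d : VD fr) (k : ℕ) : d.ell k = ellO d.μ d.ρ k := rfl

/-- The class of the diagonal with descendants. -/
noncomputable def dd (m n : ℕ) : S (p.fs ℕ) :=
  ∑ a, Fock.ι _ (Finsupp.single m (fr.e a)) * Fock.ι _ (Finsupp.single n (fr.f a))

/-- The algebra generated by the insertions from `U` and the diagonal insertions. -/
noncomputable def conS (U : Submodule ℂ H) : Subalgebra ℂ (S (p.fs ℕ)) :=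
  Algebra.adjoin ℂ ({x | ∃ m, ∃ u ∈ U, x = Fock.ι _ (Finsupp.single m u)} ∪
    {x | ∃ m n, x = dd fr m n})

/-- `Z` is invariant under the isometries of `V`. -/
def InvS {M : Type} [AddCommGroup M] [Module ℂ M] (V : Submodule ℂ H)
    (Z : S (p.fs ℕ) →ₗ[ℂ] M) : Prop :=
  ∀ h, Inv.Isom fr.η V h → ∀ (he : IsEv p p h) x, Z (Fock.map _ (isEv_vv he) x) = Z x

/-- The tensor of the Casimir element. -/
noncomputable def casTen (A : Module.End ℂ (LL H)) : VV H ⊗[ℂ] VV H :=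
  hf ℂ • ∑ᶠ m : ℕ, ∑ a, (-1 : ℂ) ^ (m + 1) • (Finsupp.single m (fr.e a) ⊗ₜ
    pos ℂ H (A (Finsupp.single (-(m : ℤ) - 1) (fr.f a))))

variable {fr}

lemma casTen_eq {A : Module.End ℂ (LL H)} {N : ℕ}
    (hN : ∀ m : ℕ, N ≤ m → ∀ v, pos ℂ H (A (Finsupp.single (-(m : ℤ) - 1) v)) = 0) :
    casTen fr A = hf ℂ • ∑ m ∈ range N, ∑ a, (-1 : ℂ) ^ (m + 1) • (Finsupp.single m (fr.e a) ⊗ₜ
      pos ℂ H (A (Finsupp.single (-(m : ℤ) - 1) (fr.f a)))) := by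
  rw [casTen, finsum_eq_sum_of_support_subset]
  intro m hm
  by_contra h
  exact hm (by simp [hN m (by simpa using h)])

lemma mulT_casTen {A : Module.End ℂ (LL H)} (hA : fr.Quad A) :
    mulT _ (casTen fr A) = fr.cas A := by
  obtain ⟨N, hN⟩ := hA.fin
  simp [casTen_eq hN, Frame.cas_eq hN, Frame.casT, map_sum]

lemma evT_casTen {A : Module.End ℂ (LL H)} (hA : fr.Quad A) :
    EvT (p.fs ℕ) (p.fs ℕ) (casTen fr A) := by
  obtain ⟨N, hN⟩ := hA.fin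
  rw [casTen_eq hN]
  refine (EvT.sum _ fun m _ => EvT.sum _ fun a _ => EvT.smul ?_ _).smul _
  rw [EvT, TensorProduct.map_tmul, isEv_pos p, hA.ev, Par.fs_σ_single, Par.fs_σ_single, fr.he, fr.hf,
    ← Finsupp.smul_single, ← Finsupp.smul_single, map_smul, map_smul, smul_tmul_smul,
    neg_one_pow_mul_self, one_smul]

variable (fr) in
/-- The normally ordered quantisation as an operator on formal functions. -/
noncomputable def Op.of (A : Module.End ℂ (LL H)) (hA : fr.Quad A) : Op (p.fs ℕ) where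
  v := -Frame.blk A fr.dil
  a := Frame.blk A
  c := casTen fr A
  f := qf (fr.qf A) - lin (fr.neg (A (up ℂ H fr.dil)))
  hv := by rw [map_neg, hA.isEv_blk, fr.σ_dil]
  ha := hA.isEv_blk
  hc := evT_casTen hA
  hf := by rw [map_sub, τ_qf, τ_lin, fr.neg_comp_σ, hA.ev, isEv_up p, fr.σ_dil]

section pre

variable {B : Type} [Ring B] [Algebra ℂ B] {s : SPar ℂ B} {A : Module.End ℂ (LL H)}
  (hA : fr.Quad A) (F : Fn (p.fs ℕ) s)

lemma of_q0 : D (Op.of fr A hA).v F + Vf (Op.of fr A hA).a F = pre (fr.q0 A) F := by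
  ext x
  simp [Op.of, Vf_eq_pre, Frame.q0, sub_eq_neg_add]

lemma of_q1 : Dx (mulT _ (Op.of fr A hA).c) F = pre (fr.q1 A) F := by
  ext x
  simp [Op.of, mulT_casTen hA, Frame.q1]

lemma of_qm : sm s (Op.of fr A hA).f * F = pre (fr.qm A) F := by
  rw [Op.of, map_sub, sub_mul, ← pre_con2, ← pre_con]
  ext x
  simp [Frame.qm]

end pre

/-- A family of functionals as a functional with values in Laurent series. -/
noncomputable def lau {V : Type} [AddCommGroup V] [Module ℂ V] (Z : ℤ → V →ₗ[ℂ] ℂ)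
    (h : ∀ x, ∃ J, ∀ j < J, Z j x = 0) : V →ₗ[ℂ] Hat ℂ ℂ where
  toFun x := ⟨fun j => Z j x, h x⟩
  map_add' x y := by ext; simp
  map_smul' c x := by ext; simp

@[simp] lemma lau_co {V : Type} [AddCommGroup V] [Module ℂ V] (Z : ℤ → V →ₗ[ℂ] ℂ)
    (h : ∀ x, ∃ J, ∀ j < J, Z j x = 0) (x : V) (j : ℤ) : (lau Z h x).co j = Z j x := rfl

/-- The Planck constant. -/
noncomputable def hb : (Hat ℂ ℂ)ˣ where
  val := Hat.single ℂ 1 1
  inv := Hat.single ℂ (-1) 1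
  val_inv := by simp [Hat.single_mul, Hat.one_def]
  inv_val := by simp [Hat.single_mul, Hat.one_def]

end loop

variable {D : Dv}

/-- The divisor, with descendants. -/
noncomputable def Dv.bs (D : Dv) : Bs ℂ (VV D.H) (VV D.H) :=
  ⟨D.p.fs ℕ, D.p.fs ℕ, vv D.c, isEv_vv D.hc⟩

/-- The divisor, without descendants. -/
def Dv.bsH (D : Dv) : Bs ℂ D.H D.H := ⟨D.p, D.p, D.c, D.hc⟩

/-- A piece, with descendants. -/
noncomputable def Pz.pc {ε : ℂ} (Y : Pz D ε) (hε : ε * ε = 1) : Pc D.bs (VV Y.H) where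
  p := Y.p.fs ℕ
  res := vv Y.res
  io := ε • vv Y.gys
  hres := isEv_vv Y.hres
  hio := (isEv_vv Y.hgys).smul ε
  hc v := by ext m; simp [Dv.bs, Y.res_gys, smul_smul, hε]

/-- A piece, without descendants. -/
def Pz.pcH {ε : ℂ} (Y : Pz D ε) (hε : ε * ε = 1) : Pc D.bsH Y.H where
  p := Y.p
  res := Y.res
  io := ε • Y.gys
  hres := Y.hres
  hio := Y.hgys.smul ε
  hc v := by simp [Dv.bsH, Y.res_gys, smul_smul, hε]

/-- A cap, with descendants. -/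
noncomputable def Cz.cp {ε : ℂ} (Y : Cz D ε) (hε : ε * ε = 1) : Cp D.bs (VV Y.H) (VV Y.Z) where
  toPc := Y.toPz.pc hε
  pz := Y.pz.fs ℕ
  sec := vv Y.sec
  nul := vv Y.nul
  prj := vv Y.prj
  hsec := isEv_vv Y.hsec
  hnul := isEv_vv Y.hnul
  hprj := isEv_vv Y.hprj
  res_sec u := by ext m; simp [Pz.pc, Y.res_sec]
  res_nul u := by ext m; simp [Pz.pc, Y.res_nul]
  split u := by ext m; simp [Pz.pc, Y.split]

lemma sq1 : (1 : ℂ) * 1 = 1 := one_mul 1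

lemma sqm : (-1 : ℂ) * -1 = 1 := by simp

variable (D) in
/-- The part of a natural loop operator that depends on the divisor only. -/
structure Trip where
  am : Module.End ℂ (LL D.H)
  ap : Module.End ℂ (LL D.H)
  evm : IsEv (D.p.fs ℤ) (D.p.fs ℤ) am
  evp : IsEv (D.p.fs ℤ) (D.p.fs ℤ) ap
  adj : D.fr.Adj am (-ap)
  up : ∃ n, Up n am ∧ Up n ap

/-- The loop operator `A` of a piece is compatible with `t`. -/
structure Pz.Nat {ε : ℂ} (Y : Pz D ε) (A : Module.End ℂ (LL Y.H)) (t : Trip D) : Prop where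
  qd : Qd Y.fr A
  res : ∀ y, ll Y.res (A y) = t.am (ll Y.res y)

section pair

variable (Y1 : Pz D 1) (Y2 : Pz D (-1))

/-- The complex of a pair of pieces. -/
abbrev CH : Type := (Y1.H × Y2.H) × D.H × D.H

/-- Its parity. -/
abbrev pC : Par ℂ (CH Y1 Y2) := (Y1.pcH sq1).tot (Y2.pcH sqm)

/-- Its differential. -/
abbrev qC : Module.End ℂ (CH Y1 Y2) := (Y1.pcH sq1).tq (Y2.pcH sqm)

/-- Its pairing. -/
def etaC (x y : CH Y1 Y2) : ℂ := Y1.fr.η x.1.1 y.1.1 + Y2.fr.η x.1.2 y.1.2 +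
  D.fr.η x.2.2 (D.p.σ y.2.1) - D.fr.η x.2.1 (D.p.σ y.2.2)

variable {Y1 Y2} {X : Coh}

/-- `i` identifies `X` with the cohomology of the complex. -/
structure Ctr (i : X.H →ₗ[ℂ] CH Y1 Y2) : Prop where
  ev : IsEv X.p (pC Y1 Y2) i
  iso : ∀ x y, etaC Y1 Y2 (i x) (i y) = X.fr.η x y
  cl : ∀ x, qC Y1 Y2 (i x) = 0
  ker : ∀ z, qC Y1 Y2 z = 0 → ∃ x y, z = i x + qC Y1 Y2 y
  one : ∃ y, ((Y1.fr.one, Y2.fr.one), 0) = i X.fr.one + qC Y1 Y2 y

/-- The map `i` applied to the coefficients. -/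
noncomputable def vi (i : X.H →ₗ[ℂ] CH Y1 Y2) :
    VV X.H →ₗ[ℂ] (VV Y1.H × VV Y2.H) × VV D.H × VV D.H :=
  ((vv (fst ℂ _ _ ∘ₗ fst ℂ _ _ ∘ₗ i)).prod (vv (snd ℂ _ _ ∘ₗ fst ℂ _ _ ∘ₗ i))).prod
    ((vv (fst ℂ _ _ ∘ₗ snd ℂ _ _ ∘ₗ i)).prod (vv (snd ℂ _ _ ∘ₗ snd ℂ _ _ ∘ₗ i)))

lemma isEv_vi {i : X.H →ₗ[ℂ] CH Y1 Y2} (hi : IsEv X.p (pC Y1 Y2) i) :
    IsEv (X.p.fs ℕ) ((Y1.pc sq1).tot (Y2.pc sqm)) (vi i) := fun v => by
  refine Prod.ext (Prod.ext ?_ ?_) (Prod.ext ?_ ?_) <;> ext m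
  · exact congrArg (·.1.1) (hi (v m))
  · exact congrArg (·.1.2) (hi (v m))
  · exact congrArg (·.2.1) (hi (v m))
  · exact congrArg (·.2.2) (hi (v m))

/-- The operators `a1`, `a2`, `am`, `ap` on the complex induce `a` on `X`. -/
def HtH (i : X.H →ₗ[ℂ] CH Y1 Y2) (a1 : Module.End ℂ Y1.H) (a2 : Module.End ℂ Y2.H)
    (am ap : Module.End ℂ D.H) (a : Module.End ℂ X.H) : Prop :=
  ∀ x, ∃ y, (a1.prodMap a2).prodMap (am.prodMap ap) (i x) = i (a x) + qC Y1 Y2 y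

/-- The loop operators `A1`, `A2`, `t` on the complex induce `A` on `X`. -/
def HtL (i : X.H →ₗ[ℂ] CH Y1 Y2) (A1 : Module.End ℂ (LL Y1.H)) (A2 : Module.End ℂ (LL Y2.H))
    (t : Trip D) (A : Module.End ℂ (LL X.H)) : Prop :=
  ∀ x, ∃ y : LL (CH Y1 Y2), ∀ n : ℤ,
    ((A1 (ll (fst ℂ _ _ ∘ₗ fst ℂ _ _ ∘ₗ i) x) n, A2 (ll (snd ℂ _ _ ∘ₗ fst ℂ _ _ ∘ₗ i) x) n),
      (t.am (ll (fst ℂ _ _ ∘ₗ snd ℂ _ _ ∘ₗ i) x) n, t.ap (ll (snd ℂ _ _ ∘ₗ snd ℂ _ _ ∘ₗ i) x) n)) =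
      i (A x n) + qC Y1 Y2 (y n)

end pair

end Vale.Agent.P269.Deg
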