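import Vale.Agent.P269.Deg.Sd

/-! The cohomology of a smoothing is that of the complex of the two pieces, when the specialisation
map and the difference of the restrictions are onto. -/

namespace Vale.Agent.P269.Deg

open Fock Finset LinearMap TensorProduct Fn

namespace ExP

/-- Even maps can be lifted to even maps. -/
lemma exists_lift {U V W : Type} [AddCommGroup U] [Module ℂ U] [AddCommGroup V] [Module ℂ V]
    [AddCommGroup W] [Module ℂ W] {pu : Par ℂ U} {pv : Par ℂ V} {pw : Par ℂ W} {f : W →ₗ[ℂ] V}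
    {g : U →ₗ[ℂ] V} (hf : IsEv pw pv f) (hg : IsEv pu pv g) (h : ∀ u, ∃ w, f w = g u) :
    ∃ j : U →ₗ[ℂ] W, IsEv pu pw j ∧ ∀ u, f (j u) = g u := by
  obtain ⟨s, hs⟩ := f.rangeRestrict.exists_rightInverse_of_surjective f.range_rangeRestrict
  let j0 : U →ₗ[ℂ] W := s ∘ₗ g.codRestrict (range f) h
  have h0 : ∀ u, f (j0 u) = g u := fun u =>
    congrArg Subtype.val (LinearMap.congr_fun hs (g.codRestrict (range f) h u))
  refine ⟨(2⁻¹ : ℂ) • (j0 + pw.σ ∘ₗ j0 ∘ₗ pu.σ), fun u => ?_, fun u => ?_⟩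
  · simp only [LinearMap.smul_apply, LinearMap.add_apply, comp_apply, map_smul, map_add, pw.inv,
      pu.inv]
    rw [add_comm]
  · simp only [LinearMap.smul_apply, LinearMap.add_apply, comp_apply, map_smul, map_add]
    rw [← hf, h0, h0, hg, pu.inv, ← two_smul ℂ, smul_smul]
    norm_num

variable {D : Dv} {Y1 : Pz D 1} {Y2 : Pz D (-1)} (X : Sm Y1 Y2)

lemma of_ker (hr : ∀ u, ∃ t1 t2, Y1.res t1 - Y2.res t2 = u) {w : X.W} (hw : X.sp w = 0) :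
    ∃ a, X.θ1 w = Y1.gys a ∧ X.θ2 w = -Y2.gys a := by
  let d : Y1.H × Y2.H →ₗ[ℂ] D.H := Y1.res.coprod (-Y2.res)
  have hd : ∀ t, d t = Y1.res t.1 - Y2.res t.2 := fun t => (sub_eq_add_neg _ _).symm
  obtain ⟨s, hs⟩ := d.exists_rightInverse_of_surjective (range_eq_top.2 fun u => by
    obtain ⟨t1, t2, h⟩ := hr u
    exact ⟨(t1, t2), by rw [hd, h]⟩)
  let φ : Y1.H × Y2.H →ₗ[ℂ] ℂ := (Y1.fr.η (X.θ1 w)).coprod (Y2.fr.η (X.θ2 w))
  have hφ : ∀ t, φ t = Y1.fr.η (X.θ1 w) t.1 + Y2.fr.η (X.θ2 w) t.2 := fun _ => rfl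
  have h1 : ∀ t, φ t = φ (s (d t)) := fun t => by
    have e : d (t - s (d t)) = 0 := by
      rw [map_sub, show d (s (d t)) = d t from LinearMap.congr_fun hs _, sub_self]
    rw [hd, sub_eq_zero] at e
    obtain ⟨w', e1, e2⟩ := X.mv _ _ e
    rw [← sub_eq_zero, ← map_sub, hφ, ← e1, ← e2, ← X.int, hw, map_zero, LinearMap.zero_apply]
  have h2 : ∀ u, D.fr.η (∑ b, φ (s (D.fr.e b)) • D.fr.f b) u = φ (s u) := fun u => by
    conv_rhs => rw [← D.fr.left u]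
    simp only [map_sum, map_smul, LinearMap.sum_apply, LinearMap.smul_apply, smul_eq_mul, mul_comm]
  refine ⟨∑ b, φ (s (D.fr.e b)) • D.fr.f b, Y1.fr.ext_left fun t => ?_,
    Y2.fr.ext_left fun t => ?_⟩
  · have := h1 (t, 0)
    rw [hφ, hd, map_zero, map_zero, add_zero, sub_zero] at this
    rw [Y1.adj, h2, this]
  · have := h1 (0, t)
    rw [hφ, hd, map_zero, map_zero, zero_add, zero_sub] at this
    rw [map_neg, LinearMap.neg_apply, Y2.adj, ← map_neg, h2, this]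

lemma to_ker (hs : Function.Surjective X.sp) {w : X.W} {a : D.H} (h1 : X.θ1 w = Y1.gys a)
    (h2 : X.θ2 w = -Y2.gys a) : X.sp w = 0 :=
  X.fr.ext_left fun x => by
    obtain ⟨w', rfl⟩ := hs x
    rw [X.int, h1, h2, map_neg, LinearMap.neg_apply, Y1.adj, Y2.adj, X.mat, add_neg_cancel,
      map_zero, LinearMap.zero_apply]

lemma iW_apply (w : X.W) : X.iW w = ((X.θ1 w, X.θ2 w), 0) := rfl

lemma qC_apply (z : CH Y1 Y2) :
    qC Y1 Y2 z = ((Y1.gys z.2.2, -Y2.gys z.2.2), (Y1.res z.1.1 - Y2.res z.1.2, 0)) := by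
  simp [Pz.pcH]

end ExP

open ExP

variable {D : Dv} {Y1 : Pz D 1} {Y2 : Pz D (-1)} (X : Sm Y1 Y2)

theorem Sm.exact (hs : Function.Surjective X.sp) (hr : ∀ u, ∃ t1 t2, Y1.res t1 - Y2.res t2 = u) :
    ∃ j : X.H →ₗ[ℂ] X.W, IsEv X.p X.pw j ∧ (∀ x, X.sp (j x) = x) ∧
      Ctr (X := X.toCoh) (X.iW ∘ₗ j) ∧
      (∀ w, ∃ a, X.iW w = X.iW (j (X.sp w)) + qC Y1 Y2 (0, (0, a))) ∧
      (∃ k : D.H →ₗ[ℂ] X.W, IsEv D.p X.pw k ∧ ∀ a, X.θ1 (k a) = Y1.gys a ∧ X.θ2 (k a) = -Y2.gys a ∧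
        X.sp (k a) = 0) ∧
      ∀ a1 a2 a am ap, X.Rel ⊤ a1 a2 a → HtH (X := X.toCoh) (X.iW ∘ₗ j) a1 a2 am ap a := by
  obtain ⟨j, hj, hsj⟩ := exists_lift (g := LinearMap.id) X.hsp (fun _ => rfl) hs
  have hsj : ∀ x, X.sp (j x) = x := hsj
  have h4 : ∀ w, ∃ a, X.iW w = X.iW (j (X.sp w)) + qC Y1 Y2 (0, (0, a)) := fun w => by
    obtain ⟨a, h1, h2⟩ := of_ker X hr (w := w - j (X.sp w)) (by rw [map_sub, hsj, sub_self])
    rw [map_sub, sub_eq_iff_eq_add'] at h1 h2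
    refine ⟨a, ?_⟩
    rw [qC_apply, iW_apply, iW_apply, h1, h2]
    simp [Prod.ext_iff]
  refine ⟨j, hj, hsj, ⟨fun x => ?_, fun x y => ?_, fun x => ?_, fun z hz => ?_, ?_⟩, h4, ?_,
    fun a1 a2 a am ap h x => ?_⟩
  · rw [comp_apply, comp_apply, iW_apply, iW_apply, ← hj, ← X.h1, ← X.h2]
    exact Prod.ext rfl (map_zero (Bs.gh D.bsH).σ)
  · simp only [etaC, comp_apply, iW_apply, ← X.int, hsj]
    simp
  · rw [comp_apply, iW_apply, qC_apply]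
    simp [X.mat]
  · obtain ⟨⟨t1, t2⟩, r, s⟩ := z
    rw [qC_apply] at hz
    simp only [Prod.mk_eq_zero, neg_eq_zero, sub_eq_zero, and_true] at hz
    obtain ⟨⟨e1, e2⟩, e3⟩ := hz
    have e4 : s = 0 := D.fr.ext_left fun u => by
      obtain ⟨u1, u2, rfl⟩ := hr u
      rw [map_sub, ← Y1.adj, ← Y2.adj, e1, e2]
      simp
    obtain ⟨w, rfl, rfl⟩ := X.mv _ _ e3
    obtain ⟨a, ha⟩ := h4 w
    obtain ⟨u1, u2, rfl⟩ := hr r
    refine ⟨X.sp w, ((u1, u2), (0, a)), ?_⟩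
    rw [qC_apply, iW_apply, iW_apply] at ha
    rw [comp_apply, qC_apply, iW_apply, e4]
    simpa [Prod.ext_iff] using ha
  · obtain ⟨w, e1, e2, e3⟩ := X.one
    obtain ⟨a, ha⟩ := h4 w
    rw [iW_apply, e1, e2, e3] at ha
    exact ⟨_, ha⟩
  · obtain ⟨k, hk, hk'⟩ := exists_lift (pv := Y1.p.prod Y2.p) (pw := X.pw) (pu := D.p)
      (f := X.θ1.prod X.θ2) (g := Y1.gys.prod (-Y2.gys))
      (fun w => Prod.ext (X.h1 w) (X.h2 w)) (fun a => Prod.ext (Y1.hgys a) (Y2.hgys.neg a))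
      fun a => by
        obtain ⟨w, e1, e2⟩ := X.mv (Y1.gys a) (-Y2.gys a) (by simp [Y1.res_gys, Y2.res_gys])
        exact ⟨w, Prod.ext e1 e2⟩
    refine ⟨k, hk, fun a => ?_⟩
    have e1 : X.θ1 (k a) = Y1.gys a := congrArg Prod.fst (hk' a)
    have e2 : X.θ2 (k a) = -Y2.gys a := congrArg Prod.snd (hk' a)
    exact ⟨e1, e2, to_ker X hs e1 e2⟩
  · obtain ⟨w, e1, e2, e3⟩ := h (j x) trivial
    obtain ⟨b, hb⟩ := h4 w
    rw [e3, hsj, iW_apply, e1, e2] at hb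
    refine ⟨_, Eq.trans ?_ hb⟩
    rw [comp_apply, iW_apply]
    exact Prod.ext rfl (map_zero (am.prodMap ap))

end Vale.Agent.P269.Deg
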