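import Vale.Agent.P269.Deg.Mn

/-! Extension by spectator variables and restriction to their zero locus. -/

set_option linter.unusedSectionVars false

namespace Vale.Agent.P269.Deg

open Fock LinearMap TensorProduct Fn

variable {K : Type*} [CommRing K] {Um Up : Type*} [AddCommGroup Um] [Module K Um]
  [AddCommGroup Up] [Module K Up] {A B : Type*} [Ring A] [Algebra K A] [Ring B] [Algebra K B]
  {s : SPar K B} {sA : SPar K A} {b : Bs K Um Up}
  {V W : Type*} [AddCommGroup V] [Module K V] [AddCommGroup W] [Module K W] {p : Par K V}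
  {q : Par K W}
  {T T1 T2 Z N : Type*} [AddCommGroup T] [Module K T] [AddCommGroup T1] [Module K T1]
  [AddCommGroup T2] [Module K T2] [AddCommGroup Z] [Module K Z] [AddCommGroup N] [Module K N]
  (pn : Par K N)

lemma isEv_prodMap' {f : V →ₗ[K] W} (hf : IsEv p q f) {r : Par K T} {r' : Par K T1}
    {g : T →ₗ[K] T1} (hg : IsEv r r' g) : IsEv (p.prod r) (q.prod r') (f.prodMap g) :=
  fun v => Prod.ext (hf v.1) (hg v.2)

/-- The divisor with spectators. -/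
@[reducible] def Bs.xt (b : Bs K Um Up) : Bs K (Um × N) Up :=
  ⟨b.pm.prod pn, b.pp, inl K _ _ ∘ₗ b.c, isEv_comp (isEv_inl _ _) b.hc⟩

/-- A piece with spectators. -/
@[reducible] def Pc.xt (P : Pc b T) : Pc (b.xt pn) (T × N) where
  p := P.p.prod pn
  res := P.res.prodMap .id
  io := inl K _ _ ∘ₗ P.io
  hres := isEv_prodMap' P.hres (isEv_id _)
  hio := isEv_comp (isEv_inl _ _) P.hio
  hc v := by simp [P.hc]

/-- A cap with spectators. -/
@[reducible] def Cp.xt (P : Cp b T Z) : Cp (b.xt pn) (T × N) Z where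
  toPc := P.toPc.xt pn
  pz := P.pz
  sec := P.sec.prodMap .id
  nul := inl K _ _ ∘ₗ P.nul
  prj := P.prj ∘ₗ fst K _ _
  hsec := isEv_prodMap' P.hsec (isEv_id _)
  hnul := isEv_comp (isEv_inl _ _) P.hnul
  hprj := isEv_comp P.hprj (isEv_fst _ _)
  res_sec u := by simp [P.res_sec]
  res_nul z := by simp [P.res_nul, Prod.ext_iff]
  split t := by simp [P.split]

lemma Bs.isEv_z (b : Bs K Um Up) : IsEv b.ms (b.xt pn).ms ((inl K Um N).prodMap .id) :=
  fun v => by simp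

lemma Bs.isEv_zu (b : Bs K Um Up) : IsEv b.uni (b.xt pn).uni
    (((inl K Um N).prodMap (inl K Um N)).prodMap ((inl K Um N).prodMap .id)) := fun v => by simp

lemma Pc.isEv_zt (P1 : Pc b T1) (P2 : Pc b T2) : IsEv (P1.tot P2) ((P1.xt pn).tot (P2.xt pn))
    (((inl K T1 N).prodMap (inl K T2 N)).prodMap ((inl K Um N).prodMap .id)) := fun v => by simp

lemma Bs.isEv_π (b : Bs K Um Up) : IsEv (b.xt pn).ms b.ms ((fst K Um N).prodMap .id) :=
  fun v => by simp

lemma Bs.isEv_πg (b : Bs K Um Up) : IsEv (b.xt pn).gh b.gh ((fst K Um N).prodMap .id) :=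
  fun v => by simp

variable (N) in
/-- A map to the complex of a pair, with spectators. -/
def ixt (i : V →ₗ[K] (T1 × T2) × Um × Up) : V × N →ₗ[K] ((T1 × N) × T2 × N) × (Um × N) × Up :=
  ((((inl K T1 N).prodMap (inl K T2 N)).prodMap ((inl K Um N).prodMap .id)) ∘ₗ i).coprod
    (inl K _ _ ∘ₗ (inr K T1 N).prod (inr K T2 N))

@[simp] lemma ixt_apply (i : V →ₗ[K] (T1 × T2) × Um × Up) (x : V × N) : ixt N i x =
    ((((i x.1).1.1, x.2), ((i x.1).1.2, x.2)), (((i x.1).2.1, 0), (i x.1).2.2)) := by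
  simp [ixt]

lemma isEv_ixt {P1 : Pc b T1} {P2 : Pc b T2} {i : V →ₗ[K] (T1 × T2) × Um × Up}
    (hi : IsEv p (P1.tot P2) i) : IsEv (p.prod pn) ((P1.xt pn).tot (P2.xt pn)) (ixt N i) :=
  fun v => by
    have := hi v.1
    simp only [Prod.ext_iff] at this
    simpa [Prod.ext_iff, and_assoc] using this

variable [Algebra ℚ K] {h : Rg sA s}

section zero

variable {pn}

/-- Restriction to the zero locus of the spectators. -/
noncomputable abbrev z0 (F : Fn (p.prod pn) s) : Fn p s := pull _ (isEv_inl p pn) F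

variable {P : Pc b T} {P1 : Pc b T1} {P2 : Pc b T2} {F : Fn (P.xt pn).p s}
  {R : Fn (b.xt pn).ms sA} {U : Fn (b.xt pn).uni sA}

lemma Pc.FlL.z (f : (P.xt pn).FlL h F R) : P.FlL h (z0 F) (pull _ (b.isEv_z pn) R) := by
  have hk : IsEv P.ts (P.xt pn).ts ((inl K T N).prodMap .id) := fun v => by simp
  have := congrArg (pull _ hk) f
  rw [← Vf_pull (a := P.iq) _ _ fun v => by simp, map_mul, Pc.f0,
    pull_pull _ _ _ _ _ (isEv_comp (isEv_inl _ _) (isEv_fst _ _)) fun _ => rfl,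
    h.pull_emb _ _ _ _ _ (isEv_comp (b.isEv_z pn) P.isEv_rs) fun _ => by simp] at this
  rw [Pc.FlL, Pc.f0, pull_pull _ _ _ _ _ (isEv_comp (isEv_inl _ _) (isEv_fst _ _)) fun _ => rfl,
    h.emb_pull _ _ _ _ _ (isEv_comp (b.isEv_z pn) P.isEv_rs) fun _ => rfl, this]

lemma Pc.FlR.z (f : (P.xt pn).FlR h F R) : P.FlR h (z0 F) (pull _ (b.isEv_z pn) R) := by
  have hk : IsEv P.ts (P.xt pn).ts ((inl K T N).prodMap .id) := fun v => by simp
  have := congrArg (pull _ hk) f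
  rw [← Vf_pull (a := P.iq) _ _ fun v => by simp, map_neg, map_mul, Pc.f0,
    pull_pull _ _ _ _ _ (isEv_comp (isEv_inl _ _) (isEv_fst _ _)) fun _ => rfl,
    h.pull_emb _ _ _ _ _ (isEv_comp (b.isEv_z pn) P.isEv_rs) fun _ => by simp] at this
  rw [Pc.FlR, Pc.f0, pull_pull _ _ _ _ _ (isEv_comp (isEv_inl _ _) (isEv_fst _ _)) fun _ => rfl,
    h.emb_pull _ _ _ _ _ (isEv_comp (b.isEv_z pn) P.isEv_rs) fun _ => rfl, this]

lemma Bs.z_e1 (R : Fn (b.xt pn).ms sA) :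
    pull _ (b.isEv_zu pn) ((b.xt pn).e1 sA R) = b.e1 sA (pull _ (b.isEv_z pn) R) := by
  rw [Bs.e1, Bs.e1, pull_pull _ _ _ _ _ (isEv_comp (b.isEv_z pn) b.isEv_ρ1) fun _ => by simp,
    pull_pull _ _ _ _ _ (isEv_comp (b.isEv_z pn) b.isEv_ρ1) fun _ => rfl]

lemma Bs.z_e2 (R : Fn (b.xt pn).ms sA) :
    pull _ (b.isEv_zu pn) ((b.xt pn).e2 sA R) = b.e2 sA (pull _ (b.isEv_z pn) R) := by
  rw [Bs.e2, Bs.e2, pull_pull _ _ _ _ _ (isEv_comp (b.isEv_z pn) (isEv_snd _ _)) fun _ => rfl,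
    pull_pull _ _ _ _ _ (isEv_comp (b.isEv_z pn) (isEv_snd _ _)) fun _ => rfl]

lemma Bs.IsU.z (u : Bs.IsU R U) : Bs.IsU (pull _ (b.isEv_z pn) R) (pull _ (b.isEv_zu pn) U) where
  ev := by rw [τ_pull, u.ev]
  one := by
    have := congrArg (pull _ (b.isEv_z pn)) u.one
    rw [Bs.r0, pull_pull _ _ _ _ _ (isEv_comp (b.isEv_zu pn) (isEv_inr _ _))
      fun _ => by simp [Prod.ext_iff], map_one] at this
    rw [Bs.r0, pull_pull _ _ _ _ _ (isEv_comp (b.isEv_zu pn) (isEv_inr _ _)) fun _ => rfl, this]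
  cl := by
    have := congrArg (pull _ (b.isEv_zu pn)) u.cl
    rwa [Bs.Qh_apply, map_sub, map_add, map_mul, map_mul, Bs.z_e1, Bs.z_e2, ← τ_pull,
      ← Vf_pull (a := b.uq) _ _ fun v => by simp, ← Bs.Qh_apply, map_zero] at this
  gh := by rw [Vf_pull (b := un K _ _) _ _ fun v => by simp, u.gh, map_zero]
  eul := by
    have := congrArg (pull _ (b.isEv_zu pn)) u.eul
    rwa [Bs.Eh_apply, map_add, map_mul, ← Vf_pull (a := (1 : Module.End K (Um × Um)).prodMap 0) _ _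
      fun v => by simp [Prod.ext_iff], ← Vf_pull (a := uh K Um Up) _ _
      fun v => by simp [Prod.ext_iff], Bs.z_e1, ← Bs.Eh_apply, map_zero] at this

lemma Pc.z_Sw (F1 : Fn (P1.xt pn).p s) (F2 : Fn (P2.xt pn).p s) (U : Fn (b.xt pn).uni sA) :
    pull _ (P1.isEv_zt pn P2) (Pc.Sw (P1.xt pn) (P2.xt pn) h F1 F2 U) =
      Pc.Sw P1 P2 h (z0 F1) (z0 F2) (pull _ (b.isEv_zu pn) U) := by
  rw [Pc.Sw_apply, Pc.Sw_apply, map_mul, map_mul, Pc.f1, Pc.f1, Pc.f2, Pc.f2, Pc.Φ, Pc.Φ,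
    pull_pull _ _ _ _ _ (isEv_comp (isEv_inl _ _) (P1.isEv_p1 P2)) fun _ => rfl,
    pull_pull _ _ _ _ _ (isEv_comp (isEv_inl _ _) (P1.isEv_p2 P2)) fun _ => rfl,
    pull_pull _ _ _ _ _ (isEv_comp (isEv_inl _ _) (P1.isEv_p1 P2)) fun _ => rfl,
    pull_pull _ _ _ _ _ (isEv_comp (isEv_inl _ _) (P1.isEv_p2 P2)) fun _ => rfl,
    h.pull_emb _ _ _ _ _ (isEv_comp (b.isEv_zu pn) (P1.isEv_tρ P2)) fun _ => by simp,
    h.emb_pull _ _ _ _ _ (isEv_comp (b.isEv_zu pn) (P1.isEv_tρ P2)) fun _ => rfl]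

lemma Pc.z_pull_Sw {i : V →ₗ[K] (T1 × T2) × Um × Up} (hi : IsEv p (P1.tot P2) i)
    (F1 : Fn (P1.xt pn).p s) (F2 : Fn (P2.xt pn).p s) (U : Fn (b.xt pn).uni sA) :
    z0 (pull _ (isEv_ixt pn hi) (Pc.Sw (P1.xt pn) (P2.xt pn) h F1 F2 U)) =
      pull _ hi (Pc.Sw P1 P2 h (z0 F1) (z0 F2) (pull _ (b.isEv_zu pn) U)) := by
  rw [← Pc.z_Sw, z0, pull_pull _ _ _ _ _ (isEv_comp (P1.isEv_zt pn P2) hi) fun _ => by simp,
    pull_pull _ _ _ _ _ (isEv_comp (P1.isEv_zt pn P2) hi) fun _ => rfl]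

variable {C : Cp b T Z} {G : Fn (C.xt pn).p s}

lemma Cp.nul_z (G : Fn (C.xt pn).p s) : pull _ C.hnul (z0 G) = pull _ (C.xt pn).hnul G :=
  pull_pull _ _ _ _ _ _ (fun _ => rfl) _

lemma Cp.CanL.z (c : (C.xt pn).CanL h G) : C.CanL h (z0 G) :=
  ⟨by rw [τ_pull, c.ev], by rw [Cp.nul_z]; exact c.can, by rw [Cp.nul_z]; exact c.inj⟩

lemma Cp.CanR.z (c : (C.xt pn).CanR h G) : C.CanR h (z0 G) :=
  ⟨by rw [τ_pull, c.ev], by rw [Cp.nul_z]; exact c.can⟩

end zero

section op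

variable {pn} {n : N} (hn : pn.σ n = n)

/-- An operator plus a derivative in the spectator directions. -/
noncomputable def Op.xt (O : Op p) : Op (p.prod pn) where
  v := (O.v, n)
  a := O.a.prodMap 0
  c := TensorProduct.map (inl K _ _) (inl K _ _) O.c
  f := pull _ (isEv_fst _ _) O.f
  hv := by simp [O.hv, hn]
  ha := fun v => by simp [O.ha _]
  hc := O.hc.map (isEv_inl _ _) (isEv_inl _ _)
  hf := by rw [τ_pull, O.hf]

/-- The part on the divisor. -/
noncomputable def BOp.xt (Ob : BOp b) : BOp (b.xt pn) where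
  v := (Ob.v, n)
  am := Ob.am.prodMap 0
  ap := Ob.ap
  g1 := TensorProduct.map .id (inl K _ _) Ob.g1
  g2 := TensorProduct.map .id (inl K _ _) Ob.g2
  fm := pull _ (b.isEv_π pn) Ob.fm
  fg := pull _ (b.isEv_πg pn) Ob.fg
  hv := by simp [Ob.hv, hn]
  ham := fun v => by simp [Ob.ham _]
  hap := Ob.hap
  hg1 := Ob.hg1.map (isEv_id _) (isEv_inl _ _)
  hg2 := Ob.hg2.map (isEv_id _) (isEv_inl _ _)
  hfg := by rw [τ_pull, Ob.hfg]
  gn_fg := by rw [Vf_pull (b := gn K _ _) _ _ fun v => by simp, Ob.gn_fg, map_zero]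
  uq_fg := by
    have hk : IsEv (b.xt pn).uni b.uni
        (((fst K Um N).prodMap (fst K Um N)).prodMap ((fst K Um N).prodMap .id)) := fun v => by simp
    have := congrArg (pull _ hk) Ob.uq_fg
    rw [map_sub, map_add, ← Vf_pull (a := (b.xt pn).uq) _ _ fun v => by simp, Bs.e1, Bs.e2,
      pull_pull _ _ _ _ _ (isEv_comp b.isEv_ugh hk) fun _ => rfl,
      pull_pull _ _ _ _ _ (isEv_comp b.isEv_ρ1 hk) fun _ => rfl,
      pull_pull _ _ _ _ _ (isEv_comp (isEv_snd _ _) hk) fun _ => rfl, map_zero] at this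
    rw [Bs.e1, Bs.e2, pull_pull _ _ _ _ _ (isEv_comp b.isEv_ugh hk) fun _ => rfl,
      pull_pull _ _ _ _ _ (isEv_comp b.isEv_ρ1 hk) fun _ => by simp,
      pull_pull _ _ _ _ _ (isEv_comp (isEv_snd _ _) hk) fun _ => rfl, this]

lemma Pc.Comp.xt {P : Pc b T} {ε : K} {O : Op P.p} {Ob : BOp b} (c : P.Comp ε O Ob) :
    (P.xt pn).Comp ε (O.xt hn) (Ob.xt hn) where
  v := by simp [Op.xt, BOp.xt, c.v]
  a_res t := by simp [Op.xt, BOp.xt, c.a_res]
  a_io x := by simp [Op.xt, BOp.xt, c.a_io]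
  c1 := by
    have := congrArg (TensorProduct.map (inl K T N) (inl K Um N)) c.c1
    simp only [map_smul, map_map, comp_id] at this
    simp only [Op.xt, BOp.xt, map_map, comp_id, id_comp]
    exact (congrArg (fun f => TensorProduct.map _ f O.c) (by ext <;> simp)).trans this
  c2 := by
    have := congrArg (TensorProduct.map (inl K T N) (inl K Um N)) c.c2
    simp only [map_smul, map_map, comp_id] at this
    simp only [Op.xt, BOp.xt, map_comm', map_map, comp_id, id_comp]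
    exact (congrArg (fun f => TensorProduct.map _ f _) (by ext <;> simp)).trans this
  f := by
    have hk : IsEv (P.xt pn).ts P.ts ((fst K T N).prodMap .id) := fun v => by simp
    have := congrArg (pull _ hk) c.f
    rw [← Vf_pull (a := (P.xt pn).iq) _ _ fun v => by simp, map_smul, Pc.f0,
      pull_pull _ _ _ _ _ (isEv_comp (isEv_fst _ _) hk) fun _ => rfl,
      pull_pull _ _ _ _ _ (isEv_comp P.isEv_rs hk) fun _ => rfl] at this
    simp only [Op.xt, BOp.xt]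
    rw [Pc.f0, pull_pull _ _ _ _ _ (isEv_comp (isEv_fst _ _) hk) fun _ => rfl,
      pull_pull _ _ _ _ _ (isEv_comp P.isEv_rs hk) fun _ => rfl, this]

lemma dv_map_od {a : Module.End K V} {a' : Module.End K W} (ha : IsOd p p a) (ha' : IsOd q q a')
    {f : V →ₗ[K] W} (hf : IsEv p q f) (e : ∀ v, a' (f v) = f (a v)) (x : S p) :
    dv q a' (Fock.map f hf x) = Fock.map f hf (dv p a x) := by
  induction x using induction with
  | h1 => simp
  | hι v x hx => simp [dv_mul_od ha, dv_mul_od ha', hx, e, par_ι, hf v]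
  | hadd x y hx hy => simp only [map_add, hx, hy]
  | hsmul c x hx => simp only [map_smul, hx]

lemma Op.Rs.xt {P1 : Pc b T1} {P2 : Pc b T2} {O1 : Op P1.p} {O2 : Op P2.p} {Ob : BOp b}
    {O : Op p} {i : V →ₗ[K] (T1 × T2) × Um × Up} {hi : IsEv p (P1.tot P2) i}
    (r : (Ob.top O1 O2).Rs O (P1.tq P2) i hi) :
    ((Ob.xt hn).top (P1 := P1.xt pn) (P2 := P2.xt pn) (O1.xt hn) (O2.xt hn)).Rs (O.xt hn)
      ((P1.xt pn).tq (P2.xt pn)) (ixt N i) (isEv_ixt pn hi) := by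
  set κ := ((inl K T1 N).prodMap (inl K T2 N)).prodMap ((inl K Um N).prodMap (.id (M := Up)))
    with hκ
  have hq (y) : (P1.xt pn).tq (P2.xt pn) (κ y) = κ (P1.tq P2 y) := by simp [hκ]
  refine ⟨fun w => ?_, ?_, fun w => ?_, ?_, ?_⟩
  · have := r.ker w.1
    simp only [Pc.tq_apply, Prod.ext_iff] at this
    simpa [Prod.ext_iff, and_assoc] using this
  · obtain ⟨y, hy⟩ := r.v
    refine ⟨κ y, ?_⟩
    simp only [BOp.top, Prod.ext_iff] at hy
    simpa [hκ, BOp.top, Op.xt, Prod.ext_iff, and_assoc] using hy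
  · obtain ⟨y, hy⟩ := r.a w.1
    refine ⟨κ y, ?_⟩
    simp only [BOp.top, Prod.ext_iff] at hy
    simpa [hκ, BOp.top, Op.xt, BOp.xt, Prod.ext_iff, and_assoc] using hy
  · obtain ⟨y, hy⟩ := r.c
    refine ⟨Fock.map κ (P1.isEv_zt pn P2) y, ?_⟩
    have := congrArg (Fock.map κ (P1.isEv_zt pn P2)) hy
    rw [map_add, map_mulT, map_mulT, ← dv_map_od (Pc.isOd_tq _ _) (Pc.isOd_tq _ _) _ hq] at this
    convert this using 3
    · simp only [BOp.top, Op.xt, BOp.xt, BOp.cg, map_add, map_sub, map_comm', map_map]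
      congr 3 <;> ext <;> simp [hκ] <;> rfl
    · simp only [Op.xt, map_map]
      congr 1 <;> ext <;> simp [hκ]
  · have hk : IsEv ((P1.xt pn).tot (P2.xt pn)) (P1.tot P2)
        (((fst K T1 N).prodMap (fst K T2 N)).prodMap ((fst K Um N).prodMap .id)) :=
      fun v => by simp
    have e : ((Ob.xt hn).top (P1 := P1.xt pn) (P2 := P2.xt pn) (O1.xt hn) (O2.xt hn)).f =
        pull _ hk (Ob.top O1 O2).f := by
      simp only [BOp.top, Op.xt, BOp.xt, map_add, Pc.f1, Pc.f2]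
      rw [pull_pull _ _ _ _ _ (isEv_comp (P1.isEv_p1 P2) hk) fun _ => rfl,
        pull_pull _ _ _ _ _ (isEv_comp (P1.isEv_p2 P2) hk) fun _ => rfl,
        pull_pull _ _ _ _ _ (isEv_comp (isEv_snd _ _) hk) fun _ => rfl,
        pull_pull _ hk _ _ _ (isEv_comp (P1.isEv_p1 P2) hk) fun _ => rfl,
        pull_pull _ hk _ _ _ (isEv_comp (P1.isEv_p2 P2) hk) fun _ => rfl,
        pull_pull _ hk _ _ _ (isEv_comp (isEv_snd _ _) hk) fun _ => rfl]
    rw [e, pull_pull _ _ _ _ _ (isEv_comp hi (isEv_fst p pn)) fun _ => by simp,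
      show (O.xt hn).f = pull _ (isEv_fst _ _) O.f from rfl, ← r.f,
      pull_pull _ _ _ _ _ (isEv_comp hi (isEv_fst p pn)) fun _ => rfl]

end op

end Vale.Agent.P269.Deg
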