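import Vale.Agent.P269.Deg.Df
import Mathlib.RingTheory.PowerSeries.Basic

/-! Energy gradings, the rings of matrices, rows and columns; the Fock space of a divisor. -/

namespace Vale.Agent.P269.Deg

open Fock Finset LinearMap

section gr

/-- A parity and a locally finite grading with finite dimensional pieces. -/
structure Gr (K F : Type) [Field K] [AddCommGroup F] [Module K F] where
  σ : Module.End K F
  inv : σ * σ = 1
  π : ℕ → Module.End K F
  π_π : ∀ e e', π e * π e' = if e = e' then π e else 0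
  σ_π : ∀ e, σ * π e = π e * σ
  fin : ∀ v, ∃ N, ∑ e ∈ range N, π e v = v
  fd : ∀ e, FiniteDimensional K (LinearMap.range (π e))

variable (K F : Type) [Field K] [AddCommGroup F] [Module K F]

/-- The ring of matrices. -/
abbrev Mat : Type := PowerSeries (Module.End K (F × K))

variable {K F}

/-- Rows. -/
noncomputable def row : (ℕ → Module.Dual K F) →ₗ[K] Mat K F where
  toFun r := PowerSeries.mk fun n => inr K F K ∘ₗ r n ∘ₗ fst K F K
  map_add' r r' := by ext n : 1; simp [add_comp, comp_add]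
  map_smul' c r := by ext n : 1; simp [smul_comp, comp_smul]

/-- Columns. -/
noncomputable def col : (ℕ → F) →ₗ[K] Mat K F where
  toFun c := PowerSeries.mk fun n => (snd K F K).smulRight (c n, 0)
  map_add' r r' := by ext n : 1; ext <;> simp
  map_smul' c r := by ext n : 1; ext <;> simp

variable (F) in
/-- The corner. -/
noncomputable def cor : (ℕ → K) →ₗ[K] Mat K F where
  toFun c := PowerSeries.mk fun n => (snd K F K).smulRight (0, c n)
  map_add' r r' := by ext n : 1; ext <;> simp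
  map_smul' c r := by ext n : 1; ext <;> simp

/-- Banded series of operators. -/
def Gr.Band (G : Gr K F) (x : PowerSeries (Module.End K F)) : Prop :=
  ∀ n e e', n + e < e' ∨ n + e' < e → G.π e' * PowerSeries.coeff n x * G.π e = 0

end gr

section fock

variable {H : Type} [AddCommGroup H] [Module ℂ H] (p : Par ℂ H) (𝕂 : Type) [Field 𝕂] [Algebra ℂ 𝕂]

/-- The elements of energy `e`. -/
noncomputable def En (e : ℕ) : Submodule ℂ (S (p.fs ℕ)) := Module.End.eigenspace (dv _ (enO H)) e

/-- The Fock space: functionals of finite energy. -/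
noncomputable def FS : Submodule 𝕂 (S (p.fs ℕ) →ₗ[ℂ] 𝕂) where
  carrier := {F | ∃ N, ∀ e, N ≤ e → ∀ y ∈ En p e, F y = 0}
  add_mem' := fun ⟨N, h⟩ ⟨N', h'⟩ => ⟨max N N', fun e he y hy => by
    simp [h e (le_of_max_le_left he) y hy, h' e (le_of_max_le_right he) y hy]⟩
  zero_mem' := ⟨0, fun _ _ _ _ => rfl⟩
  smul_mem' := fun c _ ⟨N, h⟩ => ⟨N, fun e he y hy => by simp [h e he y hy]⟩

variable {p} {ι : Type} [Fintype ι] (fr : Frame p ι)

/-- One node. -/
noncomputable def gam0 (m : ℕ) : S ((p.fs ℕ).prod (p.fs ℕ)) :=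
  ((m : ℂ) + 1) • ∑ a, Fock.ι _ (Finsupp.single m (fr.e a), 0) *
    Fock.ι _ (0, Finsupp.single m (fr.f a))

/-- `l` nodes of total contact order `e`. -/
noncomputable def Gam0 (l e : ℕ) : S ((p.fs ℕ).prod (p.fs ℕ)) :=
  (l.factorial : ℂ)⁻¹ • ∑ μ ∈ Fintype.piFinset fun _ : Fin l => range e with ∑ i, (μ i + 1) = e,
    (List.ofFn fun i => gam0 fr (μ i)).prod

variable {𝕂}

/-- The part of energy `e` of the pairing. -/
noncomputable def prE (ħ : 𝕂) (e : ℕ) (F G : S (p.fs ℕ) →ₗ[ℂ] 𝕂) : 𝕂 :=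
  ∑ l ∈ range (e + 1), ħ ^ l * (Fn.pull _ (isEv_fst _ _) (Fn.of (SPar.triv ℂ 𝕂) F) *
    Fn.pull _ (isEv_snd _ _) (Fn.of (SPar.triv ℂ 𝕂) G)).ap (Gam0 fr l e)

end fock

end Vale.Agent.P269.Deg
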