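import Vale.Agent.P269.Deg.Gr

/-! The energy grading of the Fock space of a divisor and the nondegenerate pairing. -/

namespace Vale.Agent.P269.Deg

open Fock Finset LinearMap TensorProduct Fn

namespace PairP

section gen

variable {R : Type*} [Ring R]

lemma sum_pow {α : Type*} (s : Finset α) (f : α → R) (l : ℕ) : (∑ a ∈ s, f a) ^ l =
    ∑ μ ∈ Fintype.piFinset fun _ : Fin l => s, (List.ofFn fun i => f (μ i)).prod := by
  classical
  induction l with
  | zero => simp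
  | succ l ih =>
    rw [pow_succ', ih, sum_mul_sum, ← sum_product']
    refine sum_nbij' (fun x => Fin.cons x.1 x.2) (fun μ => (μ 0, Fin.tail μ)) ?_ ?_ ?_ ?_ ?_
    · intro x hx
      simp only [mem_product, Fintype.mem_piFinset] at hx ⊢
      intro i
      refine Fin.cases ?_ (fun i => ?_) i
      · simpa using hx.1
      · simpa using hx.2 i
    · intro μ hμ
      simp only [mem_product, Fintype.mem_piFinset] at hμ ⊢
      exact ⟨hμ 0, fun i => hμ _⟩
    · intro x _; simp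
    · intro μ _; simp
    · intro x _; simp [List.ofFn_succ]

lemma prod_monomial (l : ℕ) (n : Fin l → ℕ) (g : Fin l → R) :
    (List.ofFn fun i => PowerSeries.monomial (n i) (g i)).prod =
      PowerSeries.monomial (∑ i, n i) (List.ofFn g).prod := by
  induction l with
  | zero => simp
  | succ l ih =>
    rw [List.ofFn_succ, List.ofFn_succ, List.prod_cons, List.prod_cons, ih, Fin.sum_univ_succ,
      PowerSeries.monomial_mul_monomial]

/-- The generating series. -/
noncomputable def gs (g : ℕ → R) (M : ℕ) : PowerSeries R :=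
  ∑ m ∈ range M, PowerSeries.monomial (m + 1) (g m)

lemma coeff_gs_pow (g : ℕ → R) {M e : ℕ} (h : e ≤ M) (l : ℕ) :
    PowerSeries.coeff e (gs g M ^ l) =
      ∑ μ ∈ Fintype.piFinset fun _ : Fin l => range e with ∑ i, (μ i + 1) = e,
        (List.ofFn fun i => g (μ i)).prod := by
  have e1 : ((Fintype.piFinset fun _ : Fin l => range e).filter fun μ => ∑ i, (μ i + 1) = e) =
      (Fintype.piFinset fun _ : Fin l => range M).filter fun μ => ∑ i, (μ i + 1) = e := by
    ext μ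
    simp only [mem_filter, Fintype.mem_piFinset, mem_range, and_congr_left_iff]
    intro hs
    have : ∀ i, μ i + 1 ≤ e := fun i =>
      hs ▸ single_le_sum (f := fun i => μ i + 1) (fun _ _ => Nat.zero_le _) (mem_univ i)
    exact ⟨fun _ i => by have := this i; omega, fun _ i => by have := this i; omega⟩
  rw [e1, gs, sum_pow, map_sum, sum_filter]
  refine sum_congr rfl fun μ _ => ?_
  rw [prod_monomial l (fun i => μ i + 1) fun i => g (μ i), PowerSeries.coeff_monomial]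
  simp only [eq_comm]

lemma der_pow (d : R →+ R) (γ δ : PowerSeries R) (h1 : d 1 = 0)
    (hd : ∀ n y, d (PowerSeries.coeff n γ * y) =
      PowerSeries.coeff n δ * y + PowerSeries.coeff n γ * d y)
    (hc : γ * δ = δ * γ) (l n : ℕ) :
    d (PowerSeries.coeff n (γ ^ (l + 1))) = (l + 1) • PowerSeries.coeff n (δ * γ ^ l) := by
  induction l generalizing n with
  | zero =>
    have := hd n 1
    simpa [h1] using this
  | succ l ih =>
    rw [pow_succ' γ (l + 1), PowerSeries.coeff_mul, map_sum]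
    simp only [hd, ih, mul_smul_comm, sum_add_distrib]
    rw [← smul_sum, ← PowerSeries.coeff_mul, ← PowerSeries.coeff_mul, ← mul_assoc, hc, mul_assoc,
      ← pow_succ', succ_nsmul' _ (l + 1)]

lemma coeff_monomial_mul (k n : ℕ) (c : R) (f : PowerSeries R) :
    PowerSeries.coeff (k + n) (PowerSeries.monomial k c * f) = c * PowerSeries.coeff n f := by
  rw [PowerSeries.coeff_mul, sum_eq_single (k, n)]
  · simp
  · intro x hx hne
    rw [PowerSeries.coeff_monomial, if_neg, zero_mul]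
    intro h
    rw [HasAntidiagonal.mem_antidiagonal] at hx
    exact hne (Prod.ext h (by simp only; omega))
  · simp

end gen

section en

variable {H : Type} [AddCommGroup H] [Module ℂ H] {p : Par ℂ H}

lemma enO_single (m : ℕ) (a : H) :
    enO H (Finsupp.single m a) = ((m : ℂ) + 1) • Finsupp.single m a := by
  simp [enO]

lemma isEv_enO : IsEv (p.fs ℕ) (p.fs ℕ) (enO H) := fun v => by
  induction v using Finsupp.induction_linear with
  | zero => simp
  | add a b ha hb => simp only [map_add, ha, hb]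
  | single m a => rw [enO_single, map_smul, Par.fs_σ_single, enO_single]

lemma mem_En {e : ℕ} {y : S (p.fs ℕ)} : y ∈ En p e ↔ dv _ (enO H) y = (e : ℂ) • y :=
  Module.End.mem_eigenspace_iff

lemma one_mem : (1 : S (p.fs ℕ)) ∈ En p 0 := by simp [mem_En]

lemma mul_mem {e e' : ℕ} {x y : S (p.fs ℕ)} (hx : x ∈ En p e) (hy : y ∈ En p e') :
    x * y ∈ En p (e + e') := by
  rw [mem_En] at hx hy ⊢
  rw [dv_mul isEv_enO, hx, hy, smul_mul_assoc, mul_smul_comm, Nat.cast_add, add_smul]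

lemma ι_mem (m : ℕ) (a : H) : Fock.ι (p.fs ℕ) (Finsupp.single m a) ∈ En p (m + 1) := by
  rw [mem_En, dv_ι, enO_single, map_smul, Nat.cast_succ]

lemma par_mem {e : ℕ} {y : S (p.fs ℕ)} (hy : y ∈ En p e) : par _ y ∈ En p e := by
  rw [mem_En] at hy ⊢
  rw [← par_dv isEv_enO, hy, map_smul]

lemma ev_mem {e : ℕ} {y : S (p.fs ℕ)} (hy : y ∈ En p e) : (parS _).ev y ∈ En p e :=
  Submodule.smul_mem _ _ (add_mem hy (par_mem hy))

lemma od_mem {e : ℕ} {y : S (p.fs ℕ)} (hy : y ∈ En p e) : (parS _).od y ∈ En p e :=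
  Submodule.smul_mem _ _ (sub_mem hy (par_mem hy))

/-- Induction over homogeneous elements. -/
lemma ind {Q : S (p.fs ℕ) → Prop} (hm : ∀ e, ∀ y ∈ En p e, Q y)
    (hadd : ∀ x y, Q x → Q y → Q (x + y)) (y : S (p.fs ℕ)) : Q y := by
  have h0 : Q 0 := hm 0 0 (zero_mem _)
  have key : y ∈ ⨆ e, En p e := by
    induction y using Fock.induction with
    | h1 => exact Submodule.mem_iSup_of_mem 0 one_mem
    | hι v x hx =>
      induction v using Finsupp.induction_linear with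
      | zero => simp
      | add a b ha hb => rw [map_add, add_mul]; exact add_mem ha hb
      | single m a =>
        induction hx using Submodule.iSup_induction' with
        | mem e x hx => exact Submodule.mem_iSup_of_mem _ (mul_mem (ι_mem m a) hx)
        | zero => simp
        | add x y _ _ hx hy => rw [mul_add]; exact add_mem hx hy
    | hadd x y hx hy => exact add_mem hx hy
    | hsmul c x hx => exact Submodule.smul_mem _ c hx
  exact Submodule.iSup_induction (En p) (motive := Q) key hm h0 hadd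

lemma isInternal : DirectSum.IsInternal (En p) := by
  refine DirectSum.isInternal_submodule_of_iSupIndep_of_iSup_eq_top
    ((Module.End.eigenspaces_iSupIndep (dv (p.fs ℕ) (enO H))).comp
      (Nat.cast_injective (R := ℂ))) (eq_top_iff.2 fun y _ => ?_)
  induction y using ind with
  | hm e y hy => exact Submodule.mem_iSup_of_mem e hy
  | hadd x y hx hy => exact add_mem (hx trivial) (hy trivial)

theorem exists_prj : ∃ P : ℕ → Module.End ℂ (S (p.fs ℕ)), (∀ e y, P e y ∈ En p e) ∧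
    (∀ e e', ∀ y ∈ En p e', P e y = if e = e' then y else 0) := by
  let _ := (isInternal (p := p)).chooseDecomposition
  refine ⟨fun e => (En p e).subtype ∘ₗ DirectSum.component ℂ ℕ _ e ∘ₗ
    (DirectSum.decomposeLinearEquiv (En p)).toLinearMap, fun e y => Subtype.prop _,
    fun e e' y hy => ?_⟩
  change ((DirectSum.decompose (En p) y e : En p e) : S (p.fs ℕ)) = _
  split_ifs with h
  · subst h; exact DirectSum.decompose_of_mem_same _ hy
  · exact DirectSum.decompose_of_mem_ne _ hy (Ne.symm h)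

variable (p) in
/-- The projections. -/
noncomputable def P : ℕ → Module.End ℂ (S (p.fs ℕ)) := Classical.choose exists_prj

lemma P_mem (e : ℕ) (y : S (p.fs ℕ)) : P p e y ∈ En p e := (Classical.choose_spec exists_prj).1 e y

lemma P_of_mem (e : ℕ) {e' : ℕ} {y : S (p.fs ℕ)} (hy : y ∈ En p e') :
    P p e y = if e = e' then y else 0 := (Classical.choose_spec exists_prj).2 e e' y hy

lemma P_same {e : ℕ} {y : S (p.fs ℕ)} (hy : y ∈ En p e) : P p e y = y := by
  rw [P_of_mem e hy, if_pos rfl]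

lemma P_mem' (e : ℕ) {e' : ℕ} {y : S (p.fs ℕ)} (hy : y ∈ En p e') : P p e y ∈ En p e' := by
  rw [P_of_mem e hy]
  split_ifs
  · exact hy
  · exact zero_mem _

lemma sum_P (y : S (p.fs ℕ)) : ∃ N, ∀ M, N ≤ M → ∑ e ∈ range M, P p e y = y := by
  induction y using ind with
  | hm e y hy =>
    refine ⟨e + 1, fun M hM => ?_⟩
    simp only [P_of_mem _ hy, sum_ite_eq', mem_range]
    rw [if_pos (by omega)]
  | hadd x y hx hy =>
    obtain ⟨N, hN⟩ := hx
    obtain ⟨N', hN'⟩ := hy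
    refine ⟨max N N', fun M hM => ?_⟩
    simp only [map_add, sum_add_distrib, hN M (le_of_max_le_left hM), hN' M (le_of_max_le_right hM)]

lemma par_P (e : ℕ) (y : S (p.fs ℕ)) : par _ (P p e y) = P p e (par _ y) := by
  induction y using ind with
  | hm e' y hy =>
    rw [P_of_mem e hy, P_of_mem e (par_mem hy)]
    split_ifs <;> simp
  | hadd x y hx hy => simp only [map_add, hx, hy]

/-- The structure of the elements of energy `e`. -/
lemma En_le {e : ℕ} {W : Submodule ℂ (S (p.fs ℕ))} (h1 : e = 0 → 1 ∈ W)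
    (h : ∀ m e' a, m + 1 + e' = e → ∀ x ∈ En p e', Fock.ι _ (Finsupp.single m a) * x ∈ W) :
    En p e ≤ W := by
  have key : ∀ y, P p e y ∈ W := by
    intro y
    induction y using Fock.induction with
    | h1 =>
      rw [P_of_mem e one_mem]
      split_ifs with he
      · exact h1 he
      · exact zero_mem _
    | hι v x hx =>
      clear hx
      induction v using Finsupp.induction_linear with
      | zero => simp
      | add a b ha hb => rw [map_add, add_mul, map_add]; exact add_mem ha hb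
      | single m a =>
        induction x using ind with
        | hm e' x hx =>
          rw [P_of_mem e (mul_mem (ι_mem m a) hx)]
          split_ifs with he
          · exact h m e' a he.symm x hx
          · exact zero_mem _
        | hadd x y hx hy => rw [mul_add, map_add]; exact add_mem hx hy
    | hadd x y hx hy => rw [map_add]; exact add_mem hx hy
    | hsmul c x hx => rw [map_smul]; exact W.smul_mem c hx
  intro y hy
  exact P_same hy ▸ key y

lemma fg_En [FiniteDimensional ℂ H] (e : ℕ) : (En p e).FG := by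
  induction e using Nat.strong_induction_on with
  | _ e ih =>
    let W : Submodule ℂ (S (p.fs ℕ)) := Submodule.span ℂ {1} ⊔ (range e).sup fun m =>
      LinearMap.range (Fock.ι (p.fs ℕ) ∘ₗ Finsupp.lsingle m) * En p (e - (m + 1))
    have hW : W.FG := by
      refine (Submodule.fg_span_singleton _).sup (Submodule.fg_finset_sup _ _ fun m hm => ?_)
      exact (Submodule.fg_range _).mul (ih _ (by rw [mem_range] at hm; omega))
    have hle : En p e ≤ W := En_le (fun _ => Submodule.mem_sup_left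
      (Submodule.mem_span_singleton_self _)) fun m e' a he x hx => by
        refine Submodule.mem_sup_right (le_sup (f := fun m =>
          LinearMap.range (Fock.ι (p.fs ℕ) ∘ₗ Finsupp.lsingle m) * En p (e - (m + 1)))
          (mem_range.2 (by omega : m < e)) (Submodule.mul_mem_mul ⟨a, rfl⟩ ?_))
        rwa [show e - (m + 1) = e' by omega]
    have : FiniteDimensional ℂ W := Module.Finite.iff_fg.2 hW
    exact Module.Finite.iff_fg.1 (Submodule.finiteDimensional_of_le hle)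

end en

section pair

variable {H : Type} [AddCommGroup H] [Module ℂ H] {p : Par ℂ H} {𝕂 : Type}
  [Field 𝕂] [Algebra ℂ 𝕂] {ι : Type} [Fintype ι] (fr : Frame p ι)

/-- The tensor product of two functionals. -/
noncomputable def B (F G : S (p.fs ℕ) →ₗ[ℂ] 𝕂) : Fn ((p.fs ℕ).prod (p.fs ℕ)) (SPar.triv ℂ 𝕂) :=
  Fn.pull _ (isEv_fst _ _) (Fn.of (SPar.triv ℂ 𝕂) F) *
    Fn.pull _ (isEv_snd _ _) (Fn.of (SPar.triv ℂ 𝕂) G)

lemma prE_eq (ħ : 𝕂) (e : ℕ) (F G : S (p.fs ℕ) →ₗ[ℂ] 𝕂) :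
    prE fr ħ e F G = ∑ l ∈ range (e + 1), ħ ^ l * (B F G).ap (Gam0 fr l e) := rfl

lemma B_ap (F G : S (p.fs ℕ) →ₗ[ℂ] 𝕂) (x y : S (p.fs ℕ)) :
    (B F G).ap (Fock.map _ (isEv_inl _ _) x * Fock.map _ (isEv_inr _ _) y) = F x * G y := by
  rw [← cur_ap_ap (B F G), B, map_mul, cur_pull_fst, cur_pull_snd, mul_cst_ap, mapc_ap,
    AlgHom.toLinearMap_apply, cst_mul_ap (s := SPar.triv ℂ 𝕂) rfl]
  rfl

variable (p) in
/-- The span of the products of energy `(e, e)`. -/
noncomputable def W (e : ℕ) : Submodule ℂ (S ((p.fs ℕ).prod (p.fs ℕ))) :=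
  Submodule.span ℂ {z | ∃ x ∈ En p e, ∃ y ∈ En p e,
    z = Fock.map _ (isEv_inl _ _) x * Fock.map _ (isEv_inr _ _) y}

lemma mem_W {e : ℕ} {x y : S (p.fs ℕ)} (hx : x ∈ En p e) (hy : y ∈ En p e) :
    Fock.map _ (isEv_inl _ _) x * Fock.map _ (isEv_inr _ _) y ∈ W p e :=
  Submodule.subset_span ⟨x, hx, y, hy, rfl⟩

lemma W_mul {e e' : ℕ} {z z' : S ((p.fs ℕ).prod (p.fs ℕ))} (hz : z ∈ W p e) (hz' : z' ∈ W p e') :
    z * z' ∈ W p (e + e') := by
  suffices W p e * W p e' ≤ W p (e + e') from this (Submodule.mul_mem_mul hz hz')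
  rw [W, W, Submodule.span_mul_span, Submodule.span_le]
  rintro _ ⟨_, ⟨x, hx, y, hy, rfl⟩, _, ⟨x', hx', y', hy', rfl⟩, rfl⟩
  have e1 : par _ (Fock.map _ (isEv_inr (p.fs ℕ) (p.fs ℕ)) ((parS _).ev y)) =
      Fock.map _ (isEv_inr _ _) ((parS _).ev y) := by
    rw [par_map]; exact congrArg _ ((parS _).σ_ev y)
  have e2 : par _ (Fock.map _ (isEv_inr (p.fs ℕ) (p.fs ℕ)) ((parS _).od y)) =
      -Fock.map _ (isEv_inr _ _) ((parS _).od y) := by
    rw [par_map, ← map_neg]; exact congrArg _ ((parS _).σ_od y)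
  rw [← (parS _).ev_add_od y, map_add]
  simp only [SetLike.mem_coe, mul_add, add_mul]
  refine add_mem ?_ ?_
  · rw [mul_assoc, ← mul_assoc _ _ (Fock.map _ _ y'), comm_ev e1, mul_assoc, ← mul_assoc,
      ← map_mul, ← map_mul]
    exact mem_W (mul_mem hx hx') (mul_mem (ev_mem hy) hy')
  · rw [mul_assoc, ← mul_assoc _ _ (Fock.map _ _ y'), comm_od e2, par_map, mul_assoc, ← mul_assoc,
      ← map_mul, ← map_mul]
    exact mem_W (mul_mem hx (par_mem hx')) (mul_mem (od_mem hy) hy')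

lemma gam0_mem (m : ℕ) : gam0 fr m ∈ W p (m + 1) := by
  refine Submodule.smul_mem _ _ (Submodule.sum_mem _ fun a _ => ?_)
  simpa using mem_W (ι_mem (p := p) m (fr.e a)) (ι_mem (p := p) m (fr.f a))

lemma prod_mem (l : ℕ) (μ : Fin l → ℕ) :
    (List.ofFn fun i => gam0 fr (μ i)).prod ∈ W p (∑ i, (μ i + 1)) := by
  induction l with
  | zero => simpa using mem_W (one_mem (p := p)) (one_mem (p := p))
  | succ l ih =>
    rw [List.ofFn_succ, List.prod_cons, Fin.sum_univ_succ]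
    exact W_mul (gam0_mem fr _) (ih _)

lemma Gam0_mem (l e : ℕ) : Gam0 fr l e ∈ W p e := by
  refine Submodule.smul_mem _ _ (Submodule.sum_mem _ fun μ hμ => ?_)
  exact (mem_filter.1 hμ).2 ▸ prod_mem fr l μ

lemma par_gam0 (m : ℕ) : par _ (gam0 fr m) = gam0 fr m := by
  rw [gam0, map_smul, map_sum]
  refine congrArg _ (sum_congr rfl fun a _ => ?_)
  have e1 : ((p.fs ℕ).prod (p.fs ℕ)).σ (Finsupp.single m (fr.e a), 0) =
      (-1 : ℂ) ^ fr.π a • (Finsupp.single m (fr.e a), 0) := by simp [fr.he]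
  have e2 : ((p.fs ℕ).prod (p.fs ℕ)).σ (0, Finsupp.single m (fr.f a)) =
      (-1 : ℂ) ^ fr.π a • (0, Finsupp.single m (fr.f a)) := by simp [fr.hf]
  rw [map_mul, par_ι, par_ι, e1, e2, map_smul, map_smul, smul_mul_smul_comm, neg_one_pow_mul_self,
    one_smul]

lemma par_Gam0 (l e : ℕ) : par _ (Gam0 fr l e) = Gam0 fr l e := by
  simp only [Gam0, map_smul, map_sum, map_list_prod, List.map_ofFn, Function.comp_def, par_gam0]

lemma Gam0_of_lt {l e : ℕ} (h : e < l) : Gam0 fr l e = 0 := by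
  rw [Gam0, sum_eq_zero, smul_zero]
  intro μ hμ
  have h1 := (mem_filter.1 hμ).2
  have h2 : ∑ _i : Fin l, 1 ≤ ∑ i, (μ i + 1) := sum_le_sum fun i _ => by omega
  simp only [sum_const, card_univ, Fintype.card_fin, smul_eq_mul, mul_one] at h2
  omega

/-- Two functionals that agree on the products agree on the gluing elements. -/
lemma ext_W {e : ℕ} {L L' : S ((p.fs ℕ).prod (p.fs ℕ)) →ₗ[ℂ] 𝕂}
    (h : ∀ x ∈ En p e, ∀ y ∈ En p e, L (Fock.map _ (isEv_inl _ _) x * Fock.map _ (isEv_inr _ _) y) =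
      L' (Fock.map _ (isEv_inl _ _) x * Fock.map _ (isEv_inr _ _) y)) (l : ℕ) :
    L (Gam0 fr l e) = L' (Gam0 fr l e) :=
  LinearMap.eqOn_span (by rintro _ ⟨x, hx, y, hy, rfl⟩; exact h x hx y hy) (Gam0_mem fr l e)

variable (ħ : 𝕂) (e : ℕ)

lemma prE_comb {F G F1 G1 F2 G2 : S (p.fs ℕ) →ₗ[ℂ] 𝕂} {c : 𝕂}
    (h : ∀ x ∈ En p e, ∀ y ∈ En p e, F x * G y = c * (F1 x * G1 y) + F2 x * G2 y) :
    prE fr ħ e F G = c * prE fr ħ e F1 G1 + prE fr ħ e F2 G2 := by
  rw [prE_eq, prE_eq, prE_eq, mul_sum, ← sum_add_distrib]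
  refine sum_congr rfl fun l _ => ?_
  rw [ext_W fr (L := (B F G).ap) (L' := c • (B F1 G1).ap + (B F2 G2).ap) (fun x hx y hy => by
    simp only [LinearMap.add_apply, LinearMap.smul_apply, B_ap, smul_eq_mul, h x hx y hy]) l]
  simp only [LinearMap.add_apply, LinearMap.smul_apply, smul_eq_mul]
  ring

lemma prE_congr {F G F' G' : S (p.fs ℕ) →ₗ[ℂ] 𝕂}
    (h : ∀ x ∈ En p e, ∀ y ∈ En p e, F x * G y = F' x * G' y) :
    prE fr ħ e F G = prE fr ħ e F' G' := by
  simpa using prE_comb fr ħ e (c := 0) (F1 := F) (G1 := G) fun x hx y hy => by simp [h x hx y hy]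

lemma prE_zero {F G : S (p.fs ℕ) →ₗ[ℂ] 𝕂} (h : ∀ x ∈ En p e, ∀ y ∈ En p e, F x * G y = 0) :
    prE fr ħ e F G = 0 := by
  simpa using prE_comb fr ħ e (c := -1) (F1 := F) (G1 := G) (F2 := F) (G2 := G)
    fun x hx y hy => by simp [h x hx y hy]

lemma prE_smul {F G F' G' : S (p.fs ℕ) →ₗ[ℂ] 𝕂} {c : 𝕂}
    (h : ∀ x ∈ En p e, ∀ y ∈ En p e, F x * G y = c * (F' x * G' y)) :
    prE fr ħ e F G = c * prE fr ħ e F' G' := by
  rw [prE_comb fr ħ e (c := c) (F1 := F') (G1 := G') (F2 := 0) (G2 := 0)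
    fun x hx y hy => by simp [h x hx y hy], prE_zero fr ħ e (F := 0) fun _ _ _ _ => by simp,
    add_zero]

lemma prE_add {F G F1 G1 F2 G2 : S (p.fs ℕ) →ₗ[ℂ] 𝕂}
    (h : ∀ x ∈ En p e, ∀ y ∈ En p e, F x * G y = F1 x * G1 y + F2 x * G2 y) :
    prE fr ħ e F G = prE fr ħ e F1 G1 + prE fr ħ e F2 G2 := by
  simpa using prE_comb fr ħ e (c := 1) fun x hx y hy => by simp [h x hx y hy]

lemma prE_par {F G G' : S (p.fs ℕ) →ₗ[ℂ] 𝕂} (h : ∀ y, G' y = G (par _ y)) :
    prE fr ħ e (F ∘ₗ (par _).toLinearMap) G = prE fr ħ e F G' := by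
  rw [prE_eq, prE_eq]
  refine sum_congr rfl fun l _ => congrArg _ ?_
  rw [ext_W fr (L := (B (F ∘ₗ (par _).toLinearMap) G).ap)
    (L' := (B F G').ap ∘ₗ (par _).toLinearMap) (fun x _ y _ => by
      simp only [LinearMap.comp_apply, AlgHom.toLinearMap_apply, map_mul, par_map, B_ap, h,
        par_par]) l, LinearMap.comp_apply, AlgHom.toLinearMap_apply, par_Gam0]

lemma finsum_prE (F : S (p.fs ℕ) →ₗ[ℂ] 𝕂) {G : S (p.fs ℕ) →ₗ[ℂ] 𝕂} {N : ℕ}
    (h : ∀ e, N ≤ e → ∀ y ∈ En p e, G y = 0) :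
    ∑ᶠ e, prE fr ħ e F G = ∑ e ∈ range N, prE fr ħ e F G := by
  refine finsum_eq_sum_of_support_subset _ fun e he => ?_
  by_contra hlt
  exact he (prE_zero fr ħ e fun x _ y hy => by rw [h e (by simpa using hlt) y hy, mul_zero])

/-- The linear form dual to a relative insertion. -/
noncomputable def dl (m : ℕ) (a : H) : Module.Dual ℂ (VV H) := fr.η a ∘ₗ Finsupp.lapply m

lemma con_gam0 (m : ℕ) (a : H) (n : ℕ) : con _ (dl fr m a ∘ₗ fst ℂ _ _) (gam0 fr n) =
    if n = m then ((m : ℂ) + 1) • Fock.ι _ (0, Finsupp.single m a) else 0 := by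
  have key : ∀ (u w : VV H) (φ : Module.Dual ℂ (VV H)), con ((p.fs ℕ).prod (p.fs ℕ))
      (φ ∘ₗ fst ℂ _ _) (Fock.ι _ (u, 0) * Fock.ι _ (0, w)) = φ u • Fock.ι _ (0, w) := by
    intro u w φ
    rw [con_def, der_ι_mul, der_ι, der_ι]
    simp [Algebra.smul_def]
  rw [gam0, map_smul, map_sum]
  simp only [key, dl, LinearMap.comp_apply, Finsupp.lapply_apply]
  split_ifs with h
  · subst h
    refine congrArg _ ?_
    conv_rhs => rw [← fr.right a]
    have : ∀ w : H, Fock.ι ((p.fs ℕ).prod (p.fs ℕ)) (0, Finsupp.single n w) =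
        (Fock.ι _ ∘ₗ inr ℂ _ _ ∘ₗ Finsupp.lsingle n) w := fun _ => rfl
    simp only [this, map_sum, map_smul, Finsupp.single_eq_same]
  · simp [Finsupp.single_eq_of_ne (Ne.symm h)]

lemma Gam0_eq {M e : ℕ} (h : e ≤ M) (l : ℕ) :
    Gam0 fr l e = (l.factorial : ℂ)⁻¹ • PowerSeries.coeff e (gs (gam0 fr) M ^ l) := by
  rw [coeff_gs_pow _ h, Gam0]

lemma par_coeff_gs (M n : ℕ) :
    par _ (PowerSeries.coeff n (gs (gam0 fr) M)) = PowerSeries.coeff n (gs (gam0 fr) M) := by
  simp only [gs, map_sum, PowerSeries.coeff_monomial, apply_ite (par _), par_gam0, map_zero]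

lemma con_Gam0 (m : ℕ) (a : H) (l e : ℕ) :
    con _ (dl fr m a ∘ₗ fst ℂ _ _) (Gam0 fr (l + 1) (m + 1 + e)) =
      ((m : ℂ) + 1) • (Fock.ι _ (0, Finsupp.single m a) * Gam0 fr l e) := by
  have hd := der_pow (con _ (dl fr m a ∘ₗ fst ℂ _ _)).toAddMonoidHom (gs (gam0 fr) (m + 1 + e))
    (PowerSeries.monomial (m + 1) (((m : ℂ) + 1) • Fock.ι _ (0, Finsupp.single m a)))
    (con_one _) (fun n y => by
      rw [LinearMap.toAddMonoidHom_coe, con_mul_ev _ (par_coeff_gs fr _ n)]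
      refine congrArg (· * y + _) ?_
      simp only [gs, map_sum, PowerSeries.coeff_monomial, apply_ite (con _ _), con_gam0, map_zero]
      rw [sum_eq_single m]
      · simp
      · intro b _ hb; simp [hb]
      · intro hm; exact absurd (Finset.mem_range.2 (by omega)) hm) (by
      simp only [gs, sum_mul, mul_sum, PowerSeries.monomial_mul_monomial]
      exact sum_congr rfl fun n _ => by rw [comm_ev (par_gam0 fr n), add_comm]) l (m + 1 + e)
  rw [LinearMap.toAddMonoidHom_coe, coeff_monomial_mul] at hd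
  rw [Gam0_eq fr le_rfl, map_smul, hd, Gam0_eq fr (by omega : e ≤ m + 1 + e), smul_mul_assoc,
    mul_smul_comm, ← Nat.cast_smul_eq_nsmul ℂ, smul_smul, smul_smul, smul_smul]
  congr 1
  have : ((l + 1 : ℕ) : ℂ) ≠ 0 := Nat.cast_ne_zero.2 l.succ_ne_zero
  rw [Nat.factorial_succ, Nat.cast_mul]
  field_simp

lemma B_con (φ : Module.Dual ℂ (VV H)) (F G : S (p.fs ℕ) →ₗ[ℂ] 𝕂)
    (z : S ((p.fs ℕ).prod (p.fs ℕ))) :
    (B (F ∘ₗ con _ φ) G).ap z = (B F G).ap (con _ (φ ∘ₗ fst ℂ _ _) z) := by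
  rw [← pre_ap, pre_con, B, B, ← mul_assoc, ← pull_lin _ (isEv_fst _ _), ← pull_sm, ← map_mul,
    ← pre_con]
  rfl

lemma B_mul_ev {w : VV H} (hw : (p.fs ℕ).σ w = w) (F G : S (p.fs ℕ) →ₗ[ℂ] 𝕂)
    (z : S ((p.fs ℕ).prod (p.fs ℕ))) :
    (B F G).ap (Fock.ι _ (0, w) * z) = (B F (G ∘ₗ mulLeft ℂ (Fock.ι _ w))).ap z := by
  rw [← D_ap, B, D_mul_ev (by simp [hw]), D_pull, D_pull, fst_apply, map_zero,
    LinearMap.zero_apply, map_zero, zero_mul, zero_add]
  rfl

lemma B_mul_od {w : VV H} (hw : (p.fs ℕ).σ w = -w) (F G : S (p.fs ℕ) →ₗ[ℂ] 𝕂)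
    (z : S ((p.fs ℕ).prod (p.fs ℕ))) : (B (F ∘ₗ (par _).toLinearMap) G).ap (Fock.ι _ (0, w) * z) =
      (B F (G ∘ₗ mulLeft ℂ (Fock.ι _ w))).ap z := by
  have : τ (Fn.of (SPar.triv ℂ 𝕂) (F ∘ₗ (par _).toLinearMap)) = Fn.of _ F :=
    Fn.ext fun x => congrArg F (par_par _ x)
  rw [← D_ap, B, D_mul_od (by simp [hw]), D_pull, D_pull, fst_apply, map_zero,
    LinearMap.zero_apply, map_zero, zero_mul, zero_add, τ_pull, this]
  rfl

lemma Gam0_zero (e : ℕ) : Gam0 fr 0 e = if e = 0 then 1 else 0 := by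
  rw [Gam0_eq fr le_rfl]
  simp [PowerSeries.coeff_one]

lemma prE_con (m : ℕ) (a : H) (F F' G : S (p.fs ℕ) →ₗ[ℂ] 𝕂)
    (h : ∀ z, (B F' G).ap (Fock.ι _ (0, Finsupp.single m a) * z) =
      (B F (G ∘ₗ mulLeft ℂ (Fock.ι _ (Finsupp.single m a)))).ap z) :
    prE fr ħ (m + 1 + e) (F' ∘ₗ con _ (dl fr m a)) G =
      ((m : ℂ) + 1) • (ħ * prE fr ħ e F (G ∘ₗ mulLeft ℂ (Fock.ι _ (Finsupp.single m a)))) := by
  rw [prE_eq, prE_eq, sum_range_succ', Gam0_zero, if_neg (by omega), map_zero, mul_zero, add_zero]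
  simp only [B_con, con_Gam0, map_smul, h, mul_smul_comm]
  rw [← smul_sum, mul_sum]
  rw [← sum_subset (range_subset_range.2 (by omega : e + 1 ≤ m + 1 + e)) fun l _ hl => by
    rw [Gam0_of_lt fr (by simpa using hl), map_zero, mul_zero]]
  exact congrArg _ (sum_congr rfl fun l _ => by ring)

variable {ħ}

lemma nondeg (hħ : ħ ≠ 0) (G : S (p.fs ℕ) →ₗ[ℂ] 𝕂) (hG : ∀ F, prE fr ħ e F G = 0) :
    ∀ y ∈ En p e, G y = 0 := by
  induction e using Nat.strong_induction_on generalizing G with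
  | _ e ih =>
    refine fun y hy => En_le (W := LinearMap.ker G) ?_ ?_ hy
    · rintro rfl
      have := hG (Algebra.linearMap ℂ 𝕂 ∘ₗ (aug _).toLinearMap)
      simpa [prE_eq, Gam0_zero, B] using this
    · rintro m e' a rfl x hx
      have hm : (m : ℂ) + 1 ≠ 0 := by exact_mod_cast m.succ_ne_zero
      have key : ∀ a, (∀ F, ∃ F', ∀ z, (B F' G).ap (Fock.ι _ (0, Finsupp.single m a) * z) =
          (B F (G ∘ₗ mulLeft ℂ (Fock.ι _ (Finsupp.single m a)))).ap z) →
          Fock.ι (p.fs ℕ) (Finsupp.single m a) * x ∈ LinearMap.ker G := fun a ha =>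
        ih e' (by omega) (G ∘ₗ mulLeft ℂ (Fock.ι _ (Finsupp.single m a))) (fun F => by
          obtain ⟨F', hF⟩ := ha F
          have := prE_con fr ħ e' m a F F' G hF
          rw [hG, eq_comm, smul_eq_zero, mul_eq_zero] at this
          exact (this.resolve_left hm).resolve_left hħ) x hx
      induction a using p.induction with
      | hev a ha => exact key a fun F => ⟨F, B_mul_ev (by simp [ha]) F G⟩
      | hod a ha => exact key a fun F => ⟨_, B_mul_od (by simp [ha]) F G⟩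
      | hadd a b ha hb => rw [Finsupp.single_add, map_add, add_mul]; exact add_mem ha hb

variable (𝕂) in
/-- Precomposition with an operator that preserves the energy. -/
noncomputable def preF (X : Module.End ℂ (S (p.fs ℕ))) (hX : ∀ e, ∀ y ∈ En p e, X y ∈ En p e) :
    Module.End 𝕂 (FS p 𝕂) :=
  (LinearMap.lcomp 𝕂 𝕂 X).restrict fun _ ⟨N, h⟩ => ⟨N, fun e he y hy => h e he _ (hX e y hy)⟩

lemma preF_ap (X : Module.End ℂ (S (p.fs ℕ))) (hX : ∀ e, ∀ y ∈ En p e, X y ∈ En p e)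
    (F : FS p 𝕂) (y : S (p.fs ℕ)) : (preF 𝕂 X hX F).1 y = F.1 (X y) := rfl

lemma fd_of_inj {F A : Type} [AddCommGroup F] [Module 𝕂 F] [AddCommGroup A] [Module ℂ A]
    {U : Submodule ℂ A} (hU : U.FG) (π : Module.End 𝕂 F) (r : F →ₗ[𝕂] A →ₗ[ℂ] 𝕂)
    (h : ∀ v, (∀ y ∈ U, r (π v) y = 0) → π v = 0) : FiniteDimensional 𝕂 (LinearMap.range π) := by
  have : FiniteDimensional ℂ U := Module.Finite.iff_fg.2 hU
  refine FiniteDimensional.of_injective (LinearMap.lcomp 𝕂 𝕂 U.subtype ∘ₗ r ∘ₗ Submodule.subtype _)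
    ((injective_iff_map_eq_zero _).2 ?_)
  rintro ⟨_, v, rfl⟩ hv
  exact Subtype.ext (h v fun y hy => LinearMap.congr_fun hv ⟨y, hy⟩)

end pair

end PairP

open PairP

variable {H : Type} [AddCommGroup H] [Module ℂ H] [FiniteDimensional ℂ H] {p : Par ℂ H} {𝕂 : Type}
  [Field 𝕂] [Algebra ℂ 𝕂] {ι : Type} [Fintype ι] (fr : Frame p ι)

omit [FiniteDimensional ℂ H] in
variable (p) in
theorem exists_prj : ∃ P : ℕ → Module.End ℂ (S (p.fs ℕ)), (∀ e y, P e y ∈ En p e) ∧
    (∀ e e', ∀ y ∈ En p e', P e y = if e = e' then y else 0) ∧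
    (∀ y, ∃ N, ∀ M, N ≤ M → ∑ e ∈ range M, P e y = y) ∧ ∀ e y, par _ (P e y) = P e (par _ y) :=
  ⟨P p, P_mem, fun e _ _ hy => P_of_mem e hy, sum_P, par_P⟩

variable (p 𝕂) in
theorem exists_gr : ∃ G : Gr 𝕂 (FS p 𝕂), (∀ F y, (G.σ F).1 y = F.1 (par _ y)) ∧
    ∀ e e' F, ∀ y ∈ En p e', (G.π e F).1 y = if e = e' then F.1 y else 0 := by
  refine ⟨⟨preF 𝕂 (par _).toLinearMap fun _ _ => par_mem,
    ?_, fun e => preF 𝕂 (P p e) fun _ _ => P_mem' e, fun e e' => ?_, fun e => ?_, fun F => ?_,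
    fun e => ?_⟩, fun _ _ => rfl, fun e e' F y hy => ?_⟩
  · ext F y
    exact congrArg F.1 (par_par _ y)
  · ext F y
    change F.1 (P p e' (P p e y)) = _
    rw [P_of_mem e' (P_mem e y)]
    by_cases h : e = e'
    · subst h
      rw [if_pos rfl, if_pos rfl]
      rfl
    · rw [if_neg h, if_neg (Ne.symm h), map_zero]
      rfl
  · ext F y
    exact congrArg F.1 (par_P e y).symm
  · obtain ⟨N, hN⟩ := F.2
    refine ⟨N, Subtype.ext (LinearMap.ext fun y => ?_)⟩
    obtain ⟨M, hM⟩ := sum_P y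
    rw [Submodule.coe_sum, LinearMap.sum_apply]
    conv_rhs => rw [← hM _ (le_max_right N M), map_sum]
    exact sum_subset (range_subset_range.2 (le_max_left _ _)) fun e _ he =>
      hN e (by simpa using he) _ (P_mem e y)
  · refine fd_of_inj (F := FS p 𝕂) (fg_En e) _ (FS p 𝕂).subtype fun F hF =>
      Subtype.ext (LinearMap.ext fun y => ?_)
    have h1 : F.1 (P p e (P p e y)) = 0 := hF _ (P_mem e y)
    rwa [P_same (P_mem e y)] at h1
  · change F.1 (P p e y) = _
    rw [P_of_mem e hy]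
    split_ifs <;> simp

omit [FiniteDimensional ℂ H] in
theorem exists_pr {ħ : 𝕂} (hħ : ħ ≠ 0) :
    ∃ pr : (S (p.fs ℕ) →ₗ[ℂ] 𝕂) →ₗ[𝕂] Module.Dual 𝕂 (FS p 𝕂),
      (∀ F G N, (∀ e, N ≤ e → ∀ y ∈ En p e, G.1 y = 0) →
        pr F G = ∑ e ∈ range N, prE fr ħ e F G.1) ∧
      (∀ e F F' G G', (∀ y ∈ En p e, F y = F' y) → (∀ y ∈ En p e, G y = G' y) →
        prE fr ħ e F G = prE fr ħ e F' G') ∧
      (∀ F G G', (∀ y, G'.1 y = G.1 (par _ y)) → pr (F ∘ₗ (par _).toLinearMap) G = pr F G') ∧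
      ∀ G, (∀ F, pr F G = 0) → G = 0 := by
  refine ⟨LinearMap.mk₂ 𝕂 (fun F G => ∑ᶠ e, prE fr ħ e F G.1) (fun F F' G => ?_)
    (fun c F G => ?_) (fun F G G' => ?_) (fun c F G => ?_), fun F G N h => finsum_prE fr ħ F h,
    fun e F F' G G' h h' => prE_congr fr ħ e fun x hx y hy => by rw [h x hx, h' y hy],
    fun F G G' h => finsum_congr fun e => prE_par fr ħ e h, fun G h => ?_⟩
  · obtain ⟨N, hN⟩ := G.2
    simp only [finsum_prE fr ħ _ hN, ← sum_add_distrib]
    exact sum_congr rfl fun e _ => prE_add fr ħ e fun x _ y _ => by simp [add_mul]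
  · obtain ⟨N, hN⟩ := G.2
    simp only [finsum_prE fr ħ _ hN, smul_eq_mul, mul_sum]
    exact sum_congr rfl fun e _ => prE_smul fr ħ e fun x _ y _ => by simp [mul_assoc]
  · obtain ⟨N, hN⟩ := G.2
    obtain ⟨N', hN'⟩ := G'.2
    have h1 : ∀ e, max N N' ≤ e → ∀ y ∈ En p e, G.1 y = 0 := fun e he =>
      hN e (le_of_max_le_left he)
    have h2 : ∀ e, max N N' ≤ e → ∀ y ∈ En p e, G'.1 y = 0 := fun e he =>
      hN' e (le_of_max_le_right he)
    rw [finsum_prE fr ħ _ h1, finsum_prE fr ħ _ h2, finsum_prE fr ħ F (N := max N N')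
      fun e he y hy => by simp [h1 e he y hy, h2 e he y hy], ← sum_add_distrib]
    exact sum_congr rfl fun e _ => prE_add fr ħ e fun x _ y _ => by simp [mul_add]
  · obtain ⟨N, hN⟩ := G.2
    rw [finsum_prE fr ħ _ hN, finsum_prE fr ħ F (N := N) fun e he y hy => by simp [hN e he y hy],
      smul_eq_mul, mul_sum]
    exact sum_congr rfl fun e _ => prE_smul fr ħ e fun x _ y _ => by simp [mul_left_comm]
  · refine Subtype.ext (LinearMap.ext fun y => ?_)
    induction y using ind with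
    | hm e y hy =>
      refine nondeg fr e hħ G.1 (fun F => ?_) y hy
      rw [← h (F ∘ₗ P p e), LinearMap.mk₂_apply, finsum_eq_single _ e fun e' he =>
        prE_zero fr ħ e' fun x hx y _ => by simp [P_of_mem e hx, he.symm]]
      exact prE_congr fr ħ e fun x hx y _ => by simp [P_same hx]
    | hadd x y hx hy => simp only [map_add, hx, hy]

theorem Gam_eq {D : Dv} {H1 H2 : Type} [AddCommGroup H1] [Module ℂ H1] [AddCommGroup H2]
    [Module ℂ H2] (p1 : Par ℂ H1) (p2 : Par ℂ H2)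
    (h : IsEv ((D.p.fs ℕ).prod (D.p.fs ℕ)) ((pR p1 D).prod (pR p2 D))
      ((inr ℂ _ _).prodMap (inr ℂ _ _))) (l e : ℕ) :
    Gam D p1 p2 l e = Fock.map _ h (Gam0 D.fr l e) := by
  have : ∀ m, Fock.map _ h (gam0 D.fr m) = gam D p1 p2 m := fun m => by
    simp [gam0, gam, Prod.zero_eq_mk]
  simp only [Gam, Gam0, map_smul, map_sum, map_list_prod, List.map_ofFn, Function.comp_def, this]

omit [FiniteDimensional ℂ H] in
theorem Gam0_of_lt {l e : ℕ} (h : e < l) : Gam0 fr l e = 0 := PairP.Gam0_of_lt fr h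

omit [FiniteDimensional ℂ H] in
theorem par_Gam0 (l e : ℕ) : par _ (Gam0 fr l e) = Gam0 fr l e := PairP.par_Gam0 fr l e

omit [FiniteDimensional ℂ H] in
theorem Gam0_mem (l e : ℕ) : Gam0 fr l e ∈ Submodule.span ℂ {z | ∃ x ∈ En p e, ∃ y ∈ En p e,
    z = Fock.map _ (isEv_inl _ _) x * Fock.map _ (isEv_inr _ _) y} := PairP.Gam0_mem fr l e

end Vale.Agent.P269.Deg
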