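import Vale.Agent.P269.Deg.Mdl
import Vale.Agent.P269.Deg.Coef
import Vale.Agent.P269.Deg.Pair
import Vale.Agent.P269.Deg.Ann

/-! Series of invariants as formal functions with values in matrices. -/

namespace Vale.Agent.P269.Deg

open Fock Finset LinearMap TensorProduct Fn

variable {Γ : Type} [AddCommGroup Γ] {g : Grd Γ} {D : Dv} {V W : Type} [AddCommGroup V] [Module ℂ V]
  [AddCommGroup W] [Module ℂ W] {p : Par ℂ V} {q : Par ℂ W} {X : Coh}

namespace InA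

/-- Induction over products. -/
lemma prod_ind {Q : S (p.prod q) → Prop}
    (hm : ∀ x y, Q (Fock.map _ (isEv_inl p q) x * Fock.map _ (isEv_inr p q) y))
    (hadd : ∀ x y, Q x → Q y → Q (x + y)) (z : S (p.prod q)) : Q z := by
  let U : AddSubmonoid (S (p.prod q)) := AddSubmonoid.closure
    {z | ∃ x y, z = Fock.map _ (isEv_inl p q) x * Fock.map _ (isEv_inr p q) y}
  have hU : ∀ x y, Fock.map _ (isEv_inl p q) x * Fock.map _ (isEv_inr p q) y ∈ U := fun x y =>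
    AddSubmonoid.subset_closure ⟨x, y, rfl⟩
  have hl : ∀ (L : S (p.prod q) →+ S (p.prod q)), (∀ x y, L (Fock.map _ (isEv_inl p q) x *
      Fock.map _ (isEv_inr p q) y) ∈ U) → ∀ z ∈ U, L z ∈ U := fun L hL z hz => by
    induction hz using AddSubmonoid.closure_induction with
    | mem z hz => obtain ⟨x, y, rfl⟩ := hz; exact hL x y
    | zero => rw [map_zero]; exact zero_mem _
    | add x y _ _ hx hy => rw [map_add]; exact add_mem hx hy
  have key : z ∈ U := by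
    induction z using Fock.induction with
    | h1 => simpa using hU 1 1
    | hι v z hz =>
      refine hl (AddMonoidHom.mulLeft (ι _ v)) (fun x y => ?_) z hz
      have e : v = (v.1, 0) + (0, q.ev v.2) + (0, q.od v.2) := by simp [q.ev_add_od]
      rw [AddMonoidHom.coe_mulLeft, e, map_add, map_add, add_mul, add_mul]
      refine add_mem (add_mem ?_ ?_) ?_
      · have := hU (ι _ v.1 * x) y
        rwa [map_mul, map_ι, mul_assoc] at this
      · have := hU x (ι _ (q.ev v.2) * y)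
        rw [← mul_assoc, ι_comm_ev (by simp), mul_assoc]
        rwa [map_mul, map_ι] at this
      · have := hU (par _ x) (ι _ (q.od v.2) * y)
        rw [← mul_assoc, ι_comm_od (by simp), par_map, mul_assoc]
        rwa [map_mul, map_ι] at this
    | hadd x y hx hy => exact add_mem hx hy
    | hsmul c z hz =>
      refine hl (DistribSMul.toAddMonoidHom _ c) (fun x y => ?_) z hz
      simpa using hU (c • x) y
  induction key using AddSubmonoid.closure_induction with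
  | mem z hz => obtain ⟨x, y, rfl⟩ := hz; exact hm x y
  | zero => simpa using hm 0 0
  | add x y _ _ hx hy => exact hadd x y hx hy

/-- The energy of a product. -/
lemma dv_prod {e : ℕ} (x : S p) {y : S (D.p.fs ℕ)} (hy : y ∈ En D.p e) :
    dv (p.prod (D.p.fs ℕ)) ((0 : Module.End ℂ _).prodMap (enO D.H))
      (Fock.map _ (isEv_inl _ _) x * Fock.map _ (isEv_inr _ _) y) =
      (e : ℂ) • (Fock.map _ (isEv_inl _ _) x * Fock.map _ (isEv_inr _ _) y) := by
  have h : IsEv (p.prod (D.p.fs ℕ)) (p.prod (D.p.fs ℕ)) ((0 : Module.End ℂ _).prodMap (enO D.H)) :=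
    fun v => by simp [PairP.isEv_enO v.2]
  rw [dv_mul h, ← An.map_dv _ (a := 0) IsEv.zero h (fun v => by simp),
    ← An.map_dv _ PairP.isEv_enO h (fun v => by simp), PairP.mem_En.1 hy]
  simp

end InA

open InA

/-- The energy lemma on the left. -/
theorem Ser.RelL.energy {F : Ser Γ (pR X.p D)} (h : F.RelL g) {β : Γ} {j : ℤ} {e : ℕ}
    {x : S (pT X.p)} {y : S (D.p.fs ℕ)} (hy : y ∈ En D.p e)
    (h0 : F β j (Fock.map _ (isEv_inl _ _) x * Fock.map _ (isEv_inr _ _) y) ≠ 0) :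
    -g.ξ β = e := by
  have := h.en β j (Fock.map _ (isEv_inl _ _) x * Fock.map _ (isEv_inr _ _) y)
  rw [dv_prod x hy, map_smul, smul_eq_mul] at this
  exact_mod_cast (mul_right_cancel₀ h0 this).symm

/-- The energy lemma on the right. -/
theorem Ser.RelR.energy {F : Ser Γ (pR X.p D)} (h : F.RelR g) {β : Γ} {j : ℤ} {e : ℕ}
    {x : S (pT X.p)} {y : S (D.p.fs ℕ)} (hy : y ∈ En D.p e)
    (h0 : F β j (Fock.map _ (isEv_inl _ _) x * Fock.map _ (isEv_inr _ _) y) ≠ 0) :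
    g.ξ β = e := by
  have := h.en β j (Fock.map _ (isEv_inl _ _) x * Fock.map _ (isEv_inr _ _) y)
  rw [dv_prod x hy, map_smul, smul_eq_mul] at this
  exact_mod_cast (mul_right_cancel₀ h0 this).symm

variable (g) in
/-- Local finiteness. -/
def Ser.LF (Z : Ser Γ p) : Prop := ∀ (n : ℤ) x, {β | g.deg β = n ∧ ∃ j, Z β j x ≠ 0}.Finite

theorem Ser.Abs.lf {Z : Ser Γ (pT X.p)} (h : Z.Abs g) : Z.LF g := fun n _ =>
  (h.fin n).subset fun _ ⟨h1, _, h2⟩ => ⟨h1, fun h0 => h2 (by rw [h0]; rfl)⟩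

theorem Ser.RelL.lf {Z : Ser Γ (pR X.p D)} (h : Z.RelL g) : Z.LF g := fun n z => by
  have hadd : ∀ x y, {β | g.deg β = n ∧ ∃ j, Z β j x ≠ 0}.Finite →
      {β | g.deg β = n ∧ ∃ j, Z β j y ≠ 0}.Finite →
      {β | g.deg β = n ∧ ∃ j, Z β j (x + y) ≠ 0}.Finite := fun x y hx hy =>
    (hx.union hy).subset fun β ⟨h1, j, h2⟩ => by
      by_cases h3 : Z β j x = 0
      · exact Or.inr ⟨h1, j, fun h4 => h2 (by rw [map_add, h3, h4, add_zero])⟩
      · exact Or.inl ⟨h1, j, h3⟩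
  induction z using prod_ind with
  | hm x y =>
    induction y using PairP.ind with
    | hm e y hy =>
      exact (h.fin n (-e)).subset fun β ⟨h1, j, h2⟩ =>
        ⟨h1, by rw [← h.energy hy h2, neg_neg], fun h0 => h2 (by rw [h0]; rfl)⟩
    | hadd y z hy hz => rw [map_add, mul_add]; exact hadd _ _ hy hz
  | hadd x y hx hy => exact hadd _ _ hx hy

theorem Ser.RelR.lf {Z : Ser Γ (pR X.p D)} (h : Z.RelR g) : Z.LF g := fun n _ =>
  (h.fin n).subset fun _ ⟨h1, _, h2⟩ => ⟨h1, fun h0 => h2 (by rw [h0]; rfl)⟩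

theorem Ser.LF.fin {Z : Ser Γ p} (hf : Z.LF g) (n j : ℤ) (x : S p) :
    ({β | g.deg β = n} ∩ Function.support fun β => Z β j x).Finite :=
  (hf n x).subset fun _ ⟨h1, h2⟩ => ⟨h1, j, h2⟩

theorem Ser.LF.sum_eq {Z : Ser Γ p} (hf : Z.LF g) (n j : ℤ) (x : S p) :
    ∑ᶠ (β) (_ : g.deg β = n), Z β j x = ∑ β ∈ (hf n x).toFinset, Z β j x :=
  finsum_cond_eq_sum_of_cond_iff _ fun h => by
    rw [Set.Finite.mem_toFinset]
    exact ⟨fun h1 => ⟨h1, j, h⟩, fun h1 => h1.1⟩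

/-- The sum over the classes of degree `n`. -/
noncomputable def Ser.tot (Z : Ser Γ p) (h : Z.Ok g) (hf : Z.LF g) (n : ℕ) : S p →ₗ[ℂ] KK where
  toFun x := ⟨fun j => ∑ᶠ (β) (_ : g.deg β = n), Z β j x, by
    choose J hJ using fun β => h.low β x
    obtain ⟨L, hL⟩ := ((hf n x).toFinset.image J).bddBelow
    refine ⟨L, fun j hj => ?_⟩
    rw [hf.sum_eq]
    exact sum_eq_zero fun β hβ => hJ β j (hj.trans_le (hL (mem_image_of_mem J hβ)))⟩
  map_add' x y := Hat.ext (funext fun j => by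
    simp only [map_add]
    exact finsum_mem_add_distrib' (hf.fin n j x) (hf.fin n j y))
  map_smul' c x := Hat.ext (funext fun j => by
    simp only [map_smul]
    exact ((DistribSMul.toAddMonoidHom ℂ c).map_finsum_mem' (hf.fin n j x)).symm)

theorem Ser.tot_co (Z : Ser Γ p) (h : Z.Ok g) (hf : Z.LF g) (n : ℕ) (x : S p) (j : ℤ) :
    (Z.tot h hf n x).co j = ∑ᶠ (β) (_ : g.deg β = n), Z β j x := rfl

theorem Ser.tot_par (Z : Ser Γ p) (h : Z.Ok g) (hf : Z.LF g) (n : ℕ) (x : S p) :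
    Z.tot h hf n (par p x) = Z.tot h hf n x :=
  Hat.ext (funext fun j => by simp only [Ser.tot_co, h.ev])

theorem Ser.tot_eq_zero (Z : Ser Γ p) (h : Z.Ok g) (hf : Z.LF g) (n : ℕ) (x : S p)
    (h0 : ∀ β j, g.deg β = n → Z β j x = 0) : Z.tot h hf n x = 0 :=
  Hat.ext (funext fun j => by
    rw [Ser.tot_co, hf.sum_eq]
    exact sum_eq_zero fun β hβ => h0 β j ((Set.Finite.mem_toFinset _).1 hβ).1)

/-- A slice of a functional. -/
noncomputable def slc (T : S (p.prod q) →ₗ[ℂ] KK) (x : S p) : S q →ₗ[ℂ] KK :=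
  T ∘ₗ mulLeft ℂ (Fock.map _ (isEv_inl p q) x) ∘ₗ (Fock.map _ (isEv_inr p q)).toLinearMap

theorem slc_apply (T : S (p.prod q) →ₗ[ℂ] KK) (x : S p) (y : S q) :
    slc T x y = T (Fock.map _ (isEv_inl p q) x * Fock.map _ (isEv_inr p q) y) := rfl

/-- The slices depend linearly on `x`. -/
noncomputable def slcL (T : S (p.prod q) →ₗ[ℂ] KK) : S p →ₗ[ℂ] S q →ₗ[ℂ] KK where
  toFun := slc T
  map_add' x y := by ext z; simp [slc_apply, add_mul]
  map_smul' c x := by ext z; simp [slc_apply]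

theorem slcL_apply (T : S (p.prod q) →ₗ[ℂ] KK) (x : S p) : slcL T x = slc T x := rfl

theorem slc_add (T : S (p.prod q) →ₗ[ℂ] KK) (x y : S p) : slc T (x + y) = slc T x + slc T y :=
  map_add (slcL T) x y

theorem slc_smul (T : S (p.prod q) →ₗ[ℂ] KK) (c : ℂ) (x : S p) : slc T (c • x) = c • slc T x :=
  map_smul (slcL T) c x

theorem slc_par {T : S (p.prod q) →ₗ[ℂ] KK} (h : ∀ z, T (par _ z) = T z) (x : S p) (y : S q) :
    slc T (par p x) (par q y) = slc T x y := by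
  rw [slc_apply, slc_apply, ← par_map, ← par_map, ← map_mul, h]

theorem Ser.RelR.slc_mem {F : Ser Γ (pR X.p D)} (hF : F.RelR g) (n : ℕ) (x : S (pT X.p)) :
    slc (F.tot hF.toOk hF.lf n) x ∈ FS D.p KK := by
  obtain ⟨L, hL⟩ := ((hF.fin n).image g.ξ).bddAbove
  refine ⟨L.toNat + 1, fun e he y hy => F.tot_eq_zero hF.toOk hF.lf _ _ fun β j hβ => ?_⟩
  by_contra h0
  have h1 := hL (Set.mem_image_of_mem g.ξ ⟨hβ, fun h => h0 (by rw [h]; rfl)⟩)
  have h2 := hF.energy hy h0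
  omega

variable (D) in
/-- The Fock space with its grading and its pairing. -/
structure Sys where
  F : Type
  [acg : AddCommGroup F]
  [mK : Module KK F]
  [mC : Module ℂ F]
  [tw : IsScalarTower ℂ KK F]
  val : F →ₗ[KK] S (D.p.fs ℕ) →ₗ[ℂ] KK
  inj : Function.Injective val
  mem : ∀ T, T ∈ FS D.p KK ↔ ∃ G, val G = T
  G : Gr KK F
  hσ : ∀ F y, val (G.σ F) y = val F (par _ y)
  hπ : ∀ e e' F, ∀ y ∈ En D.p e', val (G.π e F) y = if e = e' then val F y else 0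
  pr : (S (D.p.fs ℕ) →ₗ[ℂ] KK) →ₗ[KK] Module.Dual KK F
  pr_eq : ∀ F G N, (∀ e, N ≤ e → ∀ y ∈ En D.p e, val G y = 0) →
    pr F G = ∑ e ∈ range N, prE D.fr (hb : KK) e F (val G)
  pr_congr : ∀ e F F' G G', (∀ y ∈ En D.p e, F y = F' y) → (∀ y ∈ En D.p e, G y = G' y) →
    prE D.fr (hb : KK) e F G = prE D.fr (hb : KK) e F' G'
  pr_par : ∀ F G', pr (F ∘ₗ (par _).toLinearMap) G' = pr F (G.σ G')
  pr_nd : ∀ G, (∀ F, pr F G = 0) → G = 0

attribute [instance] Sys.acg Sys.mK Sys.mC Sys.tw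

variable (D) in
theorem exists_sys : Nonempty (Sys D) := by
  obtain ⟨G, h1, h2⟩ := exists_gr D.p KK
  obtain ⟨pr, h3, h4, h5, h6⟩ := exists_pr D.fr (ħ := (hb : KK)) (Units.ne_zero _)
  exact ⟨{ F := FS D.p KK
           val := (FS D.p KK).subtype
           inj := Subtype.val_injective
           mem := fun T => ⟨fun h => ⟨⟨T, h⟩, rfl⟩, fun ⟨G, h⟩ => h ▸ G.2⟩
           G := G
           hσ := h1
           hπ := h2
           pr := pr
           pr_eq := h3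
           pr_congr := h4
           pr_par := fun F G' => h5 F G' _ (h1 G')
           pr_nd := h6 }⟩

variable (y : Sys D)

instance : (y.G.sA ℂ).Lin KK := ⟨y.G.σA_smul⟩

instance : (y.G.sB ℂ).Lin KK := ⟨y.G.σB_smul⟩

theorem Sys.lin : (y.G.rg ℂ).Lin KK where
  φ := y.G.φ_smul
  NR c z hz := by
    obtain ⟨r, rfl⟩ := (y.G.mem_NR z).1 hz
    exact (y.G.mem_NR _).2 ⟨c • r, (map_smul _ c r).symm⟩
  R c z hz := by
    obtain ⟨r, rfl, h⟩ := (y.G.mem_R z).1 hz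
    exact (y.G.mem_R _).2 ⟨c • r, (map_smul _ c r).symm, fun n e he => by
      rw [Pi.smul_apply, map_smul, h n e he, smul_zero]⟩

/-- The row of a left piece. -/
noncomputable def Sys.row (F : Ser Γ (pR X.p D)) (hF : F.RelL g) : Fn (pT X.p) (y.G.sB ℂ) :=
  Fn.of _ ((Deg.row (K := KK) (F := y.F)).restrictScalars ℂ ∘ₗ LinearMap.pi fun n =>
    y.pr.restrictScalars ℂ ∘ₗ slcL (F.tot hF.toOk hF.lf n))

/-- The coefficients of the column of a right piece. -/
noncomputable def Sys.colC (F : Ser Γ (pR X.p D)) (hF : F.RelR g) (n : ℕ) : S (pT X.p) →ₗ[ℂ] y.F :=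
  LinearMap.codRestrictOfInjective (slcL (F.tot hF.toOk hF.lf n)) (y.val.restrictScalars ℂ) y.inj
    fun x => (y.mem _).1 (hF.slc_mem n x)

theorem Sys.val_colC (F : Ser Γ (pR X.p D)) (hF : F.RelR g) (n : ℕ) (x : S (pT X.p)) :
    y.val (y.colC F hF n x) = slc (F.tot hF.toOk hF.lf n) x :=
  LinearMap.codRestrictOfInjective_comp_apply _ (y.val.restrictScalars ℂ) _ _ x

/-- The column of a right piece. -/
noncomputable def Sys.col (F : Ser Γ (pR X.p D)) (hF : F.RelR g) : Fn (pT X.p) (y.G.sB ℂ) :=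
  Fn.of _ ((Deg.col (K := KK) (F := y.F)).restrictScalars ℂ ∘ₗ LinearMap.pi (y.colC F hF))

/-- The corner of a general fibre. -/
noncomputable def Sys.ab (Z : Ser Γ (pT X.p)) (hZ : Z.Abs g) : Fn (pT X.p) (y.G.sB ℂ) :=
  Fn.of _ ((cor (K := KK) y.F).restrictScalars ℂ ∘ₗ LinearMap.pi (Z.tot hZ.toOk hZ.lf))

theorem Sys.row_ap (F : Ser Γ (pR X.p D)) (hF : F.RelL g) (x) :
    (y.row F hF).ap x = Deg.row fun n => y.pr (slc (F.tot hF.toOk hF.lf n) x) := rfl

theorem Sys.col_ap' (F : Ser Γ (pR X.p D)) (hF : F.RelR g) (x) :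
    (y.col F hF).ap x = Deg.col fun n => y.colC F hF n x := rfl

theorem Sys.col_ap (F : Ser Γ (pR X.p D)) (hF : F.RelR g) (x) : ∃ c,
    (y.col F hF).ap x = Deg.col c ∧ ∀ n, y.val (c n) = slc (F.tot hF.toOk hF.lf n) x :=
  ⟨_, y.col_ap' F hF x, fun n => y.val_colC F hF n x⟩

theorem Sys.ab_ap (Z : Ser Γ (pT X.p)) (hZ : Z.Abs g) (x) :
    (y.ab Z hZ).ap x = cor _ fun n => Z.tot hZ.toOk hZ.lf n x := rfl

theorem Sys.row_ev (F : Ser Γ (pR X.p D)) (hF : F.RelL g) : τ (y.row F hF) = y.row F hF := by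
  refine Fn.ext fun x => ?_
  rw [τ_ap, y.row_ap, y.row_ap, Gr.σ_row]
  refine congrArg _ (funext fun n => LinearMap.ext fun G => ?_)
  rw [comp_apply, ← y.pr_par]
  exact congrArg (y.pr · G) (LinearMap.ext fun z => slc_par (F.tot_par _ _ n) x z)

theorem Sys.col_ev (F : Ser Γ (pR X.p D)) (hF : F.RelR g) : τ (y.col F hF) = y.col F hF := by
  refine Fn.ext fun x => ?_
  rw [τ_ap, y.col_ap', y.col_ap', Gr.σ_col]
  refine congrArg _ (funext fun n => y.inj (LinearMap.ext fun z => ?_))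
  rw [y.hσ, y.val_colC, y.val_colC]
  exact slc_par (F.tot_par _ _ n) x z

theorem Sys.ab_ev (Z : Ser Γ (pT X.p)) (hZ : Z.Abs g) : τ (y.ab Z hZ) = y.ab Z hZ := by
  refine Fn.ext fun x => ?_
  rw [τ_ap, y.ab_ap, y.ab_ap, Gr.σ_cor]
  exact congrArg _ (funext fun n => Z.tot_par _ _ n x)

theorem Sys.row_mem (F : Ser Γ (pR X.p D)) (hF : F.RelL g) (x) :
    (y.row F hF).ap x ∈ (y.G.rg ℂ).NL := (y.G.mem_NL _).2 ⟨_, y.row_ap F hF x⟩

theorem Sys.col_mem (F : Ser Γ (pR X.p D)) (hF : F.RelR g) (x) :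
    (y.col F hF).ap x ∈ (y.G.rg ℂ).NR := (y.G.mem_NR _).2 ⟨_, y.col_ap' F hF x⟩

theorem Sys.node (Z : Ser Γ (pT X.p)) (hZ : Z.Abs g) (h : Z.Node) (m n : ℕ) :
    Fn.D (0, Finsupp.single (m, n) 1) (y.ab Z hZ) =
      (hb : KK) • Dx (Fock.map _ (isEv_inl _ _) (dd X.fr m n)) (y.ab Z hZ) := by
  refine Fn.ext fun x => ?_
  rw [D_ap, sc_ap, Dx_ap, y.ab_ap, y.ab_ap, ← map_smul]
  refine congrArg _ (funext fun k => Hat.ext (funext fun j => ?_))
  rw [Pi.smul_apply, smul_eq_mul, show (hb : KK) = Hat.single ℂ 1 1 from rfl, Hat.co_single_mul,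
    one_mul, Ser.tot_co, Ser.tot_co]
  refine finsum_congr fun β => finsum_congr fun _ => ?_
  rw [h, dd, map_sum, sum_mul, map_sum]
  simp only [map_mul, map_ι, inl_apply]

theorem Sys.vir (d : VD X.fr) (Z : Ser Γ (pT X.p)) (hZ : Z.Abs g) : VirD g d Z ↔
    ∀ k, Cns (M := Mat KK y.F) X.fr hb (z0 (y.ab Z hZ)).ap (d.ell k)
      (algebraMap ℂ KK (if k = 1 then -d.c0 else 0)) := by
  have e1 : ∀ (n j : ℤ) x, (∑ᶠ (β) (_ : g.deg β = n), Z β j) x =
      ∑ᶠ (β) (_ : g.deg β = n), Z β j x := fun n j x =>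
    (LinearMap.applyₗ (R := ℂ) x).toAddMonoidHom.map_finsum_mem' (s := {β | g.deg β = n})
      ((hZ.fin n).subset fun β ⟨h1, h2⟩ => ⟨h1, fun h0 => h2 (congrFun h0 j)⟩)
  have hl : ∀ (n : ℕ) x, ∃ J, ∀ j < J, ((∑ᶠ (β) (_ : g.deg β = n), Z β j) ∘ₗ
      (Fock.map _ (isEv_inl _ (Par.triv ℂ NN))).toLinearMap) x = 0 := fun n x =>
    (Z.tot hZ.toOk hZ.lf n (Fock.map _ (isEv_inl _ _) x)).bdd.imp fun J hJ j hj =>
      (e1 _ _ _).trans (hJ j hj)
  have e2 : ∀ x, (z0 (y.ab Z hZ)).ap x = cor y.F fun n => lau _ (hl n) x := fun x =>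
    (y.ab_ap Z hZ _).trans (congrArg _ (funext fun n => Hat.ext (funext fun j => (e1 _ _ _).symm)))
  have e3 : ∀ k, Cns (M := Mat KK y.F) X.fr hb (z0 (y.ab Z hZ)).ap (d.ell k)
      (algebraMap ℂ KK (if k = 1 then -d.c0 else 0)) ↔ ∀ n : ℕ, Cns X.fr hb (lau _ (hl n)) (d.ell k)
      (algebraMap ℂ KK (if k = 1 then -d.c0 else 0)) := fun k => by
    simp only [Cns, e2, ← map_smul (cor y.F), ← map_add (cor y.F), cor_injective.eq_iff, funext_iff]
    exact forall_comm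
  simp only [e3]
  rw [forall_comm]
  refine ⟨fun h n => (virC_iff d _ (hl n)).1 (h n), fun h n => ?_⟩
  rcases lt_or_ge n 0 with hn | hn
  · have : ∀ j, ∑ᶠ (β) (_ : g.deg β = n), Z β j = 0 := fun j =>
      finsum_mem_eq_zero_of_forall_eq_zero (s := {β | g.deg β = n}) fun β (hβ : g.deg β = n) => by
        by_cases h0 : Z β = 0
        · exact congrFun h0 j
        · have := hZ.pos β h0
          omega
    intro k j x
    simp [this]
  · obtain ⟨n, rfl⟩ := Int.eq_ofNat_of_zero_le hn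
    exact (virC_iff d _ (hl n)).2 (h n)

theorem Sys.inv (Z : Ser Γ (pT X.p)) (hZ : Z.Abs g) (a : Module.End ℂ X.H) (he : IsEv X.p X.p a)
    (h : ∀ β j x, Z β j (Fock.map _ (isEv_inl _ _) (Fock.map _ (isEv_vv he) x)) =
      Z β j (Fock.map _ (isEv_inl _ _) x)) (x) :
    (z0 (y.ab Z hZ)).ap (Fock.map _ (isEv_vv he) x) = (z0 (y.ab Z hZ)).ap x := by
  rw [pull_ap, pull_ap, y.ab_ap, y.ab_ap]
  refine congrArg _ (funext fun n => Hat.ext (funext fun j => ?_))
  simp only [Ser.tot_co, h]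

end Vale.Agent.P269.Deg
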