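import Vale.Agent.P269.Deg.Fn

/-! Insertion of a coordinate, linear vector fields, scalar functions. -/

namespace Vale.Agent.P269.Deg

open Fock

variable {K : Type*} [CommRing K] [Algebra ℚ K] {V W : Type*} [AddCommGroup V] [Module K V]
  [AddCommGroup W] [Module K W] {B B' : Type*} [Ring B] [Algebra K B] [Ring B'] [Algebra K B']
  {p : Par K V} {q : Par K W} {s : SPar K B} {s' : SPar K B'}

/-- Odd linear maps. -/
def IsOd (p : Par K V) (q : Par K W) (f : V →ₗ[K] W) : Prop := ∀ v, q.σ (f v) = -f (p.σ v)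

lemma ev_σ (v : V) : p.ev (p.σ v) = p.ev v := by simp [Par.ev_apply, p.inv, add_comm]

lemma od_σ (v : V) : p.od (p.σ v) = -p.od v := by
  rw [Par.od_apply, Par.od_apply, p.inv, ← smul_neg, neg_sub]

namespace Fn

lemma D_D_od {v : V} (h : p.σ v = -v) (u : V) (F : Fn p s) : D v (D u F) = D (p.σ u) (D v F) := by
  rw [← p.ev_add_od u]
  simp only [map_add, LinearMap.add_apply, p.σ_ev, p.σ_od, map_neg, LinearMap.neg_apply]
  rw [D_comm_ev v (p.σ_ev u), D_comm_od h (p.σ_od u)]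

theorem exists_ins : ∃ m : (V →ₗ[K] Fn p s) →ₗ[K] Fn p s, (∀ X, (m X).ap 1 = 0) ∧ ∀ X v,
    D v (m X) = X v + m (D (p.ev v) ∘ₗ X + D (p.od v) ∘ₗ X ∘ₗ p.σ) := by
  let d : V →ₗ[K] Module.End K ((V →ₗ[K] Fn p s) × Fn p s) :=
    { toFun := fun v => LinearMap.prod
        ((LinearMap.llcomp K _ _ _ (D (p.ev v)) + LinearMap.llcomp K _ _ _ (D (p.od v)) ∘ₗ
          LinearMap.lcomp K _ p.σ) ∘ₗ LinearMap.fst K _ _)
        (LinearMap.applyₗ v ∘ₗ LinearMap.fst K _ _ + D v ∘ₗ LinearMap.snd K _ _)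
      map_add' := fun v w => by
        refine LinearMap.ext fun z => Prod.ext ?_ ?_
        · ext u : 1
          simp; abel
        · simp; abel
      map_smul' := fun c v => by
        refine LinearMap.ext fun z => Prod.ext ?_ ?_
        · ext u : 1
          simp
        · simp }
  have hd : ∀ v z, d v z = (D (p.ev v) ∘ₗ z.1 + D (p.od v) ∘ₗ z.1 ∘ₗ p.σ, z.1 v + D v z.2) :=
    fun _ _ => rfl
  have hs : SC p d := by
    constructor
    · intro v w h
      refine LinearMap.ext fun z => Prod.ext ?_ ?_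
      · ext u : 1
        simp [hd, Par.ev_of_ev h, Par.od_of_ev h, D_comm_ev _ h]
      · simp only [Module.End.mul_apply, hd, Par.ev_of_ev h, Par.od_of_ev h, map_zero,
          LinearMap.zero_comp, add_zero, LinearMap.add_apply, LinearMap.comp_apply, h, map_add,
          D_comm_ev _ h]
        rw [← LinearMap.add_apply (D (p.ev v)), ← map_add, p.ev_add_od]
        abel
    · intro v w hv hw
      refine LinearMap.ext fun z => Prod.ext ?_ ?_
      · ext u : 1
        simp [hd, Par.ev_of_od hv, Par.od_of_od hv, Par.ev_of_od hw, Par.od_of_od hw, p.inv,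
          D_comm_od hv hw]
      · simp only [Module.End.mul_apply, hd, Par.ev_of_od hv, Par.od_of_od hv, Par.ev_of_od hw,
          Par.od_of_od hw, map_zero, LinearMap.zero_comp, zero_add, LinearMap.comp_apply, hv, hw,
          map_add, map_neg, LinearMap.neg_apply, Prod.snd_neg, D_comm_od hv hw z.2]
        abel
  let e : Fn p s →ₗ[K] B := LinearMap.applyₗ (1 : S p)
  obtain ⟨Φ, h1, h2⟩ := exists_unfold d hs (e ∘ₗ LinearMap.snd K _ _)
  have h0 : ∀ x (F : Fn p s), Φ (0, F) x = F.ap x := by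
    intro x
    induction x using induction with
    | h1 => exact fun F => h1 _
    | hι v x hx =>
      intro F
      rw [h2, hd]
      simpa using hx (D v F)
    | hadd x y hx hy => intro F; simp only [map_add, hx, hy]
    | hsmul c x hx => intro F; simp only [map_smul, hx]
  refine ⟨Φ ∘ₗ LinearMap.inl K _ _, fun X => (h1 _).trans (map_zero e), fun X v => ?_⟩
  ext x
  have := h2 (X, 0) v x
  rw [hd, map_zero, add_zero, ← Prod.fst_add_snd (_, X v), map_add, LinearMap.add_apply,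
    h0, add_comm] at this
  exact this

/-- `ins X = ∑ t^a X (e a)`. -/
noncomputable def ins : (V →ₗ[K] Fn p s) →ₗ[K] Fn p s := Classical.choose exists_ins

@[simp] lemma ins_ap_one (X : V →ₗ[K] Fn p s) : (ins X).ap 1 = 0 :=
  (Classical.choose_spec (exists_ins (p := p) (s := s))).1 X

lemma D_ins (v : V) (X : V →ₗ[K] Fn p s) :
    D v (ins X) = X v + ins (D (p.ev v) ∘ₗ X + D (p.od v) ∘ₗ X ∘ₗ p.σ) :=
  (Classical.choose_spec (exists_ins (p := p) (s := s))).2 X v

lemma D_ins_ev {v : V} (h : p.σ v = v) (X : V →ₗ[K] Fn p s) :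
    D v (ins X) = X v + ins (D v ∘ₗ X) := by
  simp [D_ins, Par.ev_of_ev h, Par.od_of_ev h]

lemma D_ins_od {v : V} (h : p.σ v = -v) (X : V →ₗ[K] Fn p s) :
    D v (ins X) = X v + ins (D v ∘ₗ X ∘ₗ p.σ) := by
  simp [D_ins, Par.ev_of_od h, Par.od_of_od h]

lemma ins_congr {X Y : V →ₗ[K] Fn p s} (h : ∀ v, X v = Y v) : ins X = ins Y := by
  rw [LinearMap.ext h]

lemma ins_eq_zero {X : V →ₗ[K] Fn p s} (h : ∀ v, X v = 0) : ins X = 0 := by
  rw [show X = 0 from LinearMap.ext h, map_zero]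

lemma ins_add' {X Y Z : V →ₗ[K] Fn p s} (h : ∀ v, X v = Y v + Z v) : ins X = ins Y + ins Z := by
  rw [← map_add]; exact ins_congr h

lemma τ_ins (X : V →ₗ[K] Fn p s) : τ (ins X) = ins (τ.toLinearMap ∘ₗ X ∘ₗ p.σ) := by
  ext x
  induction x using induction' generalizing X with
  | h1 => simp
  | hev v x hv hx =>
    rw [← D_ap, ← D_ap, D_τ_ev hv, D_ins_ev hv, D_ins_ev hv, map_add, add_ap, add_ap, hx]
    congr 2
    · simp [hv]
    · exact ins_congr fun w => by simp [D_τ_ev hv]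
  | hod v x hv hx =>
    rw [← D_ap, ← D_ap, D_τ_od hv, D_ins_od hv, D_ins_od hv, map_add, neg_add, add_ap, add_ap,
      neg_ap (τ (ins _)), hx, ← neg_ap, ← map_neg (ins (p := p) (s := s))]
    congr 2
    · simp [hv]
    · exact ins_congr fun w => by simp [D_τ_od hv]
  | hadd x y hx hy => simp only [map_add, hx, hy]
  | hsmul c x hx => simp only [map_smul, hx]

lemma ins_mul (X : V →ₗ[K] Fn p s) (G : Fn p s) :
    ins X * G = ins (LinearMap.mulRight K G ∘ₗ X) := by
  ext x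
  induction x using induction' generalizing X G with
  | h1 => simp
  | hev v x hv hx =>
    rw [← D_ap, ← D_ap, D_mul_ev hv, D_ins_ev hv, D_ins_ev hv, add_mul, add_assoc, add_ap, add_ap,
      add_ap, hx, hx, ← add_ap, ← map_add]
    congr 2
    exact ins_congr fun w => by simp [D_mul_ev hv]
  | hod v x hv hx =>
    rw [← D_ap, ← D_ap, D_mul_od hv, D_ins_od hv, D_ins_od hv, add_mul, add_assoc, add_ap, add_ap,
      add_ap, τ_ins, hx, hx, ← add_ap, ← map_add]
    congr 2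
    exact ins_congr fun w => by simp [D_mul_od hv]
  | hadd x y hx hy => simp only [map_add, hx, hy]
  | hsmul c x hx => simp only [map_smul, hx]

lemma mul_ins (F : Fn p s) (X : V →ₗ[K] Fn p s) : F * ins X =
    ins (LinearMap.mulLeft K F ∘ₗ X ∘ₗ p.ev + LinearMap.mulLeft K (τ F) ∘ₗ X ∘ₗ p.od) := by
  ext x
  induction x using induction' generalizing X F with
  | h1 => simp
  | hev v x hv hx =>
    rw [← D_ap, ← D_ap, D_mul_ev hv, D_ins_ev hv, D_ins_ev hv, mul_add, add_left_comm, add_ap,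
      add_ap, add_ap, hx, hx, ← add_ap, ← map_add]
    congr 2
    · simp [Par.ev_of_ev hv, Par.od_of_ev hv]
    · refine ins_congr fun w => ?_
      simp [D_mul_ev hv, D_τ_ev hv]
      abel
  | hod v x hv hx =>
    rw [← D_ap, ← D_ap, D_mul_od hv, D_ins_od hv, D_ins_od hv, mul_add, add_left_comm, add_ap,
      add_ap, add_ap, hx, hx, ← add_ap, ← map_add]
    congr 2
    · simp [Par.ev_of_od hv, Par.od_of_od hv]
    · refine ins_congr fun w => ?_
      simp [D_mul_od hv, D_τ_od hv, ev_σ, od_σ]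
      abel
  | hadd x y hx hy => simp only [map_add, hx, hy]
  | hsmul c x hx => simp only [map_smul, hx]

lemma mul_ins_ev {F : Fn p s} (h : τ F = F) (X : V →ₗ[K] Fn p s) :
    F * ins X = ins (LinearMap.mulLeft K F ∘ₗ X) := by
  rw [mul_ins, h]
  refine ins_congr fun w => ?_
  simp only [LinearMap.add_apply, LinearMap.comp_apply, LinearMap.mulLeft_apply]
  rw [← mul_add, ← map_add, p.ev_add_od]

lemma mul_ins_od {F : Fn p s} (h : τ F = -F) (X : V →ₗ[K] Fn p s) :
    F * ins X = ins (LinearMap.mulLeft K F ∘ₗ X ∘ₗ p.σ) := by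
  rw [mul_ins, h]
  refine ins_congr fun w => ?_
  simp only [LinearMap.add_apply, LinearMap.comp_apply, LinearMap.mulLeft_apply]
  rw [neg_mul, ← sub_eq_add_neg, ← mul_sub, ← map_sub, p.ev_sub_od]

lemma pull_ins (f : V →ₗ[K] W) (hf : IsEv p q f) (X : W →ₗ[K] Fn q s) :
    pull f hf (ins X) = ins ((pull f hf).toLinearMap ∘ₗ X ∘ₗ f) := by
  ext x
  induction x using induction' generalizing X with
  | h1 => simp
  | hev v x hv hx =>
    have hw : q.σ (f v) = f v := by rw [hf, hv]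
    rw [← D_ap, ← D_ap, D_pull, D_ins_ev hv, D_ins_ev hw, map_add, add_ap, add_ap, hx]
    congr 2
    exact ins_congr fun w => by simp [D_pull]
  | hod v x hv hx =>
    have hw : q.σ (f v) = -f v := by rw [hf, hv, map_neg]
    rw [← D_ap, ← D_ap, D_pull, D_ins_od hv, D_ins_od hw, map_add, add_ap, add_ap, hx]
    congr 2
    exact ins_congr fun w => by simp [D_pull, hf w]
  | hadd x y hx hy => simp only [map_add, hx, hy]
  | hsmul c x hx => simp only [map_smul, hx]

lemma mapc_ins (φ : B →ₗ[K] B') (X : V →ₗ[K] Fn p s) :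
    mapc s' φ (ins X) = ins (mapc s' φ ∘ₗ X) := by
  ext x
  induction x using induction' generalizing X with
  | h1 => simp
  | hev v x hv hx =>
    rw [← D_ap, ← D_ap, D_mapc, D_ins_ev hv, D_ins_ev hv, map_add, add_ap, add_ap, hx]
    rfl
  | hod v x hv hx =>
    rw [← D_ap, ← D_ap, D_mapc, D_ins_od hv, D_ins_od hv, map_add, add_ap, add_ap, hx]
    rfl
  | hadd x y hx hy => simp only [map_add, hx, hy]
  | hsmul c x hx => simp only [map_smul, hx]

lemma ins_ap_mem {N : Submodule K B} {X : V →ₗ[K] Fn p s} (h : ∀ v x, (X v).ap x ∈ N) (x : S p) :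
    (ins X).ap x ∈ N := by
  induction x using induction' generalizing X with
  | h1 => simp
  | hev v x hv hx =>
    rw [← D_ap, D_ins_ev hv, add_ap]
    exact add_mem (h _ _) (hx fun _ _ => h _ _)
  | hod v x hv hx =>
    rw [← D_ap, D_ins_od hv, add_ap]
    exact add_mem (h _ _) (hx fun _ _ => h _ _)
  | hadd x y hx hy => rw [map_add]; exact add_mem (hx h) (hy h)
  | hsmul c x hx => rw [map_smul]; exact N.smul_mem c (hx h)

/-- The linear vector field `∑ t^a ∂_{A e_a}`. -/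
noncomputable def Vf : Module.End K V →ₗ[K] Module.End K (Fn p s) where
  toFun a := ins ∘ₗ LinearMap.lcomp K _ a ∘ₗ (D (p := p) (s := s)).flip
  map_add' a b := by
    ext F : 1
    simp only [LinearMap.comp_apply, LinearMap.add_apply]
    exact ins_add' fun w => by simp
  map_smul' c a := by
    ext F : 1
    simp only [LinearMap.comp_apply, LinearMap.smul_apply, RingHom.id_apply]
    rw [← map_smul]
    exact ins_congr fun w => by simp

lemma Vf_def (a : Module.End K V) (F : Fn p s) : Vf a F = ins (D.flip F ∘ₗ a) := rfl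

@[simp] lemma Vf_ap_one (a : Module.End K V) (F : Fn p s) : (Vf a F).ap 1 = 0 := ins_ap_one _

lemma D_Vf_ev {v : V} (h : p.σ v = v) (a : Module.End K V) (F : Fn p s) :
    D v (Vf a F) = D (a v) F + Vf a (D v F) := by
  rw [Vf_def, D_ins_ev h, Vf_def]
  congr 1
  exact ins_congr fun w => by simp [D_comm_ev _ h]

lemma D_Vf_od {v : V} (h : p.σ v = -v) (a : Module.End K V) (F : Fn p s) :
    D v (Vf a F) = D (a v) F + Vf (p.σ ∘ₗ a ∘ₗ p.σ) (D v F) := by
  rw [Vf_def, D_ins_od h, Vf_def]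
  congr 1
  exact ins_congr fun w => by simp [D_D_od h]

omit [Algebra ℚ K] in
lemma conj_ev {a : Module.End K V} (h : IsEv p p a) : p.σ ∘ₗ a ∘ₗ p.σ = a := by
  ext v; simp [h _, p.inv]

omit [Algebra ℚ K] in
lemma conj_od {a : Module.End K V} (h : IsOd p p a) : p.σ ∘ₗ a ∘ₗ p.σ = -a := by
  ext v; simp [h _, p.inv]

lemma D_Vf_of_ev {a : Module.End K V} (h : IsEv p p a) (v : V) (F : Fn p s) :
    D v (Vf a F) = D (a v) F + Vf a (D v F) := by
  rw [← p.ev_add_od v]
  simp only [map_add, LinearMap.add_apply, D_Vf_ev (p.σ_ev v), D_Vf_od (p.σ_od v), conj_ev h]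
  abel

lemma D_Vf_of_od {a : Module.End K V} (h : IsOd p p a) (v : V) (F : Fn p s) :
    D v (Vf a F) = D (a v) F + Vf a (D (p.σ v) F) := by
  rw [← p.ev_add_od v]
  simp only [map_add, LinearMap.add_apply, D_Vf_ev (p.σ_ev v), D_Vf_od (p.σ_od v), conj_od h,
    p.σ_ev, p.σ_od, map_neg, LinearMap.neg_apply]
  abel

lemma Vf_eq_pre (a : Module.End K V) (F : Fn p s) : Vf a F = pre (dv p a) F := by
  ext x
  induction x using induction' generalizing F a with
  | h1 => simp [dv_def]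
  | hev v x hv hx =>
    rw [← D_ap, D_Vf_ev hv, add_ap, hx]
    simp [dv_def, der_ι_mul_ev _ hv]
  | hod v x hv hx =>
    have : cj p (ι p ∘ₗ a) = ι p ∘ₗ p.σ ∘ₗ a ∘ₗ p.σ := by
      ext w; simp [par_ι]
    rw [← D_ap, D_Vf_od hv, add_ap, hx]
    simp [dv_def, der_ι_mul_od _ hv, this]
  | hadd x y hx hy => simp only [map_add, hx, hy]
  | hsmul c x hx => simp only [map_smul, hx]

lemma τ_Vf (a : Module.End K V) (F : Fn p s) :
    τ (Vf a F) = Vf (p.σ ∘ₗ a ∘ₗ p.σ) (τ F) := by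
  rw [Vf_def, τ_ins, Vf_def]
  exact ins_congr fun w => by simp [τ_D]

lemma τ_Vf_ev {a : Module.End K V} (h : IsEv p p a) (F : Fn p s) : τ (Vf a F) = Vf a (τ F) := by
  rw [τ_Vf, conj_ev h]

lemma τ_Vf_od {a : Module.End K V} (h : IsOd p p a) (F : Fn p s) : τ (Vf a F) = -Vf a (τ F) := by
  rw [τ_Vf, conj_od h, map_neg, LinearMap.neg_apply]

lemma _root_.Vale.Agent.P269.Fock.IsEv.ev {f : V →ₗ[K] W} (h : IsEv p q f) (v : V) :
    q.ev (f v) = f (p.ev v) := by simp [Par.ev_apply, h v]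

lemma _root_.Vale.Agent.P269.Fock.IsEv.od {f : V →ₗ[K] W} (h : IsEv p q f) (v : V) :
    q.od (f v) = f (p.od v) := by simp [Par.od_apply, h v]

lemma _root_.Vale.Agent.P269.Deg.IsOd.ev {f : V →ₗ[K] W} (h : IsOd p q f) (v : V) :
    q.ev (f v) = f (p.od v) := by simp [Par.ev_apply, Par.od_apply, h v, sub_eq_add_neg]

lemma _root_.Vale.Agent.P269.Deg.IsOd.od {f : V →ₗ[K] W} (h : IsOd p q f) (v : V) :
    q.od (f v) = f (p.ev v) := by simp [Par.ev_apply, Par.od_apply, h v]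

lemma Vf_mul_ev {a : Module.End K V} (h : IsEv p p a) (F G : Fn p s) :
    Vf a (F * G) = Vf a F * G + F * Vf a G := by
  rw [Vf_def, Vf_def, Vf_def, ins_mul, mul_ins]
  exact ins_add' fun w => by simp [D_mul', h.ev, h.od, add_assoc]

lemma Vf_mul_od {a : Module.End K V} (h : IsOd p p a) (F G : Fn p s) :
    Vf a (F * G) = Vf a F * G + τ F * Vf a G := by
  rw [Vf_def, Vf_def, Vf_def, ins_mul, mul_ins]
  refine ins_add' fun w => ?_
  simp [D_mul', h.ev, h.od]
  abel

@[simp] lemma Vf_cst (a : Module.End K V) (b : B) : Vf a (cst b : Fn p s) = 0 :=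
  ins_eq_zero fun w => by simp

@[simp] lemma Vf_one (a : Module.End K V) : Vf a (1 : Fn p s) = 0 :=
  ins_eq_zero fun w => by simp

lemma Vf_mapc (φ : B →ₗ[K] B') (a : Module.End K V) (F : Fn p s) :
    Vf a (mapc s' φ F) = mapc s' φ (Vf a F) := by
  rw [Vf_def, Vf_def, mapc_ins]; rfl

lemma Vf_pull' (f : V →ₗ[K] W) (hf : IsEv p q f) (a : Module.End K V) (F : Fn q s) :
    Vf a (pull f hf F) = ins ((pull f hf).toLinearMap ∘ₗ D.flip F ∘ₗ f ∘ₗ a) :=
  ins_congr fun w => by simp [D_pull]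

lemma pull_Vf' (f : V →ₗ[K] W) (hf : IsEv p q f) (b : Module.End K W) (F : Fn q s) :
    pull f hf (Vf b F) = ins ((pull f hf).toLinearMap ∘ₗ D.flip F ∘ₗ b ∘ₗ f) := by
  rw [Vf_def, pull_ins]; rfl

lemma Vf_pull (f : V →ₗ[K] W) (hf : IsEv p q f) {a : Module.End K V} {b : Module.End K W}
    (h : ∀ v, f (a v) = b (f v)) (F : Fn q s) : Vf a (pull f hf F) = pull f hf (Vf b F) := by
  rw [Vf_pull', pull_Vf']
  exact ins_congr fun w => by simp [h]

lemma Vf_pull_zero (f : V →ₗ[K] W) (hf : IsEv p q f) {a : Module.End K V}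
    (h : ∀ v, f (a v) = 0) (F : Fn q s) : Vf a (pull f hf F) = 0 := by
  rw [Vf_pull f hf (b := 0) (by simpa using h), map_zero, LinearMap.zero_apply, map_zero]

lemma pull_Vf_zero (f : V →ₗ[K] W) (hf : IsEv p q f) {b : Module.End K W}
    (h : ∀ v, b (f v) = 0) (F : Fn q s) : pull f hf (Vf b F) = 0 := by
  rw [← Vf_pull f hf (a := 0) (by simp [h]), map_zero, LinearMap.zero_apply]

lemma Vf_ins_ev {a : Module.End K V} (h : IsEv p p a) (X : V →ₗ[K] Fn p s) :
    Vf a (ins X) = ins (X ∘ₗ a) + ins (Vf a ∘ₗ X) := by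
  ext x
  induction x using induction' generalizing X with
  | h1 => simp
  | hev v x hv hx =>
    have hw : p.σ (a v) = a v := by rw [h, hv]
    have e : ins (D v ∘ₗ Vf a ∘ₗ X) = ins (D (a v) ∘ₗ X) + ins (Vf a ∘ₗ D v ∘ₗ X) :=
      ins_add' fun w => by simp [D_Vf_of_ev h]
    rw [← D_ap, ← D_ap, D_Vf_of_ev h, map_add, D_ins_ev hv, D_ins_ev hv, D_ins_ev hv, D_ins_ev hw,
      e, map_add]
    simp only [add_ap, hx, LinearMap.comp_apply, LinearMap.comp_assoc]
    abel
  | hod v x hv hx =>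
    have hw : p.σ (a v) = -a v := by rw [h, hv, map_neg]
    have e : ins (D v ∘ₗ (Vf a ∘ₗ X) ∘ₗ p.σ) =
        ins (D (a v) ∘ₗ X ∘ₗ p.σ) + ins (Vf a ∘ₗ D v ∘ₗ X ∘ₗ p.σ) :=
      ins_add' fun w => by simp [D_Vf_of_ev h]
    have e' : ins (D v ∘ₗ (X ∘ₗ a) ∘ₗ p.σ) = ins ((D v ∘ₗ X ∘ₗ p.σ) ∘ₗ a) :=
      ins_congr fun w => by simp [h w]
    rw [← D_ap, ← D_ap, D_Vf_of_ev h, map_add, D_ins_od hv, D_ins_od hv, D_ins_od hv, D_ins_od hw,
      e, e', map_add]
    simp only [add_ap, hx, LinearMap.comp_apply]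
    abel
  | hadd x y hx hy => simp only [map_add, hx, hy]
  | hsmul c x hx => simp only [map_smul, hx]

lemma Vf_ins_od {a : Module.End K V} (h : IsOd p p a) (X : V →ₗ[K] Fn p s) :
    Vf a (ins X) = ins (X ∘ₗ a) + ins (Vf a ∘ₗ X ∘ₗ p.σ) := by
  ext x
  induction x using induction' generalizing X with
  | h1 => simp
  | hev v x hv hx =>
    have hw : p.σ (a v) = -a v := by rw [h, hv]
    have e : ins (D v ∘ₗ Vf a ∘ₗ X ∘ₗ p.σ) =
        ins (D (a v) ∘ₗ X ∘ₗ p.σ) + ins (Vf a ∘ₗ (D v ∘ₗ X) ∘ₗ p.σ) :=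
      ins_add' fun w => by simp [D_Vf_of_od h, hv]
    rw [← D_ap, ← D_ap, D_Vf_of_od h, map_add, hv, D_ins_ev hv, D_ins_ev hv, D_ins_ev hv,
      D_ins_od hw, e, map_add]
    simp only [add_ap, hx, LinearMap.comp_apply, LinearMap.comp_assoc, hv]
    abel
  | hod v x hv hx =>
    have hw : p.σ (a v) = a v := by rw [h, hv, map_neg, neg_neg]
    have e : ins (D v ∘ₗ (Vf a ∘ₗ X ∘ₗ p.σ) ∘ₗ p.σ) =
        ins (D (a v) ∘ₗ X) + -ins (Vf a ∘ₗ (D v ∘ₗ X ∘ₗ p.σ) ∘ₗ p.σ) := by
      rw [← map_neg]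
      exact ins_add' fun w => by simp [D_Vf_of_od h, hv, p.inv]
    have e' : ins (D v ∘ₗ (X ∘ₗ a) ∘ₗ p.σ) = -ins ((D v ∘ₗ X ∘ₗ p.σ) ∘ₗ a) := by
      rw [← map_neg]
      exact ins_congr fun w => by simp [h w]
    rw [← D_ap, ← D_ap, D_Vf_of_od h, map_add, hv, map_neg, LinearMap.neg_apply, D_ins_od hv,
      D_ins_od hv, D_ins_od hv, D_ins_ev hw, e, e', map_neg, map_add]
    simp only [add_ap, neg_ap, hx, LinearMap.comp_apply, hv, map_neg]
    abel
  | hadd x y hx hy => simp only [map_add, hx, hy]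
  | hsmul c x hx => simp only [map_smul, hx]

lemma Vf_Vf_ev {a : Module.End K V} (h : IsEv p p a) (b : Module.End K V) (F : Fn p s) :
    Vf a (Vf b F) = Vf b (Vf a F) + Vf (b * a - a * b) F := by
  rw [Vf_def b, Vf_ins_ev h, Vf_def b, Vf_def (_ - _), ← map_add, ← map_add]
  refine ins_congr fun w => ?_
  simp [D_Vf_of_ev h]
  abel

lemma Vf_Vf_od {a b : Module.End K V} (ha : IsOd p p a) (hb : IsOd p p b) (F : Fn p s) :
    Vf a (Vf b F) = -Vf b (Vf a F) + Vf (b * a + a * b) F := by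
  rw [Vf_def b, Vf_ins_od ha, Vf_def b, Vf_def (_ + _), ← map_add, ← map_neg, ← map_add]
  refine ins_congr fun w => ?_
  simp [D_Vf_of_od ha, hb w]
  abel

lemma Vf_comm {a b : Module.End K V} (h : IsEv p p a) (hab : ∀ v, a (b v) = b (a v)) (F : Fn p s) :
    Vf a (Vf b F) = Vf b (Vf a F) := by
  have : b * a - a * b = 0 := by ext v; simp [hab]
  rw [Vf_Vf_ev h, this, map_zero, LinearMap.zero_apply, add_zero]

lemma Vf_Vf_self {a : Module.End K V} (ha : IsOd p p a) (h : ∀ v, a (a v) = 0) (F : Fn p s) :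
    Vf a (Vf a F) = 0 := by
  have : a * a + a * a = 0 := by ext v; simp [h]
  have e := Vf_Vf_od ha ha F
  rw [this, map_zero, LinearMap.zero_apply, add_zero] at e
  exact eq_zero_of_eq_neg (K := K) e

/-- The commutator of a vector field with the derivative along an even element. -/
lemma Dx_Vf {y : S p} (hy : par p y = y) (a : Module.End K V) (F : Fn p s) :
    Dx y (Vf a F) = Vf a (Dx y F) + Dx (dv p a y) F := by
  ext x
  simp [Vf_eq_pre, dv_def, der_mul_ev _ hy, add_comm]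

lemma Dx_comm {y : S p} (hy : par p y = y) (z : S p) (F : Fn p s) :
    Dx y (Dx z F) = Dx z (Dx y F) := by rw [← Dx_mul, ← Dx_mul, comm_ev hy]

end Fn

end Vale.Agent.P269.Deg
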