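import Vale.Agent.P269.Deg.Sd

/-! Natural loop operators. -/

namespace Vale.Agent.P269.Deg

open Fock Finset LinearMap TensorProduct Fn

namespace LpP

section ht

variable {V W : Type} [AddCommGroup V] [Module ℂ V] [AddCommGroup W] [Module ℂ W]

/-- `A` commutes with `q` and induces `B` along `f`, up to the image of `q`. -/
structure Ht (f : V →ₗ[ℂ] W) (q A : Module.End ℂ W) (B : Module.End ℂ V) : Prop where
  cm : ∀ y, A (q y) = q (A y)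
  ht : ∀ x, ∃ y, A (f x) = f (B x) + q y

variable {f : V →ₗ[ℂ] W} {q A A' : Module.End ℂ W} {B B' : Module.End ℂ V}

lemma Ht.of_eq (h1 : ∀ y, A (q y) = q (A y)) (h2 : ∀ x, A (f x) = f (B x)) : Ht f q A B :=
  ⟨h1, fun x => ⟨0, by rw [h2, map_zero, add_zero]⟩⟩

lemma Ht.of_zero (h : ∀ x, A (f x) = f (B x)) : Ht f 0 A B := .of_eq (fun _ => by simp) h

lemma Ht.eq (h : Ht f 0 A B) (x : V) : A (f x) = f (B x) := by simpa using h.ht x

lemma Ht.one : Ht f q 1 1 := .of_eq (fun _ => rfl) fun _ => rfl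

lemma Ht.add (h : Ht f q A B) (h' : Ht f q A' B') : Ht f q (A + A') (B + B') := by
  refine ⟨fun y => by simp [h.cm, h'.cm], fun x => ?_⟩
  obtain ⟨y, hy⟩ := h.ht x
  obtain ⟨y', hy'⟩ := h'.ht x
  exact ⟨y + y', by simp only [LinearMap.add_apply, hy, hy', map_add]; abel⟩

lemma Ht.smul (h : Ht f q A B) (c : ℂ) : Ht f q (c • A) (c • B) := by
  refine ⟨fun y => by simp [h.cm], fun x => ?_⟩
  obtain ⟨y, hy⟩ := h.ht x
  exact ⟨c • y, by simp only [LinearMap.smul_apply, hy, map_smul, smul_add]⟩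

lemma Ht.mul (h : Ht f q A B) (h' : Ht f q A' B') : Ht f q (A * A') (B * B') := by
  refine ⟨fun y => by simp [h.cm, h'.cm], fun x => ?_⟩
  obtain ⟨y', hy'⟩ := h'.ht x
  obtain ⟨y, hy⟩ := h.ht (B' x)
  exact ⟨y + A y', by simp only [Module.End.mul_apply, hy', map_add, hy, h.cm]; abel⟩

lemma Ht.pow (h : Ht f q A B) (k : ℕ) : Ht f q (A ^ k) (B ^ k) := by
  induction k with
  | zero => exact Ht.one
  | succ k ih => rw [pow_succ, pow_succ]; exact ih.mul h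

lemma ll_apply (f : V →ₗ[ℂ] W) (y : LL V) (n : ℤ) : ll f y n = f (y n) := rfl

lemma ll_single (f : V →ₗ[ℂ] W) (n : ℤ) (v : V) :
    ll f (Finsupp.single n v) = Finsupp.single n (f v) := by simp

lemma ll_zp (f : V →ₗ[ℂ] W) (n : ℤ) (y : LL V) : zp ℂ W n (ll f y) = ll f (zp ℂ V n y) := by
  ext j; simp only [zp_apply, ll_apply]

lemma ll_eu (f : V →ₗ[ℂ] W) (y : LL V) : eu ℂ W (ll f y) = ll f (eu ℂ V y) := by
  ext j; simp only [eu_apply, ll_apply, map_smul]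

lemma Ht.cst (h : Ht f q A B) : Ht (ll f) (ll q) (Fock.cst A) (Fock.cst B) := by
  refine ⟨fun y => by ext j; simp only [cst_apply, ll_apply, h.cm], fun x => ?_⟩
  induction x using Finsupp.induction_linear with
  | zero => exact ⟨0, by simp⟩
  | add a b ha hb =>
    obtain ⟨y, hy⟩ := ha
    obtain ⟨y', hy'⟩ := hb
    exact ⟨y + y', by simp only [map_add, hy, hy']; abel⟩
  | single n v =>
    obtain ⟨y, hy⟩ := h.ht v
    exact ⟨Finsupp.single n y, by simp only [ll_single, cst_single, hy, Finsupp.single_add]⟩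

lemma Ht.ellO (h : Ht f q A B) (h' : Ht f q A' B') (k : ℕ) :
    Ht (ll f) (ll q) (ellO A A' k) (ellO B B' k) := by
  have hz : ∀ n, Ht (ll f) (ll q) (zp ℂ W n) (zp ℂ V n) := fun n => .of_eq (ll_zp q n) (ll_zp f n)
  have he : Ht (ll f) (ll q) (eu ℂ W) (eu ℂ V) := .of_eq (ll_eu q) (ll_eu f)
  exact (hz _).mul ((((hz 1).mul ((he.add (Ht.one.smul _)).add h.cst)).add h'.cst).pow k)

lemma ll_ellO (h : ∀ x, A (f x) = f (B x)) (h' : ∀ x, A' (f x) = f (B' x)) (k : ℕ) (y : LL V) :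
    ellO A A' k (ll f y) = ll f (ellO B B' k y) := by
  obtain ⟨z, hz⟩ := ((Ht.of_zero h).ellO (Ht.of_zero h') k).ht y
  rw [hz]
  ext j
  simp

lemma tns_single (P : Module.End ℂ (LL ℂ)) (a : Module.End ℂ V) (i : ℤ) (v : V) (j : ℤ) :
    tns P a (Finsupp.single i v) j = P (Finsupp.single i 1) j • a v := by
  simp [tns, LinearEquiv.conj_apply, finsuppScalarLeft_symm_apply_single,
    finsuppScalarLeft_apply_tmul_apply]

lemma ll_tns (P : Module.End ℂ (LL ℂ)) (f : V →ₗ[ℂ] W) (y : LL V) :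
    tns P 1 (ll f y) = ll f (tns P 1 y) := by
  induction y using Finsupp.induction_linear with
  | zero => simp
  | add a b ha hb => simp only [map_add, ha, hb]
  | single n v =>
    ext j
    rw [ll_single, ll_apply, tns_single, tns_single, map_smul]
    rfl

end ht

section ell

variable {H : Type} [AddCommGroup H] [Module ℂ H] {p : Par ℂ H} {ι : Type} [Fintype ι]
  {fr : Frame p ι} {μ μ' ρ : Module.End ℂ H}

/-- `z² ∂ + z (1/2 + μ) + ρ`. -/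
noncomputable def dO (μ ρ : Module.End ℂ H) : Module.End ℂ (LL H) :=
  zp ℂ H 1 * (eu ℂ H + hf ℂ • 1 + Fock.cst μ) + Fock.cst ρ

lemma dO_single (i : ℤ) (v : H) : dO μ ρ (Finsupp.single i v) =
    Finsupp.single (i + 1) (((i : ℂ) + hf ℂ) • v + μ v) + Finsupp.single i (ρ v) := by
  simp [dO, add_smul]

lemma isEv_ellO (h : IsEv p p μ) (h' : IsEv p p ρ) (k : ℕ) :
    IsEv (p.fs ℤ) (p.fs ℤ) (ellO μ ρ k) :=
  (isEv_zp p _).mul ((((isEv_zp p 1).mul (((isEv_eu p).add (IsEv.one.smul _)).add h.cst)).add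
    h'.cst).pow k)

lemma up_ellO (k : ℕ) : Up (-1 + k * 1) (ellO μ ρ k) :=
  (up_zp _).mul (Up.pow (n := 1) (((up_zp 1).mul ((up_eu.add (Up.one.smul _)).add (up_cst _))).add
    ((up_cst _).mono zero_le_one)) k)

lemma adj_dO (h : ∀ v w, fr.η (μ v) w = -fr.η v (μ' w)) (h' : ∀ v w, fr.η (ρ v) w = fr.η v (ρ w)) :
    fr.Adj (dO μ ρ) (zp ℂ H (-1) * dO μ' ρ * zp ℂ H 1) := by
  have h1 : fr.Adj (Fock.cst μ) (Fock.cst (-μ')) := Frame.adj_cst fun v w => by simp [h]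
  have := ((Frame.adj_zp (fr := fr) 1).mul ((Frame.adj_eu.add (Frame.Adj.one.smul (hf ℂ))).add
    h1)).add (Frame.adj_cst h')
  suffices e : zp ℂ H (-1) * dO μ' ρ * zp ℂ H 1 =
      (-eu ℂ H - 1 + hf ℂ • 1 + Fock.cst (-μ')) * sg ℂ 1 • zp ℂ H 1 + Fock.cst ρ by
    rw [e]; exact this
  refine LL_ext fun i v => ?_
  have e : sg ℂ 1 = -1 := by simpa using sg_nat (K := ℂ) 1
  have e2 : (1 : ℂ) = hf ℂ + hf ℂ := (hf_add ℂ).symm
  simp only [Module.End.mul_apply, zp_single, dO_single, map_add, e, LinearMap.add_apply,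
    LinearMap.smul_apply, map_smul, LinearMap.sub_apply, LinearMap.neg_apply, eu_single,
    Module.End.one_apply, cst_single, add_neg_cancel_right, Finsupp.single_add,
    ← Finsupp.smul_single, map_neg]
  match_scalars <;> first | ring1 | linear_combination -e2

lemma adj_ellO (h : ∀ v w, fr.η (μ v) w = -fr.η v (μ' w))
    (h' : ∀ v w, fr.η (ρ v) w = fr.η v (ρ w)) (k : ℕ) : fr.Adj (ellO μ ρ k) (-ellO μ' ρ k) := by
  have := (Frame.adj_zp (fr := fr) (-1)).mul ((adj_dO h h').pow k)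
  suffices e : -ellO μ' ρ k =
      (zp ℂ H (-1) * dO μ' ρ * zp ℂ H 1) ^ k * sg ℂ (-1) • zp ℂ H (-1) by
    rw [e]; exact this
  have e : sg ℂ (-1) = -1 := by simpa using sg_nat (K := ℂ) 1
  have e2 : ∀ k : ℕ, (zp ℂ H (-1) * dO μ' ρ * zp ℂ H 1) ^ k * zp ℂ H (-1) =
      zp ℂ H (-1) * dO μ' ρ ^ k := by
    intro k
    induction k with
    | zero => simp
    | succ k ih =>
      rw [pow_succ, mul_assoc, mul_assoc _ (zp ℂ H 1), zp_mul_neg, mul_one, ← mul_assoc, ih,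
        pow_succ, mul_assoc]
  rw [e, mul_smul_comm, e2]
  exact (neg_one_smul ℂ _).symm

end ell

variable {D : Dv} {ε : ℂ} {Y : Pz D ε} {d : VD Y.fr} {dD : VD D.fr}

lemma gys_μ (h : Y.Cmp d dD) (s : D.H) :
    d.μ (Y.gys s) = Y.gys (dD.μ s) + (1 / 2 : ℂ) • Y.gys s :=
  Y.fr.ext_left fun t => by
    simp only [d.adjμ, Y.adj, h.μ, dD.adjμ, map_sub, map_add, map_smul, LinearMap.add_apply,
      LinearMap.smul_apply, smul_eq_mul]
    ring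

lemma gys_ρ (h : Y.Cmp d dD) (s : D.H) : d.ρ (Y.gys s) = Y.gys (dD.ρ s) :=
  Y.fr.ext_left fun t => by rw [d.adjρ, Y.adj, h.ρ, Y.adj, dD.adjρ]

end LpP

open LpP

variable {D : Dv}

theorem exists_tripV (d : VD D.fr) (k : ℕ) : ∃ t : Trip D,
    t.am = ellO (d.μ - (1 / 2 : ℂ) • 1) d.ρ k ∧ t.ap = ellO (d.μ + (1 / 2 : ℂ) • 1) d.ρ k :=
  ⟨⟨_, _, isEv_ellO (d.evμ.sub (IsEv.one.smul _)) d.evρ k,
    isEv_ellO (d.evμ.add (IsEv.one.smul _)) d.evρ k,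
    adj_ellO (fun v w => by simp [d.adjμ]; ring) d.adjρ k, _, up_ellO k, up_ellO k⟩, rfl, rfl⟩

theorem Pz.Cmp.nat {ε : ℂ} {Y : Pz D ε} {d : VD Y.fr} {dD : VD D.fr} (h : Y.Cmp d dD) {k : ℕ}
    {t : Trip D} (ht : t.am = ellO (dD.μ - (1 / 2 : ℂ) • 1) dD.ρ k) : Y.Nat (d.ell k) t := by
  refine ⟨⟨(d.quad_ell k).ev, (d.quad_ell k).adj, _, d.up_ell k⟩, fun y => ?_⟩
  rw [ht, ell_eq]
  exact (ll_ellO (fun x => (h.μ x).symm) (fun x => (h.ρ x).symm) k y).symm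

theorem htL_ell {Y1 : Pz D 1} {Y2 : Pz D (-1)} {d1 : VD Y1.fr} {d2 : VD Y2.fr} {dD : VD D.fr}
    (c1 : Y1.Cmp d1 dD) (c2 : Y2.Cmp d2 dD) {X : Coh} {i : X.H →ₗ[ℂ] CH Y1 Y2}
    {μ ρ : Module.End ℂ X.H}
    (hμ : HtH i d1.μ d2.μ (dD.μ - (1 / 2 : ℂ) • 1) (dD.μ + (1 / 2 : ℂ) • 1) μ)
    (hρ : HtH i d1.ρ d2.ρ dD.ρ dD.ρ ρ) {k : ℕ} {t : Trip D}
    (hm : t.am = ellO (dD.μ - (1 / 2 : ℂ) • 1) dD.ρ k)
    (hp : t.ap = ellO (dD.μ + (1 / 2 : ℂ) • 1) dD.ρ k) :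
    HtL i (d1.ell k) (d2.ell k) t (ellO μ ρ k) := by
  set M : Module.End ℂ (CH Y1 Y2) := (d1.μ.prodMap d2.μ).prodMap
    ((dD.μ - (1 / 2 : ℂ) • 1).prodMap (dD.μ + (1 / 2 : ℂ) • 1)) with hM
  set R : Module.End ℂ (CH Y1 Y2) := (d1.ρ.prodMap d2.ρ).prodMap (dD.ρ.prodMap dD.ρ) with hR
  have h1 : Ht i (qC Y1 Y2) M μ := ⟨fun y => by
    simp [hM, Pz.pcH, gys_μ c1, gys_μ c2, c1.μ, c2.μ, smul_sub, sub_sub_sub_comm], hμ⟩
  have h2 : Ht i (qC Y1 Y2) R ρ := ⟨fun y => by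
    simp [hR, Pz.pcH, gys_ρ c1, gys_ρ c2, c1.ρ, c2.ρ], hρ⟩
  intro x
  obtain ⟨y, hy⟩ := (h1.ellO h2 k).ht x
  refine ⟨y, fun n => Eq.trans ?_ (DFunLike.congr_fun hy n)⟩
  have e : ∀ {V : Type} [AddCommGroup V] [Module ℂ V] (π : CH Y1 Y2 →ₗ[ℂ] V)
      {a b : Module.End ℂ V}, (∀ z, a (π z) = π (M z)) → (∀ z, b (π z) = π (R z)) →
      ellO a b k (ll (π ∘ₗ i) x) n = π (ellO M R k (ll i x) n) := fun π a b ha hb => by
    rw [← ll_apply π, ← ll_ellO ha hb]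
    congr 2
    ext j
    rfl
  rw [hm, hp, ell_eq, ell_eq]
  exact Prod.ext (Prod.ext (e (fst ℂ _ _ ∘ₗ fst ℂ _ _) (fun _ => rfl) fun _ => rfl)
      (e (snd ℂ _ _ ∘ₗ fst ℂ _ _) (fun _ => rfl) fun _ => rfl))
    (Prod.ext (e (fst ℂ _ _ ∘ₗ snd ℂ _ _) (fun _ => rfl) fun _ => rfl)
      (e (snd ℂ _ _ ∘ₗ snd ℂ _ _) (fun _ => rfl) fun _ => rfl))

theorem exists_tripS (P : Module.End ℂ (LL ℂ)) (h : Qd D.fr (tns P 1)) : ∃ t : Trip D,
    (∀ {ε : ℂ} (Y : Pz D ε), Qd Y.fr (tns P 1) → Y.Nat (tns P 1) t) ∧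
    ∀ {Y1 : Pz D 1} {Y2 : Pz D (-1)} {X : Coh} (i : X.H →ₗ[ℂ] CH Y1 Y2),
      HtL i (tns P 1) (tns P 1) t (tns P 1) := by
  refine ⟨⟨_, _, h.ev, h.ev, h.adj, h.up.imp fun _ hn => ⟨hn, hn⟩⟩,
    fun Y hY => ⟨hY, fun y => (ll_tns P _ y).symm⟩, fun i x => ⟨0, fun n => ?_⟩⟩
  simp only [ll_tns, ll_apply, Finsupp.zero_apply, map_zero, add_zero]
  rfl

end Vale.Agent.P269.Deg
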