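import Vale.Agent.P269.Deg.Act

/-! The main lemma of the degeneration algebra. -/

namespace Vale.Agent.P269.Deg

open Fock LinearMap TensorProduct Fn

section ring

variable {K : Type*} [CommRing K] [Algebra ℚ K] {Um Up : Type*} [AddCommGroup Um] [Module K Um]
  [AddCommGroup Up] [Module K Up] {A B : Type*} [Ring A] [Algebra K A] [Ring B] [Algebra K B]
  {s : SPar K B} {sA : SPar K A} {b : Bs K Um Up}
  {V : Type*} [AddCommGroup V] [Module K V] {p : Par K V}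
  {T T1 T2 Z Z' : Type*} [AddCommGroup T] [Module K T] [AddCommGroup T1] [Module K T1]
  [AddCommGroup T2] [Module K T2] [AddCommGroup Z] [Module K Z] [AddCommGroup Z'] [Module K Z']

/-- The rubber part of a natural operator. -/
noncomputable def BOp.Kc (Ob : BOp b) (R : Fn b.ms sA) (U : Fn b.uni sA) : Fn b.pm sA :=
  -pull _ b.isEv_u0 (Ob.G0 R U)

namespace Pc

variable (P : Pc b T) (P1 : Pc b T1) (P2 : Pc b T2) (h : Rg sA s)

/-- The relative constraint for a left piece. -/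
def RVL (O : Op P.p) (F : Fn P.p s) (M : Fn b.pm sA) (κ : K) : Prop :=
  O.act s F = F * h.emb _ P.hres M + κ • F

/-- The relative constraint for a right piece. -/
def RVR (O : Op P.p) (F : Fn P.p s) (M : Fn b.pm sA) (κ : K) : Prop :=
  O.act s F = h.emb _ P.hres M * F + κ • F

/-- The constraint for the glued series on the matching pairs. -/
def VW (Ob : BOp b) (O1 : Op P1.p) (O2 : Op P2.p) (F1 : Fn P1.p s) (F2 : Fn P2.p s)
    (U : Fn b.uni sA) (κ : K) : Prop :=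
  Res0 (W0 P1 P2) ((Ob.top O1 O2).act s (Sw P1 P2 h F1 F2 U) - κ • Sw P1 P2 h F1 F2 U)

variable {P P1 P2 h} {Ob : BOp b} {O : Op P.p} {O1 : Op P1.p} {O2 : Op P2.p} {F : Fn P.p s}
  {F1 : Fn P1.p s} {F2 : Fn P2.p s} {R : Fn b.ms sA} {U : Fn b.uni sA}

lemma pull_Φ {θ1 : V →ₗ[K] T1} {θ2 : V →ₗ[K] T2} (h1 : IsEv p P1.p θ1) (h2 : IsEv p P2.p θ2)
    {m : V →ₗ[K] Um} (hm : IsEv p b.pm m) (e1 : ∀ v, P1.res (θ1 v) = m v)
    (e2 : ∀ v, P2.res (θ2 v) = m v) (X : Fn b.uni sA) :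
    pull _ (isEv_comp (isEv_inl _ b.gh) (isEv_prod h1 h2)) (Φ P1 P2 h X) =
      h.emb m hm (pull _ b.isEv_u0 X) := by
  rw [Φ, h.pull_emb _ _ _ _ _ (isEv_comp b.isEv_u0 hm) fun _ => by simp [e1, e2],
    h.emb_pull _ _ _ _ _ (isEv_comp b.isEv_u0 hm) fun _ => rfl]

lemma pull_f1 {θ1 : V →ₗ[K] T1} {θ2 : V →ₗ[K] T2} (h1 : IsEv p P1.p θ1) (h2 : IsEv p P2.p θ2)
    (G : Fn P1.p s) : pull _ (isEv_comp (isEv_inl _ b.gh) (isEv_prod h1 h2)) (f1 P1 P2 s G) =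
      pull _ h1 G := pull_pull _ _ _ _ _ h1 (fun _ => rfl) G

lemma pull_f2 {θ1 : V →ₗ[K] T1} {θ2 : V →ₗ[K] T2} (h1 : IsEv p P1.p θ1) (h2 : IsEv p P2.p θ2)
    (G : Fn P2.p s) : pull _ (isEv_comp (isEv_inl _ b.gh) (isEv_prod h1 h2)) (f2 P1 P2 s G) =
      pull _ h2 G := pull_pull _ _ _ _ _ h2 (fun _ => rfl) G

lemma _root_.Vale.Agent.P269.Deg.Bs.IsU.u0 (hU : Bs.IsU R U) : pull _ b.isEv_u0 U = 1 := by
  rw [← pull_pull _ (isEv_inl b.pm b.pp.opp) _ (isEv_inr b.wr b.ms) _ _ fun _ => rfl, ← Bs.r0,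
    hU.one, map_one]

lemma pull_Sw_U {θ1 : V →ₗ[K] T1} {θ2 : V →ₗ[K] T2} (h1 : IsEv p P1.p θ1) (h2 : IsEv p P2.p θ2)
    (e : ∀ v, P1.res (θ1 v) = P2.res (θ2 v)) (hU : Bs.IsU R U) (hL : ∀ x, F1.ap x ∈ h.NL) :
    pull _ (isEv_comp (isEv_inl _ b.gh) (isEv_prod h1 h2)) (Sw P1 P2 h F1 F2 U) =
      pull _ h1 F1 * pull _ h2 F2 := by
  rw [Sw_apply, map_mul, map_mul, pull_Φ h1 h2 (isEv_comp P2.hres h2) e fun _ => rfl, hU.u0, f1, f2,
    pull_pull _ _ _ _ _ h1 fun _ => rfl, pull_pull _ _ _ _ _ h2 fun _ => rfl,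
    h.mul_emb_one _ _ (pull_mem hL _ _)]

/-- The constraint on the matching pairs in terms of the pieces. -/
theorem VW.glue {κ : K} (hV : VW P1 P2 h Ob O1 O2 F1 F2 U κ) (c1 : P1.Comp 1 O1 Ob)
    (c2 : P2.Comp (-1) O2 Ob) (e1 : τ F1 = F1) (hL : ∀ x, F1.ap x ∈ h.NL) (f1 : P1.FlL h F1 R)
    (f2 : P2.FlR h F2 R) (hU : Bs.IsU R U) {θ1 : V →ₗ[K] T1} {θ2 : V →ₗ[K] T2}
    (h1 : IsEv p P1.p θ1) (h2 : IsEv p P2.p θ2) {m : V →ₗ[K] Um} (hm : IsEv p b.pm m)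
    (r1 : ∀ v, P1.res (θ1 v) = m v) (r2 : ∀ v, P2.res (θ2 v) = m v) :
    pull _ h1 (O1.act s F1) * pull _ h2 F2 + pull _ h1 F1 * pull _ h2 (O2.act s F2) -
      pull _ h1 F1 * h.emb m hm (Ob.Kc R U) * pull _ h2 F2 - κ • (pull _ h1 F1 * pull _ h2 F2) =
      0 := by
  have := hV.pull _ (isEv_comp (isEv_inl _ b.gh) (isEv_prod h1 h2)) fun _ => by
    simp [mem_W0, r1, r2]
  rw [act_Sw c1 c2 e1 f1 f2 hU.ev, map_sub, map_smul, map_add, map_add,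
    pull_Sw_U h1 h2 (fun v => (r1 v).trans (r2 v).symm) hU hL, Sw_apply] at this
  simp only [map_mul, pull_Φ h1 h2 hm r1 r2, hU.u0, pull_f1 h1 h2, pull_f2 h1 h2] at this
  rw [h.mul_emb_one _ _ (pull_mem hL _ _), h.mul_emb_one _ _ (pull_mem (O1.act_mem hL) _ _)] at this
  rw [BOp.Kc, map_neg, mul_neg, neg_mul, sub_neg_eq_add]
  exact this

/-- A function of `u + w`. -/
noncomputable def m1 (b : Bs K Um Up) (sA : SPar K A) : Fn b.pm sA →ₐ[K] Fn b.uni sA :=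
  (b.e1 sA).comp (pull _ (isEv_fst _ _))

/-- A function of `u`. -/
noncomputable def m2 (b : Bs K Um Up) (sA : SPar K A) : Fn b.pm sA →ₐ[K] Fn b.uni sA :=
  (b.e2 sA).comp (pull _ (isEv_fst _ _))

theorem act_Sw_of_rv {M M' : Fn b.pm sA} {κ1 κ2 : K} (c1 : P1.Comp 1 O1 Ob)
    (c2 : P2.Comp (-1) O2 Ob) (e1 : τ F1 = F1) (f1 : P1.FlL h F1 R) (f2 : P2.FlR h F2 R)
    (hU : τ U = U) (v1 : P1.RVL h O1 F1 M κ1) (v2 : P2.RVR h O2 F2 M' κ2) :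
    (Ob.top O1 O2).act s (Sw P1 P2 h F1 F2 U) - (κ1 + κ2) • Sw P1 P2 h F1 F2 U =
      Sw P1 P2 h F1 F2 (m1 b sA M * U + U * m2 b sA M' + Ob.G0 R U) := by
  have a1 : Pc.f1 P1 P2 s (h.emb _ P1.hres M) = Φ P1 P2 h (m1 b sA M) := by
    have hk := isEv_comp P1.hres (isEv_p1 P1 P2)
    rw [Pc.f1, h.pull_emb _ _ _ _ _ hk fun _ => rfl, Φ, m1, AlgHom.comp_apply, Bs.e1,
      pull_pull _ _ _ _ _ (isEv_comp (isEv_fst _ _) b.isEv_ρ1) fun _ => rfl,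
      h.emb_pull _ _ _ _ _ hk fun _ => by simp]
  have a2 : Pc.f2 P1 P2 s (h.emb _ P2.hres M') = Φ P1 P2 h (m2 b sA M') := by
    have hk := isEv_comp P2.hres (isEv_p2 P1 P2)
    rw [Pc.f2, h.pull_emb _ _ _ _ _ hk fun _ => rfl, Φ, m2, AlgHom.comp_apply, Bs.e2,
      pull_pull _ _ _ _ _ (isEv_comp (isEv_fst _ _) (isEv_snd _ _)) fun _ => rfl,
      h.emb_pull _ _ _ _ _ hk fun _ => by simp]
  rw [act_Sw c1 c2 e1 f1 f2 hU, v1, v2]
  simp only [map_add, map_mul, map_smul, a1, a2, Sw_apply, Φ_mul, add_mul, mul_add, mul_assoc,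
    smul_mul_assoc, mul_smul_comm, add_smul]
  abel

end Pc

namespace Cp

variable {h : Rg sA s} {P : Cp b T Z} {P' : Cp b T1 Z'} {Ob : BOp b} {O : Op P.p} {O' : Op P'.p}
  {F : Fn P.p s} {F' : Fn P'.p s} {R : Fn b.ms sA} {U : Fn b.uni sA} {M M' : Fn b.pm sA}
  {κ κ1 κ2 : K}

/-- The absolute constraint gives the relative constraint of a left piece. -/
theorem CanR.rvl {P1 : Pc b T1} {O1 : Op P1.p} {F1 : Fn P1.p s} (hF : P.CanR h F)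
    (hV : Pc.VW P1 P.toPc h Ob O1 O F1 F U κ) (c1 : P1.Comp 1 O1 Ob) (c2 : P.Comp (-1) O Ob)
    (e1 : τ F1 = F1) (hL : ∀ x, F1.ap x ∈ h.NL) (f1 : P1.FlL h F1 R) (f2 : P.FlR h F R)
    (hU : Bs.IsU R U) (v2 : P.RVR h O F M' κ2) : P1.RVL h O1 F1 (Ob.Kc R U - M') (κ - κ2) := by
  have hm := isEv_comp P1.hres (isEv_fst P1.p P.pz)
  have := hV.glue c1 c2 e1 hL f1 f2 hU (isEv_fst P1.p P.pz) (P.isEv_pt P1.hres) hm (fun _ => rfl)
    fun _ => by simp [P.res_sec, P.res_nul]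
  rw [v2, map_add, map_mul, map_smul,
    h.pull_emb _ _ _ _ _ hm fun _ => by simp [P.res_sec, P.res_nul],
    ← h.pull_emb _ P1.hres _ (isEv_fst _ _) _ hm fun _ => rfl,
    ← h.pull_emb _ P1.hres _ (isEv_fst _ _) _ hm fun _ => rfl] at this
  refine sub_eq_zero.1 (hF.cancel P1.hres (fun x => sub_mem (O1.act_mem hL x) (add_mem
    (h.mul_emb_mem _ _ h.σNL h.NLm hL _ x) (h.NL.smul_mem _ (hL x)))) ?_)
  rw [← this]
  simp only [map_sub, map_add, map_mul, map_smul, sub_mul, add_mul, mul_add, mul_sub, mul_assoc,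
    smul_mul_assoc, mul_smul_comm, sub_smul]
  abel

/-- The absolute constraint gives the relative constraint of a right piece. -/
theorem CanL.rvr {P2 : Pc b T2} {O2 : Op P2.p} {F2 : Fn P2.p s} (hF : P'.CanL h F')
    (hV : Pc.VW P'.toPc P2 h Ob O' O2 F' F2 U κ) (c1 : P'.Comp 1 O' Ob) (c2 : P2.Comp (-1) O2 Ob)
    (hL : ∀ x, F'.ap x ∈ h.NL) (hR : ∀ x, F2.ap x ∈ h.NR) (f1 : P'.FlL h F' R)
    (f2 : P2.FlR h F2 R) (hU : Bs.IsU R U) (v1 : P'.RVL h O' F' (Ob.Kc R U - M') κ1) :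
    P2.RVR h O2 F2 M' (κ - κ1) := by
  have hm := isEv_comp P2.hres (isEv_fst P2.p P'.pz)
  have := hV.glue c1 c2 hF.ev hL f1 f2 hU (P'.isEv_pt P2.hres) (isEv_fst P2.p P'.pz) hm
    (fun _ => by simp [P'.res_sec, P'.res_nul]) fun _ => rfl
  rw [v1, map_add, map_mul, map_smul,
    h.pull_emb _ _ _ _ _ hm fun _ => by simp [P'.res_sec, P'.res_nul],
    ← h.pull_emb _ P2.hres _ (isEv_fst _ _) _ hm fun _ => rfl,
    ← h.pull_emb _ P2.hres _ (isEv_fst _ _) _ hm fun _ => rfl] at this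
  refine sub_eq_zero.1 (hF.cancel P2.hres (fun x => sub_mem (O2.act_mem hR x) (add_mem
    (h.emb_mul_mem _ _ h.NRm hR _ x) (h.NR.smul_mem _ (hR x)))) ?_)
  rw [← this]
  simp only [map_sub, map_add, map_mul, map_smul, sub_mul, add_mul, mul_add, mul_sub, mul_assoc,
    smul_mul_assoc, mul_smul_comm, sub_smul]
  abel

/-- The rubber equation: the universal defect is exact. -/
theorem exists_defect (h' : P'.CanL h F') (hL : ∀ x, F'.ap x ∈ h.NL) (hF : P.CanR h F)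
    (f1 : P'.FlL h F' R) (f2 : P.FlR h F R) (hU : Bs.IsU R U) (c1 : P'.Comp 1 O' Ob)
    (c2 : P.Comp (-1) O Ob) (v1 : P'.RVL h O' F' (Ob.Kc R U - M') κ1) (v2 : P.RVR h O F M' κ2) :
    ∃ Y, Bs.Qh R Y = Pc.m1 b sA (Ob.Kc R U - M') * U + U * Pc.m2 b sA M' + Ob.G0 R U := by
  have e := Pc.act_Sw_of_rv c1 c2 h'.ev f1 f2 hU.ev v1 v2
  refine Bs.exact_Qh (h'.τ_R f1) (Qh_Qh h' hL hF f1 f2) (Bs.r0_eq_zero ?_ ?_) ?_
  · refine Sw_inj h' hL hF ?_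
    rw [← Pc.tn_Sw, ← e, map_sub, map_smul, BOp.cm_tn.comm, Pc.tn_Sw, hU.gh]
    simp
  · rw [Bs.r0, pull_pull _ _ _ _ _ b.isEv_u0 fun _ => rfl, map_add, map_add, map_mul, map_mul,
      hU.u0, Pc.m1, Pc.m2, AlgHom.comp_apply, AlgHom.comp_apply, Bs.e1, Bs.e2,
      pull_pull _ _ _ _ _ (isEv_inl _ _) fun _ => by simp,
      pull_pull _ _ _ _ _ (isEv_inl _ _) fun _ => by simp, pull_pull_id _ _ _ _ fun _ => rfl,
      pull_pull_id _ _ _ _ fun _ => rfl, BOp.Kc]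
    simp
  · refine Sw_inj h' hL hF ?_
    rw [← Pc.tq_Sw h'.ev f1 f2, ← e, map_sub, map_smul, (BOp.cm_tq c1 c2).comm,
      Pc.tq_Sw h'.ev f1 f2, hU.cl]
    simp

end Cp

/-- **Main lemma.** The relative constraints of two pieces give the constraint for the refined
glued series, up to an exact term. -/
theorem Pc.main {h : Rg sA s} {P1 : Pc b T1} {P2 : Pc b T2} {Ob : BOp b} {O1 : Op P1.p}
    {O2 : Op P2.p} {F1 : Fn P1.p s} {F2 : Fn P2.p s} {R : Fn b.ms sA} {U : Fn b.uni sA}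
    {M M' : Fn b.pm sA} {κ1 κ2 : K} (c1 : P1.Comp 1 O1 Ob) (c2 : P2.Comp (-1) O2 Ob)
    (e1 : τ F1 = F1) (f1 : P1.FlL h F1 R) (f2 : P2.FlR h F2 R) (hU : τ U = U)
    (v1 : P1.RVL h O1 F1 M κ1) (v2 : P2.RVR h O2 F2 M' κ2)
    (hY : ∃ Y, Bs.Qh R Y = Pc.m1 b sA M * U + U * Pc.m2 b sA M' + Ob.G0 R U) :
    ∃ Y, (Ob.top O1 O2).act s (Pc.Sw P1 P2 h F1 F2 U) - (κ1 + κ2) • Pc.Sw P1 P2 h F1 F2 U =
      Vf (P1.tq P2) Y := by
  obtain ⟨Y, hY⟩ := hY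
  exact ⟨_, by rw [Pc.act_Sw_of_rv c1 c2 e1 f1 f2 hU v1 v2, Pc.tq_Sw e1 f1 f2, hY]⟩

end ring

section field

variable {K : Type*} [Field K] [Algebra ℚ K] {Um Up : Type*} [AddCommGroup Um] [Module K Um]
  [AddCommGroup Up] [Module K Up] {A B : Type*} [Ring A] [Algebra K A] [Ring B] [Algebra K B]
  {s : SPar K B} {sA : SPar K A} {b : Bs K Um Up}
  {V : Type*} [AddCommGroup V] [Module K V] {p : Par K V}
  {T T' Z Z' : Type*} [AddCommGroup T] [Module K T] [AddCommGroup T'] [Module K T']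
  [AddCommGroup Z] [Module K Z] [AddCommGroup Z'] [Module K Z']

namespace Cp

/-- The two caps of a divisor. -/
structure Caps (h : Rg sA s) (P' : Cp b T' Z') (P : Cp b T Z) (F' : Fn P'.p s) (F : Fn P.p s) :
    Prop where
  canL : P'.CanL h F'
  canR : P.CanR h F
  memL : ∀ x, F'.ap x ∈ h.L
  memR : ∀ x, F.ap x ∈ h.R
  tl : ∀ (E : S P'.pz →ₗ[K] B) (M : S P.pz →ₗ[K] B), (∀ x, E x ∈ h.L) → (∀ y, M y ∈ h.R) →
    (∀ x y, E x * (pull _ P.hnul F).ap y = (pull _ P'.hnul F').ap x * M y) →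
      ∃ X : A, (∀ x, E x = (pull _ P'.hnul F').ap x * h.φ X) ∧
        ∀ y, M y = h.φ X * (pull _ P.hnul F).ap y

variable {h : Rg sA s} {P' : Cp b T' Z'} {P : Cp b T Z} {F' : Fn P'.p s} {F : Fn P.p s}

lemma Caps.memNL (hC : Caps h P' P F' F) (x : S P'.p) : F'.ap x ∈ h.NL := h.L_le (hC.memL x)

lemma Caps.memNR (hC : Caps h P' P F' F) (x : S P.p) : F.ap x ∈ h.NR := h.R_le (hC.memR x)

theorem Caps.transfer (hC : Caps h P' P F' F) {m : V →ₗ[K] Um} (hm : IsEv p b.pm m)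
    {E : Fn (p.prod P'.pz) s} {M : Fn (p.prod P.pz) s} (hE : ∀ x, E.ap x ∈ h.L)
    (hM : ∀ x, M.ap x ∈ h.R)
    (e : pull _ (isEv_j1 p P'.pz P.pz) E * pull _ (isEv_j2 p P'.pz P.pz) (pull _ (P.isEv_pt hm) F) =
      pull _ (isEv_j1 p P'.pz P.pz) (pull _ (P'.isEv_pt hm) F') * pull _ (isEv_j2 p P'.pz P.pz) M) :
    ∃ X : Fn p sA, E = pull _ (P'.isEv_pt hm) F' * h.emb _ (isEv_fst _ _) X ∧
      M = h.emb _ (isEv_fst _ _) X * pull _ (P.isEv_pt hm) F :=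
  Fn.transfer h.σφ h.σL h.σR h.Lm h.Rm (by rw [τ_pull, hC.canL.ev]) (by rw [τ_pull, hC.canR.ev])
    (pull_mem hC.memL _ _) (pull_mem hC.memR _ _) (by rw [pull_inr_pt hm]; exact hC.canL.inj)
    (by rw [pull_inr_pt hm, pull_inr_pt hm]; exact hC.tl) hE hM e

/-- The connection of the divisor. -/
theorem Caps.exists_R (hC : Caps h P' P F' F) (hK : P'.Kinv P.toPc F' F) :
    ∃ R, P'.FlL h F' R ∧ P.FlR h F R := by
  have hm := isEv_fst b.pm b.pp.opp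
  have hα' : IsEv (b.ms.prod P'.pz) P'.ts ((P'.pt (fst K _ _)).prod (snd K _ _ ∘ₗ fst K _ _)) :=
    isEv_prod (P'.isEv_pt hm) fun _ => rfl
  have hα : IsEv (b.ms.prod P.pz) P.ts ((P.pt (fst K _ _)).prod (snd K _ _ ∘ₗ fst K _ _)) :=
    isEv_prod (P.isEv_pt hm) fun _ => rfl
  have j1 := isEv_j1 b.ms P'.pz P.pz
  have j2 := isEv_j2 b.ms P'.pz P.pz
  have hθ : IsEv (b.ms.prod (P'.pz.prod P.pz)) (P'.tot P.toPc)
      (((P'.pt _ ∘ₗ _).prod (P.pt _ ∘ₗ _)).prod (inr K _ _ ∘ₗ snd K _ _ ∘ₗ fst K _ _)) :=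
    isEv_prod (isEv_prod (isEv_comp (P'.isEv_pt hm) j1) (isEv_comp (P.isEv_pt hm) j2))
      fun _ => by simp
  have := hK.pull _ hθ fun _ => by simp [Pc.mem_W1, P.res_sec, P.res_nul, P'.res_sec, P'.res_nul]
  rw [Vf_mul_od (Pc.isOd_tq _ _), Pc.tq_f1, Pc.tq_f2, Pc.τ_f1 hC.canL.ev, map_add, map_mul, map_mul,
    Pc.f1, Pc.f2, pull_pull _ _ _ _ _ (isEv_comp hα' j1) fun _ => rfl,
    pull_pull _ _ _ _ _ (isEv_comp (P.isEv_pt hm) j2) fun _ => rfl,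
    pull_pull _ _ _ _ _ (isEv_comp (P'.isEv_pt hm) j1) fun _ => rfl,
    pull_pull _ _ _ _ _ (isEv_comp hα j2) fun _ => rfl,
    ← pull_pull _ j1 _ hα' _ _ fun _ => rfl, ← pull_pull _ j2 _ (P.isEv_pt hm) _ _ fun _ => rfl,
    ← pull_pull _ j1 _ (P'.isEv_pt hm) _ _ fun _ => rfl,
    ← pull_pull _ j2 _ hα _ _ fun _ => rfl] at this
  obtain ⟨R, h1, h2⟩ := hC.transfer hm (E := pull _ hα' (Vf P'.iq (P'.f0 s F')))
    (M := -pull _ hα (Vf P.iq (P.f0 s F))) (pull_mem (P'.iq_mem hC.memL) _ _)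
    (fun x => neg_mem (pull_mem (P.iq_mem hC.memR) _ _ x))
    (by rw [map_neg, mul_neg]; exact eq_neg_of_add_eq_zero_left this)
  refine ⟨R, ?_, ?_⟩
  · have hβ := isEv_prod P'.isEv_rs (isEv_comp P'.hprj (isEv_fst P'.p b.pp.opp))
    have := congrArg (pull _ hβ) h1
    rwa [pull_pull_id _ _ _ _ fun _ => by simp [P'.split], map_mul,
      pull_pull _ _ _ _ _ (isEv_fst _ _) fun _ => by simp [P'.split],
      h.pull_emb _ _ _ _ _ P'.isEv_rs fun _ => rfl] at this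
  · have hβ := isEv_prod P.isEv_rs (isEv_comp P.hprj (isEv_fst P.p b.pp.opp))
    have := congrArg (pull _ hβ) h2
    rwa [map_neg, pull_pull_id _ _ _ _ fun _ => by simp [P.split], map_mul,
      pull_pull _ _ _ _ _ (isEv_fst _ _) fun _ => by simp [P.split],
      h.pull_emb _ _ _ _ _ P.isEv_rs fun _ => rfl, neg_eq_iff_eq_neg] at this

theorem Caps.exists_U (hC : Caps h P' P F' F) {R : Fn b.ms sA} (f1 : P'.FlL h F' R)
    (f2 : P.FlR h F R) : ∃ U, Bs.IsU R U :=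
  Bs.exists_U (hC.canL.τ_R f1) (hC.canL.mn_R f1) (Qh_Qh hC.canL hC.memNL hC.canR f1 f2)

/-- The relative constraints of the caps. -/
theorem Caps.exists_M (hC : Caps h P' P F' F) {Ob : BOp b} {O' : Op P'.p} {O : Op P.p}
    {R : Fn b.ms sA} {U : Fn b.uni sA} {κ : K} (hV : Pc.VW P'.toPc P.toPc h Ob O' O F' F U κ)
    (c1 : P'.Comp 1 O' Ob) (c2 : P.Comp (-1) O Ob) (f1 : P'.FlL h F' R) (f2 : P.FlR h F R)
    (hU : Bs.IsU R U) : ∃ M', P'.RVL h O' F' (Ob.Kc R U - M') κ ∧ P.RVR h O F M' 0 := by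
  have hm := isEv_id b.pm
  have j1 := isEv_j1 b.pm P'.pz P.pz
  have j2 := isEv_j2 b.pm P'.pz P.pz
  have := hV.glue c1 c2 hC.canL.ev hC.memNL f1 f2 hU (isEv_comp (P'.isEv_pt hm) j1)
    (isEv_comp (P.isEv_pt hm) j2) (isEv_fst _ _) (fun _ => by simp [P'.res_sec, P'.res_nul])
    fun _ => by simp [P.res_sec, P.res_nul]
  rw [← pull_pull _ j1 _ (P'.isEv_pt hm) _ _ fun _ => rfl,
    ← pull_pull _ j1 _ (P'.isEv_pt hm) _ _ fun _ => rfl,
    ← pull_pull _ j2 _ (P.isEv_pt hm) _ _ fun _ => rfl,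
    ← pull_pull _ j2 _ (P.isEv_pt hm) _ _ fun _ => rfl,
    ← h.pull_emb _ (isEv_fst _ _) _ j1 _ _ fun _ => rfl] at this
  obtain ⟨M', h1, h2⟩ := hC.transfer hm (E := κ • pull _ (P'.isEv_pt hm) F' -
      pull _ (P'.isEv_pt hm) (O'.act s F') +
      pull _ (P'.isEv_pt hm) F' * h.emb _ (isEv_fst _ _) (Ob.Kc R U))
    (M := pull _ (P.isEv_pt hm) (O.act s F))
    (fun x => add_mem (sub_mem (h.L.smul_mem _ (pull_mem hC.memL _ _ x))
      (pull_mem (O'.act_mem hC.memL) _ _ x))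
      (h.mul_emb_mem _ _ h.σL h.Lm (pull_mem hC.memL _ _) _ x))
    (pull_mem (O.act_mem hC.memR) _ _) (by
      rw [← sub_eq_zero, ← neg_eq_zero, ← this]
      simp only [map_add, map_sub, map_smul, map_mul, add_mul, sub_mul, smul_mul_assoc]
      abel)
  refine ⟨M', ?_, ?_⟩
  · have := congrArg (pull _ (isEv_prod P'.hres P'.hprj)) h1
    simp only [map_add, map_sub, map_smul, map_mul] at this
    rw [pull_pull_id _ _ _ _ fun _ => by simp [P'.split],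
      pull_pull_id _ _ _ _ fun _ => by simp [P'.split],
      h.pull_emb _ _ _ _ _ P'.hres fun _ => rfl, h.pull_emb _ _ _ _ _ P'.hres fun _ => rfl] at this
    rw [Pc.RVL, map_sub, mul_sub, ← this]
    abel
  · have := congrArg (pull _ (isEv_prod P.hres P.hprj)) h2
    rw [map_mul, pull_pull_id _ _ _ _ fun _ => by simp [P.split],
      pull_pull_id _ _ _ _ fun _ => by simp [P.split],
      h.pull_emb _ _ _ _ _ P.hres fun _ => rfl] at this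
    rw [Pc.RVR, this, zero_smul, add_zero]

end Cp

end field

end Vale.Agent.P269.Deg
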