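import Vale.Agent.P269.Deg.Df

/-! Splittings of a cohomology space. -/

namespace Vale.Agent.P269.Deg

open Fock Finset LinearMap

/-- `H = U ⊕ V`, `V` has pure parity `ε`, `π` is the projection onto `V`. -/
structure Spl (X : Coh) (ε : ℂ) (U V : Submodule ℂ X.H) (π : Module.End ℂ X.H) : Prop where
  form : Inv.IsForm X.fr.η V ε
  orth : ∀ a ∈ U, ∀ v ∈ V, X.fr.η a v = 0
  σU : ∀ a ∈ U, X.p.σ a ∈ U
  σV : ∀ v ∈ V, X.p.σ v = ε • v
  one : X.fr.one ∈ U
  πV : ∀ x, π x ∈ V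
  πU : ∀ x, x - π x ∈ U

/-- The projection onto the primitive part. -/
noncomputable def Prim.π {X : Coh} {ε : ℂ} {d : VD X.fr} (pr : Prim X d ε) : Module.End ℂ X.H :=
  Inv.proj X.fr.η pr.e pr.f

/-- The classes of the total space as cocycles of the complex of the two pieces. -/
noncomputable def Sm.iW {D : Dv} {Y1 : Pz D 1} {Y2 : Pz D (-1)} (X : Sm Y1 Y2) :
    X.W →ₗ[ℂ] CH Y1 Y2 := (X.θ1.prod X.θ2).prod 0

end Vale.Agent.P269.Deg
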