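import Vale.Agent.P269.Deg.Ext
import Vale.Agent.P269.Deg.Sd

/-! A model of the series of invariants by formal functions with values in matrices. -/

namespace Vale.Agent.P269.Deg

open Fock Finset LinearMap Fn

/-- Laurent series in the Planck constant. -/
abbrev KK : Type := Hat ℂ ℂ

/-- The parity of the node insertions. -/
noncomputable abbrev pN : Par ℂ NN := Par.triv ℂ NN

/-- The product of functions on two spaces. -/
noncomputable abbrev bx {V W B : Type} [AddCommGroup V] [Module ℂ V] [AddCommGroup W] [Module ℂ W]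
    [Ring B] [Algebra ℂ B] {p : Par ℂ V} {q : Par ℂ W} {s : SPar ℂ B} (F : Fn p s) (G : Fn q s) :
    Fn (p.prod q) s := pull _ (isEv_fst p q) F * pull _ (isEv_snd p q) G

variable {Γ : Type} [AddCommGroup Γ] (g : Grd Γ) (D : Dv)

/-- Relative series of left pieces are rows, relative series of right pieces are columns. -/
structure Mdl where
  A : Type
  B : Type
  [rA : Ring A]
  [cA : Algebra ℂ A]
  [kA : Algebra KK A]
  [tA : IsScalarTower ℂ KK A]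
  [rB : Ring B]
  [cB : Algebra ℂ B]
  [kB : Algebra KK B]
  [tB : IsScalarTower ℂ KK B]
  sA : SPar ℂ A
  s : SPar ℂ B
  [lA : sA.Lin KK]
  [lB : s.Lin KK]
  h : Rg sA s
  lin : h.Lin KK
  row : ∀ {X : Coh} (F : Ser Γ (pR X.p D)), F.RelL g → Fn (pT X.p) s
  col : ∀ {X : Coh} (F : Ser Γ (pR X.p D)), F.RelR g → Fn (pT X.p) s
  ab : ∀ {X : Coh} (Z : Ser Γ (pT X.p)), Z.Abs g → Fn (pT X.p) s
  row_ev : ∀ {X : Coh} (F : Ser Γ (pR X.p D)) hF, τ (row F hF) = row F hF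
  row_mem : ∀ {X : Coh} (F : Ser Γ (pR X.p D)) hF x, (row F hF).ap x ∈ h.NL
  col_mem : ∀ {X : Coh} (F : Ser Γ (pR X.p D)) hF x, (col F hF).ap x ∈ h.NR
  g1 : ∀ {Y1 : Pz D 1} {Y2 : Pz D (-1)} (X : Sm Y1 Y2) F hF G hG Z hZ, X.G1 g F G Z →
    pull _ (isEv_lp X.hsp) (ab Z hZ) = pull _ X.isEv_θ (bx (row F hF) (col G hG))
  g2 : ∀ {P' : Cz D 1} {P : Pz D (-1)} (X : Sm P'.toPz P) F0 h0 F1 h1 G hG t,
    G2 g X F0 F1 G t → ∀ v : VV D.H,
      pull _ X.isEv_θ0 (Fn.D ((vv P'.gys v, 0), (-vv P.gys v, 0)) (bx (row F1 h1) (col G hG)) +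
        t • Fn.D ((vv P'.sec v, 0), 0) (bx (row F0 h0) (col G hG))) = 0
  canR : ∀ (P : Cz D (-1)) F hF (s : ℕ), 0 < s → G3 g P F g.ξ s →
    ((P.cp sqm).xt pN).CanR h (col F hF)
  caps : ∀ c : CapIn g D, Cp.Caps h ((c.P'.cp sq1).xt pN) ((c.P.cp sqm).xt pN)
    (row c.F' c.relL) (col c.F c.relR)
  node : ∀ {X : Coh} (Z : Ser Γ (pT X.p)) hZ, Z.Node → ∀ m n,
    Fn.D (0, Finsupp.single (m, n) 1) (ab Z hZ) =
      (hb : KK) • Dx (Fock.map _ (isEv_inl _ _) (dd X.fr m n)) (ab Z hZ)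
  vir : ∀ {X : Coh} (d : VD X.fr) (Z : Ser Γ (pT X.p)) hZ, VirD g d Z ↔
    ∀ k, Cns X.fr hb (z0 (ab Z hZ)).ap (d.ell k) (algebraMap ℂ KK (if k = 1 then -d.c0 else 0))
  inv : ∀ {X : Coh} (Z : Ser Γ (pT X.p)) hZ (a : Module.End ℂ X.H) (he : IsEv X.p X.p a),
    (∀ β j x, Z β j (Fock.map _ (isEv_inl _ _) (Fock.map _ (isEv_vv he) x)) =
      Z β j (Fock.map _ (isEv_inl _ _) x)) →
    ∀ x, (z0 (ab Z hZ)).ap (Fock.map _ (isEv_vv he) x) = (z0 (ab Z hZ)).ap x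

attribute [instance] Mdl.rA Mdl.cA Mdl.kA Mdl.tA Mdl.rB Mdl.cB Mdl.kB Mdl.tB Mdl.lA Mdl.lB

end Vale.Agent.P269.Deg
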