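import Vale.Agent.P269.Deg.Sc

/-! The main lemma of the degeneration algebra with a Planck constant. -/

set_option linter.unusedSectionVars false

namespace Vale.Agent.P269.Deg

open Fock LinearMap TensorProduct Fn

section ring

variable {K : Type*} [CommRing K] [Algebra ℚ K] {𝕂 : Type*} [CommRing 𝕂] [Algebra K 𝕂]
  {Um Up : Type*} [AddCommGroup Um] [Module K Um]
  [AddCommGroup Up] [Module K Up] {A B : Type*} [Ring A] [Algebra K A] [Ring B] [Algebra K B]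
  [Algebra 𝕂 A] [IsScalarTower K 𝕂 A] [Algebra 𝕂 B] [IsScalarTower K 𝕂 B]
  {s : SPar K B} {sA : SPar K A} [s.Lin 𝕂] [sA.Lin 𝕂] {b : Bs K Um Up}
  {V : Type*} [AddCommGroup V] [Module K V] {p : Par K V}
  {T T1 T2 Z Z' : Type*} [AddCommGroup T] [Module K T] [AddCommGroup T1] [Module K T1]
  [AddCommGroup T2] [Module K T2] [AddCommGroup Z] [Module K Z] [AddCommGroup Z'] [Module K Z']
  (ħ : 𝕂ˣ)

/-- The action on the gluing kernel. -/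
noncomputable def BOp.Gw (Ob : BOp b) (R : Fn b.ms sA) (X : Fn b.uni sA) : Fn b.uni sA :=
  Ob.uop.ac ħ X + (ħ : 𝕂) • (Ob.G0 R X - Ob.uop.act sA X)

/-- The rubber part of a natural operator. -/
noncomputable def BOp.Kw (Ob : BOp b) (R : Fn b.ms sA) (U : Fn b.uni sA) : Fn b.pm sA :=
  -pull _ b.isEv_u0 (Ob.Gw ħ R U)

namespace Pc

variable (P : Pc b T) (P1 : Pc b T1) (P2 : Pc b T2) (h : Rg sA s)

/-- The relative constraint for a left piece. -/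
def RL (O : Op P.p) (F : Fn P.p s) (M : Fn b.pm sA) (κ : 𝕂) : Prop :=
  O.ac ħ F = F * h.emb _ P.hres M + κ • F

/-- The relative constraint for a right piece. -/
def RR (O : Op P.p) (F : Fn P.p s) (M : Fn b.pm sA) (κ : 𝕂) : Prop :=
  O.ac ħ F = h.emb _ P.hres M * F + κ • F

/-- The constraint for the glued series on the matching pairs. -/
def VM (Ob : BOp b) (O1 : Op P1.p) (O2 : Op P2.p) (F1 : Fn P1.p s) (F2 : Fn P2.p s)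
    (U : Fn b.uni sA) (κ : 𝕂) : Prop :=
  Res0 (W0 P1 P2) ((Ob.top O1 O2).ac ħ (Sw P1 P2 h F1 F2 U) - κ • Sw P1 P2 h F1 F2 U)

variable {ħ P P1 P2 h} {Ob : BOp b} {O : Op P.p} {O1 : Op P1.p} {O2 : Op P2.p} {F : Fn P.p s}
  {F1 : Fn P1.p s} {F2 : Fn P2.p s} {R : Fn b.ms sA} {U : Fn b.uni sA}

lemma Φ_sc (l : h.Lin 𝕂) (c : 𝕂) (X : Fn b.uni sA) :
    Φ P1 P2 h (c • X) = c • Φ P1 P2 h X := l.emb _ _ c X

lemma Sw_sc (l : h.Lin 𝕂) (c : 𝕂) (X : Fn b.uni sA) :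
    Sw P1 P2 h F1 F2 (c • X) = c • Sw P1 P2 h F1 F2 X := by
  rw [Sw_apply, Φ_sc l, mul_sc, sc_mul, Sw_apply]

theorem ac_Sw (l : h.Lin 𝕂) (c1 : P1.Comp 1 O1 Ob) (c2 : P2.Comp (-1) O2 Ob) (e1 : τ F1 = F1)
    (h1 : P1.FlL h F1 R) (h2 : P2.FlR h F2 R) (hU : τ U = U) :
    (Ob.top O1 O2).ac ħ (Sw P1 P2 h F1 F2 U) =
      f1 P1 P2 s (O1.ac ħ F1) * Φ P1 P2 h U * f2 P1 P2 s F2 +
      f1 P1 P2 s F1 * Φ P1 P2 h U * f2 P1 P2 s (O2.ac ħ F2) +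
      Sw P1 P2 h F1 F2 (Ob.Gw ħ R U) := by
  have e := act_Sw c1 c2 e1 h1 h2 hU
  rw [Op.act_apply, Sw_v c1 c2 e1 hU, Sw_a c1 c2, Sw_f] at e
  have a1 (c : 𝕂) (G : Fn P1.p s) : f1 P1 P2 s (c • G) = c • f1 P1 P2 s G := rfl
  have a2 (c : 𝕂) (G : Fn P2.p s) : f2 P1 P2 s (c • G) = c • f2 P1 P2 s G := rfl
  rw [Op.ac, Sw_v c1 c2 e1 hU, Sw_a c1 c2, Sw_f, eq_sub_of_add_eq' (eq_sub_of_add_eq e)]
  simp only [BOp.Gw, Op.ac, Op.act_apply, map_add, map_sub, Sw_sc l, a1, a2, mul_add, add_mul,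
    sc_mul, mul_sc, smul_add, smul_sub]
  abel

/-- The constraint on the matching pairs in terms of the pieces. -/
theorem VM.glue {κ : 𝕂} (l : h.Lin 𝕂) (hV : VM ħ P1 P2 h Ob O1 O2 F1 F2 U κ) (c1 : P1.Comp 1 O1 Ob)
    (c2 : P2.Comp (-1) O2 Ob) (e1 : τ F1 = F1) (hL : ∀ x, F1.ap x ∈ h.NL) (f1 : P1.FlL h F1 R)
    (f2 : P2.FlR h F2 R) (hU : Bs.IsU R U) {θ1 : V →ₗ[K] T1} {θ2 : V →ₗ[K] T2}
    (h1 : IsEv p P1.p θ1) (h2 : IsEv p P2.p θ2) {m : V →ₗ[K] Um} (hm : IsEv p b.pm m)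
    (r1 : ∀ v, P1.res (θ1 v) = m v) (r2 : ∀ v, P2.res (θ2 v) = m v) :
    pull _ h1 (O1.ac ħ F1) * pull _ h2 F2 + pull _ h1 F1 * pull _ h2 (O2.ac ħ F2) -
      pull _ h1 F1 * h.emb m hm (Ob.Kw ħ R U) * pull _ h2 F2 -
      κ • (pull _ h1 F1 * pull _ h2 F2) = 0 := by
  have := hV.pull _ (isEv_comp (isEv_inl _ b.gh) (isEv_prod h1 h2)) fun _ => by
    simp [mem_W0, r1, r2]
  rw [ac_Sw l c1 c2 e1 f1 f2 hU.ev, map_sub, pull_sc, map_add, map_add,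
    pull_Sw_U h1 h2 (fun v => (r1 v).trans (r2 v).symm) hU hL, Sw_apply] at this
  simp only [map_mul, pull_Φ h1 h2 hm r1 r2, hU.u0, pull_f1 h1 h2, pull_f2 h1 h2] at this
  rw [h.mul_emb_one _ _ (pull_mem hL _ _),
    h.mul_emb_one _ _ (pull_mem (O1.ac_mem ħ l.NL hL) _ _)] at this
  rw [BOp.Kw, map_neg, mul_neg, neg_mul, sub_neg_eq_add]
  exact this

lemma f1_emb (M : Fn b.pm sA) : Pc.f1 P1 P2 s (h.emb _ P1.hres M) = Φ P1 P2 h (m1 b sA M) := by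
  have hk := isEv_comp P1.hres (isEv_p1 P1 P2)
  rw [Pc.f1, h.pull_emb _ _ _ _ _ hk fun _ => rfl, Φ, m1, AlgHom.comp_apply, Bs.e1,
    pull_pull _ _ _ _ _ (isEv_comp (isEv_fst _ _) b.isEv_ρ1) fun _ => rfl,
    h.emb_pull _ _ _ _ _ hk fun _ => by simp]

lemma f2_emb (M : Fn b.pm sA) : Pc.f2 P1 P2 s (h.emb _ P2.hres M) = Φ P1 P2 h (m2 b sA M) := by
  have hk := isEv_comp P2.hres (isEv_p2 P1 P2)
  rw [Pc.f2, h.pull_emb _ _ _ _ _ hk fun _ => rfl, Φ, m2, AlgHom.comp_apply, Bs.e2,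
    pull_pull _ _ _ _ _ (isEv_comp (isEv_fst _ _) (isEv_snd _ _)) fun _ => rfl,
    h.emb_pull _ _ _ _ _ hk fun _ => by simp]

theorem ac_Sw_of_rv {M M' : Fn b.pm sA} {κ1 κ2 : 𝕂} (l : h.Lin 𝕂) (c1 : P1.Comp 1 O1 Ob)
    (c2 : P2.Comp (-1) O2 Ob) (e1 : τ F1 = F1) (f1 : P1.FlL h F1 R) (f2 : P2.FlR h F2 R)
    (hU : τ U = U) (v1 : P1.RL ħ h O1 F1 M κ1) (v2 : P2.RR ħ h O2 F2 M' κ2) :
    (Ob.top O1 O2).ac ħ (Sw P1 P2 h F1 F2 U) - (κ1 + κ2) • Sw P1 P2 h F1 F2 U =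
      Sw P1 P2 h F1 F2 (m1 b sA M * U + U * m2 b sA M' + Ob.Gw ħ R U) := by
  have a1 (c : 𝕂) (G : Fn P1.p s) : Pc.f1 P1 P2 s (c • G) = c • Pc.f1 P1 P2 s G := rfl
  have a2 (c : 𝕂) (G : Fn P2.p s) : Pc.f2 P1 P2 s (c • G) = c • Pc.f2 P1 P2 s G := rfl
  rw [ac_Sw l c1 c2 e1 f1 f2 hU, v1, v2]
  simp only [map_add, map_mul, a1, a2, f1_emb, f2_emb, Sw_apply, Φ_mul, add_mul, mul_add, mul_assoc,
    sc_mul, mul_sc, add_smul]
  abel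

end Pc

namespace Cp

variable {ħ} {h : Rg sA s} {P : Cp b T Z} {P' : Cp b T1 Z'} {Ob : BOp b} {O : Op P.p}
  {O' : Op P'.p} {F : Fn P.p s} {F' : Fn P'.p s} {R : Fn b.ms sA} {U : Fn b.uni sA}
  {M M' : Fn b.pm sA} {κ κ1 κ2 : 𝕂}

/-- The absolute constraint gives the relative constraint of a left piece. -/
theorem CanR.rl {P1 : Pc b T1} {O1 : Op P1.p} {F1 : Fn P1.p s} (l : h.Lin 𝕂) (hF : P.CanR h F)
    (hV : Pc.VM ħ P1 P.toPc h Ob O1 O F1 F U κ) (c1 : P1.Comp 1 O1 Ob) (c2 : P.Comp (-1) O Ob)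
    (e1 : τ F1 = F1) (hL : ∀ x, F1.ap x ∈ h.NL) (f1 : P1.FlL h F1 R) (f2 : P.FlR h F R)
    (hU : Bs.IsU R U) (v2 : P.RR ħ h O F M' κ2) :
    P1.RL ħ h O1 F1 (Ob.Kw ħ R U - M') (κ - κ2) := by
  have hm := isEv_comp P1.hres (isEv_fst P1.p P.pz)
  have := hV.glue l c1 c2 e1 hL f1 f2 hU (isEv_fst P1.p P.pz) (P.isEv_pt P1.hres) hm (fun _ => rfl)
    fun _ => by simp [P.res_sec, P.res_nul]
  rw [v2, map_add, map_mul, pull_sc,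
    h.pull_emb _ _ _ _ _ hm fun _ => by simp [P.res_sec, P.res_nul],
    ← h.pull_emb _ P1.hres _ (isEv_fst _ _) _ hm fun _ => rfl,
    ← h.pull_emb _ P1.hres _ (isEv_fst _ _) _ hm fun _ => rfl] at this
  refine sub_eq_zero.1 (hF.cancel P1.hres (fun x => sub_mem (O1.ac_mem ħ l.NL hL x) (add_mem
    (h.mul_emb_mem _ _ h.σNL h.NLm hL _ x) (l.NL _ _ (hL x)))) ?_)
  rw [← this]
  simp only [map_sub, map_add, map_mul, pull_sc, sub_mul, add_mul, mul_add, mul_sub, mul_assoc,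
    sc_mul, mul_sc, sub_smul]
  abel

/-- The absolute constraint gives the relative constraint of a right piece. -/
theorem CanL.rr {P2 : Pc b T2} {O2 : Op P2.p} {F2 : Fn P2.p s} (l : h.Lin 𝕂) (hF : P'.CanL h F')
    (hV : Pc.VM ħ P'.toPc P2 h Ob O' O2 F' F2 U κ) (c1 : P'.Comp 1 O' Ob) (c2 : P2.Comp (-1) O2 Ob)
    (hL : ∀ x, F'.ap x ∈ h.NL) (hR : ∀ x, F2.ap x ∈ h.NR) (f1 : P'.FlL h F' R)
    (f2 : P2.FlR h F2 R) (hU : Bs.IsU R U) (v1 : P'.RL ħ h O' F' (Ob.Kw ħ R U - M') κ1) :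
    P2.RR ħ h O2 F2 M' (κ - κ1) := by
  have hm := isEv_comp P2.hres (isEv_fst P2.p P'.pz)
  have := hV.glue l c1 c2 hF.ev hL f1 f2 hU (P'.isEv_pt P2.hres) (isEv_fst P2.p P'.pz) hm
    (fun _ => by simp [P'.res_sec, P'.res_nul]) fun _ => rfl
  rw [v1, map_add, map_mul, pull_sc,
    h.pull_emb _ _ _ _ _ hm fun _ => by simp [P'.res_sec, P'.res_nul],
    ← h.pull_emb _ P2.hres _ (isEv_fst _ _) _ hm fun _ => rfl,
    ← h.pull_emb _ P2.hres _ (isEv_fst _ _) _ hm fun _ => rfl] at this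
  refine sub_eq_zero.1 (hF.cancel P2.hres (fun x => sub_mem (O2.ac_mem ħ l.NR hR x) (add_mem
    (h.emb_mul_mem _ _ h.NRm hR _ x) (l.NR _ _ (hR x)))) ?_)
  rw [← this]
  simp only [map_sub, map_add, map_mul, pull_sc, sub_mul, add_mul, mul_add, mul_sub, mul_assoc,
    sc_mul, mul_sc, sub_smul]
  abel

lemma ac_zero (O : Op p) : O.ac ħ (0 : Fn p s) = 0 := by simp [Op.ac]

/-- The rubber equation: the universal defect is exact. -/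
theorem exists_dfc (l : h.Lin 𝕂) (h' : P'.CanL h F') (hL : ∀ x, F'.ap x ∈ h.NL) (hF : P.CanR h F)
    (f1 : P'.FlL h F' R) (f2 : P.FlR h F R) (hU : Bs.IsU R U) (c1 : P'.Comp 1 O' Ob)
    (c2 : P.Comp (-1) O Ob) (v1 : P'.RL ħ h O' F' (Ob.Kw ħ R U - M') κ1)
    (v2 : P.RR ħ h O F M' κ2) :
    ∃ Y, Bs.Qh R Y = Pc.m1 b sA (Ob.Kw ħ R U - M') * U + U * Pc.m2 b sA M' + Ob.Gw ħ R U := by
  have e := Pc.ac_Sw_of_rv l c1 c2 h'.ev f1 f2 hU.ev v1 v2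
  refine Bs.exact_Qh (h'.τ_R f1) (Qh_Qh h' hL hF f1 f2) (Bs.r0_eq_zero ?_ ?_) ?_
  · refine Sw_inj h' hL hF ?_
    rw [← Pc.tn_Sw, ← e, map_sub, Vf_sc, BOp.cm_tn.ac, Pc.tn_Sw, hU.gh]
    simp [ac_zero]
  · rw [Bs.r0, pull_pull _ _ _ _ _ b.isEv_u0 fun _ => rfl, map_add, map_add, map_mul, map_mul,
      hU.u0, Pc.m1, Pc.m2, AlgHom.comp_apply, AlgHom.comp_apply, Bs.e1, Bs.e2,
      pull_pull _ _ _ _ _ (isEv_inl _ _) fun _ => by simp,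
      pull_pull _ _ _ _ _ (isEv_inl _ _) fun _ => by simp, pull_pull_id _ _ _ _ fun _ => rfl,
      pull_pull_id _ _ _ _ fun _ => rfl, BOp.Kw]
    simp
  · refine Sw_inj h' hL hF ?_
    rw [← Pc.tq_Sw h'.ev f1 f2, ← e, map_sub, Vf_sc, (BOp.cm_tq c1 c2).ac,
      Pc.tq_Sw h'.ev f1 f2, hU.cl]
    simp [ac_zero]

end Cp

variable {ħ} in
/-- **Main lemma.** -/
theorem Pc.mn {h : Rg sA s} {P1 : Pc b T1} {P2 : Pc b T2} {Ob : BOp b} {O1 : Op P1.p}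
    {O2 : Op P2.p} {F1 : Fn P1.p s} {F2 : Fn P2.p s} {R : Fn b.ms sA} {U : Fn b.uni sA}
    {M M' : Fn b.pm sA} {κ1 κ2 : 𝕂} (l : h.Lin 𝕂) (c1 : P1.Comp 1 O1 Ob) (c2 : P2.Comp (-1) O2 Ob)
    (e1 : τ F1 = F1) (f1 : P1.FlL h F1 R) (f2 : P2.FlR h F2 R) (hU : τ U = U)
    (v1 : P1.RL ħ h O1 F1 M κ1) (v2 : P2.RR ħ h O2 F2 M' κ2)
    (hY : ∃ Y, Bs.Qh R Y = Pc.m1 b sA M * U + U * Pc.m2 b sA M' + Ob.Gw ħ R U) :
    ∃ Y, (Ob.top O1 O2).ac ħ (Pc.Sw P1 P2 h F1 F2 U) - (κ1 + κ2) • Pc.Sw P1 P2 h F1 F2 U =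
      Vf (P1.tq P2) Y := by
  obtain ⟨Y, hY⟩ := hY
  exact ⟨_, by rw [Pc.ac_Sw_of_rv l c1 c2 e1 f1 f2 hU v1 v2, Pc.tq_Sw e1 f1 f2, hY]⟩

end ring

section field

variable {K : Type*} [Field K] [Algebra ℚ K] {𝕂 : Type*} [CommRing 𝕂] [Algebra K 𝕂]
  {Um Up : Type*} [AddCommGroup Um] [Module K Um]
  [AddCommGroup Up] [Module K Up] {A B : Type*} [Ring A] [Algebra K A] [Ring B] [Algebra K B]
  [Algebra 𝕂 A] [IsScalarTower K 𝕂 A] [Algebra 𝕂 B] [IsScalarTower K 𝕂 B]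
  {s : SPar K B} {sA : SPar K A} [s.Lin 𝕂] [sA.Lin 𝕂] {b : Bs K Um Up}
  {T T' Z Z' : Type*} [AddCommGroup T] [Module K T] [AddCommGroup T'] [Module K T']
  [AddCommGroup Z] [Module K Z] [AddCommGroup Z'] [Module K Z'] {ħ : 𝕂ˣ}
  {h : Rg sA s} {P' : Cp b T' Z'} {P : Cp b T Z} {F' : Fn P'.p s} {F : Fn P.p s}

/-- The relative constraints of the caps. -/
theorem Cp.Caps.exists_rv (l : h.Lin 𝕂) (hC : Cp.Caps h P' P F' F) {Ob : BOp b} {O' : Op P'.p}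
    {O : Op P.p} {R : Fn b.ms sA} {U : Fn b.uni sA} {κ : 𝕂}
    (hV : Pc.VM ħ P'.toPc P.toPc h Ob O' O F' F U κ)
    (c1 : P'.Comp 1 O' Ob) (c2 : P.Comp (-1) O Ob) (f1 : P'.FlL h F' R) (f2 : P.FlR h F R)
    (hU : Bs.IsU R U) : ∃ M', P'.RL ħ h O' F' (Ob.Kw ħ R U - M') κ ∧ P.RR ħ h O F M' 0 := by
  have hm := isEv_id b.pm
  have j1 := isEv_j1 b.pm P'.pz P.pz
  have j2 := isEv_j2 b.pm P'.pz P.pz
  have := hV.glue l c1 c2 hC.canL.ev hC.memNL f1 f2 hU (isEv_comp (P'.isEv_pt hm) j1)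
    (isEv_comp (P.isEv_pt hm) j2) (isEv_fst _ _) (fun _ => by simp [P'.res_sec, P'.res_nul])
    fun _ => by simp [P.res_sec, P.res_nul]
  rw [← pull_pull _ j1 _ (P'.isEv_pt hm) _ _ fun _ => rfl,
    ← pull_pull _ j1 _ (P'.isEv_pt hm) _ _ fun _ => rfl,
    ← pull_pull _ j2 _ (P.isEv_pt hm) _ _ fun _ => rfl,
    ← pull_pull _ j2 _ (P.isEv_pt hm) _ _ fun _ => rfl,
    ← h.pull_emb _ (isEv_fst _ _) _ j1 _ _ fun _ => rfl] at this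
  obtain ⟨M', h1, h2⟩ := hC.transfer hm (E := κ • pull _ (P'.isEv_pt hm) F' -
      pull _ (P'.isEv_pt hm) (O'.ac ħ F') +
      pull _ (P'.isEv_pt hm) F' * h.emb _ (isEv_fst _ _) (Ob.Kw ħ R U))
    (M := pull _ (P.isEv_pt hm) (O.ac ħ F))
    (fun x => add_mem (sub_mem (l.L _ _ (pull_mem hC.memL _ _ x))
      (pull_mem (O'.ac_mem ħ l.L hC.memL) _ _ x))
      (h.mul_emb_mem _ _ h.σL h.Lm (pull_mem hC.memL _ _) _ x))
    (pull_mem (O.ac_mem ħ l.R hC.memR) _ _) (by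
      rw [← sub_eq_zero, ← neg_eq_zero, ← this]
      simp only [map_add, map_sub, pull_sc, map_mul, add_mul, sub_mul, sc_mul]
      abel)
  refine ⟨M', ?_, ?_⟩
  · have := congrArg (pull _ (isEv_prod P'.hres P'.hprj)) h1
    simp only [map_add, map_sub, pull_sc, map_mul] at this
    rw [pull_pull_id _ _ _ _ fun _ => by simp [P'.split],
      pull_pull_id _ _ _ _ fun _ => by simp [P'.split],
      h.pull_emb _ _ _ _ _ P'.hres fun _ => rfl, h.pull_emb _ _ _ _ _ P'.hres fun _ => rfl] at this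
    rw [Pc.RL, map_sub, mul_sub, ← this]
    abel
  · have := congrArg (pull _ (isEv_prod P.hres P.hprj)) h2
    rw [map_mul, pull_pull_id _ _ _ _ fun _ => by simp [P.split],
      pull_pull_id _ _ _ _ fun _ => by simp [P.split],
      h.pull_emb _ _ _ _ _ P.hres fun _ => rfl] at this
    rw [Pc.RR, this, zero_smul, add_zero]

end field

end Vale.Agent.P269.Deg
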