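import Vale.Agent.P269.Deg.Cur

/-! Second order operators on formal functions, restriction to subspaces, descent. -/

namespace Vale.Agent.P269.Deg

open Fock LinearMap TensorProduct

variable {K : Type*} [CommRing K] {V W U : Type*} [AddCommGroup V] [Module K V]
  [AddCommGroup W] [Module K W] [AddCommGroup U] [Module K U] {A B : Type*} [Ring A] [Algebra K A]
  [Ring B] [Algebra K B] {p : Par K V} {q : Par K W} {r : Par K U} {s : SPar K B} {sA : SPar K A}

@[simp] lemma opp_σ (v : V) : p.opp.σ v = -p.σ v := rfl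

/-- Even tensors. -/
def EvT (p : Par K V) (q : Par K W) (c : V ⊗[K] W) : Prop := TensorProduct.map p.σ q.σ c = c

lemma EvT.add {c d : V ⊗[K] W} (hc : EvT p q c) (hd : EvT p q d) : EvT p q (c + d) := by
  rw [EvT, map_add, hc, hd]

lemma EvT.neg {c : V ⊗[K] W} (hc : EvT p q c) : EvT p q (-c) := by rw [EvT, map_neg, hc]

lemma EvT.sub {c d : V ⊗[K] W} (hc : EvT p q c) (hd : EvT p q d) : EvT p q (c - d) := by
  rw [EvT, map_sub, hc, hd]

lemma EvT.smul {c : V ⊗[K] W} (hc : EvT p q c) (t : K) : EvT p q (t • c) := by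
  rw [EvT, map_smul, hc]

lemma EvT.zero : EvT p q 0 := map_zero _

lemma EvT.sum {α : Type*} (t : Finset α) {c : α → V ⊗[K] W} (h : ∀ a ∈ t, EvT p q (c a)) :
    EvT p q (∑ a ∈ t, c a) := by
  rw [EvT, map_sum]
  exact Finset.sum_congr rfl h

section map
variable {V' W' : Type*} [AddCommGroup V'] [Module K V'] [AddCommGroup W'] [Module K W']
  {p' : Par K V'} {q' : Par K W'} {f : V →ₗ[K] V'} {g : W →ₗ[K] W'} {c : V ⊗[K] W}

lemma EvT.map (hc : EvT p q c) (hf : IsEv p p' f) (hg : IsEv q q' g) :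
    EvT p' q' (TensorProduct.map f g c) := by
  have : TensorProduct.map p'.σ q'.σ ∘ₗ TensorProduct.map f g =
      TensorProduct.map f g ∘ₗ TensorProduct.map p.σ q.σ := by
    ext x y; simp [hf x, hg y]
  have h := LinearMap.congr_fun this c
  rwa [comp_apply, comp_apply, hc] at h

lemma EvT.map_od (hc : EvT p q c) (hf : ∀ v, p'.σ (f v) = -f (p.σ v))
    (hg : ∀ v, q'.σ (g v) = -g (q.σ v)) : EvT p' q' (TensorProduct.map f g c) := by
  have : TensorProduct.map p'.σ q'.σ ∘ₗ TensorProduct.map f g =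
      TensorProduct.map f g ∘ₗ TensorProduct.map p.σ q.σ := by
    ext x y; simp [hf x, hg y, neg_tmul, tmul_neg]
  have h := LinearMap.congr_fun this c
  rwa [comp_apply, comp_apply, hc] at h

end map

variable (p) in
/-- The quadratic element of a tensor. -/
noncomputable def mulT : V ⊗[K] V →ₗ[K] S p :=
  TensorProduct.lift ((LinearMap.mul K (S p)).compl₁₂ (ι p) (ι p))

@[simp] lemma mulT_tmul (x y : V) : mulT p (x ⊗ₜ y) = ι p x * ι p y := rfl

lemma map_mulT (f : V →ₗ[K] W) (hf : IsEv p q f) (c : V ⊗[K] V) :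
    Fock.map f hf (mulT p c) = mulT q (TensorProduct.map f f c) := by
  induction c with
  | zero => simp
  | tmul x y => simp
  | add x y hx hy => simp only [map_add, hx, hy]

lemma par_mulT {c : V ⊗[K] V} (hc : EvT p p c) : par p (mulT p c) = mulT p c := by
  exact (map_mulT p.σ (fun _ => rfl) c).trans (congrArg _ hc)

variable [Algebra ℚ K]

lemma EvT.ext {N : Type*} [AddCommGroup N] [Module K N] {f g : V ⊗[K] W →ₗ[K] N}
    {c : V ⊗[K] W} (hc : EvT p q c)
    (hev : ∀ x y, p.σ x = x → q.σ y = y → f (x ⊗ₜ y) = g (x ⊗ₜ y))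
    (hod : ∀ x y, p.σ x = -x → q.σ y = -y → f (x ⊗ₜ y) = g (x ⊗ₜ y)) : f c = g c := by
  have e : TensorProduct.map p.ev q.ev + TensorProduct.map p.od q.od =
      hf K • (LinearMap.id + TensorProduct.map p.σ q.σ) := by
    ext x y
    simp only [AlgebraTensorModule.curry_apply, restrictScalars_self, curry_apply,
      LinearMap.add_apply, map_tmul, Par.ev_apply, Par.od_apply, LinearMap.smul_apply, id_apply,
      ← smul_tmul', tmul_smul,
      add_tmul, tmul_add, sub_tmul, tmul_sub]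
    have h2 : hf K * hf K + hf K * hf K = hf K := by rw [← mul_add, hf_add, mul_one]
    linear_combination (norm := module) h2 • (x ⊗ₜ[K] y + p.σ x ⊗ₜ[K] q.σ y)
  have e2 : (TensorProduct.map p.ev q.ev + TensorProduct.map p.od q.od) c = c := by
    rw [e, LinearMap.smul_apply, LinearMap.add_apply, id_apply, hc, smul_add, ← add_smul, hf_add, one_smul]
  have e3 : f ∘ₗ (TensorProduct.map p.ev q.ev + TensorProduct.map p.od q.od) =
      g ∘ₗ (TensorProduct.map p.ev q.ev + TensorProduct.map p.od q.od) := by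
    ext x y
    simp [hev _ _ (p.σ_ev x) (q.σ_ev y), hod _ _ (p.σ_od x) (q.σ_od y)]
  have := LinearMap.congr_fun e3 c
  rwa [comp_apply, comp_apply, e2] at this

lemma dv_mulT_ev {a : Module.End K V} (h : IsEv p p a) (c : V ⊗[K] V) : dv p a (mulT p c) =
    mulT p (TensorProduct.map a LinearMap.id c + TensorProduct.map LinearMap.id a c) := by
  induction c with
  | zero => simp
  | tmul x y => simp [dv_mul h]
  | add x y hx hy => simp only [map_add, hx, hy]; abel

lemma dv_mul_od {a : Module.End K V} (h : IsOd p p a) (x y : S p) :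
    dv p a (x * y) = dv p a x * y + par p x * dv p a y :=
  der_mul_of_od (by ext v; simp [h _, p.inv]) x y

lemma dv_mulT_od {a : Module.End K V} (h : IsOd p p a) (c : V ⊗[K] V) : dv p a (mulT p c) =
    mulT p (TensorProduct.map a LinearMap.id c + TensorProduct.map p.σ a c) := by
  induction c with
  | zero => simp
  | tmul x y => simp [dv_mul_od h, par_ι]
  | add x y hx hy => simp only [map_add, hx, hy]; abel

lemma dv_map_zero {a : Module.End K V} (h : IsOd p p a) {i : W →ₗ[K] V} (hi : IsEv q p i)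
    (h0 : ∀ w, a (i w) = 0) (x : S q) : dv p a (Fock.map i hi x) = 0 := by
  induction x using induction with
  | h1 => simp
  | hι v x hx => simp [dv_mul_od h, hx, h0]
  | hadd x y hx hy => simp only [map_add, hx, hy, add_zero]
  | hsmul c x hx => simp only [map_smul, hx, smul_zero]

namespace Fn

/-- The cross terms of the second order Leibniz rule. -/
noncomputable def crs (F G : Fn p s) : V ⊗[K] V →ₗ[K] Fn p s :=
  TensorProduct.lift ((LinearMap.mul K _).compl₁₂ (D.flip F ∘ₗ p.σ) (D.flip G) +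
    ((LinearMap.mul K _).compl₁₂ (D.flip F) (D.flip G)).flip)

@[simp] lemma crs_tmul (F G : Fn p s) (x y : V) :
    crs F G (x ⊗ₜ y) = D (p.σ x) F * D y G + D y F * D x G := rfl

lemma Dx_mulT_mul {F : Fn p s} (hF : τ F = F) (G : Fn p s) {c : V ⊗[K] V} (hc : EvT p p c) :
    Dx (mulT p c) (F * G) = Dx (mulT p c) F * G + crs F G c + F * Dx (mulT p c) G := by
  refine hc.ext (f := Dx.flip (F * G) ∘ₗ mulT p)
    (g := mulRight K G ∘ₗ Dx.flip F ∘ₗ mulT p + crs F G + mulLeft K F ∘ₗ Dx.flip G ∘ₗ mulT p)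
    (fun x y hx hy => ?_) fun x y hx hy => ?_
  · simp only [comp_apply, mulT_tmul, flip_apply, LinearMap.add_apply, crs_tmul,
      mulRight_apply, mulLeft_apply, Dx_mul, Dx_ι, D_mul_of_ev hF, map_add, D_mul_ev hy, hx]
    abel
  · simp only [comp_apply, mulT_tmul, flip_apply, LinearMap.add_apply, crs_tmul,
      mulRight_apply, mulLeft_apply, Dx_mul, Dx_ι, D_mul_of_ev hF, map_add, D_mul_od hy, τ_D, hF]
    abel

lemma Dx_mulT_pull (f : V →ₗ[K] W) (hf : IsEv p q f) (c : V ⊗[K] V) (F : Fn q s) :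
    Dx (mulT p c) (pull f hf F) = pull f hf (Dx (mulT q (TensorProduct.map f f c)) F) := by
  rw [Dx_pull, map_mulT]

/-- `F` vanishes on the subspace `N`. -/
def Res0 (N : Submodule K V) (F : Fn p s) : Prop :=
  ∀ x ∈ Algebra.adjoin K (ι p '' N), F.ap x = 0

omit [Algebra ℚ K] in
lemma map_mem_adjoin {N : Submodule K V} {f : W →ₗ[K] V} (hf : IsEv q p f) (h : ∀ w, f w ∈ N)
    (x : S q) : Fock.map f hf x ∈ Algebra.adjoin K (ι p '' N) := by
  induction x using induction with
  | h1 => rw [map_one]; exact one_mem _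
  | hι v x hx =>
    rw [map_mul, map_ι]
    exact mul_mem (Algebra.subset_adjoin ⟨_, h v, rfl⟩) hx
  | hadd x y hx hy => rw [map_add]; exact add_mem hx hy
  | hsmul c x hx => rw [map_smul]; exact Subalgebra.smul_mem _ hx c

lemma Res0.pull {N : Submodule K V} {F : Fn p s} (h : Res0 N F) (f : W →ₗ[K] V) (hf : IsEv q p f)
    (hN : ∀ w, f w ∈ N) : pull f hf F = 0 := ext fun x => h _ (map_mem_adjoin hf hN x)

lemma res0_of_pull {N : Submodule K V} {F : Fn p s} (f : W →ₗ[K] V) (hf : IsEv q p f)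
    (hN : ∀ v ∈ N, ∃ w, f w = v) (h : pull f hf F = 0) : Res0 N F := by
  intro x hx
  have : Algebra.adjoin K (ι p '' N) ≤ (Fock.map f hf).range := by
    refine Algebra.adjoin_le ?_
    rintro _ ⟨v, hv, rfl⟩
    obtain ⟨w, rfl⟩ := hN v hv
    exact ⟨ι q w, map_ι _ _ _⟩
  obtain ⟨y, rfl⟩ := this hx
  exact congrArg (fun G => Fn.ap G y) h

section descent

variable {𝔮 : Module.End K V} {G : Fn p s} {i : W →ₗ[K] V}

lemma pull_Dx_dv (h : IsOd p p 𝔮) (hG : Vf 𝔮 G = 0) (hi : IsEv q p i) (h0 : ∀ w, 𝔮 (i w) = 0)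
    (y : S p) : pull i hi (Dx (dv p 𝔮 y) G) = 0 := by
  ext x
  have := congrArg (fun F => Fn.ap F (y * Fock.map i hi x)) hG
  simpa [Vf_eq_pre, dv_mul_od h, dv_map_zero h hi h0, pull_ap] using this

lemma pull_D_q (h : IsOd p p 𝔮) (hG : Vf 𝔮 G = 0) (hi : IsEv q p i) (h0 : ∀ w, 𝔮 (i w) = 0)
    (y : V) : pull i hi (D (𝔮 y) G) = 0 := by
  rw [← Dx_ι, ← dv_ι, pull_Dx_dv h hG hi h0]

lemma Vf_D_of_ker (h : IsOd p p 𝔮) (hG : Vf 𝔮 G = 0) {v : V} (hv : 𝔮 v = 0) :
    Vf 𝔮 (D v G) = 0 := by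
  have := D_Vf_of_od h (p.σ v) G
  have e : 𝔮 (p.σ v) = 0 := by
    have := h v
    rw [hv, map_zero] at this
    exact neg_eq_zero.1 this.symm
  rwa [hG, map_zero, e, map_zero, LinearMap.zero_apply, zero_add, p.inv, eq_comm] at this

/-- Homotopic maps give the same restriction of a closed function. -/
lemma pull_eq_of_htpy (h : IsOd p p 𝔮) (hG : Vf 𝔮 G = 0) (hi : IsEv q p i) {j : W →ₗ[K] V}
    (hj : IsEv q p j) (h0 : ∀ w, 𝔮 (i w) = 0) (h1 : ∀ w, 𝔮 (j w) = 0)
    (hij : ∀ w, ∃ y, i w = j w + 𝔮 y) : pull i hi G = pull j hj G := by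
  ext x
  induction x using induction generalizing G with
  | h1 => simp
  | hι v x hx =>
    obtain ⟨y, hy⟩ := hij v
    rw [← D_ap, ← D_ap, D_pull, D_pull, hx (Vf_D_of_ker h hG (h0 v)), hy, map_add,
      LinearMap.add_apply, map_add, pull_D_q h hG hj h1, add_zero]
  | hadd x y hx hy => simp only [map_add, hx hG, hy hG]
  | hsmul c x hx => simp only [map_smul, hx hG]

end descent

end Fn

open Fn

/-- The data of an operator `∂_v + (linear vector field) + (second order) + (function)`. -/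
structure Op (p : Par K V) where
  v : V
  a : Module.End K V
  c : V ⊗[K] V
  f : Sc p
  hv : p.σ v = v
  ha : IsEv p p a
  hc : EvT p p c
  hf : τ f = f

namespace Op

variable (O : Op p)

variable (s) in
/-- The operator. -/
noncomputable def act : Module.End K (Fn p s) :=
  D O.v + Vf O.a + Dx (mulT p O.c) + mulLeft K (sm s O.f)

lemma act_apply (F : Fn p s) :
    O.act s F = D O.v F + Vf O.a F + Dx (mulT p O.c) F + sm s O.f * F := rfl

lemma τ_act (F : Fn p s) : τ (O.act s F) = O.act s (τ F) := by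
  simp only [act_apply, map_add, map_mul, τ_D, τ_Vf_ev O.ha, τ_Dx, par_mulT O.hc, τ_sm, O.hf, O.hv]

lemma act_mapc (φ : B →ₗ[K] A) (F : Fn p s) :
    O.act sA (mapc sA φ F) = mapc sA φ (O.act s F) := by
  simp only [act_apply, map_add, D_mapc, Vf_mapc, Dx_mapc, mapc_sm_mul]

lemma act_mem {N : Submodule K B} {F : Fn p s} (h : ∀ x, F.ap x ∈ N) (x : S p) :
    (O.act s F).ap x ∈ N := by
  refine add_mem (add_mem (add_mem (h _) ?_) (h _)) ?_
  · rw [Vf_eq_pre]; exact h _
  · refine mul_ap_mem (L := LinearMap.range (Algebra.linearMap K B)) ?_ ?_ (fun x => ⟨_, rfl⟩) h x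
    · rintro _ ⟨t, rfl⟩; exact ⟨t, (s.σ.commutes t).symm⟩
    · rintro _ ⟨t, rfl⟩ b hb
      rw [Algebra.linearMap_apply, ← Algebra.smul_def]
      exact N.smul_mem _ hb

/-- `O` commutes with the vector field of `n`. -/
structure Cm (n : Module.End K V) : Prop where
  par : IsEv p p n ∨ IsOd p p n
  v : n O.v = 0
  a : ∀ x, O.a (n x) = n (O.a x)
  c : dv p n (mulT p O.c) = 0
  f : Vf n O.f = 0

variable {O}

lemma Cm.comm {n : Module.End K V} (h : O.Cm n) (F : Fn p s) :
    Vf n (O.act s F) = O.act s (Vf n F) := by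
  have e : Vf n (sm s O.f * F) = sm s O.f * Vf n F := by
    rcases h.par with h1 | h1
    · rw [Vf_mul_ev h1, Vf_sm, h.f, map_zero, zero_mul, zero_add]
    · rw [Vf_mul_od h1, Vf_sm, h.f, map_zero, zero_mul, zero_add, τ_sm, O.hf]
  simp only [act_apply, map_add, D_Vf_ev O.hv, h.v, Vf_comm O.ha h.a, Dx_Vf (par_mulT O.hc), h.c,
    map_zero, LinearMap.zero_apply, zero_add, add_zero, e]

/-- `O` on `V` restricts to `O'` on `W` along `i`, up to homotopy. -/
structure Rs (O : Op p) (O' : Op q) (𝔮 : Module.End K V) (i : W →ₗ[K] V) (hi : IsEv q p i) :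
    Prop where
  ker : ∀ w, 𝔮 (i w) = 0
  v : ∃ y, O.v = i O'.v + 𝔮 y
  a : ∀ w, ∃ y, O.a (i w) = i (O'.a w) + 𝔮 y
  c : ∃ y, mulT p O.c = mulT p (TensorProduct.map i i O'.c) + dv p 𝔮 y
  f : pull i hi O.f = O'.f

/-- Descent. -/
theorem Rs.pull_act {O' : Op q} {𝔮 : Module.End K V} {i : W →ₗ[K] V} {hi : IsEv q p i}
    (h : O.Rs O' 𝔮 i hi) (h𝔮 : IsOd p p 𝔮) {G : Fn p s} (hG : Vf 𝔮 G = 0) :
    pull i hi (O.act s G) = O'.act s (pull i hi G) := by
  obtain ⟨y, hy⟩ := h.v
  obtain ⟨z, hz⟩ := h.c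
  have e : pull i hi (Vf O.a G) = Vf O'.a (pull i hi G) := by
    rw [pull_Vf', Vf_pull']
    refine ins_congr fun w => ?_
    obtain ⟨y, hy⟩ := h.a w
    simp [hy, pull_D_q h𝔮 hG hi h.ker]
  simp only [act_apply, map_add, map_mul, hy, hz, LinearMap.add_apply, pull_D_q h𝔮 hG hi h.ker,
    pull_Dx_dv h𝔮 hG hi h.ker, add_zero, D_pull, e, Dx_mulT_pull, pull_sm, h.f]

/-- The operators are intertwined by an even map. -/
theorem act_pull {O' : Op q} {f : V →ₗ[K] W} (hf : IsEv p q f) (hv : f O.v = O'.v)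
    (ha : ∀ x, f (O.a x) = O'.a (f x)) (hc : mulT q (TensorProduct.map f f O.c) = mulT q O'.c)
    (hg : pull f hf O'.f = O.f) (F : Fn q s) :
    O.act s (pull f hf F) = pull f hf (O'.act s F) := by
  simp only [act_apply, map_add, map_mul, D_pull, hv, Vf_pull f hf ha, Dx_mulT_pull, hc, pull_sm,
    hg]

end Op

end Vale.Agent.P269.Deg
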