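import Vale.Agent.P269.Deg.Main

/-! Scalars acting on the values of formal functions; operators with a Planck constant. -/

namespace Vale.Agent.P269.Deg

open Fock LinearMap TensorProduct Fn

variable {K : Type*} [CommRing K] {𝕂 : Type*} [CommRing 𝕂] [Algebra K 𝕂] {A B : Type*} [Ring A]
  [Algebra K A] [Ring B] [Algebra K B] [Algebra 𝕂 A] [IsScalarTower K 𝕂 A] [Algebra 𝕂 B]
  [IsScalarTower K 𝕂 B] {s : SPar K B} {sA : SPar K A}
  {V W : Type*} [AddCommGroup V] [Module K V] [AddCommGroup W] [Module K W] {p : Par K V}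
  {q : Par K W}

variable (𝕂 s) in
/-- The parity is linear over the scalars. -/
class SPar.Lin : Prop where
  σ : ∀ (c : 𝕂) y, s.σ (c • y) = c • s.σ y

namespace Fn

noncomputable instance (priority := low) : Module 𝕂 (Fn p s) :=
  inferInstanceAs (Module 𝕂 (S p →ₗ[K] B))

@[simp] lemma sc_ap (c : 𝕂) (F : Fn p s) (x : S p) : (c • F).ap x = c • F.ap x := rfl

instance : IsScalarTower K 𝕂 (Fn p s) := ⟨fun a b F => ext fun x => by simp⟩

instance : SMulCommClass K 𝕂 (Fn p s) := ⟨fun a b F => ext fun x => by simp [smul_comm a]⟩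

instance : SMulCommClass 𝕂 K (Fn p s) := ⟨fun a b F => ext fun x => by simp [smul_comm a]⟩

lemma pre_sc (X : Module.End K (S p)) (c : 𝕂) (F : Fn p s) : pre X (c • F) = c • pre X F := rfl

lemma Dx_sc (y : S p) (c : 𝕂) (F : Fn p s) : Dx y (c • F) = c • Dx y F := rfl

lemma D_sc (v : V) (c : 𝕂) (F : Fn p s) : D v (c • F) = c • D v F := rfl

variable [Algebra ℚ K]

lemma Vf_sc (a : Module.End K V) (c : 𝕂) (F : Fn p s) : Vf a (c • F) = c • Vf a F := by
  rw [Vf_eq_pre, Vf_eq_pre, pre_sc]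

lemma pull_sc (f : V →ₗ[K] W) (hf : IsEv p q f) (c : 𝕂) (F : Fn q s) :
    pull f hf (c • F) = c • pull f hf F := rfl

lemma mul_sc (c : 𝕂) (F G : Fn p s) : F * (c • G) = c • (F * G) := by
  ext x
  induction x using induction generalizing F G with
  | h1 => simp
  | hι v x hx => simp only [← D_ap, D_mul', D_sc, add_ap, hx, sc_ap, smul_add]
  | hadd x y hx hy => simp only [map_add, hx, hy]
  | hsmul c x hx => simp only [map_smul, hx]

variable [s.Lin 𝕂]

lemma τ_sc (c : 𝕂) (F : Fn p s) : τ (c • F) = c • τ F := ext fun x => by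
  simp [τ_ap, SPar.Lin.σ]

lemma sc_mul (c : 𝕂) (F G : Fn p s) : (c • F) * G = c • (F * G) := by
  ext x
  induction x using induction generalizing F G with
  | h1 => simp
  | hι v x hx => simp only [← D_ap, D_mul', D_sc, τ_sc, add_ap, hx, sc_ap, smul_add]
  | hadd x y hx hy => simp only [map_add, hx, hy]
  | hsmul c x hx => simp only [map_smul, hx]

end Fn

variable [Algebra ℚ K]

variable (𝕂) in
/-- The coefficient system is linear over the scalars. -/
structure Rg.Lin (h : Rg sA s) : Prop where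
  φ : ∀ (c : 𝕂) y, h.φ (c • y) = c • h.φ y
  NR : ∀ (c : 𝕂), ∀ y ∈ h.NR, c • y ∈ h.NR
  R : ∀ (c : 𝕂), ∀ y ∈ h.R, c • y ∈ h.R

namespace Rg.Lin

variable {h : Rg sA s} (l : h.Lin 𝕂)
include l

omit [Algebra ℚ K] in
lemma NL (c : 𝕂) (y : B) (hy : y ∈ h.NL) : c • y ∈ h.NL := by
  have := h.NLm y hy (c • 1)
  rwa [l.φ, mul_smul_comm, h.NL1 y hy] at this

omit [Algebra ℚ K] in
lemma L (c : 𝕂) (y : B) (hy : y ∈ h.L) : c • y ∈ h.L := by
  have := h.Lm y hy (c • 1)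
  rwa [l.φ, mul_smul_comm, h.NL1 y (h.L_le hy)] at this

lemma emb (m : V →ₗ[K] W) (hm : IsEv p q m) (c : 𝕂) (X : Fn q sA) :
    h.emb m hm (c • X) = c • h.emb m hm X := Fn.ext fun _ => l.φ _ _

end Rg.Lin

namespace Op

variable (ħ : 𝕂ˣ) (O : Op p)

/-- The operator with the Planck constant `ħ`. -/
noncomputable def ac (F : Fn p s) : Fn p s :=
  D O.v F + Vf O.a F + (ħ : 𝕂) • Dx (mulT p O.c) F + (↑ħ⁻¹ : 𝕂) • (sm s O.f * F)

lemma ac_add (F G : Fn p s) : O.ac ħ (F + G) = O.ac ħ F + O.ac ħ G := by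
  simp only [ac, map_add, mul_add, smul_add]; abel

lemma ac_sub (F G : Fn p s) : O.ac ħ (F - G) = O.ac ħ F - O.ac ħ G := by
  simp only [ac, map_sub, mul_sub, smul_sub]; abel

lemma ac_mem {N : Submodule K B} (hN : ∀ (c : 𝕂), ∀ y ∈ N, c • y ∈ N) {F : Fn p s}
    (h : ∀ x, F.ap x ∈ N) (x : S p) : (O.ac ħ F).ap x ∈ N := by
  refine add_mem (add_mem (add_mem (h _) ?_) (hN _ _ (h _))) (hN _ _ ?_)
  · rw [Vf_eq_pre]; exact h _
  · refine mul_ap_mem (L := LinearMap.range (Algebra.linearMap K B)) ?_ ?_ (fun x => ⟨_, rfl⟩) h x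
    · rintro _ ⟨t, rfl⟩; exact ⟨t, (s.σ.commutes t).symm⟩
    · rintro _ ⟨t, rfl⟩ b hb
      rw [Algebra.linearMap_apply, ← Algebra.smul_def]
      exact N.smul_mem _ hb

variable {O}

lemma Cm.ac {n : Module.End K V} (h : O.Cm n) (F : Fn p s) :
    Vf n (O.ac ħ F) = O.ac ħ (Vf n F) := by
  have e : Vf n (sm s O.f * F) = sm s O.f * Vf n F := by
    rcases h.par with h1 | h1
    · rw [Vf_mul_ev h1, Vf_sm, h.f, map_zero, zero_mul, zero_add]
    · rw [Vf_mul_od h1, Vf_sm, h.f, map_zero, zero_mul, zero_add, τ_sm, O.hf]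
  simp only [Op.ac, map_add, D_Vf_ev O.hv, h.v, Vf_comm O.ha h.a, Dx_Vf (par_mulT O.hc), h.c,
    map_zero, LinearMap.zero_apply, zero_add, add_zero, e, Vf_sc]

/-- Descent. -/
theorem Rs.pull_ac {O' : Op q} {𝔮 : Module.End K V} {i : W →ₗ[K] V} {hi : IsEv q p i}
    (h : O.Rs O' 𝔮 i hi) (h𝔮 : IsOd p p 𝔮) {G : Fn p s} (hG : Vf 𝔮 G = 0) :
    pull i hi (O.ac ħ G) = O'.ac ħ (pull i hi G) := by
  obtain ⟨y, hy⟩ := h.v
  obtain ⟨z, hz⟩ := h.c
  have e : pull i hi (Vf O.a G) = Vf O'.a (pull i hi G) := by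
    rw [pull_Vf', Vf_pull']
    refine ins_congr fun w => ?_
    obtain ⟨y, hy⟩ := h.a w
    simp [hy, pull_D_q h𝔮 hG hi h.ker]
  simp only [ac, map_add, map_mul, hy, hz, LinearMap.add_apply, pull_D_q h𝔮 hG hi h.ker,
    pull_Dx_dv h𝔮 hG hi h.ker, add_zero, D_pull, e, Dx_mulT_pull, pull_sm, h.f, pull_sc]

end Op

end Vale.Agent.P269.Deg
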