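import Vale.Agent.P269.Deg.Sd

/-! The identification of the cohomology of the general fibre with that of the complex of the two
pieces in the double point step. -/

namespace Vale.Agent.P269.Deg

open Fock Finset LinearMap

variable {D : Dv} {Γ : Type} [AddCommGroup Γ] {g : Grd Γ}

/-- The output of `DPIn.sigma`. -/
structure DPIn.Sig (b : DPIn g D) where
  i : b.s.X.H →ₗ[ℂ] CH b.Y1 b.Y2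
  j : b.s.X.H →ₗ[ℂ] b.s.X.W
  U : Submodule ℂ b.s.X.H
  V' : Submodule ℂ b.s.X.H
  π' : Module.End ℂ b.s.X.H
  μW : Module.End ℂ b.s.X.H
  r : D.H →ₗ[ℂ] b.s.X.H
  s : D.H →ₗ[ℂ] b.s.X.H
  r' : b.s.X.H →ₗ[ℂ] D.H
  s' : b.s.X.H →ₗ[ℂ] D.H
  ctr : Ctr (X := b.s.X.toCoh) i
  hj : IsEv b.s.X.p b.s.X.pw j
  spl : Spl b.s.X.toCoh b.ε U V' π'
  AU : b.pr.A ≤ U
  VV : V' ≤ b.pr.V
  onU : ∀ u ∈ U, b.s.X.sp (j u) = u ∧ i u = b.s.X.iW (j u)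
  dec : ∀ x, r' x ∈ b.prD.V ∧ s' x ∈ b.prD.V ∧ π' x = r (r' x) + s (s' x)
  onV : ∀ v ∈ b.prD.V, r v ∈ V' ∧ s v ∈ V' ∧ r' (r v) = v ∧ s' (s v) = v ∧ r' (s v) = 0 ∧
    s' (r v) = 0 ∧ i (r v) = (0, (v, 0)) ∧ i (s v) = (0, (0, v))
  kill : ∀ u ∈ U, r' u = 0 ∧ s' u = 0
  skew : Inv.Skew b.s.X.fr.η (U ⊓ b.pr.V) μW
  trace : ∀ k : ℕ,
    LinearMap.trace ℂ _ (μW ^ k * (b.pr.π - π')) = ((b.lW.map (· ^ k)).sum : ℝ)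
  hρ : HtH (X := b.s.X.toCoh) i b.d1.ρ b.d2.ρ b.dD.ρ b.dD.ρ b.d.ρ
  hμ : ∀ am ap : Module.End ℂ D.H, (∀ v ∈ b.prD.V, am v ∈ b.prD.V ∧ ap v ∈ b.prD.V) →
    HtH (X := b.s.X.toCoh) i b.d1.μ b.d2.μ am ap
      (b.d.μ * (1 - b.pr.π) + μW + r ∘ₗ am ∘ₗ r' + s ∘ₗ ap ∘ₗ s')

/-- The grading induced by the grading `ν` of the divisor. -/
noncomputable def DPIn.Sig.μ {b : DPIn g D} (σ : b.Sig) (ν : Module.End ℂ D.H) :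
    Module.End ℂ b.s.X.H :=
  b.d.μ * (1 - b.pr.π) + σ.μW + σ.r ∘ₗ (ν - (1 / 2 : ℂ) • 1) ∘ₗ σ.r' +
    σ.s ∘ₗ (ν + (1 / 2 : ℂ) • 1) ∘ₗ σ.s'

/-- What the degeneration algebra gives for the refined series `Z'`. -/
structure DPIn.Sig.Out {b : DPIn g D} (σ : b.Sig) {𝕂 : Type} [CommRing 𝕂] (ħ : 𝕂ˣ) {M : Type}
    [AddCommGroup M] [Module ℂ M] [Module 𝕂 M] (Z Z' : S (b.s.X.p.fs ℕ) →ₗ[ℂ] M) : Prop where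
  eq : ∀ x ∈ conS b.s.X.fr σ.U, Z x = Z' x
  he : ∀ x, Z' (dv _ (vv (σ.r ∘ₗ σ.s')) x) = 0
  hh : ∀ x, Z' (dv _ (vv (σ.r ∘ₗ σ.r' - σ.s ∘ₗ σ.s')) x) = 0
  vir : ∀ h h', Inv.Isom D.fr.η b.prD.V h → h * h' = 1 → ∀ k, ∃ κ,
    Cns b.s.X.fr ħ Z' (ellO (σ.μ (h * b.dD.μ * h')) b.d.ρ k) κ
  inv : (∃ a, b.pr.l a ≠ 0) → InvS b.s.X.fr b.pr.V Z

end Vale.Agent.P269.Deg
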