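import Vale.Agent.P269.Deg.SigA
import Vale.Agent.P269.Deg.Avg
import Vale.Agent.P269.Deg.Sg

/-! The cohomology of the general fibre is that of the complex of the two pieces in the double
point step. -/

namespace Vale.Agent.P269.Deg

open Fock Finset LinearMap TensorProduct Fn

namespace SigP

variable {D : Dv} (Y1 : Pz D 1) (Y2 : Pz D (-1))

/-- The pairing on the disjoint union of the pieces. -/
def eY : Y1.H × Y2.H →ₗ[ℂ] Y1.H × Y2.H →ₗ[ℂ] ℂ :=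
  Y1.fr.η.compl₁₂ (fst ℂ _ _) (fst ℂ _ _) + Y2.fr.η.compl₁₂ (snd ℂ _ _) (snd ℂ _ _)

/-- The Gysin map. -/
def G : D.H →ₗ[ℂ] Y1.H × Y2.H := Y1.gys.prod (-Y2.gys)

/-- The difference of the restrictions. -/
def R : Y1.H × Y2.H →ₗ[ℂ] D.H := Y1.res.coprod (-Y2.res)

variable {Y1 Y2}

lemma eY_apply (s t : Y1.H × Y2.H) : eY Y1 Y2 s t = Y1.fr.η s.1 t.1 + Y2.fr.η s.2 t.2 := rfl

lemma G_apply (a : D.H) : G Y1 Y2 a = (Y1.gys a, -Y2.gys a) := rfl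

lemma R_apply (t : Y1.H × Y2.H) : R Y1 Y2 t = Y1.res t.1 - Y2.res t.2 := (sub_eq_add_neg _ _).symm

lemma qC_apply (x : CH Y1 Y2) : qC Y1 Y2 x = (G Y1 Y2 x.2.2, (R Y1 Y2 x.1, 0)) := by
  simp [Pz.pcH, G_apply, R_apply]

lemma eY_G (a : D.H) (t : Y1.H × Y2.H) : eY Y1 Y2 (G Y1 Y2 a) t = D.fr.η a (R Y1 Y2 t) := by
  simp [eY_apply, G_apply, R_apply, Y1.adj, Y2.adj, sub_eq_add_neg]

lemma R_G (a : D.H) : R Y1 Y2 (G Y1 Y2 a) = 0 := by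
  simp [G_apply, R_apply, Y1.res_gys, Y2.res_gys]

lemma eY_σ (s t : Y1.H × Y2.H) :
    eY Y1 Y2 s ((Y1.p.prod Y2.p).σ t) = eY Y1 Y2 ((Y1.p.prod Y2.p).σ s) t := by
  simp [eY_apply, Frame.η_σ]

lemma eY_ext {s s' : Y1.H × Y2.H} (h : ∀ t, eY Y1 Y2 s t = eY Y1 Y2 s' t) : s = s' :=
  Prod.ext (Y1.fr.ext_left fun t => by simpa [eY_apply] using h (t, 0))
    (Y2.fr.ext_left fun t => by simpa [eY_apply] using h (0, t))

lemma exists_G {s : Y1.H × Y2.H} (h : ∀ t, R Y1 Y2 t = 0 → eY Y1 Y2 s t = 0) :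
    ∃ a, s = G Y1 Y2 a := by
  obtain ⟨φ, hφ⟩ : eY Y1 Y2 s ∈ LinearMap.range (R Y1 Y2).dualMap := by
    rw [range_dualMap_eq_dualAnnihilator_ker, Submodule.mem_dualAnnihilator]
    exact h
  obtain ⟨k, hk⟩ := exists_adj D.fr (LinearMap.id (R := ℂ) (M := D.H →ₗ[ℂ] ℂ))
  exact ⟨k φ, eY_ext fun t => by rw [eY_G, hk, ← hφ]; rfl⟩

lemma σ_G (a : D.H) : (Y1.p.prod Y2.p).σ (G Y1 Y2 a) = G Y1 Y2 (D.p.σ a) :=
  Prod.ext (Y1.hgys a) (Y2.hgys.neg a)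

lemma R_σ (t : Y1.H × Y2.H) : R Y1 Y2 ((Y1.p.prod Y2.p).σ t) = D.p.σ (R Y1 Y2 t) := by
  simp [R_apply, Y1.hres _, Y2.hres _]

section cmp

variable {d1 : VD Y1.fr} {d2 : VD Y2.fr} {dD : VD D.fr}

lemma eY_μ (s t : Y1.H × Y2.H) :
    eY Y1 Y2 (d1.μ.prodMap d2.μ s) t = -eY Y1 Y2 s (d1.μ.prodMap d2.μ t) := by
  simp [eY_apply, d1.adjμ, d2.adjμ, add_comm]

variable (c1 : Y1.Cmp d1 dD) (c2 : Y2.Cmp d2 dD)
include c1 c2

lemma R_μ (t : Y1.H × Y2.H) :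
    R Y1 Y2 (d1.μ.prodMap d2.μ t) = (dD.μ + (-(1 / 2) : ℂ) • 1) (R Y1 Y2 t) := by
  simp only [R_apply, prodMap_apply, c1.μ, c2.μ, LinearMap.add_apply, LinearMap.smul_apply,
    Module.End.one_apply, map_sub]
  module

lemma μ_G (a : D.H) :
    d1.μ.prodMap d2.μ (G Y1 Y2 a) = G Y1 Y2 ((dD.μ + (1 / 2 : ℂ) • 1) a) := eY_ext fun t => by
  rw [eY_μ, eY_G, eY_G, R_μ c1 c2]
  simp only [LinearMap.add_apply, LinearMap.smul_apply, Module.End.one_apply, map_add, map_smul,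
    dD.adjμ, smul_eq_mul]
  ring

end cmp

section div

variable {ε : ℂ} {A V : Submodule ℂ D.H} {π : Module.End ℂ D.H} (h : Spl D.toCoh ε A V π)
  (h1 : LinearMap.range Y1.res = A) (h2 : LinearMap.range Y2.res ≤ A)
include h1

lemma exists_R {a : D.H} (ha : a ∈ A) : ∃ t, R Y1 Y2 t = a := by
  obtain ⟨t, rfl⟩ := h1.ge ha
  exact ⟨(t, 0), by simp [R_apply]⟩

include h in
lemma mem_of_G {a : D.H} (ha : G Y1 Y2 a = 0) : a ∈ V := h.z_orthV fun c hc => by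
  obtain ⟨t, ht⟩ := exists_R (Y2 := Y2) h1 (h.σU c hc)
  rw [D.fr.η_symm, ← D.fr.η_σ, ← ht, ← eY_G, ha, map_zero, LinearMap.zero_apply]

include h2

lemma R_mem (t : Y1.H × Y2.H) : R Y1 Y2 t ∈ A := by
  rw [R_apply]
  exact A.sub_mem (h1.le ⟨_, rfl⟩) (h2 ⟨_, rfl⟩)

include h in
lemma G_of_mem {a : D.H} (ha : a ∈ V) : G Y1 Y2 a = 0 := eY_ext fun t => by
  rw [eY_G, h.z_orth ha (R_mem h1 h2 t), map_zero, LinearMap.zero_apply]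

end div

variable (X : Sm Y1 Y2)

/-- The restriction to the pieces. -/
def θ : X.W →ₗ[ℂ] Y1.H × Y2.H := X.θ1.prod X.θ2

lemma iW_apply (w : X.W) : X.iW w = (θ X w, 0) := rfl

lemma int (w w' : X.W) : X.fr.η (X.sp w) (X.sp w') = eY Y1 Y2 (θ X w) (θ X w') := X.int w w'

lemma R_θ (w : X.W) : R Y1 Y2 (θ X w) = 0 := by
  rw [R_apply]
  exact sub_eq_zero.2 (X.mat w)

lemma σ_θ (w : X.W) : (Y1.p.prod Y2.p).σ (θ X w) = θ X (X.pw.σ w) := Prod.ext (X.h1 w) (X.h2 w)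

variable {X}

lemma exists_θ {t : Y1.H × Y2.H} (h : R Y1 Y2 t = 0) : ∃ w, θ X w = t := by
  obtain ⟨w, e1, e2⟩ := X.mv t.1 t.2 (sub_eq_zero.1 ((R_apply t).symm.trans h))
  exact ⟨w, Prod.ext e1 e2⟩

variable (X) in
/-- `j` lifts the classes in `U`, `p` is the adjoint of `θ ∘ j`. -/
structure Pj (ε : ℂ) (U V : Submodule ℂ X.H) (π : Module.End ℂ X.H) (j : X.H →ₗ[ℂ] X.W)
    (p : Y1.H × Y2.H →ₗ[ℂ] X.H) : Prop where
  spl : Spl X.toCoh ε U V π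
  rad : ∀ w w', X.fr.η (π (X.sp w)) (X.sp w') = 0
  ev : IsEv X.p X.pw j
  sp_j : ∀ x, X.sp (j x) = x - π x
  j_V : ∀ v ∈ V, j v = 0
  adj : ∀ t x, X.fr.η (p t) x = eY Y1 Y2 t (θ X (j x))

variable {ε : ℂ} {U V : Submodule ℂ X.H} {π : Module.End ℂ X.H} {j : X.H →ₗ[ℂ] X.W}
  {p : Y1.H × Y2.H →ₗ[ℂ] X.H}

lemma exists_pj (h : Spl X.toCoh ε U V π) (hU : U ≤ LinearMap.range X.sp)
    (hr : ∀ w w', X.fr.η (π (X.sp w)) (X.sp w') = 0) : ∃ j p, Pj X ε U V π j p := by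
  have he : IsEv X.p X.p (1 - π) := IsEv.one.sub h.z_ev
  obtain ⟨j, hj, hs⟩ := exists_ev_lift X.hsp he fun x => hU (h.πU x)
  obtain ⟨p, hp⟩ := exists_adj X.fr ((eY Y1 Y2).compl₂ (θ X ∘ₗ j ∘ₗ (1 - π)))
  refine ⟨j ∘ₗ (1 - π), p, h, hr, hj.comp he, fun x => ?_, fun v hv => ?_, hp⟩
  · simp [hs, h.z_V (h.πV x)]
  · simp [h.z_V hv]

namespace Pj

variable (h : Pj X ε U V π j p)
include h

lemma p_θ (w : X.W) : p (θ X w) = X.sp w - π (X.sp w) := X.fr.ext_left fun x => by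
  rw [h.adj, ← int, h.sp_j, map_sub, map_sub, LinearMap.sub_apply, h.spl.z_adj]

lemma p_G (a : D.H) : p (G Y1 Y2 a) = 0 := X.fr.ext_left fun x => by
  rw [h.adj, eY_G, R_θ, map_zero, map_zero, LinearMap.zero_apply]

lemma p_σ (t : Y1.H × Y2.H) : p ((Y1.p.prod Y2.p).σ t) = X.p.σ (p t) := X.fr.ext_left fun x => by
  rw [h.adj, ← X.fr.η_σ, h.adj, ← h.ev, ← σ_θ, eY_σ]

lemma p_mem (t : Y1.H × Y2.H) : p t ∈ U := h.spl.z_orthU fun v hv => by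
  rw [h.adj, h.j_V v hv, map_zero, map_zero]

lemma p_j (x : X.H) : p (θ X (j x)) = x - π x := by
  rw [h.p_θ, h.sp_j, h.spl.z_U (h.spl.πU x), sub_zero]

lemma dec {t : Y1.H × Y2.H} (ht : R Y1 Y2 t = 0) : ∃ a, t = θ X (j (p t)) + G Y1 Y2 a := by
  obtain ⟨w, rfl⟩ := exists_θ (X := X) ht
  obtain ⟨a, ha⟩ := exists_G (s := θ X w - θ X (j (p (θ X w)))) fun t ht => by
    obtain ⟨w', rfl⟩ := exists_θ (X := X) ht
    rw [← map_sub, ← int, map_sub, h.sp_j, h.spl.z_U (h.p_mem _), sub_zero, h.p_θ, sub_sub_cancel,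
      h.rad]
  exact ⟨a, eq_add_of_sub_eq' ha⟩

lemma skew {d1 : VD Y1.fr} {d2 : VD Y2.fr} (x y : X.H) :
    X.fr.η (p (d1.μ.prodMap d2.μ (θ X (j x)))) y =
      -X.fr.η x (p (d1.μ.prodMap d2.μ (θ X (j y)))) := by
  rw [h.adj, eY_μ, X.fr.η_symm, ← X.fr.η_σ, h.adj, ← h.ev, ← σ_θ, eY_apply, eY_apply,
    Y1.fr.η_symm, Y2.fr.η_symm, ← Y1.fr.η_σ, ← Y2.fr.η_σ]
  rfl

/-- The trace formula. -/
lemma trace {d1 : VD Y1.fr} {d2 : VD Y2.fr} {dD : VD D.fr} (c1 : Y1.Cmp d1 dD) (c2 : Y2.Cmp d2 dD)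
    {δ : ℂ} (prD : Prim D.toCoh dD δ) (h1 : LinearMap.range Y1.res = prD.A)
    (h2 : LinearMap.range Y2.res ≤ prD.A) (k : ℕ) :
    Y1.fr.str (d1.μ ^ k) + Y2.fr.str (d2.μ ^ k) -
      D.fr.str ((dD.μ - (1 / 2 : ℂ) • 1) ^ k) - D.fr.str ((dD.μ + (1 / 2 : ℂ) • 1) ^ k) =
    LinearMap.trace ℂ _ (X.p.σ * (p ∘ₗ d1.μ.prodMap d2.μ ∘ₗ θ X ∘ₗ j) ^ k * (1 - π)) -
      δ * ∑ b, (((prD.l b : ℂ) - 1 / 2) ^ k + ((prD.l b : ℂ) + 1 / 2) ^ k) := by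
  have hs := SigP.spl prD
  set M := d1.μ.prodMap d2.μ
  have a1 : ∀ (k : ℕ) a, (M ^ k) (G Y1 Y2 a) = G Y1 Y2 (((dD.μ + (1 / 2 : ℂ) • 1) ^ k) a) := by
    intro k a
    induction k with
    | zero => rfl
    | succ k ih => rw [pow_succ', pow_succ', Module.End.mul_apply, ih, μ_G c1 c2]; rfl
  have a2 : ∀ (k : ℕ) t,
      R Y1 Y2 ((M ^ k) t) = ((dD.μ + (-(1 / 2) : ℂ) • 1) ^ k) (R Y1 Y2 t) := by
    intro k t
    induction k with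
    | zero => rfl
    | succ k ih => rw [pow_succ', pow_succ', Module.End.mul_apply, R_μ c1 c2, ih]; rfl
  have a3 : ∀ (k : ℕ) x,
      p ((M ^ k) (θ X (j x))) = ((p ∘ₗ M ∘ₗ θ X ∘ₗ j) ^ k) (x - π x) := by
    intro k x
    induction k with
    | zero => exact h.p_j x
    | succ k ih =>
      obtain ⟨a, ha⟩ := h.dec (t := (M ^ k) (θ X (j x))) (by rw [a2, R_θ, map_zero])
      rw [pow_succ', pow_succ', Module.End.mul_apply, Module.End.mul_apply, ← ih]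
      conv_lhs => rw [ha, map_add, map_add, μ_G c1 c2, h.p_G, add_zero]
      rfl
  have a4 := trace_cx (G := G Y1 Y2) (R := R Y1 Y2) (Θ := θ X ∘ₗ j) (p := p) (P := 1 - prD.π)
    (fun t ht => h.dec ht) (fun a => exists_R h1 (hs.πU a))
    (fun t => by simp [hs.z_U (R_mem h1 h2 t)])
    (fun a => by simp [G_of_mem hs h1 h2 (hs.πV a)])
    (fun a ha => by simp [hs.z_V (mem_of_G hs h1 ha)]) R_G (fun x => R_θ X _) h.p_G
    (M := (Y1.p.prod Y2.p).σ * M ^ k) (Mp := D.p.σ * (dD.μ + (1 / 2 : ℂ) • 1) ^ k)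
    (Mm := D.p.σ * (dD.μ + (-(1 / 2) : ℂ) • 1) ^ k)
    (fun a => by rw [Module.End.mul_apply, a1, σ_G]; rfl)
    (fun t => by rw [Module.End.mul_apply, R_σ, a2]; rfl)
  have a5 : (Y1.p.prod Y2.p).σ * M ^ k = (Y1.p.σ * d1.μ ^ k).prodMap (Y2.p.σ * d2.μ ^ k) := by
    have : ∀ k : ℕ, M ^ k = (d1.μ ^ k).prodMap (d2.μ ^ k) := fun k => by
      induction k with
      | zero => exact prodMap_one.symm
      | succ k ih => rw [pow_succ, pow_succ, pow_succ, ← prodMap_mul, ih]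
    rw [this]
    rfl
  have a6 : p ∘ₗ ((Y1.p.prod Y2.p).σ * M ^ k) ∘ₗ θ X ∘ₗ j =
      X.p.σ * (p ∘ₗ M ∘ₗ θ X ∘ₗ j) ^ k * (1 - π) := by
    ext x
    exact (h.p_σ _).trans (congrArg X.p.σ (a3 k x))
  rw [a6, a5, trace_prodMap', mul_sub _ 1 prD.π, mul_sub _ 1 prD.π, mul_one, mul_one, map_sub,
    map_sub, trace_pow, trace_pow] at a4
  rw [str_eq, str_eq, str_eq, str_eq, a4, sub_eq_add_neg dD.μ, ← neg_smul, sum_add_distrib]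
  simp only [sub_eq_add_neg]
  ring

end Pj

/-- Two copies of the primitive part of the divisor. -/
lemma exists_rs {X : Coh} {U V : Submodule ℂ X.H} {π : Module.End ℂ X.H} (h : Spl X ε U V π)
    {A W : Submodule ℂ D.H} {πD : Module.End ℂ D.H} (hD : Spl D.toCoh (-ε) A W πD)
    (hd : trace ℂ _ π = trace ℂ _ πD + trace ℂ _ πD) :
    ∃ (r s : D.H →ₗ[ℂ] X.H) (r' s' : X.H →ₗ[ℂ] D.H),
      (∀ x, r' x ∈ W ∧ s' x ∈ W ∧ π x = r (r' x) + s (s' x)) ∧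
      (∀ v ∈ W, r v ∈ V ∧ s v ∈ V ∧ r' (r v) = v ∧ s' (s v) = v ∧ r' (s v) = 0 ∧ s' (r v) = 0) ∧
      (∀ u ∈ U, r' u = 0 ∧ s' u = 0) ∧ ∀ x y, D.fr.η (s' x) (D.p.σ (r' y)) -
        D.fr.η (r' x) (D.p.σ (s' y)) = X.fr.η (π x) (π y) := by
  let B : D.H × D.H →ₗ[ℂ] D.H × D.H →ₗ[ℂ] ℂ :=
    D.fr.η.compl₁₂ (snd ℂ _ _) (D.p.σ ∘ₗ fst ℂ _ _) - D.fr.η.compl₁₂ (fst ℂ _ _) (D.p.σ ∘ₗ snd ℂ _ _)
  have hB : ∀ x y, B x y = D.fr.η x.2 (D.p.σ y.1) - D.fr.η x.1 (D.p.σ y.2) := fun _ _ => rfl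
  have hf : Inv.IsForm B (W.prod W) ε := by
    refine ⟨h.form.sq, fun u hu v hv => ?_, fun u hu h0 => ?_⟩
    · rw [hB, hB, ← D.fr.η_σ_σ u.2, ← D.fr.η_σ_σ u.1, D.p.inv, D.p.inv, ← D.fr.η_symm,
        ← D.fr.η_symm, hD.σV _ hu.1, hD.σV _ hu.2]
      simp only [map_smul, smul_eq_mul]
      linear_combination (D.fr.η v.2 u.1 - D.fr.η v.1 u.2) * h.form.sq
    · refine Prod.ext (hD.form.nondeg _ hu.1 fun v hv => ?_) (hD.form.nondeg _ hu.2 fun v hv => ?_)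
      · simpa [hB, hD.σV _ hu.1, h.form.ne_zero] using h0 (0, v) ⟨W.zero_mem, hv⟩
      · simpa [hB, hD.σV _ hu.2, h.form.ne_zero] using h0 (v, 0) ⟨hv, W.zero_mem⟩
  have hp : IsProj (W.prod W) (πD.prodMap πD) :=
    ⟨fun x => ⟨hD.πV _, hD.πV _⟩, fun x hx => Prod.ext (hD.z_V hx.1) (hD.z_V hx.2)⟩
  obtain ⟨J, h1, h2⟩ := exists_isom h.form hf (by
    rw [← trace_prodMap', hp.trace, h.z_trace] at hd
    exact_mod_cast hd)
  have h3 : ∀ x, J (π x) ∈ W.prod W := fun x => h1.le ⟨_, h.πV x, rfl⟩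
  obtain ⟨K, hK⟩ := exists_lift (J ∘ₗ π) (πD.prodMap πD) fun x => by
    obtain ⟨v, hv, e⟩ := h1.ge (hp.map_mem x)
    exact ⟨v, by rw [comp_apply, h.z_V hv, e]⟩
  have h4 : ∀ z ∈ W.prod W, J (π (π (K z))) = z := fun z hz => by
    rw [h.z_V (h.πV _)]
    exact (hK z).trans (hp.map_id z hz)
  refine ⟨π ∘ₗ K ∘ₗ inl ℂ _ _, π ∘ₗ K ∘ₗ inr ℂ _ _, fst ℂ _ _ ∘ₗ J ∘ₗ π, snd ℂ _ _ ∘ₗ J ∘ₗ π,
    fun x => ⟨(h3 x).1, (h3 x).2, ?_⟩, fun v hv => ?_, fun u hu => ?_,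
    fun x y => h2 _ (h.πV x) _ (h.πV y)⟩
  · have e : π (K (J (π x))) = π x := by
      rw [← sub_eq_zero]
      refine h.form.nondeg _ (V.sub_mem (h.πV _) (h.πV _)) fun v hv => ?_
      have := h4 _ (h3 x)
      rw [h.z_V (h.πV _)] at this
      rw [← h2 _ hv _ (V.sub_mem (h.πV _) (h.πV _)), map_sub J, this, sub_self, map_zero]
    rw [← e]
    simp only [comp_apply, ← map_add]
    simp [e]
  · have e1 := h4 (v, 0) ⟨hv, W.zero_mem⟩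
    have e2 := h4 (0, v) ⟨W.zero_mem, hv⟩
    exact ⟨h.πV _, h.πV _, congrArg Prod.fst e1, congrArg Prod.snd e2, congrArg Prod.fst e2,
      congrArg Prod.snd e1⟩
  · simp [h.z_U hu]

end SigP

open SigP

variable {D : Dv} {Γ : Type} [AddCommGroup Γ] {g : Grd Γ} (b : DPIn g D)

theorem DPIn.sigma : ∃ (i : b.s.X.H →ₗ[ℂ] CH b.Y1 b.Y2) (j : b.s.X.H →ₗ[ℂ] b.s.X.W)
    (U V' : Submodule ℂ b.s.X.H) (π' μW : Module.End ℂ b.s.X.H) (r s : D.H →ₗ[ℂ] b.s.X.H)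
    (r' s' : b.s.X.H →ₗ[ℂ] D.H),
    Ctr (X := b.s.X.toCoh) i ∧ IsEv b.s.X.p b.s.X.pw j ∧ Spl b.s.X.toCoh b.ε U V' π' ∧
    b.pr.A ≤ U ∧ V' ≤ b.pr.V ∧ (∀ u ∈ U, b.s.X.sp (j u) = u ∧ i u = b.s.X.iW (j u)) ∧
    (∀ x, r' x ∈ b.prD.V ∧ s' x ∈ b.prD.V ∧ π' x = r (r' x) + s (s' x)) ∧
    (∀ v ∈ b.prD.V, r v ∈ V' ∧ s v ∈ V' ∧ r' (r v) = v ∧ s' (s v) = v ∧ r' (s v) = 0 ∧
      s' (r v) = 0 ∧ i (r v) = (0, (v, 0)) ∧ i (s v) = (0, (0, v))) ∧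
    (∀ u ∈ U, r' u = 0 ∧ s' u = 0) ∧
    Inv.Skew b.s.X.fr.η (U ⊓ b.pr.V) μW ∧
    (∀ k : ℕ, LinearMap.trace ℂ _ (μW ^ k * (b.pr.π - π')) = ((b.lW.map (· ^ k)).sum : ℝ)) ∧
    HtH (X := b.s.X.toCoh) i b.d1.ρ b.d2.ρ b.dD.ρ b.dD.ρ b.d.ρ ∧
    ∀ am ap : Module.End ℂ D.H, (∀ v ∈ b.prD.V, am v ∈ b.prD.V ∧ ap v ∈ b.prD.V) →
      HtH (X := b.s.X.toCoh) i b.d1.μ b.d2.μ am ap
        (b.d.μ * (1 - b.pr.π) + μW + r ∘ₗ am ∘ₗ r' + s ∘ₗ ap ∘ₗ s') := by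
  have hs := spl b.pr
  have hD := spl b.prD
  obtain ⟨U, V', π', h', hAU, hVV, hU, hr⟩ := exists_spl b.pr b.amb
  obtain ⟨j, p, h⟩ := exists_pj (X := b.s.X) h' hU fun w w' => hr _ ⟨w, rfl⟩ _ ⟨w', rfl⟩
  have htr := h.trace b.cmp1 b.cmp2 b.prD b.res1 b.res2
  have hsk := h.skew (d1 := b.d1) (d2 := b.d2)
  set ν := p ∘ₗ b.d1.μ.prodMap b.d2.μ ∘ₗ θ b.s.X ∘ₗ j with hν
  replace hsk : ∀ x y, b.s.X.fr.η (ν x) y = -b.s.X.fr.η x (ν y) := hsk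
  have hj : ∀ u ∈ U, b.s.X.sp (j u) = u := fun u hu => by rw [h.sp_j, h'.z_U hu, sub_zero]
  have m1 : ∀ a ∈ b.pr.A, ν a = b.d.μ a := fun a ha => by
    obtain ⟨w, e1, e2, e3⟩ := b.relμ (j a) (by rwa [Submodule.mem_comap, hj a (hAU ha)])
    have e : b.d1.μ.prodMap b.d2.μ (θ b.s.X (j a)) = θ b.s.X w := Prod.ext e1.symm e2.symm
    rw [hj a (hAU ha)] at e3
    rw [← sub_zero (b.d.μ a), ← h'.z_U (hAU (b.pr.μA a ha)), ← e3, ← h.p_θ, ← e]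
    rfl
  have m2 : ∀ v ∈ b.pr.V, ν v ∈ U ⊓ b.pr.V := fun v hv => ⟨h.p_mem _, hs.z_orthV fun a ha => by
    have := hsk a v
    rwa [m1 a ha, hs.orth _ (b.pr.μA a ha) v hv, eq_comm, neg_eq_zero] at this⟩
  set τ := b.pr.π - π' with hτ
  have t0 : ∀ x, π' (b.pr.π x) = π' x := fun x => by
    have := h'.z_U (hAU (hs.πU x))
    rwa [map_sub, sub_eq_zero, eq_comm] at this
  have t1 : ∀ x, τ x ∈ U ⊓ b.pr.V := fun x =>
    ⟨by simpa [t0, hτ] using h'.πU (b.pr.π x), b.pr.V.sub_mem (hs.πV x) (hVV (h'.πV x))⟩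
  have t2 : ∀ u ∈ U ⊓ b.pr.V, τ u = u := fun u hu => by
    rw [hτ, LinearMap.sub_apply, hs.z_V hu.2, h'.z_U hu.1, sub_zero]
  have m3 : ∀ (k : ℕ), ∀ u ∈ U ⊓ b.pr.V, ((ν * τ) ^ k) u ∈ U ⊓ b.pr.V ∧
      (ν ^ k) u = ((ν * τ) ^ k) u := fun k u hu => by
    induction k with
    | zero => exact ⟨hu, rfl⟩
    | succ k ih =>
      simp only [pow_succ', Module.End.mul_apply, t2 _ ih.1, ih.2]
      exact ⟨m2 _ ih.1.2, trivial⟩
  have m4 : ∀ (k : ℕ), ∀ a ∈ b.pr.A, (b.d.μ ^ k) a ∈ b.pr.A ∧ (ν ^ k) a = (b.d.μ ^ k) a :=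
    fun k a ha => by
      induction k with
      | zero => exact ⟨ha, rfl⟩
      | succ k ih =>
        simp only [pow_succ', Module.End.mul_apply, ih.2, m1 _ ih.1]
        exact ⟨b.pr.μA _ ih.1, trivial⟩
  have m5 : ∀ k : ℕ, LinearMap.trace ℂ _ ((ν * τ) ^ k * τ) = ∑ a, (b.pr.l a : ℂ) ^ k -
      ∑ a, (((b.prD.l a : ℂ) - 1 / 2) ^ k + ((b.prD.l a : ℂ) + 1 / 2) ^ k) := fun k => by
    have e : b.s.X.p.σ * ν ^ k * (1 - π') = b.s.X.p.σ * b.d.μ ^ k -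
        b.s.X.p.σ * b.d.μ ^ k * b.pr.π + b.ε • ((ν * τ) ^ k * τ) := by
      ext x
      have e1 : x - π' x = (x - b.pr.π x) + τ x := by simp [hτ]
      simp only [Module.End.mul_apply, LinearMap.sub_apply, LinearMap.add_apply,
        Module.End.one_apply, LinearMap.smul_apply]
      rw [e1, map_add, (m4 k _ (hs.πU x)).2, (m3 k _ (t1 x)).2, map_add,
        hs.σV _ (m3 k _ (t1 x)).1.2, map_sub, map_sub]
    have e2 := trace_pow b.pr 0 k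
    have e3 := htr k
    rw [← b.hodge, str_eq, e, map_add, map_sub, map_smul] at e3
    simp only [zero_smul, add_zero] at e2
    refine mul_left_cancel₀ b.pr.form.ne_zero ?_
    rw [smul_eq_mul] at e3
    linear_combination e2 - e3
  obtain ⟨r, s, r', s', r1, r2, r3, r4⟩ := exists_rs h' hD (by
    have := m5 0
    rw [pow_zero, one_mul, hτ, map_sub, hs.z_trace, finrank_V] at this
    rw [hD.z_trace, finrank_V]
    simp only [pow_zero, sum_const, card_univ, nsmul_eq_mul] at this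
    linear_combination -this)
  let i : b.s.X.H →ₗ[ℂ] CH b.Y1 b.Y2 := (θ b.s.X ∘ₗ j).prod (r'.prod s')
  have hi : ∀ x, i x = (θ b.s.X (j x), (r' x, s' x)) := fun _ => rfl
  have i1 : ∀ u ∈ U, i u = (θ b.s.X (j u), 0) := fun u hu => by
    rw [hi, (r3 u hu).1, (r3 u hu).2]
    rfl
  have i2 : ∀ v ∈ b.prD.V, i (r v) = (0, (v, 0)) ∧ i (s v) = (0, (0, v)) := fun v hv => by
    obtain ⟨a1, a2, a3, a4, a5, a6⟩ := r2 v hv
    rw [hi, hi, h.j_V _ a1, h.j_V _ a2, a3, a4, a5, a6, map_zero]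
    exact ⟨rfl, rfl⟩
  have key : ∀ t, R b.Y1 b.Y2 t = 0 → ∀ v ∈ b.prD.V, ∀ v' ∈ b.prD.V, ∀ t', ∃ y,
      (t, (v + R b.Y1 b.Y2 t', v')) = i (p t + r v + s v') + qC b.Y1 b.Y2 y := by
    intro t ht v hv v' hv' t'
    obtain ⟨a, ha⟩ := h.dec ht
    refine ⟨(t', (0, a)), ?_⟩
    rw [map_add, map_add, i1 _ (h.p_mem t), (i2 v hv).1, (i2 v' hv').2, SigP.qC_apply]
    simpa using ha
  have key' : ∀ w, b.s.X.sp w ∈ U → ∃ y, (θ b.s.X w, 0) = i (b.s.X.sp w) + qC b.Y1 b.Y2 y := by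
    intro w hw
    have := key _ (R_θ _ w) 0 (zero_mem _) 0 (zero_mem _) 0
    rwa [h.p_θ, h'.z_U hw, sub_zero, map_zero, map_zero, map_zero, add_zero, add_zero,
      add_zero] at this
  have e0 : ∀ x, π' (b.s.X.p.σ x) = b.ε • π' x := fun x => by rw [← h'.z_ev, h'.σV _ (h'.πV x)]
  have e1 : ∀ x, r' (b.s.X.p.σ x) = b.ε • r' x ∧ s' (b.s.X.p.σ x) = b.ε • s' x := fun x => by
    have := r3 (b.s.X.p.σ x - b.ε • x) (h'.z_memU (by rw [map_sub, map_smul, e0, sub_self]))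
    simpa only [map_sub, map_smul, sub_eq_zero] using this
  refine ⟨i, j, U, V', π', ν * τ, r, s, r', s', ⟨fun x => ?_, fun x y => ?_, fun x => ?_,
    fun z hz => ?_, ?_⟩, h.ev, h', hAU, hVV, fun u hu => ⟨hj u hu, i1 u hu⟩, r1, fun v hv => ?_,
    r3, ⟨fun x => m2 _ (t1 x).2, fun x v hv => ?_⟩, fun k => ?_, fun x => ?_,
    fun am ap ha x => ?_⟩
  · rw [hi, hi, ← h.ev, ← σ_θ, (e1 x).1, (e1 x).2]
    refine Prod.ext rfl (Prod.ext ?_ ?_)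
    · exact (congrArg Neg.neg (hD.σV _ (r1 x).1)).trans (by simp)
    · exact (congrArg Neg.neg (hD.σV _ (r1 x).2.1)).trans (by simp)
  · have a1 := int b.s.X (j x) (j y)
    have a2 := r4 x y
    rw [h.sp_j, h.sp_j, eY_apply] at a1
    rw [h'.z_left _ (h'.πV y)] at a2
    simp only [map_sub, LinearMap.sub_apply, h'.z_adj, h'.z_V (h'.πV y)] at a1
    simp only [etaC, hi]
    linear_combination a2 - a1
  · rw [SigP.qC_apply, hi, R_θ, G_of_mem hD b.res1 b.res2 (r1 x).2.1]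
    rfl
  · obtain ⟨t, x, y⟩ := z
    rw [SigP.qC_apply] at hz
    obtain ⟨t', ht'⟩ := exists_R (Y2 := b.Y2) b.res1 (hD.πU x)
    obtain ⟨a, ha⟩ := key t (congrArg (·.2.1) hz) _ (hD.πV x) y
      (mem_of_G hD b.res1 (congrArg (·.1) hz)) t'
    rw [ht', add_sub_cancel] at ha
    exact ⟨_, a, ha⟩
  · obtain ⟨w, a1, a2, a3⟩ := b.s.X.one
    have := key' w (a3 ▸ h'.one)
    rwa [a3, show θ b.s.X w = (b.Y1.fr.one, b.Y2.fr.one) from Prod.ext a1 a2] at this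
  · obtain ⟨a1, a2, a3, a4, a5, a6⟩ := r2 v hv
    exact ⟨a1, a2, a3, a4, a5, a6, i2 v hv⟩
  · have a1 := m2 v hv.2
    rw [Module.End.mul_apply, Module.End.mul_apply, t2 v hv, hsk, hτ, LinearMap.sub_apply, map_sub,
      LinearMap.sub_apply, hs.z_left _ a1.2, h'.z_orth (h'.πV x) a1.1, sub_zero, neg_add_cancel]
  · have := congrArg (fun x : ℝ => (x : ℂ)) (b.hlW k)
    simp only [Complex.ofReal_add, Complex.ofReal_sum, Complex.ofReal_pow, Complex.ofReal_sub,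
      Complex.ofReal_div, Complex.ofReal_one, Complex.ofReal_ofNat] at this
    rw [m5, this, add_sub_cancel_right]
  · obtain ⟨w, a1, a2, a3⟩ := b.relρ (j x) trivial
    rw [h.sp_j, map_sub, b.pr.ρV _ (hVV (h'.πV x)), sub_zero] at a3
    have := key' w (a3 ▸ hAU (hs.z_orthU fun v hv => by rw [b.d.adjρ, b.pr.ρV v hv, map_zero]))
    rw [a3] at this
    refine this.imp fun y hy => Eq.trans ?_ hy
    exact Prod.ext (Prod.ext a1.symm a2.symm)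
      (Prod.ext (b.prD.ρV _ (r1 x).1) (b.prD.ρV _ (r1 x).2.1))
  · have a1 : p (b.d1.μ.prodMap b.d2.μ (θ b.s.X (j x))) = b.d.μ (x - b.pr.π x) + ν (τ x) := by
      change ν x = _
      rw [← m1 _ (hs.πU x), ← map_add, hτ, LinearMap.sub_apply, sub_add_sub_cancel, map_sub,
        show ν (π' x) = 0 by simp only [hν, comp_apply, h.j_V _ (h'.πV x), map_zero], sub_zero]
    obtain ⟨y, hy⟩ := key (b.d1.μ.prodMap b.d2.μ (θ b.s.X (j x)))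
      (by rw [R_μ b.cmp1 b.cmp2, R_θ, map_zero]) _ (ha _ (r1 x).1).1 _ (ha _ (r1 x).2.1).2 0
    rw [map_zero, add_zero, a1] at hy
    exact ⟨y, hy⟩

theorem SigP.nonempty_sig : Nonempty b.Sig :=
  let ⟨i, j, U, V', π', μW, r, s, r', s', h1, h2, h3, h4, h5, h6, h7, h8, h9, h10, h11, h12, h13⟩ :=
    b.sigma
  ⟨⟨i, j, U, V', π', μW, r, s, r', s', h1, h2, h3, h4, h5, h6, h7, h8, h9, h10, h11, h12, h13⟩⟩

end Vale.Agent.P269.Deg
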