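import Vale.Agent.P269.Deg.Ch
import Vale.Agent.P269.Deg.Mdl
import Vale.Agent.P269.Deg.Cmp
import Vale.Agent.P269.Deg.Lp
import Vale.Agent.P269.Deg.Ex
import Vale.Agent.P269.Deg.Ann
import Vale.Agent.P269.Deg.Cs0A

/-! Exact smoothings in a model; the blow-up step. -/

namespace Vale.Agent.P269.Deg

open Fock Finset LinearMap Fn

variable {Γ : Type} [AddCommGroup Γ] {g : Grd Γ} {D : Dv} {Y1 : Pz D 1} {Y2 : Pz D (-1)}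

lemma Sm.mv_vv (X : Sm Y1 Y2) (t1 : VV Y1.H) (t2 : VV Y2.H) (e : vv Y1.res t1 = vv Y2.res t2) :
    ∃ w, (vv X.θ1).prod (vv X.θ2) w = (t1, t2) := by
  classical
  choose w h1 h2 using fun m => X.mv (t1 m) (t2 m) (DFunLike.congr_fun e m)
  refine ⟨Finsupp.onFinset (t1.support ∪ t2.support)
    (fun m => if m ∈ t1.support ∪ t2.support then w m else 0) fun m hm => by_contra fun h => hm
      (if_neg h), Prod.ext ?_ ?_⟩ <;> ext m <;> by_cases hm : m ∈ t1.support ∪ t2.support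
  · simp [-mem_union, hm, h1]
  · simp [-mem_union, hm, Finsupp.notMem_support_iff.1 (notMem_union.1 hm).1]
  · simp [-mem_union, hm, h2]
  · simp [-mem_union, hm, Finsupp.notMem_support_iff.1 (notMem_union.1 hm).2]

lemma vi_apply {X : Coh} (i : X.H →ₗ[ℂ] CH Y1 Y2) (x : VV X.H) (m : ℕ) :
    ((((vi i x).1.1 m, (vi i x).1.2 m), ((vi i x).2.1 m, (vi i x).2.2 m)) : CH Y1 Y2) = i (x m) :=
  rfl

lemma vi_cl {X : Coh} {i : X.H →ₗ[ℂ] CH Y1 Y2} (hi : Ctr i) (x : VV X.H) :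
    (Y1.pc sq1).tq (Y2.pc sqm) (vi i x) = 0 := by
  refine Prod.ext (Prod.ext ?_ ?_) (Prod.ext ?_ rfl) <;> ext m
  · exact congrArg (·.1.1) (hi.cl (x m))
  · exact congrArg (·.1.2) (hi.cl (x m))
  · exact congrArg (·.2.1) (hi.cl (x m))

/-- The data of an exact smoothing. -/
structure Sm.Xd (X : Sm Y1 Y2) where
  j : X.H →ₗ[ℂ] X.W
  k : D.H →ₗ[ℂ] X.W
  hj : IsEv X.p X.pw j
  spj : ∀ x, X.sp (j x) = x
  ctr : Ctr (X := X.toCoh) (X.iW ∘ₗ j)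
  ht : ∀ w, ∃ a, X.iW w = X.iW (j (X.sp w)) + qC Y1 Y2 (0, (0, a))
  hk : ∀ a, X.θ1 (k a) = Y1.gys a ∧ X.θ2 (k a) = -Y2.gys a ∧ X.sp (k a) = 0
  rel : ∀ a1 a2 a am ap, X.Rel ⊤ a1 a2 a → HtH (X := X.toCoh) (X.iW ∘ₗ j) a1 a2 am ap a

lemma Sm.xd (X : Sm Y1 Y2) (hs : Function.Surjective X.sp)
    (hr : ∀ u, ∃ t1 t2, Y1.res t1 - Y2.res t2 = u) : Nonempty X.Xd :=
  let ⟨j, h1, h2, h3, h4, ⟨k, _, h5⟩, h6⟩ := X.exact hs hr
  ⟨⟨j, k, h1, h2, h3, h4, h5, h6⟩⟩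

lemma Sm.xdL {P : Cz D 1} (X : Sm P.toPz Y2) (hs : Function.Surjective X.sp) : Nonempty X.Xd :=
  X.xd hs fun u => ⟨P.sec u, 0, by simp [P.res_sec]⟩

lemma Sm.xdR {P : Cz D (-1)} (X : Sm Y1 P.toPz) (hs : Function.Surjective X.sp) : Nonempty X.Xd :=
  X.xd hs fun u => ⟨0, -P.sec u, by simp [P.res_sec]⟩

lemma Sm.mat_vv (X : Sm Y1 Y2) (w : VV X.W) : vv Y1.res (vv X.θ1 w) = vv Y2.res (vv X.θ2 w) := by
  ext m; exact X.mat _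

/-- The exact smoothing with descendants. -/
noncomputable def Sm.Xd.ex {X : Sm Y1 Y2} (e : X.Xd) :
    (Y1.pc sq1).Ex (Y2.pc sqm) (X.p.fs ℕ) (X.pw.fs ℕ) where
  θ := (vv X.θ1).prod (vv X.θ2)
  sp := vv X.sp
  j := vv e.j
  i := vi (X := X.toCoh) (X.iW ∘ₗ e.j)
  k := vv e.k
  hθ := isEv_prod (isEv_vv X.h1) (isEv_vv X.h2)
  hsp := isEv_vv X.hsp
  hj := isEv_vv e.hj
  hi := isEv_vi e.ctr.ev
  mat := X.mat_vv
  mv := X.mv_vv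
  spj x := by ext m; exact e.spj _
  cl := vi_cl e.ctr
  ht w := by
    induction w using Finsupp.induction_linear with
    | zero => exact ⟨0, by simp [Prod.ext_iff]⟩
    | add a b ha hb =>
      obtain ⟨y, hy⟩ := ha
      obtain ⟨z, hz⟩ := hb
      refine ⟨y + z, ?_⟩
      rw [map_add, map_add, map_add, map_add, add_add_add_comm, ← hy, ← hz]
      exact Prod.ext rfl (add_zero _).symm
    | single m w =>
      obtain ⟨a, ha⟩ := e.ht w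
      refine ⟨(0, (0, Finsupp.single m a)), Prod.ext (Prod.ext ?_ ?_) (Prod.ext ?_ ?_)⟩ <;> ext n <;>
        by_cases hn : n = m
      · simpa [hn, vi, Pz.pc, Pz.pcH, Sm.iW] using congrArg (·.1.1) ha
      · simp [hn, vi, Pz.pc]
      · simpa [hn, vi, Pz.pc, Pz.pcH, Sm.iW] using congrArg (·.1.2) ha
      · simp [hn, vi, Pz.pc]
      all_goals simp [vi, Pz.pc, Sm.iW]
  θk a := by
    refine Prod.ext ?_ ?_ <;> ext m
    · simpa [Pz.pc] using (e.hk (a m)).1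
    · simpa [Pz.pc] using (e.hk (a m)).2.1
  spk a := by ext m; exact (e.hk (a m)).2.2

lemma ac_iff {H : Type} [AddCommGroup H] [Module ℂ H] {p : Par ℂ H} {ι : Type} [Fintype ι]
    {fr : Frame p ι} {B : Type} [Ring B] [Algebra ℂ B] [Algebra KK B] [IsScalarTower ℂ KK B]
    {s : SPar ℂ B} {A : Module.End ℂ (LL H)} (hA : fr.Quad A) (F : Fn (p.fs ℕ) s) (κ : KK) :
    (Op.of fr A hA).ac hb F = κ • F ↔ Cns fr hb F.ap A κ := by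
  rw [Op.ac, of_q0, of_q1, of_qm]
  exact ⟨fun h x => congrArg (·.ap x) h, fun h => Fn.ext h⟩

lemma eq_of_pull {V : Type} [AddCommGroup V] [Module ℂ V] {p : Par ℂ V} {B : Type} [Ring B]
    [Algebra ℂ B] [Algebra KK B] [IsScalarTower ℂ KK B] {s : SPar ℂ B} {O : Op p} {F G : Fn p s}
    {κ : KK} (h : O.ac hb F = κ • F) (e : F = G) : O.ac hb G = κ • G := e ▸ h

/-- The properties of the operator on the divisor. -/
structure Trip.BP (t : Trip D) (Ob : BOp D.bs) : Prop where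
  cmp : ∀ {ε : ℂ} (hε : ε * ε = 1) (Y : Pz D ε) (A) (hA : Y.Nat A t),
    (Y.pc hε).Comp ε (Op.of Y.fr A hA.qd.quad) Ob
  rs : ∀ (Y1 : Pz D 1) (Y2 : Pz D (-1)) (A1 A2) (h1 : Y1.Nat A1 t) (h2 : Y2.Nat A2 t) (X : Coh)
    (i : X.H →ₗ[ℂ] CH Y1 Y2) (hi : Ctr i) (A) (hA : Qd X.fr A), HtL i A1 A2 t A →
    (Ob.top (P1 := Y1.pc sq1) (P2 := Y2.pc sqm) (Op.of Y1.fr A1 h1.qd.quad)
      (Op.of Y2.fr A2 h2.qd.quad)).Rs (Op.of X.fr A hA.quad) ((Y1.pc sq1).tq (Y2.pc sqm))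
      (vi i) (isEv_vi hi.ev)

lemma Trip.exists_bp (t : Trip D) : ∃ Ob, t.BP Ob :=
  let ⟨Ob, _, h1, h2⟩ := exists_bop t
  ⟨Ob, h1, h2⟩

/-- The divisor part of a Virasoro operator. -/
structure VT (d : VD D.fr) (k : ℕ) (t : Trip D) (Ob : BOp D.bs) : Prop extends t.BP Ob where
  hm : t.am = ellO (d.μ - (1 / 2 : ℂ) • 1) d.ρ k
  hp : t.ap = ellO (d.μ + (1 / 2 : ℂ) • 1) d.ρ k

lemma exists_vt (d : VD D.fr) (k : ℕ) : ∃ t Ob, VT d k t Ob :=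
  let ⟨t, h1, h2⟩ := exists_tripV d k
  let ⟨Ob, h⟩ := t.exists_bp
  ⟨t, Ob, h, h1, h2⟩

lemma VT.comp {dD : VD D.fr} {k : ℕ} {t : Trip D} {Ob : BOp D.bs} (v : VT dD k t Ob) {ε : ℂ}
    (hε : ε * ε = 1) {Y : Pz D ε} {d : VD Y.fr} (c : Y.Cmp d dD) :
    (Y.pc hε).Comp ε (Op.of Y.fr (d.ell k) (d.quad_ell k)) Ob := v.cmp hε Y _ (c.nat v.hm)

lemma VT.rs' {dD : VD D.fr} {k : ℕ} {t : Trip D} {Ob : BOp D.bs} (v : VT dD k t Ob)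
    {d1 : VD Y1.fr} {d2 : VD Y2.fr} (c1 : Y1.Cmp d1 dD) (c2 : Y2.Cmp d2 dD) {X : Coh}
    {i : X.H →ₗ[ℂ] CH Y1 Y2} (hi : Ctr i) {d : VD X.fr}
    (hμ : HtH i d1.μ d2.μ (dD.μ - (1 / 2 : ℂ) • 1) (dD.μ + (1 / 2 : ℂ) • 1) d.μ)
    (hρ : HtH i d1.ρ d2.ρ dD.ρ dD.ρ d.ρ) :
    (Ob.top (P1 := Y1.pc sq1) (P2 := Y2.pc sqm) (Op.of Y1.fr (d1.ell k) (d1.quad_ell k))
      (Op.of Y2.fr (d2.ell k) (d2.quad_ell k))).Rs (Op.of X.fr (d.ell k) (d.quad_ell k))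
      ((Y1.pc sq1).tq (Y2.pc sqm)) (vi i) (isEv_vi hi.ev) :=
  v.rs Y1 Y2 _ _ (c1.nat v.hm) (c2.nat v.hm) X i hi _ (Cs0P.qd_ell d k)
    (htL_ell c1 c2 hμ hρ v.hm v.hp)

namespace Mdl

variable (m : Mdl g D) {F : Ser Γ (pR Y1.p D)} {G : Ser Γ (pR Y2.p D)}

lemma g1x (hF : F.RelL g) (hG : G.RelR g) (s : Smo g F G) (e : s.X.Xd) :
    (e.ex.xt pN).G1 (m.row F hF) (m.col G hG) (m.ab s.Z s.abs) :=
  (m.g1 s.X F hF G hG s.Z s.abs s.g1).trans (pull_congr _ _ (fun _ => rfl) _)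

/-- The connection of the divisor and the gluing kernel. -/
structure Con (c : CapIn g D) (R : Fn (D.bs.xt pN).ms m.sA) (U : Fn (D.bs.xt pN).uni m.sA) :
    Prop where
  l : ((c.P'.cp sq1).xt pN).FlL m.h (m.row c.F' c.relL) R
  r : ((c.P.cp sqm).xt pN).FlR m.h (m.col c.F c.relR) R
  u : Bs.IsU R U

lemma exists_con (c : CapIn g D) : ∃ R U, m.Con c R U := by
  obtain ⟨e⟩ := c.sm.X.xdL c.surj
  obtain ⟨R, h1, h2⟩ := (m.caps c).exists_R (m.g1x c.relL c.relR c.sm e).kinv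
  obtain ⟨U, hU⟩ := (m.caps c).exists_U h1 h2
  exact ⟨R, U, h1, h2, hU⟩

variable {m} {c : CapIn g D} {R : Fn (D.bs.xt pN).ms m.sA} {U : Fn (D.bs.xt pN).uni m.sA}

lemma Con.flL (n : m.Con c R U) (hF : F.RelL g) (s : Smo g F c.F) (e : s.X.Xd) :
    ((Y1.pc sq1).xt pN).FlL m.h (m.row F hF) R :=
  (m.caps c).canR.flL n.r (m.row_ev F hF) (m.row_mem F hF) (m.g1x hF c.relR s e).kinv

lemma Con.flR (n : m.Con c R U) (hG : G.RelR g) (s : Smo g c.F' G) (e : s.X.Xd) :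
    ((Y2.pc sqm).xt pN).FlR m.h (m.col G hG) R :=
  (m.caps c).canL.flR n.l (m.col_mem G hG) (m.g1x c.relL hG s e).kinv

lemma z_ev (hF : F.RelL g) : τ (z0 (m.row F hF)) = z0 (m.row F hF) := by rw [τ_pull, m.row_ev]

/-- The Virasoro constraint of an exact smoothing on the matching pairs. -/
lemma vmV {hF : F.RelL g} {hG : G.RelR g} (s : Smo g F G) (e : s.X.Xd) {d1 : VD Y1.fr}
    {d2 : VD Y2.fr} {dD : VD D.fr} {d : VD s.X.fr} (c1 : Y1.Cmp d1 dD) (c2 : Y2.Cmp d2 dD)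
    (r : s.X.RelD d1 d2 d) (v : VirD g d s.Z) {k : ℕ} {t : Trip D} {Ob : BOp D.bs}
    (o : VT dD k t Ob) (f1 : ((Y1.pc sq1).xt pN).FlL m.h (m.row F hF) R)
    (f2 : ((Y2.pc sqm).xt pN).FlR m.h (m.col G hG) R) (hU : Bs.IsU R U) :
    Pc.VM hb (Y1.pc sq1) (Y2.pc sqm) m.h Ob (Op.of _ _ (d1.quad_ell k)) (Op.of _ _ (d2.quad_ell k))
      (z0 (m.row F hF)) (z0 (m.col G hG)) (pull _ (D.bs.isEv_zu pN) U)
      (algebraMap ℂ KK (if k = 1 then -d.c0 else 0)) :=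
  (m.g1x hF hG s e).z.vm (o.comp sq1 c1) (o.comp sqm c2)
    (o.rs' c1 c2 e.ctr (e.rel _ _ _ _ _ r.μ) (e.rel _ _ _ _ _ r.ρ)) (z_ev hF)
    (pull_mem (m.row_mem F hF) _ _) f1.z f2.z hU.z
    ((ac_iff _ _ _).2 ((m.vir d s.Z s.abs).1 v k))

variable (m) in
lemma vir_of {X : Coh} (d : VD X.fr) {Z : Ser Γ (pT X.p)} (hZ : Z.Abs g)
    (h : ∀ k, ∃ κ, Cns X.fr hb (z0 (m.ab Z hZ)).ap (d.ell k) κ) : VirD g d Z :=
  (m.vir d Z hZ).2 (cns_ell d fun k => ⟨Cs0P.qd_ell d k, h k⟩)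

/-- **The blow-up step.** -/
theorem stepBl {g : Grd Γ} (m : Mdl g D) (b : BlIn g D) : VirD g b.dBX b.sB.Z := by
  obtain ⟨R, U, n⟩ := m.exists_con b.c
  obtain ⟨e0⟩ := b.c.sm.X.xdL b.c.surj
  obtain ⟨eQ⟩ := b.sQ.X.xdL b.surjQ
  obtain ⟨eX⟩ := b.sX.X.xdR b.surjX
  obtain ⟨eB⟩ := b.sB.X.xdR b.surjB
  have f1 := n.flL b.relB b.sB eB
  have f2 := n.flR b.relQ b.sQ eQ
  refine m.vir_of _ b.sB.abs fun k => ?_
  obtain ⟨t, Ob, o⟩ := exists_vt b.dD k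
  have v0 := vmV b.c.sm e0 b.v.cmp' b.v.cmp b.v.rel b.v.vir o n.l n.r n.u
  have v1 := vmV b.sX eX b.cmpB b.cmpQ b.relX b.virX o f1 f2 n.u
  have v2 := vmV b.sQ eQ b.v.cmp' b.cmpQ b.relQX b.virQ o n.l f2 n.u
  have a := (m.caps b.c).z.bl (Q := b.Q.cp sqm) m.lin (m.canR b.Q b.FQ b.relQ b.s b.hs b.g3Q).z
    n.l.z n.r.z n.u.z (z_ev b.relB) (pull_mem (m.row_mem _ b.relB) _ _)
    (pull_mem (m.col_mem _ b.relQ) _ _) f1.z f2.z (o.comp sq1 b.v.cmp') (o.comp sqm b.v.cmp)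
    (o.comp sq1 b.cmpB) (o.comp sqm b.cmpQ) v0 v1 v2
  have r := o.rs' b.cmpB b.v.cmp eB.ctr (eB.rel _ _ _ _ _ b.relBX.μ) (eB.rel _ _ _ _ _ b.relBX.ρ)
  have := Pc.descend r (z_ev b.relB) f1.z n.r.z n.u.z a
  have e := (m.g1x b.relB b.c.relR b.sB eB).z.pull_Sw (z_ev b.relB)
    (pull_mem (m.row_mem _ b.relB) _ _) f1.z n.r.z n.u.z
  exact ⟨_, (ac_iff (b.dBX.quad_ell k) _ _).1 (eq_of_pull this e)⟩

end Mdl

end Vale.Agent.P269.Deg
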