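import Vale.Agent.P269.Deg.StA
import Vale.Agent.P269.Deg.Tns
import Vale.Agent.P269.Deg.Sig
import Vale.Agent.P269.Deg.Fft

/-! The refined series of the double point step. -/

namespace Vale.Agent.P269.Deg

open Fock Finset LinearMap Fn

section node

variable {H : Type} [AddCommGroup H] [Module ℂ H] {p : Par ℂ H} {ι : Type} [Fintype ι]
  {fr : Frame p ι} {B : Type} [Ring B] [Algebra ℂ B] [Algebra KK B] [IsScalarTower ℂ KK B]
  {s : SPar ℂ B}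

variable (fr) in
/-- The splitting of nodes. -/
def Nod (F : Fn (pT p) s) (m n : ℕ) : Prop :=
  Fn.D (0, Finsupp.single (m, n) 1) F = (hb : KK) • Dx (Fock.map _ (isEv_inl _ _) (dd fr m n)) F

lemma node_ac {A : Module.End ℂ (LL H)} (hA : fr.Quad A) (h0 : fr.q0 A = 0) (hm : fr.qm A = 0)
    {m n : ℕ} (hc : fr.cas A = dd fr m n) (F : Fn (pT p) s) :
    ((Op.of fr A hA).xt (pn := pN) (n := -Finsupp.single (m, n) 1) rfl).ac hb F = (0 : KK) • F ↔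
      Nod fr F m n := by
  have a1 : Fock.ι (p.fs ℕ) (Frame.blk A fr.dil) = 0 := by
    simpa [Frame.q0] using LinearMap.congr_fun h0 1
  have a2 (v) : Fock.ι (p.fs ℕ) (Frame.blk A v) = 0 := by
    simpa [Frame.q0, a1] using LinearMap.congr_fun h0 (Fock.ι _ v)
  have a3 (v) (G : Fn (pT p) s) : Fn.D (Frame.blk A v, 0) G = 0 := by
    have := congrArg (Fock.map _ (isEv_inl _ pN)) (a2 v)
    rw [map_ι, map_zero] at this
    rw [← Dx_ι, ← inl_apply (R := ℂ), this, map_zero, LinearMap.zero_apply]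
  have a4 : (Op.of fr A hA).f = 0 := by
    have := of_qm hA (1 : Sc (p.fs ℕ))
    rwa [mul_one, sm_triv, hm, show pre 0 (1 : Sc (p.fs ℕ)) = 0 from Fn.ext fun _ => by simp] at this
  have a5 : Vf ((Frame.blk A).prodMap 0) F = 0 := ins_eq_zero fun v => a3 _ _
  have a6 : Fn.D (-Frame.blk A fr.dil, -Finsupp.single (m, n) (1 : ℂ)) F =
      -Fn.D (0, Finsupp.single (m, n) 1) F := by
    rw [← Prod.neg_mk, map_neg, LinearMap.neg_apply, ← Prod.fst_add_snd (Frame.blk A fr.dil, _),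
      map_add, LinearMap.add_apply, a3, zero_add]
  simp only [Op.ac, Op.xt, a4]
  rw [← map_mulT _ (isEv_inl _ _)]
  simp only [Op.of]
  rw [mulT_casTen hA, hc, a5, a6, Nod]
  simp only [map_zero, zero_mul, smul_zero, add_zero]
  rw [show (0 : KK) • F = 0 from zero_smul KK F, neg_add_eq_zero]

lemma par_dd (m n : ℕ) : par _ (dd fr m n) = dd fr m n := by
  simp only [dd, map_sum, map_mul, par_ι, Par.fs_σ_single, fr.he, fr.hf, ← Finsupp.smul_single,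
    map_smul, smul_mul_smul_comm, neg_one_pow_mul_self, one_smul]

/-- Two series with the same splitting of nodes that agree on insertions from `U` and on nodes. -/
theorem eq_on_conS {U : Submodule ℂ H} {a : Module.End ℂ H} (ha : IsEv p p a)
    (hU : ∀ u ∈ U, a u = u) {F : Fn (pT p) s} (h0 : pull _ (isEv_lp ha) F = 0)
    (hn : ∀ m n, Nod fr F m n) {x : S (p.fs ℕ)} (hx : x ∈ conS fr U) : (z0 F).ap x = 0 := by
  have key (v : VV H × NN) (hv : lp a v = v) (F : Fn (pT p) s) (h0 : pull _ (isEv_lp ha) F = 0)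
      (hn : ∀ m n, Nod fr F m n) :
      pull _ (isEv_lp ha) (Fn.D v F) = 0 ∧ ∀ m n, Nod fr (Fn.D v F) m n := by
    refine ⟨by rw [← hv, ← D_pull, h0, map_zero], fun m n => ?_⟩
    have e := Dx_comm (y := Fock.map _ (isEv_inl (p.fs ℕ) pN) (dd fr m n))
      (by rw [par_map, par_dd]) (Fock.ι _ v) F
    rw [Dx_ι, Dx_ι] at e
    rw [Nod, ← D_comm_ev _ (Prod.ext (by simp) rfl), hn, D_sc, e]
  rw [conS, ← Subalgebra.mem_toSubmodule, Algebra.adjoin_eq_span] at hx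
  induction hx using Submodule.span_induction with
  | zero => simp
  | add x y _ _ hx hy => rw [map_add, hx, hy, add_zero]
  | smul c x _ hx => rw [map_smul, hx, smul_zero]
  | mem x hx =>
    induction hx using Submonoid.closure_induction_left generalizing F with
    | one => simpa using congrArg (·.ap 1) h0
    | mul_left y hy x _ hx =>
      rcases hy with ⟨m, u, hu, rfl⟩ | ⟨m, n, rfl⟩
      · obtain ⟨b1, b2⟩ := key (Finsupp.single m u, 0) (by simp [hU u hu]) F h0 hn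
        rw [← D_ap, D_pull]
        exact hx b1 b2
      · obtain ⟨b1, b2⟩ := key (0, Finsupp.single (m, n) 1) (by simp) F h0 hn
        have := hx b1 b2
        rw [hn, z0, pull_sc, sc_ap, ← Units.smul_def, smul_eq_zero_iff_eq, ← Dx_pull] at this
        exact this

end node

variable {Γ : Type} [AddCommGroup Γ] {g : Grd Γ} {D : Dv} {Y1 : Pz D 1} {Y2 : Pz D (-1)}

/-- The divisor part of a node operator. -/
structure NT (m n : ℕ) (P : Module.End ℂ (LL ℂ)) (t : Trip D) (Ob : BOp D.bs) : Prop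
    extends t.BP Ob where
  qd : ∀ X : Coh, Qd X.fr (tns P 1)
  eq : ∀ X : Coh, X.fr.q0 (tns P 1) = 0 ∧ X.fr.qm (tns P 1) = 0 ∧ X.fr.cas (tns P 1) = dd X.fr m n
  nat : ∀ {ε : ℂ} (Y : Pz D ε), Y.Nat (tns P 1) t
  ht : ∀ {Y1 : Pz D 1} {Y2 : Pz D (-1)} {X : Coh} (i : X.H →ₗ[ℂ] CH Y1 Y2),
    HtL i (tns P 1) (tns P 1) t (tns P 1)

variable (D) in
lemma exists_nt (m n : ℕ) : ∃ P t Ob, NT (D := D) m n P t Ob :=
  let ⟨P, h⟩ := exists_nodeOp m n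
  let ⟨t, h1, h2⟩ := exists_tripS P (h D.fr).1
  let ⟨Ob, h3⟩ := t.exists_bp
  ⟨P, t, Ob, h3, fun X => (h X.fr).1, fun X => (h X.fr).2, fun Y => h1 Y (h Y.fr).1, h2⟩

namespace NT

variable {m n : ℕ} {P : Module.End ℂ (LL ℂ)} {t : Trip D} {Ob : BOp D.bs} (o : NT m n P t Ob)

/-- The node operator. -/
noncomputable def op (X : Coh) : Op (pT X.p) :=
  (Op.of X.fr _ (o.qd X).quad).xt (pn := pN) (n := -Finsupp.single (m, n) 1) rfl

/-- Its part on the divisor. -/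
noncomputable def bop (_ : NT m n P t Ob) : BOp (D.bs.xt pN) :=
  Ob.xt (n := -Finsupp.single (m, n) 1) rfl

lemma comp {ε : ℂ} (hε : ε * ε = 1) (Y : Pz D ε) :
    ((Y.pc hε).xt pN).Comp ε (o.op Y.toCoh) o.bop := (o.cmp hε Y _ (o.nat Y)).xt rfl

lemma rs' {X : Coh} {i : X.H →ₗ[ℂ] CH Y1 Y2} (hi : Ctr i) :
    (o.bop.top (P1 := (Y1.pc sq1).xt pN) (P2 := (Y2.pc sqm).xt pN) (o.op Y1.toCoh)
      (o.op Y2.toCoh)).Rs (o.op X) (((Y1.pc sq1).xt pN).tq ((Y2.pc sqm).xt pN)) (ixt NN (vi i))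
      (isEv_ixt pN (isEv_vi hi.ev)) :=
  (o.rs Y1 Y2 _ _ (o.nat Y1) (o.nat Y2) X i hi _ (o.qd X) (o.ht i)).xt rfl

lemma iff {X : Coh} {B : Type} [Ring B] [Algebra ℂ B] [Algebra KK B] [IsScalarTower ℂ KK B]
    {s : SPar ℂ B} (F : Fn (pT X.p) s) : (o.op X).ac hb F = (0 : KK) • F ↔ Nod X.fr F m n :=
  node_ac _ (o.eq X).1 (o.eq X).2.1 (o.eq X).2.2 F

end NT

namespace Mdl

variable {m : Mdl g D} {R : Fn (D.bs.xt pN).ms m.sA} {U : Fn (D.bs.xt pN).uni m.sA}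

lemma vmN {F : Ser Γ (pR Y1.p D)} {G : Ser Γ (pR Y2.p D)} {hF : F.RelL g} {hG : G.RelR g}
    (s : Smo g F G) (e : s.X.Xd) (v : s.Z.Node) {a b : ℕ} {P : Module.End ℂ (LL ℂ)} {t : Trip D}
    {Ob : BOp D.bs} (o : NT a b P t Ob) (f1 : ((Y1.pc sq1).xt pN).FlL m.h (m.row F hF) R)
    (f2 : ((Y2.pc sqm).xt pN).FlR m.h (m.col G hG) R) (hU : Bs.IsU R U) :
    Pc.VM hb ((Y1.pc sq1).xt pN) ((Y2.pc sqm).xt pN) m.h o.bop (o.op Y1.toCoh) (o.op Y2.toCoh)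
      (m.row F hF) (m.col G hG) U 0 :=
  (m.g1x hF hG s e).vm (o.comp sq1 Y1) (o.comp sqm Y2) (o.rs' e.ctr) (m.row_ev F hF)
    (m.row_mem F hF) f1 f2 hU ((o.iff _).2 (m.node s.Z s.abs v a b))

lemma Con.sym {c : CapIn g D} (n : m.Con c R U) {F1 : Ser Γ (pR c.P'.p D)} (h1 : F1.RelL g) {t : ℂ}
    (ht : t ≠ 0) (h : G2 g c.sm.X c.F' F1 c.F t) :
    Vf ((LinearMap.id ∘ₗ snd ℂ (VV D.H) (VV D.H)).prod 0) (pull _ (D.bs.isEv_z pN) R) = 0 := by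
  refine (m.caps c).z.sym n.l.z n.r.z (z_ev h1) (pull_mem (m.row_mem _ h1) _ _) (isEv_id _) ht
    (isEv_prod (isEv_vv c.sm.X.h1) (isEv_vv c.sm.X.h2)) c.sm.X.mat_vv c.sm.X.mv_vv fun v => ?_
  have hk := isEv_prodMap' (isEv_inl (c.P'.p.fs ℕ) pN) (isEv_inl (c.P.p.fs ℕ) pN)
  have e (F : Fn (pT c.P'.p) m.s) (G : Fn (pT c.P.p) m.s) :
      bx (z0 F) (z0 G) = pull _ hk (bx F G) := by
    rw [bx, bx, z0, z0, map_mul, pull_pull _ _ _ _ _ (isEv_comp (isEv_inl _ pN) (isEv_fst _ _)) fun _ => rfl,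
      pull_pull _ _ _ _ _ (isEv_comp (isEv_inl _ pN) (isEv_snd _ _)) fun _ => rfl,
      pull_pull _ _ _ _ _ (isEv_comp (isEv_inl _ pN) (isEv_fst _ _)) fun _ => rfl,
      pull_pull _ _ _ _ _ (isEv_comp (isEv_inl _ pN) (isEv_snd _ _)) fun _ => rfl]
  have := m.g2 c.sm.X _ c.relL _ h1 _ c.relR t h v
  rw [← pull_pull _ (isEv_prod (isEv_vv c.sm.X.h1) (isEv_vv c.sm.X.h2)) _ hk _ _ fun _ => rfl,
    map_add, map_add, map_smul, map_smul] at this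
  have a1 := D_pull _ hk (vv c.P'.gys v, -vv c.P.gys v) (bx (m.row F1 h1) (m.col c.F c.relR))
  have a2 := D_pull _ hk (vv c.P'.sec v, 0) (bx (m.row c.F' c.relL) (m.col c.F c.relR))
  rw [← e] at a1 a2
  erw [← a1, ← a2, ← map_smul, ← map_add] at this
  have b1 : (c.P'.cp sq1).io v = vv c.P'.gys v := by simp [Cz.cp, Pz.pc]
  have b2 : (c.P.cp sqm).io v = -vv c.P.gys v := by simp [Cz.cp, Pz.pc]
  erw [b1, b2]
  exact this

variable (m) (b : DPIn g D)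

/-- The connection is flat on both pieces. -/
structure Fl (R : Fn (D.bs.xt pN).ms m.sA) (U : Fn (D.bs.xt pN).uni m.sA) : Prop
    extends m.Con b.c R U where
  f1 : ((b.Y1.pc sq1).xt pN).FlL m.h (m.row b.F1 b.rel1) R
  f2 : ((b.Y2.pc sqm).xt pN).FlR m.h (m.col b.F2 b.rel2) R

lemma exists_fl : ∃ R U, m.Fl b R U := by
  obtain ⟨R, U, n⟩ := m.exists_con b.c
  obtain ⟨e1⟩ := b.s1.X.xdR b.surj1
  obtain ⟨e2⟩ := b.s2.X.xdL b.surj2
  exact ⟨R, U, n, n.flL b.rel1 b.s1 e1, n.flR b.rel2 b.s2 e2⟩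

/-- The refined series. -/
noncomputable def ref (U : Fn (D.bs.xt pN).uni m.sA) {i : b.s.X.H →ₗ[ℂ] CH b.Y1 b.Y2}
    (hi : Ctr (X := b.s.X.toCoh) i) : Fn (pT b.s.X.p) m.s :=
  pull _ (isEv_ixt pN (isEv_vi hi.ev)) (Pc.Sw ((b.Y1.pc sq1).xt pN) ((b.Y2.pc sqm).xt pN) m.h
    (m.row b.F1 b.rel1) (m.col b.F2 b.rel2) U)

variable {m b} {i : b.s.X.H →ₗ[ℂ] CH b.Y1 b.Y2} (hi : Ctr (X := b.s.X.toCoh) i)

lemma z_ref : z0 (m.ref b U hi) = pull _ (isEv_vi hi.ev) (Pc.Sw (b.Y1.pc sq1) (b.Y2.pc sqm) m.h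
    (z0 (m.row b.F1 b.rel1)) (z0 (m.col b.F2 b.rel2)) (pull _ (D.bs.isEv_zu pN) U)) :=
  Pc.z_pull_Sw _ _ _ _

lemma Fl.node (n : m.Fl b R U) (k l : ℕ) : Nod b.s.X.fr (m.ref b U hi) k l := by
  obtain ⟨e0⟩ := b.c.sm.X.xdL b.c.surj
  obtain ⟨e1⟩ := b.s1.X.xdR b.surj1
  obtain ⟨e2⟩ := b.s2.X.xdL b.surj2
  obtain ⟨P, t, Ob, o⟩ := exists_nt D k l
  have v0 := vmN b.c.sm e0 b.nodeP o n.l n.r n.u
  have v1 := vmN b.s1 e1 b.node1 o n.f1 n.r n.u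
  have v2 := vmN b.s2 e2 b.node2 o n.l n.f2 n.u
  have a := (m.caps b.c).dp m.lin n.l n.r n.u (m.row_ev _ b.rel1) (m.row_mem _ b.rel1)
    (m.col_mem _ b.rel2) n.f1 n.f2 (o.comp sq1 _) (o.comp sqm _) (o.comp sq1 _) (o.comp sqm _)
    v0 v1 v2
  rw [add_zero, sub_zero] at a
  exact (o.iff (X := b.s.X.toCoh) _).1
    (Pc.descend (o.rs' hi) (m.row_ev _ b.rel1) n.f1 n.f2 n.u a)

lemma Fl.vir (n : m.Fl b R U) {h h' : Module.End ℂ D.H} (hh : Inv.Isom D.fr.η b.prD.V h)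
    (e : h * h' = 1) {d' : VD D.fr} (e1 : d'.μ = h * b.dD.μ * h') (e2 : d'.ρ = b.dD.ρ)
    (e3 : ∀ a ∈ b.prD.A, d'.μ a = b.dD.μ a) {d : VD b.s.X.fr}
    (hμ : HtH (X := b.s.X.toCoh) i b.d1.μ b.d2.μ (d'.μ - (1 / 2 : ℂ) • 1) (d'.μ + (1 / 2 : ℂ) • 1)
      d.μ) (hρ : HtH (X := b.s.X.toCoh) i b.d1.ρ b.d2.ρ d'.ρ d'.ρ d.ρ) (k : ℕ) :
    ∃ κ, Cns b.s.X.fr hb (z0 (m.ref b U hi)).ap (d.ell k) κ := by
  obtain ⟨e0⟩ := b.c.sm.X.xdL b.c.surj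
  obtain ⟨x1⟩ := b.s1.X.xdR b.surj1
  obtain ⟨x2⟩ := b.s2.X.xdL b.surj2
  obtain ⟨t, Ob, o⟩ := exists_vt d' k
  have c1 : b.Y1.Cmp b.d1 d' := ⟨fun t => by
    rw [b.cmp1.μ, e3 _ (b.res1 ▸ mem_range_self _ t)], fun t => by rw [b.cmp1.ρ, e2]⟩
  have c2 : b.Y2.Cmp b.d2 d' := ⟨fun t => by
    rw [b.cmp2.μ, e3 _ (b.res2 (mem_range_self _ t))], fun t => by rw [b.cmp2.ρ, e2]⟩
  set v := b.v d' e2 ⟨h, h', hh, e, e1⟩
  have v0 := vmV b.c.sm e0 v.cmp' v.cmp v.rel v.vir o n.l n.r n.u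
  have v1 := vmV b.s1 x1 c1 v.cmp (b.rel1X _ _ _) b.vir1 o n.f1 n.r n.u
  have v2 := vmV b.s2 x2 v.cmp' c2 (b.rel2X _ _ _) b.vir2 o n.l n.f2 n.u
  have a := (m.caps b.c).z.dp m.lin n.l.z n.r.z n.u.z (z_ev b.rel1)
    (pull_mem (m.row_mem _ b.rel1) _ _) (pull_mem (m.col_mem _ b.rel2) _ _) n.f1.z n.f2.z
    (o.comp sq1 v.cmp') (o.comp sqm v.cmp) (o.comp sq1 c1) (o.comp sqm c2) v0 v1 v2
  have := Pc.descend (o.rs' c1 c2 hi hμ hρ) (z_ev b.rel1) n.f1.z n.f2.z n.u.z a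
  exact ⟨_, (ac_iff (d.quad_ell k) _ _).1 (eq_of_pull this (z_ref hi).symm)⟩

lemma Fl.eq (n : m.Fl b R U) (σ : b.Sig) {x : S (b.s.X.p.fs ℕ)} (hx : x ∈ conS b.s.X.fr σ.U) :
    (z0 (m.ab b.s.Z b.s.abs)).ap x = (z0 (m.ref b U σ.ctr)).ap x := by
  have ha : IsEv b.s.X.p b.s.X.p (1 - σ.π') := IsEv.one.sub σ.spl.ev_πF
  have hj := isEv_lp (isEv_comp σ.hj ha)
  rw [← sub_eq_zero, ← sub_ap, ← map_sub]
  refine eq_on_conS ha (fun u hu => by simp [σ.spl.π_of_UF hu]) ?_ (fun k l => ?_) hx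
  · have a1 := congrArg (pull _ hj) (m.g1 b.s.X _ b.rel1 _ b.rel2 _ b.s.abs b.s.g1)
    have a2 := congrArg (pull _ hj) (Pc.pull_Sw_θ (P1 := (b.Y1.pc sq1).xt pN)
      (P2 := (b.Y2.pc sqm).xt pN) (F2 := m.col b.F2 b.rel2) b.s.X.isEv_θ
      (fun w => Prod.ext (b.s.X.mat_vv w.1) rfl) (m.row_mem _ b.rel1) n.u)
    rw [pull_pull _ _ _ _ _ (isEv_lp ha) fun v => Prod.ext
      (Finsupp.ext fun k => (σ.onU _ (σ.spl.πU _)).1) rfl] at a1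
    have hk := isEv_comp (isEv_comp (isEv_inl _ (D.bs.xt pN).gh) b.s.X.isEv_θ) hj
    rw [map_sub, a1, sub_eq_zero]
    refine (a2.symm.trans (pull_pull _ _ _ _ _ hk (fun _ => rfl) _)).trans
      (pull_pull _ _ _ _ _ hk (fun v => ?_) _).symm
    · have e (k) := (σ.onU _ (σ.spl.πU (v.1 k))).2
      rw [ixt_apply]
      refine Prod.ext (Prod.ext (Prod.ext ?_ rfl) (Prod.ext ?_ rfl)) (Prod.ext (Prod.ext ?_ rfl) ?_) <;>
        ext k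
      · exact congrArg (·.1.1) (e k)
      · exact congrArg (·.1.2) (e k)
      · exact congrArg (·.2.1) (e k)
      · exact congrArg (·.2.2) (e k)
  · rw [Nod, map_sub, map_sub, smul_sub, m.node _ _ b.node, n.node σ.ctr]

end Mdl

lemma DPIn.Sig.gh {b : DPIn g D} (σ : b.Sig) (x : b.s.X.H) : (σ.i x).2 = (σ.r' x, σ.s' x) := by
  obtain ⟨h1, h2, h3⟩ := σ.dec x
  have e : x = (x - σ.π' x) + σ.r (σ.r' x) + σ.s (σ.s' x) := by rw [add_assoc, ← h3, sub_add_cancel]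
  conv_lhs => rw [e, map_add, map_add, (σ.onU _ (σ.spl.πU x)).2, (σ.onV _ h1).2.2.2.2.2.2.1,
    (σ.onV _ h2).2.2.2.2.2.2.2]
  simp [Sm.iW]

theorem Mdl.Fl.out {m : Mdl g D} {R : Fn (D.bs.xt pN).ms m.sA} {U : Fn (D.bs.xt pN).uni m.sA}
    {b : DPIn g D} (n : m.Fl b R U) (σ : b.Sig) :
    σ.Out hb (z0 (m.ab b.s.Z b.s.abs)).ap (z0 (m.ref b U σ.ctr)).ap where
  eq x hx := n.eq σ hx
  he x := by
    rw [← pre_ap, ← Vf_eq_pre, Mdl.z_ref]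
    refine congrArg (·.ap x) (Pc.kill_e (isEv_vi σ.ctr.ev) (vi_cl σ.ctr)
      (Mdl.z_ev b.rel1) n.f1.z n.f2.z n.u.z ((m.caps b.c).z.canL.τ_R n.l.z) (isEv_id _)
      (n.sym b.rel1' b.ht b.g2) fun y => ?_)
    have e (k) := (σ.onV _ (σ.dec (y k)).2.1).2.2.2.2.2.2.1
    refine Prod.ext (Prod.ext ?_ ?_) (Prod.ext ?_ ?_) <;> ext k
    · exact congrArg (·.1.1) (e k)
    · exact congrArg (·.1.2) (e k)
    · exact (congrArg (·.2.1) (e k)).trans (congrArg (·.2) (σ.gh (y k))).symm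
    · exact congrArg (·.2.2) (e k)
  hh x := by
    rw [← pre_ap, ← Vf_eq_pre, Mdl.z_ref]
    rw [Pc.kill_h (isEv_vi σ.ctr.ev) n.u.z fun y => ?_]
    · rfl
    have e (k) : σ.i ((σ.r ∘ₗ σ.r' - σ.s ∘ₗ σ.s') (y k)) =
        (0, ((σ.i (y k)).2.1, -(σ.i (y k)).2.2)) := by
      simp [(σ.onV _ (σ.dec (y k)).1).2.2.2.2.2.2.1, (σ.onV _ (σ.dec (y k)).2.1).2.2.2.2.2.2.2,
        σ.gh]
    refine Prod.ext (Prod.ext ?_ ?_) (Prod.ext ?_ ?_) <;> ext k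
    · exact congrArg (·.1.1) (e k)
    · exact congrArg (·.1.2) (e k)
    · exact congrArg (·.2.1) (e k)
    · exact congrArg (·.2.2) (e k)
  vir h h' hh e k := by
    obtain ⟨d', e1, e2, e3, e4⟩ := b.prD.exists_conj hh e
    obtain ⟨d, e5, e6⟩ := σ.exists_vd d' e4
    have := n.vir σ.ctr hh e e1 e2 e3 (d := d) (e5 ▸ σ.hμ _ _ fun v hv =>
      ⟨sub_mem (e4 v hv) (Submodule.smul_mem _ _ hv), add_mem (e4 v hv) (Submodule.smul_mem _ _ hv)⟩)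
      (by rw [e2, e6]; exact σ.hρ) k
    rwa [ell_eq, e5, e6, e1] at this
  inv h a ha he x := m.inv _ _ a he (b.inv h a ha he) x

/-- The case without vanishing cycles. -/
theorem Mdl.Fl.c0 {m : Mdl g D} {R : Fn (D.bs.xt pN).ms m.sA} {U : Fn (D.bs.xt pN).uni m.sA}
    {b : DPIn g D} (n : m.Fl b R U) (σ : b.Sig) (h : b.prD.V = ⊥)
    (hμ : b.s.X.Rel ⊤ b.d1.μ b.d2.μ b.d.μ) (k : ℕ) :
    ∃ κ, Cns b.s.X.fr hb (z0 (m.ab b.s.Z b.s.abs)).ap (b.d.ell k) κ := by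
  obtain ⟨e⟩ := b.s.X.xd (fun x => by
      obtain ⟨h1, h2, h3⟩ := σ.dec x
      rw [h, Submodule.mem_bot] at h1 h2
      have := σ.spl.πU x
      rw [h3, h1, h2, map_zero, map_zero, add_zero, sub_zero] at this
      exact ⟨_, (σ.onU _ this).1⟩) fun u => by
    have : u ∈ LinearMap.range b.Y1.res := by
      have := b.prD.sup
      rw [h, sup_bot_eq] at this
      rw [b.res1, this]; trivial
    obtain ⟨t, rfl⟩ := this
    exact ⟨t, 0, by simp⟩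
  have := n.vir e.ctr Inv.Isom.one (mul_one 1) (d' := b.dD) (by simp) rfl (fun _ _ => rfl)
    (e.rel _ _ _ _ _ hμ) (e.rel _ _ _ _ _ b.relρ) k
  rwa [show m.ref b U e.ctr = m.ab b.s.Z b.s.abs from (m.g1x b.rel1 b.rel2 b.s e).pull_Sw
    (m.row_ev _ b.rel1) (m.row_mem _ b.rel1) n.f1 n.f2 n.u] at this

end Vale.Agent.P269.Deg
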