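import Vale.Agent.P269.Deg.Uni

/-! Pieces of a degeneration, sandwiches, caps, the connection of a divisor. -/

namespace Vale.Agent.P269.Deg

open Fock LinearMap TensorProduct Fn

section ring

variable {K : Type*} [CommRing K] {Um Up : Type*} [AddCommGroup Um] [Module K Um]
  [AddCommGroup Up] [Module K Up] {A B : Type*} [Ring A] [Algebra K A] [Ring B] [Algebra K B]
  {s : SPar K B} {sA : SPar K A} {b : Bs K Um Up}
  {V W U : Type*} [AddCommGroup V] [Module K V] [AddCommGroup W] [Module K W] [AddCommGroup U]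
  [Module K U] {p : Par K V} {q : Par K W} {r : Par K U}

/-- The ring of operators inside the ring of matrices, rows and columns, rows and columns of cap
type. -/
structure Rg (sA : SPar K A) (s : SPar K B) where
  φ : A →ₗ[K] B
  σφ : ∀ x, s.σ (φ x) = φ (sA.σ x)
  mul : ∀ x y, φ (x * y) = φ x * φ y
  NL : Submodule K B
  NR : Submodule K B
  L : Submodule K B
  R : Submodule K B
  L_le : L ≤ NL
  R_le : R ≤ NR
  σNL : ∀ y ∈ NL, s.σ y ∈ NL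
  σL : ∀ y ∈ L, s.σ y ∈ L
  σR : ∀ y ∈ R, s.σ y ∈ R
  NLm : ∀ y ∈ NL, ∀ x, y * φ x ∈ NL
  NRm : ∀ y ∈ NR, ∀ x, φ x * y ∈ NR
  Lm : ∀ y ∈ L, ∀ x, y * φ x ∈ L
  Rm : ∀ y ∈ R, ∀ x, φ x * y ∈ R
  NL1 : ∀ y ∈ NL, y * φ 1 = y

/-- A piece of a degeneration. -/
structure Pc (b : Bs K Um Up) (T : Type*) [AddCommGroup T] [Module K T] where
  p : Par K T
  res : T →ₗ[K] Um
  io : Up →ₗ[K] T
  hres : IsEv p b.pm res
  hio : IsEv b.pp p io
  hc : ∀ v, res (io v) = b.c v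

/-- A piece whose restriction map is split. -/
structure Cp (b : Bs K Um Up) (T Z : Type*) [AddCommGroup T] [Module K T] [AddCommGroup Z]
    [Module K Z] extends Pc b T where
  pz : Par K Z
  sec : Um →ₗ[K] T
  nul : Z →ₗ[K] T
  prj : T →ₗ[K] Z
  hsec : IsEv b.pm p sec
  hnul : IsEv pz p nul
  hprj : IsEv p pz prj
  res_sec : ∀ u, res (sec u) = u
  res_nul : ∀ z, res (nul z) = 0
  split : ∀ t, sec (res t) + nul (prj t) = t

variable {T T1 T2 Z Z' : Type*} [AddCommGroup T] [Module K T] [AddCommGroup T1] [Module K T1]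
  [AddCommGroup T2] [Module K T2] [AddCommGroup Z] [Module K Z] [AddCommGroup Z'] [Module K Z']

namespace Pc

variable (P : Pc b T) (P1 : Pc b T1) (P2 : Pc b T2)

/-- Variables `(t, s)`. -/
abbrev ts : Par K (T × Up) := P.p.prod b.pp.opp

/-- The differential of a piece. -/
def iq : Module.End K (T × Up) := (P.io ∘ₗ snd K _ _).prod 0

/-- `(t, s) ↦ (res t, s)`. -/
def rs : T × Up →ₗ[K] Um × Up := P.res.prodMap LinearMap.id

@[simp] lemma iq_apply (x : T × Up) : P.iq x = (P.io x.2, 0) := rfl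

@[simp] lemma rs_apply (x : T × Up) : P.rs x = (P.res x.1, x.2) := rfl

lemma isOd_iq : IsOd P.ts P.ts P.iq := fun v => by simp [P.hio v.2]

lemma isEv_rs : IsEv P.ts b.ms P.rs := fun v => by simp [P.hres v.1]

/-- Variables `((t₁, t₂), (r, s))`. -/
abbrev tot : Par K ((T1 × T2) × Um × Up) := (P1.p.prod P2.p).prod b.gh

/-- The difference of the restrictions. -/
def dif : T1 × T2 →ₗ[K] Um := P1.res.coprod (-P2.res)

@[simp] lemma dif_apply (x : T1 × T2) : dif P1 P2 x = P1.res x.1 - P2.res x.2 :=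
  (sub_eq_add_neg _ _).symm

/-- The differential of a pair. -/
def tq : Module.End K ((T1 × T2) × Um × Up) :=
  (P1.io.prod P2.io ∘ₗ snd K _ _ ∘ₗ snd K _ _).prod (inl K _ _ ∘ₗ dif P1 P2 ∘ₗ fst K _ _)

/-- The map to the universal space. -/
def tρ : (T1 × T2) × Um × Up →ₗ[K] (Um × Um) × Um × Up :=
  ((dif P1 P2).prodMap (fst K _ _)).prod ((P2.res ∘ₗ snd K _ _).prodMap (snd K _ _))

@[simp] lemma tq_apply (x : (T1 × T2) × Um × Up) :
    tq P1 P2 x = ((P1.io x.2.2, P2.io x.2.2), (P1.res x.1.1 - P2.res x.1.2, 0)) := by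
  rw [← dif_apply]; rfl

@[simp] lemma tρ_apply (x : (T1 × T2) × Um × Up) :
    tρ P1 P2 x = ((P1.res x.1.1 - P2.res x.1.2, x.2.1), (P2.res x.1.2, x.2.2)) := by
  rw [← dif_apply]; rfl

lemma isOd_tq : IsOd (tot P1 P2) (tot P1 P2) (tq P1 P2) := fun v => by
  simp [P1.hio v.2.2, P2.hio v.2.2, P1.hres v.1.1, P2.hres v.1.2]

lemma isEv_tρ : IsEv (tot P1 P2) b.uni (tρ P1 P2) := fun v => by
  simp [P1.hres v.1.1, P2.hres v.1.2]

lemma tq_tq (x : (T1 × T2) × Um × Up) : tq P1 P2 (tq P1 P2 x) = 0 := by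
  simp [P1.hc, P2.hc, Prod.ext_iff]

lemma isEv_p1 : IsEv (tot P1 P2) P1.p (fst K _ _ ∘ₗ fst K _ _) := fun _ => rfl

lemma isEv_p2 : IsEv (tot P1 P2) P2.p (snd K _ _ ∘ₗ fst K _ _) := fun _ => rfl

lemma isEv_s1 : IsEv (tot P1 P2) P1.ts ((fst K _ _).prodMap (snd K _ _)) := fun _ => rfl

lemma isEv_s2 : IsEv (tot P1 P2) P2.ts ((snd K _ _).prodMap (snd K _ _)) := fun _ => rfl

/-- Matching pairs, `r = 0`. -/
def W1 : Submodule K ((T1 × T2) × Um × Up) := ker (fst K _ _ ∘ₗ tρ P1 P2)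

/-- Matching pairs, `r = s = 0`. -/
def W0 : Submodule K ((T1 × T2) × Um × Up) := W1 P1 P2 ⊓ ker (snd K _ _ ∘ₗ snd K _ _)

lemma mem_W1 {x : (T1 × T2) × Um × Up} :
    x ∈ W1 P1 P2 ↔ P1.res x.1.1 = P2.res x.1.2 ∧ x.2.1 = 0 := by
  simp [W1, Prod.ext_iff, sub_eq_zero]

lemma mem_W0 {x : (T1 × T2) × Um × Up} :
    x ∈ W0 P1 P2 ↔ P1.res x.1.1 = P2.res x.1.2 ∧ x.2 = 0 := by
  simp [W0, mem_W1, Prod.ext_iff, and_assoc]

end Pc

variable (K T1 T2 Um Up) in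
/-- The ghost number of a pair. -/
def tn : Module.End K ((T1 × T2) × Um × Up) :=
  (0 : Module.End K (T1 × T2)).prodMap ((1 : Module.End K Um).prodMap (-1))

@[simp] lemma tn_apply (x : (T1 × T2) × Um × Up) : tn K Um Up T1 T2 x = (0, (x.2.1, -x.2.2)) := rfl

lemma isEv_tn (P1 : Pc b T1) (P2 : Pc b T2) :
    IsEv (P1.tot P2) (P1.tot P2) (tn K Um Up T1 T2) := fun v => by simp

namespace Cp

variable (P : Cp b T Z)

/-- The parametrisation of a cap over a parameter space. -/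
def pt (m : V →ₗ[K] Um) : V × Z →ₗ[K] T := (P.sec ∘ₗ m).coprod P.nul

@[simp] lemma pt_apply (m : V →ₗ[K] Um) (x : V × Z) : P.pt m x = P.sec (m x.1) + P.nul x.2 := rfl

lemma isEv_pt {m : V →ₗ[K] Um} (hm : IsEv p b.pm m) : IsEv (p.prod P.pz) P.p (P.pt m) :=
  fun v => by simp [P.hsec _, P.hnul _, hm v.1]

end Cp

variable [Algebra ℚ K]

lemma pull_mem {N : Submodule K B} {F : Fn q s} (hF : ∀ x, F.ap x ∈ N) (f : V →ₗ[K] W)
    (hf : IsEv p q f) (x : S p) : (pull f hf F).ap x ∈ N := hF _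

namespace Rg

variable (h : Rg sA s)

/-- Pull-back followed by the change of coefficients. -/
noncomputable def emb (m : V →ₗ[K] W) (hm : IsEv p q m) : Fn q sA →ₗ[K] Fn p s :=
  mapc s h.φ ∘ₗ (pull m hm).toLinearMap

variable (m : V →ₗ[K] W) (hm : IsEv p q m)

lemma emb_def (X : Fn q sA) : h.emb m hm X = mapc s h.φ (pull m hm X) := rfl

lemma emb_def' (X : Fn q sA) : h.emb m hm X = pull m hm (mapc s h.φ X) := rfl

lemma emb_mul (X Y : Fn q sA) : h.emb m hm (X * Y) = h.emb m hm X * h.emb m hm Y := by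
  rw [emb_def, map_mul, mapc_mul h.σφ h.mul]; rfl

lemma τ_emb (X : Fn q sA) : τ (h.emb m hm X) = h.emb m hm (τ X) := by
  rw [emb_def, τ_mapc h.σφ, τ_pull]; rfl

lemma D_emb (v : V) (X : Fn q sA) : D v (h.emb m hm X) = h.emb m hm (D (m v) X) := by
  rw [emb_def, D_mapc, D_pull]; rfl

lemma Vf_emb {a : Module.End K V} {a' : Module.End K W} (e : ∀ v, m (a v) = a' (m v))
    (X : Fn q sA) : Vf a (h.emb m hm X) = h.emb m hm (Vf a' X) := by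
  rw [emb_def, Vf_mapc, Vf_pull _ _ e]; rfl

lemma Dx_mulT_emb (c : V ⊗[K] V) (X : Fn q sA) : Dx (mulT p c) (h.emb m hm X) =
    h.emb m hm (Dx (mulT q (TensorProduct.map m m c)) X) := by
  rw [emb_def, Dx_mapc, Dx_mulT_pull]; rfl

lemma pull_emb (g : U →ₗ[K] V) (hg : IsEv r p g) (k : U →ₗ[K] W) (hk : IsEv r q k)
    (e : ∀ v, m (g v) = k v) (X : Fn q sA) : pull g hg (h.emb m hm X) = h.emb k hk X := by
  rw [emb_def', pull_pull _ _ _ _ _ hk e]; rfl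

lemma emb_pull (g : W →ₗ[K] U) (hg : IsEv q r g) (k : V →ₗ[K] U) (hk : IsEv p r k)
    (e : ∀ v, g (m v) = k v) (X : Fn r sA) : h.emb m hm (pull g hg X) = h.emb k hk X := by
  rw [emb_def, pull_pull _ _ _ _ _ hk e]; rfl

lemma mul_emb_mem {N : Submodule K B} (hσ : ∀ y ∈ N, s.σ y ∈ N) (hN : ∀ y ∈ N, ∀ x, y * h.φ x ∈ N)
    {F : Fn p s} (hF : ∀ x, F.ap x ∈ N) (X : Fn q sA) (x : S p) : (F * h.emb m hm X).ap x ∈ N :=
  mul_ap_mem (M := range h.φ) hσ (by rintro y hy _ ⟨z, rfl⟩; exact hN y hy z) hF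
    (fun _ => ⟨_, rfl⟩) x

lemma emb_mul_mem {N : Submodule K B} (hN : ∀ y ∈ N, ∀ x, h.φ x * y ∈ N)
    {F : Fn p s} (hF : ∀ x, F.ap x ∈ N) (X : Fn q sA) (x : S p) : (h.emb m hm X * F).ap x ∈ N :=
  mul_ap_mem (L := range h.φ) (by rintro _ ⟨z, rfl⟩; exact ⟨_, (h.σφ z).symm⟩)
    (by rintro _ ⟨z, rfl⟩ y hy; exact hN y hy z) (fun _ => ⟨_, rfl⟩) hF x

lemma mul_emb_one {F : Fn p s} (hF : ∀ x, F.ap x ∈ h.NL) : F * h.emb m hm 1 = F := by
  rw [emb_def, map_one, ← map_one (cst (p := p) (s := sA)), mapc_cst]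
  exact ext fun x => by rw [mul_cst_ap, h.NL1 _ (hF x)]

end Rg

namespace Pc

variable (P : Pc b T) (P1 : Pc b T1) (P2 : Pc b T2)

/-- A function on the first piece. -/
noncomputable def f1 (s : SPar K B) : Fn P1.p s →ₐ[K] Fn (tot P1 P2) s := pull _ (isEv_p1 P1 P2)

/-- A function on the second piece. -/
noncomputable def f2 (s : SPar K B) : Fn P2.p s →ₐ[K] Fn (tot P1 P2) s := pull _ (isEv_p2 P1 P2)

/-- A function on a piece as a function of `(t, s)`. -/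
noncomputable def f0 (s : SPar K B) : Fn P.p s →ₐ[K] Fn P.ts s := pull _ (isEv_fst P.p b.pp.opp)

lemma tq_f1 (F : Fn P1.p s) :
    Vf (tq P1 P2) (f1 P1 P2 s F) = pull _ (isEv_s1 P1 P2) (Vf P1.iq (P1.f0 s F)) := by
  rw [← Vf_pull (a := tq P1 P2) _ _ fun _ => by simp, f0,
    pull_pull _ _ _ _ _ (isEv_p1 P1 P2) fun _ => rfl, f1]

lemma tq_f2 (F : Fn P2.p s) :
    Vf (tq P1 P2) (f2 P1 P2 s F) = pull _ (isEv_s2 P1 P2) (Vf P2.iq (P2.f0 s F)) := by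
  rw [← Vf_pull (a := tq P1 P2) _ _ fun _ => by simp, f0,
    pull_pull _ _ _ _ _ (isEv_p2 P1 P2) fun _ => rfl, f2]

lemma iq_mem {N : Submodule K B} {F : Fn P.p s} (hF : ∀ x, F.ap x ∈ N) (x : S P.ts) :
    (Vf P.iq (P.f0 s F)).ap x ∈ N := by
  rw [Vf_eq_pre]; exact hF _

lemma f0_mem {N : Submodule K B} {F : Fn P.p s} (hF : ∀ x, F.ap x ∈ N) (x : S P.ts) :
    (P.f0 s F).ap x ∈ N := hF _

variable (h : Rg sA s)

/-- Flatness of a left piece. -/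
def FlL (F : Fn P.p s) (R : Fn b.ms sA) : Prop :=
  Vf P.iq (P.f0 s F) = P.f0 s F * h.emb _ P.isEv_rs R

/-- Flatness of a right piece. -/
def FlR (F : Fn P.p s) (R : Fn b.ms sA) : Prop :=
  Vf P.iq (P.f0 s F) = -(h.emb _ P.isEv_rs R * P.f0 s F)

/-- The glued series only depends on the pair modulo the classes supported on the divisor. -/
def Kinv (F1 : Fn P1.p s) (F2 : Fn P2.p s) : Prop :=
  Res0 (W1 P1 P2) (Vf (tq P1 P2) (f1 P1 P2 s F1 * f2 P1 P2 s F2))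

/-- A function on the universal space as a function of the pair. -/
noncomputable def Φ : Fn b.uni sA →ₗ[K] Fn (tot P1 P2) s := h.emb _ (isEv_tρ P1 P2)

/-- The sandwich. -/
noncomputable def Sw (F1 : Fn P1.p s) (F2 : Fn P2.p s) : Fn b.uni sA →ₗ[K] Fn (tot P1 P2) s :=
  mulRight K (f2 P1 P2 s F2) ∘ₗ mulLeft K (f1 P1 P2 s F1) ∘ₗ Φ P1 P2 h

lemma Sw_apply (F1 : Fn P1.p s) (F2 : Fn P2.p s) (X : Fn b.uni sA) :
    Sw P1 P2 h F1 F2 X = f1 P1 P2 s F1 * Φ P1 P2 h X * f2 P1 P2 s F2 := rfl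

variable {P P1 P2 h} {F : Fn P.p s} {F1 : Fn P1.p s} {F2 : Fn P2.p s} {R : Fn b.ms sA}

lemma FlL.tq (h1 : P1.FlL h F1 R) (P2 : Pc b T2) :
    Vf (tq P1 P2) (f1 P1 P2 s F1) = f1 P1 P2 s F1 * Φ P1 P2 h (b.e1 sA R) := by
  have hk := isEv_comp P1.isEv_rs (isEv_s1 P1 P2)
  rw [tq_f1, h1, map_mul, f0, pull_pull _ _ _ _ _ (isEv_p1 P1 P2) fun _ => rfl,
    h.pull_emb _ _ _ _ _ hk fun _ => rfl, Φ, Bs.e1, h.emb_pull _ _ _ _ _ hk fun _ => by simp, f1]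

lemma FlR.tq (h2 : P2.FlR h F2 R) (P1 : Pc b T1) :
    Vf (tq P1 P2) (f2 P1 P2 s F2) = -(Φ P1 P2 h (b.e2 sA R) * f2 P1 P2 s F2) := by
  have hk := isEv_comp P2.isEv_rs (isEv_s2 P1 P2)
  rw [tq_f2, h2, map_neg, map_mul, f0, pull_pull _ _ _ _ _ (isEv_p2 P1 P2) fun _ => rfl,
    h.pull_emb _ _ _ _ _ hk fun _ => rfl, Φ, Bs.e2, h.emb_pull _ _ _ _ _ hk fun _ => by simp, f2]

lemma τ_f1 (e1 : τ F1 = F1) : τ (f1 P1 P2 s F1) = f1 P1 P2 s F1 := by rw [f1, τ_pull, e1]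

lemma τ_f2 (e2 : τ F2 = F2) : τ (f2 P1 P2 s F2) = f2 P1 P2 s F2 := by rw [f2, τ_pull, e2]

lemma Φ_mul (X Y : Fn b.uni sA) : Φ P1 P2 h (X * Y) = Φ P1 P2 h X * Φ P1 P2 h Y := h.emb_mul _ _ X Y

lemma τ_Φ (X : Fn b.uni sA) : τ (Φ P1 P2 h X) = Φ P1 P2 h (τ X) := h.τ_emb _ _ X

theorem tq_Sw (e1 : τ F1 = F1) (h1 : P1.FlL h F1 R) (h2 : P2.FlR h F2 R) (X : Fn b.uni sA) :
    Vf (tq P1 P2) (Sw P1 P2 h F1 F2 X) = Sw P1 P2 h F1 F2 (Bs.Qh R X) := by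
  have e : Vf (tq P1 P2) (Φ P1 P2 h X) = Φ P1 P2 h (Vf b.uq X) :=
    h.Vf_emb _ _ (fun v => by simp [P1.hc, P2.hc]) X
  rw [Sw_apply, Sw_apply, Vf_mul_od (isOd_tq P1 P2), Vf_mul_od (isOd_tq P1 P2), h1.tq, h2.tq, e,
    map_mul, τ_f1 e1, τ_Φ, Bs.Qh_apply, map_sub, map_add, Φ_mul, Φ_mul]
  noncomm_ring

theorem tn_Sw (X : Fn b.uni sA) :
    Vf (tn K Um Up T1 T2) (Sw P1 P2 h F1 F2 X) = Sw P1 P2 h F1 F2 (Vf (un K Um Up) X) := by
  have e : Vf (tn K Um Up T1 T2) (Φ P1 P2 h X) = Φ P1 P2 h (Vf (un K Um Up) X) :=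
    h.Vf_emb _ _ (fun v => by simp) X
  rw [Sw_apply, Sw_apply, Vf_mul_ev (isEv_tn P1 P2), Vf_mul_ev (isEv_tn P1 P2), e, f1, f2,
    Vf_pull_zero _ _ fun _ => rfl, Vf_pull_zero _ _ fun _ => rfl]
  simp

end Pc

namespace Cp

variable (P : Cp b T Z) (h : Rg sA s)

/-- The insertions at the far section of a right cap separate rows. -/
structure CanR (F : Fn P.p s) : Prop where
  ev : τ F = F
  can : ∀ y ∈ h.NL, (∀ z, y * (pull _ P.hnul F).ap z = 0) → y = 0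

/-- The insertions at the far section of a left cap separate columns and operators. -/
structure CanL (F : Fn P.p s) : Prop where
  ev : τ F = F
  can : ∀ y ∈ h.NR, (∀ z, (pull _ P.hnul F).ap z * y = 0) → y = 0
  inj : ∀ X, (∀ z, (pull _ P.hnul F).ap z * h.φ X = 0) → X = 0

variable {P h} {F : Fn P.p s} {m : V →ₗ[K] Um}

lemma pull_inr_pt (hm : IsEv p b.pm m) (F : Fn P.p s) :
    pull _ (isEv_inr p P.pz) (pull _ (P.isEv_pt hm) F) = pull _ P.hnul F :=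
  pull_pull _ _ _ _ _ _ (fun _ => by simp) F

lemma CanR.cancel (hF : P.CanR h F) (hm : IsEv p b.pm m) {Y : Fn p s} (hY : ∀ x, Y.ap x ∈ h.NL)
    (e : pull _ (isEv_fst p P.pz) Y * pull _ (P.isEv_pt hm) F = 0) : Y = 0 :=
  cancel_right (by rw [τ_pull, hF.ev]) (by rw [pull_inr_pt hm]; exact hF.can) hY e

lemma CanL.cancel (hF : P.CanL h F) (hm : IsEv p b.pm m) {Y : Fn p s} (hY : ∀ x, Y.ap x ∈ h.NR)
    (e : pull _ (P.isEv_pt hm) F * pull _ (isEv_fst p P.pz) Y = 0) : Y = 0 :=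
  cancel_left (by rw [τ_pull, hF.ev]) (by rw [pull_inr_pt hm]; exact hF.can) hY e

lemma CanL.eq_zero (hF : P.CanL h F) (hm : IsEv p b.pm m) {X : Fn p sA}
    (e : pull _ (P.isEv_pt hm) F * h.emb _ (isEv_fst p P.pz) X = 0) : X = 0 := by
  have := cancel_left (N := range h.φ) (Y := mapc s h.φ X) (by rw [τ_pull, hF.ev]) (by
    rw [pull_inr_pt hm]
    rintro _ ⟨y, rfl⟩ hy
    rw [hF.inj y hy, map_zero]) (fun _ => ⟨_, rfl⟩) e
  refine Fn.ext fun x => hF.inj _ fun z => ?_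
  rw [← mapc_ap (s' := s), this, zero_ap, mul_zero]

lemma CanL.eq_zero' (hF : P.CanL h F) {X : Fn b.ms sA}
    (e : P.f0 s F * h.emb _ P.isEv_rs X = 0) : X = 0 := by
  have hm := isEv_fst b.pm b.pp.opp
  have hθ : IsEv (b.ms.prod P.pz) P.ts ((P.pt (fst K _ _)).prod (snd K _ _ ∘ₗ fst K _ _)) :=
    isEv_prod (P.isEv_pt hm) fun _ => rfl
  have := congrArg (pull _ hθ) e
  rw [map_mul, Pc.f0, pull_pull _ _ _ _ _ (P.isEv_pt hm) fun _ => rfl,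
    h.pull_emb _ _ _ _ _ (isEv_fst _ _) fun _ => by simp [P.res_sec, P.res_nul], map_zero] at this
  exact hF.eq_zero hm this

variable {R : Fn b.ms sA}

lemma CanL.τ_R (hF : P.CanL h F) (h1 : P.FlL h F R) : τ R = -R := by
  have := congrArg τ h1
  rw [τ_Vf_od P.isOd_iq, map_mul, Pc.f0, τ_pull, hF.ev, h.τ_emb, ← Pc.f0, h1] at this
  rw [← add_eq_zero_iff_eq_neg]
  refine hF.eq_zero' ?_
  rw [map_add, mul_add, ← this, neg_add_cancel]

lemma CanL.mn_R (hF : P.CanL h F) (h1 : P.FlL h F R) : Vf (mn K Um Up) R = -R := by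
  have hn : IsEv P.ts P.ts (mn K T Up) := fun v => by simp
  have e : P.iq * mn K T Up - mn K T Up * P.iq = -P.iq := LinearMap.ext fun v => by simp
  have e0 : Vf (mn K T Up) (P.f0 s F) = 0 := Vf_pull_zero _ _ (fun _ => rfl) F
  have := congrArg (Vf (mn K T Up)) h1
  rw [Vf_Vf_ev hn, e, e0, Vf_mul_ev hn, e0, h.Vf_emb (a' := mn K Um Up) _ _ fun _ => by simp,
    map_neg, LinearMap.neg_apply, h1, map_zero, zero_mul, zero_add, zero_add] at this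
  rw [← add_eq_zero_iff_eq_neg]
  refine hF.eq_zero' ?_
  rw [map_add, mul_add, ← this, neg_add_cancel]

lemma CanL.mc (hF : P.CanL h F) (h1 : P.FlL h F R) : R * R + Vf b.cq R = 0 := by
  have := congrArg (Vf P.iq) h1
  rw [Vf_Vf_self P.isOd_iq fun _ => by simp, Vf_mul_od P.isOd_iq, h1,
    h.Vf_emb (a' := b.cq) _ _ fun _ => by simp [P.hc], Pc.f0, τ_pull, hF.ev] at this
  refine hF.eq_zero' ?_
  rw [map_add, mul_add, h.emb_mul, ← mul_assoc]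
  exact this.symm

variable {P' : Cp b T1 Z'} {F' : Fn P'.p s}

theorem Sw_inj (h' : P'.CanL h F') (hL : ∀ x, F'.ap x ∈ h.NL) (hF : P.CanR h F) {X : Fn b.uni sA}
    (e : Pc.Sw P'.toPc P.toPc h F' F X = 0) : X = 0 := by
  have hm' : IsEv b.uni b.pm (fst K _ _ ∘ₗ ρ1 K Um Up) := isEv_comp (isEv_fst _ _) b.isEv_ρ1
  have hm : IsEv (b.uni.prod P'.pz) b.pm (fst K _ _ ∘ₗ snd K _ _ ∘ₗ fst K _ _) := fun _ => rfl
  have hθ : IsEv ((b.uni.prod P'.pz).prod P.pz) (P'.tot P.toPc)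
      (((P'.pt _ ∘ₗ fst K _ _).prod (P.pt _)).prod
        ((snd K _ _).prodMap (snd K _ _) ∘ₗ fst K _ _ ∘ₗ fst K _ _)) :=
    isEv_prod (isEv_prod (isEv_comp (P'.isEv_pt hm') (isEv_fst _ _)) (P.isEv_pt hm)) fun _ => rfl
  have := congrArg (pull _ hθ) e
  rw [Pc.Sw_apply, map_mul, map_mul, Pc.f1, Pc.f2, Pc.Φ,
    pull_pull _ _ _ _ _ (isEv_comp (P'.isEv_pt hm') (isEv_fst _ _)) fun _ => rfl,
    pull_pull _ _ _ _ _ (P.isEv_pt hm) fun _ => rfl,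
    h.pull_emb _ _ _ _ _ (isEv_comp (isEv_fst _ _) (isEv_fst _ _))
      fun _ => by simp [P.res_sec, P.res_nul, P'.res_sec, P'.res_nul],
    ← pull_pull _ (isEv_fst _ _) _ (P'.isEv_pt hm') _ _ fun _ => rfl,
    ← h.pull_emb _ (isEv_fst _ _) _ (isEv_fst _ _) _ _ fun _ => rfl, ← map_mul, map_zero] at this
  exact h'.eq_zero hm' (hF.cancel hm (h.mul_emb_mem _ _ h.σNL h.NLm (pull_mem hL _ _) X) this)

theorem Qh_Qh (h' : P'.CanL h F') (hL : ∀ x, F'.ap x ∈ h.NL) (hF : P.CanR h F)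
    (h1 : P'.FlL h F' R) (h2 : P.FlR h F R) (X : Fn b.uni sA) : Bs.Qh R (Bs.Qh R X) = 0 := by
  refine Sw_inj h' hL hF ?_
  rw [← Pc.tq_Sw h'.ev h1 h2, ← Pc.tq_Sw h'.ev h1 h2,
    Vf_Vf_self (Pc.isOd_tq _ _) (Pc.tq_tq _ _)]

/-- A left piece is flat. -/
theorem CanR.flL (hF : P.CanR h F) (h2 : P.FlR h F R) {P1 : Pc b T1} {F1 : Fn P1.p s}
    (e1 : τ F1 = F1) (hL : ∀ x, F1.ap x ∈ h.NL) (hK : P1.Kinv P.toPc F1 F) : P1.FlL h F1 R := by
  have hm : IsEv P1.ts b.pm (P1.res ∘ₗ fst K _ _) := isEv_comp P1.hres (isEv_fst _ _)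
  have hθ : IsEv (P1.ts.prod P.pz) (P1.tot P.toPc)
      (((fst K _ _ ∘ₗ fst K _ _).prod (P.pt _)).prod (inr K _ _ ∘ₗ snd K _ _ ∘ₗ fst K _ _)) :=
    isEv_prod (isEv_prod (fun _ => rfl) (P.isEv_pt hm)) fun _ => by simp
  have := hK.pull _ hθ fun _ => by simp [Pc.mem_W1, P.res_sec, P.res_nul]
  rw [Vf_mul_od (Pc.isOd_tq _ _), h2.tq, Pc.tq_f1, Pc.τ_f1 e1, mul_neg, ← mul_assoc,
    ← sub_eq_add_neg, ← sub_mul, map_mul, map_sub, map_mul, Pc.f1, Pc.f2, Pc.Φ, Bs.e2,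
    pull_pull _ _ _ _ _ (isEv_fst _ _) fun _ => rfl,
    pull_pull _ _ _ _ _ (isEv_comp (isEv_fst _ _) (isEv_fst _ _)) fun _ => rfl,
    pull_pull _ _ _ _ _ (P.isEv_pt hm) fun _ => rfl,
    h.emb_pull _ _ _ _ _ (isEv_comp (isEv_snd _ _) (Pc.isEv_tρ _ _)) fun _ => rfl,
    h.pull_emb _ _ _ _ _ (isEv_comp P1.isEv_rs (isEv_fst _ _))
      fun _ => by simp [P.res_sec, P.res_nul],
    ← pull_pull _ (isEv_fst _ _) _ (isEv_fst _ _) _ _ fun _ => rfl,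
    ← h.pull_emb _ P1.isEv_rs _ (isEv_fst _ _) _ _ fun _ => rfl, ← map_mul, ← map_sub] at this
  exact sub_eq_zero.1 (hF.cancel hm (fun x => sub_mem (P1.iq_mem hL x)
    (h.mul_emb_mem _ _ h.σNL h.NLm (P1.f0_mem hL) R x)) this)

/-- A right piece is flat. -/
theorem CanL.flR (hF : P.CanL h F) (h1 : P.FlL h F R) {P2 : Pc b T2} {F2 : Fn P2.p s}
    (hR : ∀ x, F2.ap x ∈ h.NR) (hK : P.Kinv P2 F F2) : P2.FlR h F2 R := by
  have hm : IsEv P2.ts b.pm (P2.res ∘ₗ fst K _ _) := isEv_comp P2.hres (isEv_fst _ _)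
  have hθ : IsEv (P2.ts.prod P.pz) (P.tot P2)
      (((P.pt _).prod (fst K _ _ ∘ₗ fst K _ _)).prod (inr K _ _ ∘ₗ snd K _ _ ∘ₗ fst K _ _)) :=
    isEv_prod (isEv_prod (P.isEv_pt hm) fun _ => rfl) fun _ => by simp
  have := hK.pull _ hθ fun _ => by simp [Pc.mem_W1, P.res_sec, P.res_nul]
  rw [Vf_mul_od (Pc.isOd_tq _ _), h1.tq, Pc.tq_f2, Pc.τ_f1 hF.ev, mul_assoc,
    ← mul_add, map_mul, map_add, map_mul, Pc.f1, Pc.f2, Pc.Φ, Bs.e1,
    pull_pull _ _ _ _ _ (P.isEv_pt hm) fun _ => rfl,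
    pull_pull _ _ _ _ _ (isEv_comp (isEv_fst _ _) (isEv_fst _ _)) fun _ => rfl,
    pull_pull _ _ _ _ _ (isEv_fst _ _) fun _ => rfl,
    h.emb_pull _ _ _ _ _ (isEv_comp b.isEv_ρ1 (Pc.isEv_tρ _ _)) fun _ => rfl,
    h.pull_emb _ _ _ _ _ (isEv_comp P2.isEv_rs (isEv_fst _ _))
      fun _ => by simp [P.res_sec, P.res_nul],
    ← pull_pull _ (isEv_fst _ _) _ (isEv_fst _ _) _ _ fun _ => rfl,
    ← h.pull_emb _ P2.isEv_rs _ (isEv_fst _ _) _ _ fun _ => rfl, ← map_mul, ← map_add] at this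
  exact eq_neg_of_add_eq_zero_right (hF.cancel hm (fun x => add_mem
    (h.emb_mul_mem _ _ h.NRm (P2.f0_mem hR) R x) (P2.iq_mem hR x)) this)

end Cp

end ring

end Vale.Agent.P269.Deg
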