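import Vale.Agent.P269.Deg.Tns
import Vale.Agent.P269.Deg.Ann

/-! The annihilator of a functional is a Lie algebra compatible with `tns` (helper21). -/

namespace Vale.Agent.P269.Deg

open Fock Finset LinearMap TensorProduct Fn

variable {H : Type} [AddCommGroup H] [Module ℂ H] {p : Par ℂ H} {ι : Type} [Fintype ι]
  {fr : Frame p ι} {𝕂 : Type} [CommRing 𝕂] [Algebra ℂ 𝕂] {ħ : 𝕂ˣ} {M : Type} [AddCommGroup M]
  [Module ℂ M] [Module 𝕂 M] [IsScalarTower ℂ 𝕂 M] {Z : S (p.fs ℕ) →ₗ[ℂ] M}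

theorem tens_ann : Inv.Tens tns (ann fr ħ Z) :=
  ⟨fun P Q a b => tns_mul P Q a b, fun _ hx _ hy => ann_lie hx hy⟩

end Vale.Agent.P269.Deg
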