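import Vale.Agent.P269.Deg.Op

/-! The universal BRST complex of a divisor. -/

namespace Vale.Agent.P269.Deg

open Fock LinearMap TensorProduct Fn

variable {K : Type*} [CommRing K] {Um Up : Type*} [AddCommGroup Um] [Module K Um]
  [AddCommGroup Up] [Module K Up] {A B : Type*} [Ring A] [Algebra K A] [Ring B] [Algebra K B]
  {s : SPar K B} {sA : SPar K A}

variable (K Um Up) in
/-- The two copies of the state space of the divisor and the product with its normal class. -/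
structure Bs where
  pm : Par K Um
  pp : Par K Up
  c : Up →ₗ[K] Um
  hc : IsEv pp pm c

namespace Bs

variable (b : Bs K Um Up)

/-- Variables `(u, s)`. -/
abbrev ms : Par K (Um × Up) := b.pm.prod b.pp.opp

/-- Variables `(w, r)`. -/
abbrev wr : Par K (Um × Um) := b.pm.prod b.pm.opp

/-- Variables `((w, r), (u, s))`. -/
abbrev uni : Par K ((Um × Um) × Um × Up) := b.wr.prod b.ms

/-- Variables `(r, s)`. -/
abbrev gh : Par K (Um × Up) := b.pm.opp.prod b.pp.opp

/-- `(u, s) ↦ (c s, 0)`. -/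
def cq : Module.End K (Um × Up) := (b.c ∘ₗ snd K _ _).prod 0

/-- The differential on the universal space. -/
def uq : Module.End K ((Um × Um) × Um × Up) :=
  (inr K _ _ ∘ₗ fst K _ _).prodMap b.cq

@[simp] lemma cq_apply (x : Um × Up) : b.cq x = (b.c x.2, 0) := rfl

@[simp] lemma uq_apply (x : (Um × Um) × Um × Up) : b.uq x = ((0, x.1.1), (b.c x.2.2, 0)) := rfl

lemma isOd_cq : IsOd b.ms b.ms b.cq := fun v => by simp [b.hc v.2]

lemma isOd_uq : IsOd b.uni b.uni b.uq := fun v => by simp [b.hc v.2.2]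

end Bs

variable (K Um Up) in
/-- The homotopy on the universal space. -/
def uh : Module.End K ((Um × Um) × Um × Up) := (inl K _ _ ∘ₗ snd K _ _).prodMap 0

variable (K Um Up) in
/-- The ghost number on `(u, s)`. -/
def mn : Module.End K (Um × Up) := (0 : Module.End K Um).prodMap (-1)

variable (K Um Up) in
/-- The ghost number on the universal space. -/
def un : Module.End K ((Um × Um) × Um × Up) := ((0 : Module.End K Um).prodMap 1).prodMap (mn K Um Up)

variable (K Um Up) in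
/-- `((w, r), (u, s)) ↦ (u + w, s)`. -/
def ρ1 : (Um × Um) × Um × Up →ₗ[K] Um × Up := (inl K _ _ ∘ₗ fst K _ _).coprod LinearMap.id

@[simp] lemma uh_apply (x : (Um × Um) × Um × Up) : uh K Um Up x = ((x.1.2, 0), 0) := rfl

@[simp] lemma mn_apply (x : Um × Up) : mn K Um Up x = (0, -x.2) := rfl

@[simp] lemma un_apply (x : (Um × Um) × Um × Up) : un K Um Up x = ((0, x.1.2), (0, -x.2.2)) := rfl

@[simp] lemma ρ1_apply (x : (Um × Um) × Um × Up) : ρ1 K Um Up x = (x.1.1 + x.2.1, x.2.2) :=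
  Prod.ext rfl (zero_add _)

namespace Bs

variable (b : Bs K Um Up)

lemma isOd_uh : IsOd b.uni b.uni (uh K Um Up) := fun v => by simp

lemma isEv_mn : IsEv b.ms b.ms (mn K Um Up) := fun v => by simp

lemma isEv_un : IsEv b.uni b.uni (un K Um Up) := fun v => by simp

lemma isEv_ρ1 : IsEv b.uni b.ms (ρ1 K Um Up) := fun v => by simp

variable [Algebra ℚ K]

/-- A function of `(u, s)` as a function of `(u + w, s)`. -/
noncomputable def e1 (sA : SPar K A) : Fn b.ms sA →ₐ[K] Fn b.uni sA := pull _ b.isEv_ρ1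

/-- A function of `(u, s)` on the universal space. -/
noncomputable def e2 (sA : SPar K A) : Fn b.ms sA →ₐ[K] Fn b.uni sA := pull _ (isEv_snd b.wr b.ms)

/-- Restriction to `w = r = 0`. -/
noncomputable def r0 (sA : SPar K A) : Fn b.uni sA →ₐ[K] Fn b.ms sA := pull _ (isEv_inr b.wr b.ms)

variable {b}

@[simp] lemma r0_e1 (X : Fn b.ms sA) : b.r0 sA (b.e1 sA X) = X :=
  pull_pull_id _ _ _ _ (fun _ => by simp) X

@[simp] lemma r0_e2 (X : Fn b.ms sA) : b.r0 sA (b.e2 sA X) = X :=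
  pull_pull_id _ _ _ _ (fun _ => rfl) X

/-- The twisted differential. -/
noncomputable def Qh (R : Fn b.ms sA) : Module.End K (Fn b.uni sA) :=
  mulLeft K (b.e1 sA R) + Vf b.uq - mulRight K (b.e2 sA R) ∘ₗ τ.toLinearMap

lemma Qh_apply (R : Fn b.ms sA) (X : Fn b.uni sA) :
    Qh R X = b.e1 sA R * X + Vf b.uq X - τ X * b.e2 sA R := rfl

/-- The twisted Euler operator. -/
noncomputable def Eh (R : Fn b.ms sA) : Module.End K (Fn b.uni sA) :=
  Vf ((1 : Module.End K (Um × Um)).prodMap 0) + mulLeft K (Vf (uh K Um Up) (b.e1 sA R))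

lemma Eh_apply (R : Fn b.ms sA) (X : Fn b.uni sA) : Eh R X =
    Vf ((1 : Module.End K (Um × Um)).prodMap 0) X + Vf (uh K Um Up) (b.e1 sA R) * X := rfl

variable {R : Fn b.ms sA}

lemma r0_Qh (X : Fn b.uni sA) :
    b.r0 sA (Qh R X) = R * b.r0 sA X + Vf b.cq (b.r0 sA X) - τ (b.r0 sA X) * R := by
  rw [Qh_apply, map_sub, map_add, map_mul, map_mul, r0_e1, r0_e2, r0, τ_pull,
    Vf_pull _ _ (b := b.uq) fun _ => by simp [Prod.ext_iff]]

lemma r0_uh (X : Fn b.uni sA) : b.r0 sA (Vf (uh K Um Up) X) = 0 :=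
  pull_Vf_zero _ _ (fun _ => by simp) X

lemma r0_un (X : Fn b.uni sA) : b.r0 sA (Vf (un K Um Up) X) = Vf (mn K Um Up) (b.r0 sA X) :=
  (Vf_pull _ _ (fun _ => by simp [Prod.ext_iff]) X).symm

lemma htpy (hR : τ R = -R) (X : Fn b.uni sA) :
    Vf (uh K Um Up) (Qh R X) + Qh R (Vf (uh K Um Up) X) = Eh R X := by
  have e : b.uq * uh K Um Up + uh K Um Up * b.uq = (1 : Module.End K (Um × Um)).prodMap 0 :=
    LinearMap.ext fun v => by simp
  have e2 : Vf (uh K Um Up) (b.e2 sA R) = 0 := Vf_pull_zero _ _ (fun _ => rfl) R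
  have e3 : τ (b.e1 sA R) = -b.e1 sA R := by rw [e1, τ_pull, hR, map_neg]
  rw [Qh_apply, Qh_apply, Eh_apply, map_sub, map_add, Vf_mul_od b.isOd_uh, Vf_mul_od b.isOd_uh, e2,
    e3, Vf_Vf_od b.isOd_uh b.isOd_uq, e, τ_Vf_od b.isOd_uh]
  noncomm_ring

lemma Eh_inj {X : Fn b.uni sA} (h0 : b.r0 sA X = 0) (h : Eh R X = 0) : X = 0 :=
  euler_inj' (r0_uh _) h0 h

lemma Eh_surj {X : Fn b.uni sA} (h0 : b.r0 sA X = 0) : ∃ Y, b.r0 sA Y = 0 ∧ Eh R Y = X :=
  euler_surj' (r0_uh _) h0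

lemma Eh_Qh (hR : τ R = -R) (hQ : ∀ X, Qh R (Qh R X) = 0) (X : Fn b.uni sA) :
    Eh R (Qh R X) = Qh R (Eh R X) := by
  rw [← htpy hR, ← htpy hR, hQ, map_add, hQ, map_zero, zero_add, add_zero]

/-- Closed functions vanishing at `w = r = 0` are exact. -/
theorem exact_Qh (hR : τ R = -R) (hQ : ∀ X, Qh R (Qh R X) = 0) {G : Fn b.uni sA}
    (h0 : b.r0 sA G = 0) (hG : Qh R G = 0) : ∃ Y, Qh R Y = G := by
  obtain ⟨Y, h1, h2⟩ := Eh_surj (R := R) (r0_uh G)
  refine ⟨Y, sub_eq_zero.1 (Eh_inj (R := R) ?_ ?_)⟩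
  · simp [r0_Qh, h0, h1]
  · rw [map_sub, Eh_Qh hR hQ, h2, ← htpy hR, hG, map_zero, zero_add, sub_self]

lemma r0_eq_zero {G : Fn b.uni sA} (hn : Vf (un K Um Up) G = 0)
    (h0 : pull _ (isEv_inl b.pm b.pp.opp) (b.r0 sA G) = 0) : b.r0 sA G = 0 := by
  have hs : IsEv (b.pp.opp.prod b.pm) b.ms (LinearEquiv.prodComm K Up Um).toLinearMap :=
    fun _ => rfl
  have hs' : IsEv b.ms (b.pp.opp.prod b.pm) (LinearEquiv.prodComm K Um Up).toLinearMap :=
    fun _ => rfl
  have h1 : pull _ hs (b.r0 sA G) = 0 := by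
    refine euler_inj' (L := 0) (map_zero _) ?_ ?_
    · rw [pull_pull _ _ _ _ _ (isEv_inl b.pm b.pp.opp) fun _ => rfl, h0]
    · rw [Vf_pull _ _ (b := -mn K Um Up) fun _ => by simp, map_neg, LinearMap.neg_apply, ← r0_un, hn]
      simp
  rw [← pull_pull_id _ hs' _ hs (fun _ => rfl) (b.r0 sA G), h1, map_zero]

/-- The universal gluing kernel. -/
structure IsU (R : Fn b.ms sA) (U : Fn b.uni sA) : Prop where
  ev : τ U = U
  one : b.r0 sA U = 1
  cl : Qh R U = 0
  gh : Vf (un K Um Up) U = 0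
  eul : Eh R U = 0

theorem exists_U (hR : τ R = -R) (hn : Vf (mn K Um Up) R = -R) (hQ : ∀ X, Qh R (Qh R X) = 0) :
    ∃ U, IsU R U := by
  obtain ⟨Y, h1, h2⟩ := Eh_surj (R := R) (X := -Vf (uh K Um Up) (b.e1 sA R))
    (by rw [map_neg, r0_uh, neg_zero])
  have h3 : Eh R (1 + Y) = 0 := by rw [map_add, h2, Eh_apply, Vf_one, mul_one, zero_add, add_neg_cancel]
  have h4 : b.r0 sA (1 + Y) = 1 := by rw [map_add, h1, map_one, add_zero]
  have hE : IsEv b.uni b.uni ((1 : Module.End K (Um × Um)).prodMap 0) := fun v => by simp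
  refine ⟨1 + Y, sub_eq_zero.1 (Eh_inj (R := R) ?_ ?_), h4, Eh_inj (R := R) ?_ ?_,
    Eh_inj (R := R) ?_ ?_, h3⟩
  · rw [map_sub, r0, ← τ_pull, ← r0, h4, map_one, sub_self]
  · have := congrArg τ h3
    rw [Eh_apply, map_add, map_mul, τ_Vf_ev hE, τ_Vf_od b.isOd_uh, e1, τ_pull, hR, map_neg, map_neg,
      neg_neg, map_zero] at this
    rw [map_sub, h3, sub_zero]
    exact this
  · rw [r0_Qh, h4]; simp
  · rw [Eh_Qh hR hQ, h3, map_zero]
  · rw [r0_un, h4, Vf_one]
  · have := congrArg (Vf (un K Um Up)) h3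
    have e : uh K Um Up * un K Um Up - un K Um Up * uh K Um Up = uh K Um Up :=
      LinearMap.ext fun v => by simp
    rw [Eh_apply, map_add, Vf_comm b.isEv_un fun v => by simp, Vf_mul_ev b.isEv_un,
      Vf_Vf_ev b.isEv_un, e, e1, Vf_pull _ _ (b := mn K Um Up) fun v => by simp, hn, map_neg,
      map_neg, neg_add_cancel, zero_mul, zero_add, map_zero] at this
    exact this

end Bs

end Vale.Agent.P269.Deg
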