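import Vale.Agent.P269.Deg.Ins

/-! Scalar functions, order of vanishing, limits, currying. -/

namespace Vale.Agent.P269.Deg

open Fock

variable {K : Type*} [CommRing K] [Algebra ℚ K] {V W : Type*} [AddCommGroup V] [Module K V]
  [AddCommGroup W] [Module K W] {B B' : Type*} [Ring B] [Algebra K B] [Ring B'] [Algebra K B']
  {p : Par K V} {q : Par K W} {s : SPar K B} {s' : SPar K B'}

/-- The trivial parity. -/
def SPar.triv (K B : Type*) [CommRing K] [Ring B] [Algebra K B] : SPar K B :=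
  ⟨AlgHom.id K B, fun _ => rfl⟩

namespace Fn

/-- Scalar functions. -/
abbrev Sc (p : Par K V) : Type _ := Fn p (SPar.triv K K)

variable (s) in
/-- A scalar function as a `B`-valued function. -/
noncomputable def sm : Sc p →ₗ[K] Fn p s := mapc s (Algebra.linearMap K B)

lemma sm_ap (f : Sc p) (x : S p) : (sm s f).ap x = algebraMap K B (f.ap x) := rfl

lemma D_sm (v : V) (f : Sc p) : D v (sm s f) = sm s (D v f) := rfl

lemma τ_sm (f : Sc p) : τ (sm s f) = sm s (τ f) :=
  τ_mapc (fun b => by simp [SPar.triv]) f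

lemma pull_sm (f : V →ₗ[K] W) (hf : IsEv p q f) (g : Sc q) :
    pull f hf (sm s g) = sm s (pull f hf g) := rfl

lemma Vf_sm (a : Module.End K V) (f : Sc p) : Vf a (sm s f) = sm s (Vf a f) := Vf_mapc _ _ _

lemma mapc_sm_mul (φ : B →ₗ[K] B') (f : Sc p) (F : Fn p s) :
    mapc s' φ (sm s f * F) = sm s' f * mapc s' φ F := by
  ext x
  induction x using induction' generalizing f F with
  | h1 => simp [sm_ap, ← Algebra.smul_def]
  | hev v x hv hx =>
    rw [← D_ap, ← D_ap, D_mul_ev hv, D_mapc, D_mul_ev hv, map_add, add_ap, add_ap, D_sm, hx, hx]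
    rfl
  | hod v x hv hx =>
    rw [← D_ap, ← D_ap, D_mul_od hv, D_mapc, D_mul_od hv, map_add, add_ap, add_ap, D_sm, τ_sm, hx,
      hx, τ_sm]
    rfl
  | hadd x y hx hy => simp only [map_add, hx, hy]
  | hsmul c x hx => simp only [map_smul, hx]

lemma sm_comm_aux (x : S p) : ∀ (f : Sc p) (F : Fn p s),
    (τ f = f → (sm s f * F).ap x = (F * sm s f).ap x) ∧
    (τ f = -f → (sm s f * F).ap x = (τ F * sm s f).ap x) := by
  induction x using induction' with
  | h1 =>
    refine fun f F => ⟨fun _ => by simp [sm_ap, Algebra.commutes], fun h => ?_⟩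
    have h1 : f.ap 1 = -f.ap 1 := by
      have := congrArg (fun G => Fn.ap G 1) h
      simp only [τ_ap_one] at this
      exact this
    simp [sm_ap, eq_zero_of_eq_neg (K := K) h1]
  | hev v x hv hx =>
    refine fun f F => ⟨fun h => ?_, fun h => ?_⟩
    · rw [← D_ap, ← D_ap, D_mul_ev hv, D_mul_ev hv, add_ap, add_ap, D_sm, (hx f _).1 h,
        (hx (D v f) _).1 (by rw [← D_τ_ev hv, h]), add_comm]
    · rw [← D_ap, ← D_ap, D_mul_ev hv, D_mul_ev hv, add_ap, add_ap, D_sm, (hx f _).2 h,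
        (hx (D v f) _).2 (by rw [← D_τ_ev hv, h, map_neg]), add_comm, D_τ_ev hv]
  | hod v x hv hx =>
    refine fun f F => ⟨fun h => ?_, fun h => ?_⟩
    · rw [← D_ap, ← D_ap, D_mul_od hv, D_mul_od hv, add_ap, add_ap, D_sm, τ_sm, h, (hx f _).1 h,
        (hx (D v f) _).2 (by rw [τ_D, hv, h, map_neg, LinearMap.neg_apply]), add_comm]
    · rw [← D_ap, ← D_ap, D_mul_od hv, D_mul_od hv, add_ap, add_ap, D_sm, τ_sm, h, map_neg, neg_mul,
        neg_ap, (hx f _).2 h, (hx (D v f) _).1 (by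
          rw [τ_D, hv, h, map_neg, map_neg, LinearMap.neg_apply, neg_neg]), add_comm, D_τ_od hv,
        τ_τ, neg_mul, neg_ap]
  | hadd x y hx hy =>
    exact fun f F => ⟨fun h => by simp only [map_add, (hx f F).1 h, (hy f F).1 h],
      fun h => by simp only [map_add, (hx f F).2 h, (hy f F).2 h]⟩
  | hsmul c x hx =>
    exact fun f F => ⟨fun h => by simp only [map_smul, (hx f F).1 h],
      fun h => by simp only [map_smul, (hx f F).2 h]⟩

lemma sm_comm {f : Sc p} (h : τ f = f) (F : Fn p s) : sm s f * F = F * sm s f :=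
  ext fun x => (sm_comm_aux x f F).1 h

/-- A linear form as a scalar function. -/
noncomputable def lin : Module.Dual K V →ₗ[K] Sc p :=
  ins ∘ₗ LinearMap.llcomp K _ _ _ (cst (p := p) (s := SPar.triv K K)).toLinearMap

@[simp] lemma lin_ap_one (φ : Module.Dual K V) : (lin φ : Sc p).ap 1 = 0 := ins_ap_one _

lemma D_lin (v : V) (φ : Module.Dual K V) : D v (lin φ : Sc p) = cst (φ v) := by
  have : lin φ = ins ((cst (p := p) (s := SPar.triv K K)).toLinearMap ∘ₗ φ) := rfl
  rw [this, D_ins, ins_eq_zero fun w => by simp, add_zero]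
  rfl

omit [Algebra ℚ K] in
lemma eq_of_D {F G : Fn p s} (h1 : F.ap 1 = G.ap 1) (h : ∀ v, D v F = D v G) : F = G := by
  ext x
  induction x using induction with
  | h1 => exact h1
  | hι v x _ => rw [← D_ap, ← D_ap, h]
  | hadd x y hx hy => simp only [map_add, hx, hy]
  | hsmul c x hx => simp only [map_smul, hx]

lemma eq_of_D' {F G : Fn p s} (h1 : F.ap 1 = G.ap 1) (hev : ∀ v, p.σ v = v → D v F = D v G)
    (hod : ∀ v, p.σ v = -v → D v F = D v G) : F = G :=
  eq_of_D h1 fun v => by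
    rw [← p.ev_add_od v]
    simp only [map_add, LinearMap.add_apply, hev _ (p.σ_ev v), hod _ (p.σ_od v)]

lemma τ_lin (φ : Module.Dual K V) : τ (lin φ : Sc p) = lin (φ ∘ₗ p.σ) :=
  eq_of_D (by simp) fun v => by rw [D_τ, D_lin, D_lin, τ_cst]; rfl

lemma pull_lin (f : V →ₗ[K] W) (hf : IsEv p q f) (φ : Module.Dual K W) :
    pull f hf (lin φ : Sc q) = lin (φ ∘ₗ f) :=
  eq_of_D (by simp) fun v => by rw [D_pull, D_lin, D_lin, pull_cst]; rfl

lemma Vf_lin (a : Module.End K V) (φ : Module.Dual K V) : Vf a (lin φ : Sc p) = lin (φ ∘ₗ a) :=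
  eq_of_D' (by simp) (fun v hv => by rw [D_Vf_ev hv, D_lin, D_lin, D_lin, Vf_cst, add_zero]; rfl)
    fun v hv => by rw [D_Vf_od hv, D_lin, D_lin, D_lin, Vf_cst, add_zero]; rfl

lemma sm_cst (c : K) : sm s (cst c : Sc p) = c • 1 := by
  rw [sm, mapc_cst, Algebra.linearMap_apply, AlgHom.commutes, Algebra.algebraMap_eq_smul_one]

lemma pre_con (φ : Module.Dual K V) (F : Fn p s) : pre (con p φ) F = sm s (lin φ) * F := by
  ext x
  induction x using induction' generalizing φ F with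
  | h1 => simp [sm_ap, con_def]
  | hev v x hv hx =>
    rw [← D_ap v (_ * _), D_mul_ev hv, add_ap, ← hx, D_sm, D_lin, sm_cst]
    simp [con_ι_mul_ev _ hv]
  | hod v x hv hx =>
    rw [← D_ap v (_ * _), D_mul_od hv, add_ap, τ_sm, τ_lin, ← hx, D_sm, D_lin, sm_cst]
    simp [con_ι_mul_od _ hv]
  | hadd x y hx hy => simp only [map_add, hx, hy]
  | hsmul c x hx => simp only [map_smul, hx]

/-- The quadratic function of an even supersymmetric form. -/
noncomputable def qf (Q : SymB p) : Sc p := pre (con2 p Q) 1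

@[simp] lemma qf_ap_one (Q : SymB p) : (qf Q).ap 1 = 0 := by simp [qf]

lemma sm_triv (f : Sc p) : sm (SPar.triv K K) f = f := rfl

lemma D_pre_con2 (v : V) (Q : SymB p) (F : Fn p s) :
    D v (pre (con2 p Q) F) = sm s (lin (Q.1 v)) * F + pre (con2 p Q) (D v F) := by
  rw [← pre_con]
  ext x
  simp [con2_ι_mul, add_comm]

lemma D_qf (v : V) (Q : SymB p) : D v (qf Q) = lin (Q.1 v) := by
  rw [qf, D_pre_con2, D_one, map_zero, add_zero, mul_one, sm_triv]

lemma τ_qf (Q : SymB p) : τ (qf Q) = qf Q :=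
  eq_of_D (by simp) fun v => by rw [D_τ, D_qf, D_qf, τ_lin, SymB.comp_σ Q.2, p.inv]

lemma pre_con2 (Q : SymB p) (F : Fn p s) : pre (con2 p Q) F = sm s (qf Q) * F := by
  ext x
  induction x using induction generalizing F with
  | h1 => simp [sm_ap]
  | hι v x hx =>
    rw [← D_ap, ← D_ap, D_pre_con2, D_mul_of_ev (by rw [τ_sm, τ_qf]), add_ap, add_ap, hx, D_sm, D_qf]
  | hadd x y hx hy => simp only [map_add, hx, hy]
  | hsmul c x hx => simp only [map_smul, hx]

variable (p) in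
/-- The span of the monomials of degree less than `n`. -/
noncomputable def Fil : ℕ → Submodule K (S p)
  | 0 => ⊥
  | n + 1 => Submodule.span K ({1} ∪ {y | ∃ v, ∃ x ∈ Fil n, y = ι p v * x})

omit [Algebra ℚ K] in
lemma Fil_le_succ : ∀ n, Fil p n ≤ Fil p (n + 1)
  | 0 => bot_le
  | n + 1 => Submodule.span_mono (Set.union_subset_union_right _
      fun _ ⟨v, x, hx, e⟩ => ⟨v, x, Fil_le_succ n hx, e⟩)

omit [Algebra ℚ K] in
lemma Fil_mono : Monotone (Fil p) := monotone_nat_of_le_succ Fil_le_succ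

omit [Algebra ℚ K] in
lemma exists_Fil (x : S p) : ∃ n, x ∈ Fil p n := by
  induction x using induction with
  | h1 => exact ⟨1, Submodule.subset_span (Or.inl rfl)⟩
  | hι v x hx =>
    obtain ⟨n, hn⟩ := hx
    exact ⟨n + 1, Submodule.subset_span (Or.inr ⟨v, x, hn, rfl⟩)⟩
  | hadd x y hx hy =>
    obtain ⟨n, hn⟩ := hx
    obtain ⟨m, hm⟩ := hy
    exact ⟨max n m, add_mem (Fil_mono (le_max_left _ _) hn) (Fil_mono (le_max_right _ _) hm)⟩
  | hsmul c x hx =>
    obtain ⟨n, hn⟩ := hx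
    exact ⟨n, Submodule.smul_mem _ c hn⟩

variable (p s) in
/-- Functions vanishing to order `n`. -/
noncomputable def Van (n : ℕ) : Submodule K (Fn p s) where
  carrier := {F | ∀ x ∈ Fil p n, F.ap x = 0}
  add_mem' := fun {a b} ha hb x hx => by rw [add_ap, ha x hx, hb x hx, add_zero]
  zero_mem' := fun _ _ => rfl
  smul_mem' := fun c a ha x hx => by rw [smul_ap, ha x hx, smul_zero]

lemma mem_Van {n : ℕ} {F : Fn p s} : F ∈ Van p s n ↔ ∀ x ∈ Fil p n, F.ap x = 0 := Iff.rfl

@[simp] lemma van_zero (F : Fn p s) : F ∈ Van p s 0 := fun x hx => by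
  rw [(Submodule.mem_bot K).1 hx, map_zero]

lemma van_succ {n : ℕ} {F : Fn p s} :
    F ∈ Van p s (n + 1) ↔ F.ap 1 = 0 ∧ ∀ v, D v F ∈ Van p s n := by
  constructor
  · exact fun h => ⟨h _ (Submodule.subset_span (Or.inl rfl)), fun v x hx =>
      h _ (Submodule.subset_span (Or.inr ⟨v, x, hx, rfl⟩))⟩
  · rintro ⟨h1, h2⟩ x hx
    have : Fil p (n + 1) ≤ LinearMap.ker F.ap := by
      refine Submodule.span_le.2 ?_
      rintro y (rfl | ⟨v, x, hx, rfl⟩)
      · exact h1
      · exact h2 v x hx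
    exact this hx

lemma van_succ' {n : ℕ} {F : Fn p s} (h1 : F.ap 1 = 0) (hev : ∀ v, p.σ v = v → D v F ∈ Van p s n)
    (hod : ∀ v, p.σ v = -v → D v F ∈ Van p s n) : F ∈ Van p s (n + 1) :=
  van_succ.2 ⟨h1, fun v => by
    rw [← p.ev_add_od v, map_add, LinearMap.add_apply]
    exact add_mem (hev _ (p.σ_ev v)) (hod _ (p.σ_od v))⟩

lemma van_one {F : Fn p s} : F ∈ Van p s 1 ↔ F.ap 1 = 0 := by simp [van_succ]

lemma van_anti {m n : ℕ} (h : m ≤ n) {F : Fn p s} (hF : F ∈ Van p s n) : F ∈ Van p s m :=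
  fun x hx => hF x (Fil_mono h hx)

lemma van_D {n : ℕ} {F : Fn p s} (h : F ∈ Van p s (n + 1)) (v : V) : D v F ∈ Van p s n :=
  (van_succ.1 h).2 v

lemma eq_zero_of_van {F : Fn p s} (h : ∀ n, F ∈ Van p s n) : F = 0 := by
  ext x
  obtain ⟨n, hn⟩ := exists_Fil x
  exact h n x hn

lemma eq_zero_of_van_succ {F : Fn p s} (h : ∀ n, F ∈ Van p s n → F ∈ Van p s (n + 1)) : F = 0 :=
  eq_zero_of_van fun n => Nat.rec (van_zero F) h n

lemma van_τ : ∀ {n : ℕ} {F : Fn p s}, F ∈ Van p s n → τ F ∈ Van p s n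
  | 0, _, _ => van_zero _
  | _ + 1, _, h => van_succ.2 ⟨by simp [(van_succ.1 h).1], fun v => by
      rw [D_τ]; exact van_τ (van_D h _)⟩

lemma van_mul : ∀ (k : ℕ) {m n : ℕ} {F G : Fn p s}, k ≤ m + n → F ∈ Van p s m → G ∈ Van p s n →
    F * G ∈ Van p s k
  | 0, _, _, _, _, _, _, _ => van_zero _
  | k + 1, m, n, F, G, hk, hF, hG => by
    have hD : ∀ {j} {H : Fn p s}, H ∈ Van p s j → ∀ v, D v H ∈ Van p s (j - 1) := by
      intro j H hH v
      cases j with
      | zero => exact van_zero _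
      | succ j => exact van_D hH v
    refine van_succ.2 ⟨?_, fun v => ?_⟩
    · rw [mul_ap_one]
      rcases Nat.eq_zero_or_pos m with rfl | hm
      · rw [van_one.1 (van_anti (by omega) hG), mul_zero]
      · rw [van_one.1 (van_anti hm hF), zero_mul]
    · rw [D_mul']
      exact add_mem (add_mem (van_mul k (by omega) (hD hF v) hG)
        (van_mul k (by omega) hF (hD hG _))) (van_mul k (by omega) (van_τ hF) (hD hG _))

lemma van_mul_left {n : ℕ} {F : Fn p s} (h : F ∈ Van p s n) (G : Fn p s) : F * G ∈ Van p s n :=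
  van_mul n (Nat.le_add_right n 0) h (van_zero G)

lemma van_mul_right {n : ℕ} (F : Fn p s) {G : Fn p s} (h : G ∈ Van p s n) : F * G ∈ Van p s n :=
  van_mul n (Nat.le_add_left n 0) (van_zero F) h

lemma mul_ap_of_van {n : ℕ} {F : Fn p s} (h : F ∈ Van p s n) (G : Fn p s) {x : S p}
    (hx : x ∈ Fil p (n + 1)) : (F * G).ap x = F.ap x * G.ap 1 := by
  have h0 : G - cst (G.ap 1) ∈ Van p s 1 := van_one.2 (by simp)
  have := van_mul (n + 1) le_rfl h h0 x hx
  rwa [mul_sub, sub_ap, mul_cst_ap, sub_eq_zero] at this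

lemma mul_ap_of_van' {n : ℕ} {F : Fn p s} (hF : τ F = F) {G : Fn p s} (h : G ∈ Van p s n) {x : S p}
    (hx : x ∈ Fil p (n + 1)) : (F * G).ap x = F.ap 1 * G.ap x := by
  have h0 : F - cst (F.ap 1) ∈ Van p s 1 := van_one.2 (by simp)
  have := van_mul (n + 1) (by omega) h0 h x hx
  rwa [sub_mul, sub_ap, cst_mul_ap (by rw [← τ_ap_one, hF]), sub_eq_zero] at this

lemma van_mapc (φ : B →ₗ[K] B') {n : ℕ} {F : Fn p s} (h : F ∈ Van p s n) :
    mapc s' φ F ∈ Van p s' n := fun x hx => by rw [mapc_ap, h x hx, map_zero]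

theorem exists_lim (F : ℕ → Fn p s) (h : ∀ n, F (n + 1) - F n ∈ Van p s n) :
    ∃ G : Fn p s, ∀ n, G - F n ∈ Van p s n := by
  have h1 : ∀ n k, F (n + k) - F n ∈ Van p s n := by
    intro n k
    induction k with
    | zero => simp
    | succ k ih =>
      have := add_mem (van_anti (Nat.le_add_right n k) (h (n + k))) ih
      rwa [sub_add_sub_cancel] at this
  have h2 : ∀ n m x, x ∈ Fil p n → x ∈ Fil p m → (F n).ap x = (F m).ap x := by
    intro n m x hn hm
    have a := h1 n m x hn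
    have b := h1 m n x hm
    rw [sub_ap, sub_eq_zero] at a b
    rw [← a, ← b, add_comm]
  choose N hN using exists_Fil (p := p)
  refine ⟨of s
    { toFun := fun x => (F (N x)).ap x
      map_add' := fun x y => ?_
      map_smul' := fun c x => ?_ }, fun n x hx => ?_⟩
  · have hx := Fil_mono (le_max_left (N x) (N y)) (hN x)
    have hy := Fil_mono (le_max_right (N x) (N y)) (hN y)
    rw [h2 _ _ _ (hN _) (add_mem hx hy), h2 _ _ _ (hN _) hx, h2 _ _ _ (hN _) hy, map_add]
  · rw [h2 _ _ _ (hN _) (Submodule.smul_mem _ c (hN x)), map_smul, RingHom.id_apply]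
  · rw [sub_ap, sub_eq_zero]
    exact h2 _ _ _ (hN x) hx

/-- Successive approximation. -/
theorem exists_approx (P : ℕ → Fn p s → Prop) (h0 : ∃ F, P 0 F)
    (hs : ∀ n F, P n F → ∃ G, P (n + 1) G ∧ G - F ∈ Van p s n) :
    ∃ G : Fn p s, ∀ n, ∃ F, P n F ∧ G - F ∈ Van p s n := by
  choose! nx hnx using hs
  obtain ⟨F0, hF0⟩ := h0
  let F : ℕ → Fn p s := fun n => Nat.rec F0 nx n
  have hP : ∀ n, P n (F n) := fun n => Nat.rec hF0 (fun n ih => (hnx n _ ih).1) n
  obtain ⟨G, hG⟩ := exists_lim F fun n => (hnx n _ (hP n)).2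
  exact ⟨G, fun n => ⟨F n, hP n, hG n⟩⟩

lemma van_Vf_id : ∀ (n : ℕ) {F : Fn p s}, F ∈ Van p s n →
    Vf 1 F - (n : K) • F ∈ Van p s (n + 1)
  | 0, F, _ => van_one.2 (by simp)
  | n + 1, F, h => van_succ.2 ⟨by simp [(van_succ.1 h).1], fun v => by
      have := van_Vf_id n (van_D h v)
      rw [map_sub, D_Vf_of_ev (a := 1) (fun _ => rfl), map_smul]
      convert this using 1
      simp only [Module.End.one_apply, Nat.cast_succ, add_smul, one_smul]
      abel⟩

lemma smul_inv_nat {n : ℕ} (hn : n ≠ 0) (F : Fn p s) :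
    (n : K) • (algebraMap ℚ K (n : ℚ)⁻¹) • F = F := by
  rw [smul_smul, ← map_natCast (algebraMap ℚ K), ← map_mul,
    mul_inv_cancel₀ (Nat.cast_ne_zero.2 hn), map_one, one_smul]

/-- The Euler operator plus a multiplication operator without constant term is injective on the
functions without constant term. -/
theorem euler_inj {L F : Fn p s} (hL : L.ap 1 = 0) (h1 : F.ap 1 = 0) (h : Vf 1 F + L * F = 0) :
    F = 0 := by
  refine eq_zero_of_van_succ fun n hn => ?_
  rcases Nat.eq_zero_or_pos n with rfl | hp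
  · exact van_one.2 h1
  have a := van_Vf_id n hn
  have b := van_mul (n + 1) (by omega) (van_one.2 hL) hn
  have c : (n : K) • F ∈ Van p s (n + 1) := by
    have := neg_mem (add_mem a b)
    rwa [sub_add_eq_add_sub, h, zero_sub, neg_neg] at this
  have := Submodule.smul_mem _ (algebraMap ℚ K (n : ℚ)⁻¹) c
  rwa [smul_comm, smul_inv_nat hp.ne'] at this

theorem euler_surj {L G : Fn p s} (hL : L.ap 1 = 0) (h1 : G.ap 1 = 0) :
    ∃ F : Fn p s, F.ap 1 = 0 ∧ Vf 1 F + L * F = G := by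
  have hT : ∀ n (F : Fn p s), F ∈ Van p s n → Vf 1 F + L * F - (n : K) • F ∈ Van p s (n + 1) := by
    intro n F hn
    have := add_mem (van_Vf_id n hn) (van_mul (n + 1) (by omega) (van_one.2 hL) hn)
    rwa [sub_add_eq_add_sub] at this
  obtain ⟨F, hF⟩ := exists_approx
    (fun n (F : Fn p s) => F.ap 1 = 0 ∧ G - (Vf 1 F + L * F) ∈ Van p s (n + 1))
    ⟨0, rfl, van_one.2 (by simpa using h1)⟩ (by
      rintro n F ⟨hF, hG⟩
      have hc := Submodule.smul_mem _ (algebraMap ℚ K ((n + 1 : ℕ) : ℚ)⁻¹) hG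
      refine ⟨F + _, ⟨?_, ?_⟩, by rw [add_sub_cancel_left]; exact van_anti (Nat.le_succ n) hc⟩
      · rw [add_ap, hF, van_one.1 (van_anti (by omega) hc), add_zero]
      · have := neg_mem (hT _ _ hc)
        rw [smul_inv_nat (Nat.succ_ne_zero n)] at this
        convert this using 1
        rw [map_add, mul_add]
        abel)
  refine ⟨F, ?_, ?_⟩
  · obtain ⟨F', h', h''⟩ := hF 1
    have := van_one.1 h''
    rwa [sub_ap, h'.1, sub_zero] at this
  · rw [← sub_eq_zero]
    refine eq_zero_of_van fun n => ?_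
    obtain ⟨F', h', h''⟩ := hF n
    have a := add_mem (van_anti (Nat.le_succ n) (hT _ _ h'')) (Submodule.smul_mem _ (n : K) h'')
    have := sub_mem a (van_anti (Nat.le_succ n) h'.2)
    convert this using 1
    rw [map_sub, mul_sub]
    abel

end Fn

end Vale.Agent.P269.Deg
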